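import Vale.Agent.P226.Induction

/-!
# The propeller bound from the cap certificates and the gain bound
-/

namespace Vale.Agent.P226

open MeasureTheory ProbabilityTheory Real Set Finset
open scoped RealInnerProductSpace

/-- The whole conjecture from: no critical family has many long vectors, and the short vectors of
a critical family gain little over the long ones. -/
theorem bound_of_caps_and_gain (θ : ℕ → ℕ → ℝ)
    (hcap : ∀ {k : ℕ} [NeZero k], 4 ≤ k → ∀ w : Fin k → EuclideanSpace ℝ (Fin (k - 1)), Crit w →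
      ¬ Long (θ k) w k)
    (hgain : ∀ {k m : ℕ} [NeZero k] [NeZero m], 3 ≤ m → m < k →
      ∀ w : Fin k → EuclideanSpace ℝ (Fin (k - 1)), Crit w → ∀ J : Fin m ↪ Fin k, IsTop w J →
      Long (θ k) w m → (∀ i ∈ (Finset.univ.map J)ᶜ, ‖w i‖ ^ 2 < θ k (m + 1)) →
      ∀ i ∈ (Finset.univ.map J)ᶜ,
        gain (centred w J) (w i) ≤ (1 - (m : ℝ)⁻¹) / 2 * ‖w i‖ ^ 2) :
    ∀ k, 0 < k → Bound k := by
  refine bound_of_core fun k _ hk ih w hw => ?_
  rcases exists_split (θ k) w with h | ⟨m, hm, hmk, J, hJ, hlong, hrest⟩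
  · exact hcap hk w hw h
  have : NeZero m := ⟨by omega⟩
  have hwz : (fun i => mom (cell w i)) = w := funext fun i => (hw.self i).symm
  have hc : √(9 / (8 * π)) ^ 2 = 9 / (8 * π) := Real.sq_sqrt (by positivity)
  have h := sum_sq_le_of_dust (cell_isPart w) J (ε := (1 - (m : ℝ)⁻¹) / 2)
    (Real.sqrt_nonneg (9 / (8 * π))) (le_of_eq (by ring)) (by simp only [← hw.self]; exact hw.sum)
    (by simp only [← hw.self]; exact hw.obtuse)
    (meanMax_le_of_val_le (Real.sqrt_nonneg _)
      (fun A hA => by rw [hc]; exact ih m (by omega) hmk _ A hA) _)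
    (by simp only [← hw.self]; exact hgain hm hmk w hw J hJ hlong hrest)
  simp only [← hw.self, hc] at h
  linarith [hw.big]

/-- The conjecture in elementary terms, from the bound for every number of cells. -/
theorem propeller_of_bound (h : ∀ k, 0 < k → Bound k) (d k : ℕ)
    (A : Fin k → Set (EuclideanSpace ℝ (Fin d))) (hm : ∀ i, MeasurableSet (A i))
    (hd : Pairwise fun i j => Disjoint (A i) (A j)) (hc : ⋃ i, A i = Set.univ) :
    ∑ i, ‖∫ x in A i, x ∂stdGaussian (EuclideanSpace ℝ (Fin d))‖ ^ 2 ≤ 9 / (8 * π) := by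
  rcases Nat.eq_zero_or_pos k with rfl | hk
  · rw [Finset.univ_eq_empty, Finset.sum_empty]; positivity
  · exact h k hk d A ⟨hm, hd, hc⟩

end Vale.Agent.P226
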