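import Mathlib

/-!
# The weighted graph of an obtuse family inside a chosen group

An obtuse family that sums to zero has a graph Laplacian as Gram matrix. The weights inside a
chosen group bound the determinants of the lemmas on the gain from below.
-/

namespace Vale.Agent.P226

open Finset
open scoped RealInnerProductSpace

variable {E : Type*} [NormedAddCommGroup E] [InnerProductSpace ℝ E] {k m : ℕ}

/-- The weight between two members of the group. -/
noncomputable def wt (w : Fin k → E) (J : Fin m ↪ Fin k) (a b : Fin m) : ℝ :=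
  -⟪w (J a), w (J b)⟫

/-- The degree of a member inside the group. -/
noncomputable def inDeg (w : Fin k → E) (J : Fin m ↪ Fin k) (a : Fin m) : ℝ :=
  ∑ b ∈ Finset.univ.erase a, wt w J a b

lemma wt_comm (w : Fin k → E) (J : Fin m ↪ Fin k) (a b : Fin m) : wt w J a b = wt w J b a := by
  rw [wt, wt, real_inner_comm]

lemma wt_nonneg {w : Fin k → E} (hobt : ∀ i j, i ≠ j → ⟪w i, w j⟫ ≤ 0) (J : Fin m ↪ Fin k)
    {a b : Fin m} (h : a ≠ b) : 0 ≤ wt w J a b :=
  neg_nonneg.2 (hobt _ _ (J.injective.ne h))

lemma inDeg_nonneg {w : Fin k → E} (hobt : ∀ i j, i ≠ j → ⟪w i, w j⟫ ≤ 0) (J : Fin m ↪ Fin k)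
    (a : Fin m) : 0 ≤ inDeg w J a :=
  Finset.sum_nonneg fun _ hb => wt_nonneg hobt J (Finset.ne_of_mem_erase hb).symm

end Vale.Agent.P226
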