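import Vale.Agent.P226.Facts

/-!
# Radial independence on cones

The standard Gaussian measure has density `(2π)^(-d/2) exp (-‖x‖²/2)`, so on a set invariant under
positive scalings the norm is independent of the set.
-/

namespace Vale.Agent.P226

open MeasureTheory ProbabilityTheory Real Set Module
open scoped RealInnerProductSpace NNReal ENNReal

variable {E : Type*} [NormedAddCommGroup E] [InnerProductSpace ℝ E] [FiniteDimensional ℝ E]
  [MeasurableSpace E] [BorelSpace E]

/-- The Gaussian density. -/
noncomputable def gaussDensity (x : E) : ℝ :=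
  (√(2 * π))⁻¹ ^ finrank ℝ E * exp (-‖x‖ ^ 2 / 2)

omit [FiniteDimensional ℝ E] [MeasurableSpace E] [BorelSpace E] in
lemma gaussDensity_nonneg (x : E) : 0 ≤ gaussDensity x :=
  mul_nonneg (by positivity) (exp_nonneg _)

omit [FiniteDimensional ℝ E] [MeasurableSpace E] [BorelSpace E] in
@[fun_prop]
lemma continuous_gaussDensity : Continuous (gaussDensity : E → ℝ) := by
  unfold gaussDensity; fun_prop

lemma integral_gaussDensity :
    ∫ x : E, gaussDensity x = 1 := by
  have h := GaussianFourier.integral_rexp_neg_mul_sq_norm (V := E) (b := 1 / 2) (by norm_num)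
  have e : ∀ x : E, exp (-‖x‖ ^ 2 / 2) = exp (-(1 / 2) * ‖x‖ ^ 2) := fun x => by ring_nf
  simp only [gaussDensity, e, integral_const_mul]
  rw [h, show π / (1 / 2) = 2 * π by ring, sqrt_eq_rpow, ← rpow_natCast, inv_rpow (by positivity),
    ← rpow_mul (by positivity), ← rpow_neg (by positivity), ← rpow_add (by positivity)]
  rw [show -(1 / 2 * (finrank ℝ E : ℝ)) + (finrank ℝ E : ℝ) / 2 = 0 by ring, rpow_zero]

lemma stdGaussian_eq_withDensity :
    stdGaussian E = volume.withDensity fun x : E => ENNReal.ofReal (gaussDensity x) := by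
  have hint : Integrable (gaussDensity : E → ℝ) := by
    by_contra h
    have := integral_gaussDensity (E := E)
    rw [integral_undef h] at this
    norm_num at this
  have : IsFiniteMeasure (volume.withDensity fun x : E => ENNReal.ofReal (gaussDensity x)) :=
    isFiniteMeasure_withDensity_ofReal hint.hasFiniteIntegral
  refine Measure.ext_of_charFun (funext fun t => ?_)
  rw [charFun_stdGaussian, charFun_apply,
    integral_withDensity_eq_integral_toReal_smul (by fun_prop) (ae_of_all _ fun x => by simp)]
  have h := GaussianFourier.integral_cexp_neg_mul_sq_norm_add (V := E) (b := 1 / 2)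
    (by norm_num) Complex.I t
  have hK : ((√(2 * π))⁻¹ ^ finrank ℝ E : ℂ) * ((π / (1 / 2 : ℂ)) ^ (finrank ℝ E / 2 : ℂ)) = 1 := by
    have e : (π / (1 / 2 : ℂ)) = ((2 * π : ℝ) : ℂ) := by push_cast; ring
    have e' : (finrank ℝ E / 2 : ℂ) = (((finrank ℝ E : ℝ) / 2 : ℝ) : ℂ) := by push_cast; rfl
    rw [e, e', ← Complex.ofReal_cpow (by positivity)]
    have hp : (0 : ℝ) < √(2 * π) := by positivity
    have hr : (2 * π) ^ ((finrank ℝ E : ℝ) / 2) = √(2 * π) ^ finrank ℝ E := by
      rw [sqrt_eq_rpow, ← rpow_natCast, ← rpow_mul (by positivity)]; ring_nf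
    rw [hr]
    push_cast
    rw [← mul_pow, inv_mul_cancel₀ (Complex.ofReal_ne_zero.2 hp.ne'), one_pow]
  have hpt : ∀ x : E, (ENNReal.ofReal (gaussDensity x)).toReal • Complex.exp (⟪x, t⟫ * Complex.I) =
      ((√(2 * π))⁻¹ ^ finrank ℝ E : ℂ) *
        Complex.exp (-(1 / 2 : ℂ) * ‖x‖ ^ 2 + Complex.I * ⟪t, x⟫) := fun x => by
    rw [ENNReal.toReal_ofReal (gaussDensity_nonneg x), Complex.real_smul, gaussDensity]
    push_cast
    rw [mul_assoc, ← Complex.exp_add, real_inner_comm]
    congr 2
    ring
  simp only [hpt, integral_const_mul]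
  rw [h, ← mul_assoc, hK, one_mul, Complex.I_sq]
  congr 1
  ring

/-- A set invariant under positive scalings. -/
def IsCone (A : Set E) : Prop := ∀ c : ℝ, 0 < c → ∀ x, (c • x ∈ A ↔ x ∈ A)

/-- The mean norm. -/
noncomputable def meanNorm (E : Type*) [NormedAddCommGroup E] [InnerProductSpace ℝ E]
    [FiniteDimensional ℝ E] [MeasurableSpace E] [BorelSpace E] : ℝ :=
  ∫ x : E, ‖x‖ ∂stdGaussian E

/-- A radial function integrates over a cone proportionally to the measure of the cone. -/
lemma IsCone.integral_radial [Nontrivial E] {A : Set E} (hA : IsCone A) (hm : MeasurableSet A)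
    (f : ℝ → ℝ) :
    ∫ x in A, f ‖x‖ ∂stdGaussian E =
      (stdGaussian E).real A * ∫ x, f ‖x‖ ∂stdGaussian E := by
  set n := finrank ℝ E - 1
  set S : Set (Metric.sphere (0 : E) 1) := Subtype.val ⁻¹' A with hS
  have key : ∀ g : ℝ → ℝ, ∫ x in A, g ‖x‖ =
      (volume : Measure E).toSphere.real S * ∫ r, g r.1 ∂Measure.volumeIoiPow n := by
    intro g
    rw [← integral_indicator hm]
    calc ∫ x, A.indicator (fun x => g ‖x‖) x
        = ∫ x : ({(0 : E)}ᶜ : Set E), A.indicator (fun x => g ‖x‖) x.1
            ∂((volume : Measure E).comap (↑)) := by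
          rw [integral_subtype_comap (measurableSet_singleton _).compl
            fun x => A.indicator (fun x => g ‖x‖) x, restrict_compl_singleton]
      _ = ∫ p : Metric.sphere (0 : E) 1 × Ioi (0 : ℝ), S.indicator (fun _ => (1 : ℝ)) p.1 * g p.2.1
            ∂(volume : Measure E).toSphere.prod (Measure.volumeIoiPow n) := by
          rw [← (volume : Measure E).measurePreserving_homeomorphUnitSphereProd.integral_comp
            (Homeomorph.measurableEmbedding _)]
          refine integral_congr_ae (ae_of_all _ fun x => ?_)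
          have hx : 0 < ‖x.1‖ := norm_pos_iff.2 x.2
          simp only [homeomorphUnitSphereProd_apply_snd_coe]
          by_cases h : x.1 ∈ A
          · rw [Set.indicator_of_mem h, Set.indicator_of_mem, one_mul]
            simpa [hS] using (hA _ (inv_pos.2 hx) x.1).2 h
          · rw [Set.indicator_of_notMem h, Set.indicator_of_notMem, zero_mul]
            simpa [hS] using fun hh => h ((hA _ (inv_pos.2 hx) x.1).1 hh)
      _ = _ := by
          rw [integral_prod_mul (μ := (volume : Measure E).toSphere) (ν := Measure.volumeIoiPow n)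
            (S.indicator fun _ => (1 : ℝ)) (fun r : Ioi (0 : ℝ) => g r.1),
            integral_indicator_const _ (measurable_subtype_coe hm)]
          simp [hS]
  have hd : ∀ B : Set E, MeasurableSet B → ∀ g : E → ℝ,
      ∫ x in B, g x ∂stdGaussian E = ∫ x in B, gaussDensity x * g x := by
    intro B hB g
    rw [stdGaussian_eq_withDensity, setIntegral_withDensity_eq_setIntegral_toReal_smul
      (by fun_prop) (ae_of_all _ fun x => by simp) _ hB]
    simp [ENNReal.toReal_ofReal (gaussDensity_nonneg _)]
  set ρ : ℝ → ℝ := fun r => (√(2 * π))⁻¹ ^ finrank ℝ E * exp (-r ^ 2 / 2)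
  have h1 : (stdGaussian E).real A =
      (volume : Measure E).toSphere.real S * ∫ r, ρ r.1 ∂Measure.volumeIoiPow n := by
    rw [← key ρ, ← mul_one ((stdGaussian E).real A), ← smul_eq_mul, ← setIntegral_const, hd A hm]
    exact setIntegral_congr_fun hm fun x _ => mul_one _
  have h2 : ∫ x in A, f ‖x‖ ∂stdGaussian E = (volume : Measure E).toSphere.real S *
      ∫ r, ρ r.1 * f r.1 ∂Measure.volumeIoiPow n := by
    rw [hd A hm, ← key fun r => ρ r * f r]
    rfl
  have huniv : ∀ g : ℝ → ℝ, ∫ x : E, g ‖x‖ = (volume : Measure E).toSphere.real Set.univ *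
      ∫ r, g r.1 ∂Measure.volumeIoiPow n := fun g => by
    rw [← smul_eq_mul, ← integral_fun_snd (fun r : Ioi (0 : ℝ) => g r.1)]
    calc ∫ x, g ‖x‖ = ∫ x : ({(0 : E)}ᶜ : Set E), g ‖x.1‖
            ∂((volume : Measure E).comap (↑)) := by
          rw [integral_subtype_comap (measurableSet_singleton _).compl fun x => g ‖x‖,
            restrict_compl_singleton]
      _ = _ := by
          simpa using (volume : Measure E).measurePreserving_homeomorphUnitSphereProd.integral_comp
            (Homeomorph.measurableEmbedding _) (g ∘ Subtype.val ∘ Prod.snd)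
  have h3 : ∫ x, f ‖x‖ ∂stdGaussian E = (volume : Measure E).toSphere.real Set.univ *
      ∫ r, ρ r.1 * f r.1 ∂Measure.volumeIoiPow n := by
    rw [← setIntegral_univ, hd _ MeasurableSet.univ, setIntegral_univ, ← huniv fun r => ρ r * f r]
    rfl
  have h4 : (volume : Measure E).toSphere.real Set.univ * ∫ r, ρ r.1 ∂Measure.volumeIoiPow n = 1 := by
    rw [← huniv, ← integral_gaussDensity (E := E)]
    rfl
  rw [h1, h2, h3]
  linear_combination -(volume : Measure E).toSphere.real S *
    (∫ r, ρ r.1 * f r.1 ∂Measure.volumeIoiPow n) * h4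

/-- On a cone the norm integrates to the mean norm times the measure. -/
lemma IsCone.integral_norm [Nontrivial E] {A : Set E} (hA : IsCone A) (hm : MeasurableSet A) :
    ∫ x in A, ‖x‖ ∂stdGaussian E = (stdGaussian E).real A * meanNorm E :=
  hA.integral_radial hm id

end Vale.Agent.P226
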