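import Vale.Agent.P226.ThreeCell

/-!
# The gain over three vectors of a plane, in closed form

For vectors `W a` in the plane of orthonormal `e₁, e₂` and `v = p₁ e₁ + p₂ e₂ + q e₃` the gain is an
integral over one angle of `q + p (π / 2 + arctan (p / q))`, with `p` the difference at that angle
between the form of the planar part of `v` and the largest form of the `W a`.
-/

namespace Vale.Agent.P226

open MeasureTheory ProbabilityTheory Real Set Finset
open scoped RealInnerProductSpace NNReal ENNReal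

variable {E : Type*} [NormedAddCommGroup E] [InnerProductSpace ℝ E] [FiniteDimensional ℝ E]
  [MeasurableSpace E] [BorelSpace E]

/-- The gain along one direction of the plane. -/
noncomputable def psi (p q : ℝ) : ℝ :=
  if q = 0 then π * max p 0 else q + p * (π / 2 + arctan (p / q))

/-- The largest of three planar forms at an angle. -/
noncomputable def hmax (A B : Fin 3 → ℝ) (θ : ℝ) : ℝ :=
  Finset.univ.sup' univ_nonempty fun a => A a * cos θ + B a * sin θ

/-- Three orthonormal coordinates are independent standard Gaussians. -/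
lemma map_coords (e₁ e₂ e₃ : E) (h₁ : ‖e₁‖ = 1) (h₂ : ‖e₂‖ = 1) (h₃ : ‖e₃‖ = 1)
    (h12 : ⟪e₁, e₂⟫ = 0) (h13 : ⟪e₁, e₃⟫ = 0) (h23 : ⟪e₂, e₃⟫ = 0) :
    (stdGaussian E).map (((innerSL ℝ e₁).prod (innerSL ℝ e₂)).prod (innerSL ℝ e₃)) =
      ((gaussianReal 0 1).prod (gaussianReal 0 1)).prod (gaussianReal 0 1) := by
  apply Measure.ext_of_charFunDual
  ext L
  rw [charFunDual_map, charFunDual_stdGaussian, charFunDual_prod, charFunDual_prod,
    IsGaussian.charFunDual_eq, IsGaussian.charFunDual_eq, IsGaussian.charFunDual_eq,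
    ← Complex.exp_add, ← Complex.exp_add]
  simp only [integral_complex_ofReal, integral_continuousLinearMap_gaussianReal,
    variance_continuousLinearMap_gaussianReal]
  simp only [map_zero, Complex.ofReal_zero, zero_mul, zero_sub, ContinuousLinearMap.comp_apply,
    ContinuousLinearMap.inl_apply, ContinuousLinearMap.inr_apply, NNReal.coe_one, mul_one, Prod.zero_eq_mk,
    Real.coe_toNNReal _ (sq_nonneg _)]
  set a := L ((1, 0), 0) with ha
  set b := L ((0, 1), 0) with hb
  set c := L ((0, 0), 1) with hc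
  have hL : L.comp (((innerSL ℝ e₁).prod (innerSL ℝ e₂)).prod (innerSL ℝ e₃)) =
      innerSL ℝ (a • e₁ + b • e₂ + c • e₃) := by
    ext x
    have hy : ((⟪e₁, x⟫, ⟪e₂, x⟫), ⟪e₃, x⟫) = ⟪e₁, x⟫ • (((1 : ℝ), (0 : ℝ)), (0 : ℝ)) +
        ⟪e₂, x⟫ • (((0 : ℝ), (1 : ℝ)), (0 : ℝ)) + ⟪e₃, x⟫ • (((0 : ℝ), (0 : ℝ)), (1 : ℝ)) := by
      simp
    simp only [ContinuousLinearMap.comp_apply, ContinuousLinearMap.prod_apply, innerSL_apply_apply,
      inner_add_left, real_inner_smul_left]
    rw [hy, map_add, map_add, map_smul, map_smul, map_smul, ha, hb, hc, smul_eq_mul, smul_eq_mul,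
      smul_eq_mul]
    ring
  have hn : ‖a • e₁ + b • e₂ + c • e₃‖ ^ 2 = a ^ 2 + b ^ 2 + c ^ 2 := by
    simp only [norm_add_sq_real, inner_add_left, real_inner_smul_left, real_inner_smul_right,
      norm_smul, Real.norm_eq_abs, sq_abs, h₁, h₂, h₃, h12, h13, h23, mul_zero, add_zero,
      mul_one]
  rw [hL, innerSL_apply_norm]
  congr 1
  have hn' : ((‖a • e₁ + b • e₂ + c • e₃‖ : ℝ) : ℂ) ^ 2 = ((a ^ 2 + b ^ 2 + c ^ 2 : ℝ) : ℂ) := by
    rw [← Complex.ofReal_pow, hn]
  rw [hn']
  push_cast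
  ring

/-- The radial integral. -/
lemma lintegral_cube_exp :
    ∫⁻ r in Ioi (0 : ℝ), ENNReal.ofReal (r ^ 3 * exp (-r ^ 2 / 2)) = ENNReal.ofReal 2 := by
  have h := integral_rpow_mul_exp_neg_mul_rpow (p := 2) (q := 3) (b := 1 / 2) (by norm_num)
    (by norm_num) (by norm_num)
  have he : ∀ r : ℝ, r ^ (3 : ℝ) * exp (-(1 / 2) * r ^ (2 : ℝ)) = r ^ 3 * exp (-r ^ 2 / 2) := by
    intro r
    rw [show (3 : ℝ) = ((3 : ℕ) : ℝ) by norm_num, show (2 : ℝ) = ((2 : ℕ) : ℝ) by norm_num,
      rpow_natCast, rpow_natCast]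
    congr 2
    push_cast
    ring
  simp only [he] at h
  have hG : ((1 : ℝ) / 2) ^ (-((3 : ℝ) + 1) / 2) * (1 / 2) * Gamma (((3 : ℝ) + 1) / 2) = 2 := by
    rw [show ((3 : ℝ) + 1) / 2 = 2 by norm_num, Real.Gamma_two,
      show -((3 : ℝ) + 1) / 2 = -((2 : ℕ) : ℝ) by norm_num, rpow_neg (by norm_num), rpow_natCast]
    norm_num
  rw [hG] at h
  have hint : IntegrableOn (fun r : ℝ => r ^ 3 * exp (-r ^ 2 / 2)) (Ioi 0) := by
    by_contra hh
    rw [integral_undef hh] at h
    norm_num at h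
  rw [← ofReal_integral_eq_lintegral_ofReal hint, h]
  exact (ae_restrict_mem measurableSet_Ioi).mono fun r hr => mul_nonneg (pow_nonneg (le_of_lt hr) 3)
    (exp_nonneg _)

/-- The angular integral of the half plane. -/
lemma integral_half_angle (p q : ℝ) (hq : 0 ≤ q) :
    2 * ∫ φ in (-(π / 2))..(π / 2), cos φ * max (p * cos φ + q * sin φ) 0 = psi p q := by
  have hcos : ∀ φ ∈ Icc (-(π / 2)) (π / 2), 0 ≤ cos φ := fun φ hφ => cos_nonneg_of_mem_Icc hφ
  have hpi := Real.pi_pos
  rcases hq.eq_or_lt with rfl | hq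
  · have h : ∀ φ ∈ Set.uIcc (-(π / 2)) (π / 2),
        cos φ * max (p * cos φ + 0 * sin φ) 0 = max p 0 * cos φ ^ 2 := by
      intro φ hφ
      rw [Set.uIcc_of_le (by linarith)] at hφ
      rw [zero_mul, add_zero]
      rcases le_total p 0 with hp | hp
      · rw [max_eq_right (mul_nonpos_of_nonpos_of_nonneg hp (hcos φ hφ)), max_eq_right hp]; ring
      · rw [max_eq_left (mul_nonneg hp (hcos φ hφ)), max_eq_left hp]; ring
    rw [intervalIntegral.integral_congr h, intervalIntegral.integral_const_mul, integral_cos_sq,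
      psi, if_pos rfl, cos_pi_div_two, cos_neg, cos_pi_div_two]
    ring
  set A := arctan (p / q) with hA
  have hA1 : -(π / 2) < -A := by linarith [arctan_lt_pi_div_two (p / q)]
  have hA2 : -A < π / 2 := by linarith [neg_pi_div_two_lt_arctan (p / q)]
  have hsign : ∀ φ ∈ Ioo (-(π / 2)) (π / 2),
      (φ ≤ -A → p * cos φ + q * sin φ ≤ 0) ∧ (-A ≤ φ → 0 ≤ p * cos φ + q * sin φ) := by
    intro φ hφ
    have hc := cos_pos_of_mem_Ioo hφ
    have he : p * cos φ + q * sin φ = q * cos φ * (p / q + tan φ) := by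
      rw [tan_eq_sin_div_cos]; field_simp
    have hT : tan (-A) = -(p / q) := by rw [tan_neg, hA, tan_arctan]
    have hmA : -A ∈ Ioo (-(π / 2)) (π / 2) := ⟨hA1, hA2⟩
    have hqc : 0 < q * cos φ := mul_pos hq hc
    constructor <;> intro hh
    · have := strictMonoOn_tan.monotoneOn hφ hmA hh
      rw [he]; exact mul_nonpos_of_nonneg_of_nonpos hqc.le (by linarith)
    · have := strictMonoOn_tan.monotoneOn hmA hφ hh
      rw [he]; exact mul_nonneg hqc.le (by linarith)
  have hcont : Continuous fun φ => cos φ * max (p * cos φ + q * sin φ) 0 := by fun_prop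
  rw [← intervalIntegral.integral_add_adjacent_intervals (b := -A) (hcont.intervalIntegrable _ _)
    (hcont.intervalIntegrable _ _)]
  have h1 : ∫ φ in (-(π / 2))..(-A), cos φ * max (p * cos φ + q * sin φ) 0 = 0 := by
    rw [intervalIntegral.integral_congr (g := fun _ => (0 : ℝ)), intervalIntegral.integral_zero]
    intro φ hφ
    rw [Set.uIcc_of_le hA1.le] at hφ
    rcases hφ.1.eq_or_lt with h | h
    · simp [← h]
    · simp [max_eq_right ((hsign φ ⟨h, by linarith [hφ.2]⟩).1 hφ.2)]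
  have h2 : ∫ φ in (-A)..(π / 2), cos φ * max (p * cos φ + q * sin φ) 0 =
      ∫ φ in (-A)..(π / 2), cos φ * (p * cos φ + q * sin φ) := by
    refine intervalIntegral.integral_congr fun φ hφ => ?_
    rw [Set.uIcc_of_le hA2.le] at hφ
    rcases hφ.2.eq_or_lt with h | h
    · simp [h]
    · simp [max_eq_left ((hsign φ ⟨by linarith [hφ.1], h⟩).2 hφ.1)]
  have h3 : ∫ φ in (-A)..(π / 2), cos φ * (p * cos φ + q * sin φ) =
      (p * ((π / 2 + sin (π / 2) * cos (π / 2)) / 2) + q * (sin (π / 2) ^ 2 / 2)) -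
        (p * ((-A + sin (-A) * cos (-A)) / 2) + q * (sin (-A) ^ 2 / 2)) := by
    refine intervalIntegral.integral_eq_sub_of_hasDerivAt
      (f := fun φ => p * ((φ + sin φ * cos φ) / 2) + q * (sin φ ^ 2 / 2)) (fun φ _ => ?_)
      ((by fun_prop : Continuous _).intervalIntegrable _ _)
    have hd := ((((hasDerivAt_id φ).add ((hasDerivAt_sin φ).mul (hasDerivAt_cos φ))).div_const
      2).const_mul p).add ((((hasDerivAt_sin φ).pow 2).div_const 2).const_mul q)
    refine hd.congr_deriv ?_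
    have := sin_sq_add_cos_sq φ
    push_cast
    linear_combination (-(p / 2)) * this
  rw [h1, h2, h3, zero_add, sin_pi_div_two, cos_pi_div_two, sin_neg, cos_neg, psi, if_neg hq.ne',
    ← hA]
  have hrel : p * cos A = q * sin A := by
    have h := tan_arctan (p / q)
    rw [← hA, tan_eq_sin_div_cos, div_eq_div_iff (cos_arctan_pos _).ne' hq.ne'] at h
    linarith
  have := sin_sq_add_cos_sq A
  linear_combination sin A * hrel + (q * 0) * this

/-- The double integral over the half plane at a fixed angle. -/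
lemma lintegral_half_plane (p q : ℝ) (hq : 0 ≤ q) :
    ∫⁻ z : ℝ × ℝ in Ioi (0 : ℝ) ×ˢ (Set.univ : Set ℝ),
      ENNReal.ofReal (z.1 * exp (-(z.1 ^ 2 + z.2 ^ 2) / 2) * max (z.1 * p + q * z.2) 0) =
      ENNReal.ofReal (psi p q) := by
  have hpi := Real.pi_pos
  rw [← lintegral_indicator (measurableSet_Ioi.prod MeasurableSet.univ),
    ← lintegral_comp_polarCoord_symm, polarCoord_target, Measure.volume_eq_prod,
    ← Measure.prod_restrict]
  set Fφ : ℝ → ℝ≥0∞ := (Ioo (-(π / 2)) (π / 2)).indicator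
    (fun φ => ENNReal.ofReal (cos φ * max (p * cos φ + q * sin φ) 0)) with hFφ
  have hFm : Measurable Fφ := Measurable.indicator (by fun_prop) measurableSet_Ioo
  have hcongr : ∀ᵐ z ∂((volume.restrict (Ioi (0 : ℝ))).prod (volume.restrict (Ioo (-π) π))),
      ENNReal.ofReal z.1 • (Ioi (0 : ℝ) ×ˢ (Set.univ : Set ℝ)).indicator
        (fun z : ℝ × ℝ => ENNReal.ofReal
          (z.1 * exp (-(z.1 ^ 2 + z.2 ^ 2) / 2) * max (z.1 * p + q * z.2) 0))
        (polarCoord.symm z) = ENNReal.ofReal (z.1 ^ 3 * exp (-z.1 ^ 2 / 2)) * Fφ z.2 := by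
    rw [Measure.prod_restrict]
    refine (ae_restrict_mem (measurableSet_Ioi.prod measurableSet_Ioo)).mono fun z hz => ?_
    obtain ⟨hr, hφ⟩ := hz
    simp only [Set.mem_Ioi] at hr
    rw [polarCoord_symm_apply, smul_eq_mul]
    by_cases hc : 0 < cos z.2
    · have hφ' : z.2 ∈ Ioo (-(π / 2)) (π / 2) := by
        by_contra hh
        rw [Set.mem_Ioo, not_and_or, not_lt, not_lt] at hh
        rcases hh with hh | hh
        · have := cos_nonpos_of_pi_div_two_le_of_le (x := -z.2) (by linarith) (by linarith [hφ.1])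
          rw [cos_neg] at this
          linarith
        · linarith [cos_nonpos_of_pi_div_two_le_of_le hh (by linarith [hφ.2])]
      rw [Set.indicator_of_mem (by exact ⟨mul_pos hr hc, Set.mem_univ _⟩), hFφ,
        Set.indicator_of_mem hφ', ← ENNReal.ofReal_mul hr.le, ← ENNReal.ofReal_mul (by positivity)]
      congr 1
      simp only []
      have hm : max (z.1 * cos z.2 * p + q * (z.1 * sin z.2)) 0 =
          z.1 * max (p * cos z.2 + q * sin z.2) 0 := by
        rw [mul_max_of_nonneg _ _ hr.le, mul_zero]; congr 1; ring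
      rw [hm, show (z.1 * cos z.2) ^ 2 + (z.1 * sin z.2) ^ 2 = z.1 ^ 2 from by
        linear_combination z.1 ^ 2 * sin_sq_add_cos_sq z.2]
      ring
    · have hφ' : z.2 ∉ Ioo (-(π / 2)) (π / 2) := fun h => hc (cos_pos_of_mem_Ioo h)
      rw [Set.indicator_of_notMem (fun h => hc (pos_of_mul_pos_right h.1 hr.le)), hFφ,
        Set.indicator_of_notMem hφ', mul_zero, mul_zero]
  rw [lintegral_congr_ae hcongr,
    lintegral_prod_mul (f := fun r : ℝ => ENNReal.ofReal (r ^ 3 * exp (-r ^ 2 / 2))) (g := Fφ)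
      (by fun_prop) hFm.aemeasurable,
    lintegral_cube_exp, hFφ, lintegral_indicator measurableSet_Ioo,
    Measure.restrict_restrict measurableSet_Ioo, Set.inter_eq_left.2
      (Set.Ioo_subset_Ioo (by linarith) (by linarith)),
    ← ofReal_integral_eq_lintegral_ofReal, ← ENNReal.ofReal_mul (by norm_num),
    ← integral_half_angle p q hq, intervalIntegral.integral_of_le (by linarith),
    integral_Ioc_eq_integral_Ioo]
  · exact (Continuous.integrableOn_Icc (by fun_prop)).mono_set Set.Ioo_subset_Icc_self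
  · exact (ae_restrict_mem measurableSet_Ioo).mono fun φ hφ =>
      mul_nonneg (cos_pos_of_mem_Ioo hφ).le (le_max_right _ _)

lemma psi_nonneg (p : ℝ) {q : ℝ} (hq : 0 ≤ q) : 0 ≤ psi p q := by
  rw [← integral_half_angle p q hq]
  exact mul_nonneg zero_le_two (intervalIntegral.integral_nonneg (by linarith [Real.pi_pos])
    fun φ hφ => mul_nonneg (cos_nonneg_of_mem_Icc hφ) (le_max_right _ _))

/-- The gain of `p₁ e₁ + p₂ e₂ + q e₃` over three vectors of the plane of `e₁, e₂`. -/
theorem gain_eq (e₁ e₂ e₃ : E) (h₁ : ‖e₁‖ = 1) (h₂ : ‖e₂‖ = 1) (h₃ : ‖e₃‖ = 1)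
    (h12 : ⟪e₁, e₂⟫ = 0) (h13 : ⟪e₁, e₃⟫ = 0) (h23 : ⟪e₂, e₃⟫ = 0)
    (W : Fin 3 → E) (A B : Fin 3 → ℝ) (hW : ∀ a, W a = A a • e₁ + B a • e₂)
    (p₁ p₂ q : ℝ) (hq : 0 ≤ q) :
    gain W (p₁ • e₁ + p₂ • e₂ + q • e₃) =
      (√(2 * π))⁻¹ ^ 3 *
        (∫⁻ θ in Ioo (-π) π,
          ENNReal.ofReal (psi (p₁ * cos θ + p₂ * sin θ - hmax A B θ) q)).toReal := by
  set M : ℝ × ℝ → ℝ := fun y => Finset.univ.sup' univ_nonempty fun a => A a * y.1 + B a * y.2
    with hM
  have hMm : Continuous M := Continuous.finset_sup'_apply univ_nonempty fun a _ => by fun_prop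
  set G : (ℝ × ℝ) × ℝ → ℝ :=
    fun z => max (p₁ * z.1.1 + p₂ * z.1.2 + q * z.2 - M z.1) 0 with hG
  have hGc : Continuous G := by rw [hG]; fun_prop
  set S := ((innerSL ℝ e₁).prod (innerSL ℝ e₂)).prod (innerSL ℝ e₃) with hS
  have hpoint : ∀ x : E, max (⟪p₁ • e₁ + p₂ • e₂ + q • e₃, x⟫ - supInner W x) 0 = G (S x) := by
    intro x
    simp only [hG, hS, hM, supInner, ContinuousLinearMap.prod_apply, innerSL_apply_apply,
      inner_add_left, real_inner_smul_left, hW]
  have hlaw := map_coords e₁ e₂ e₃ h₁ h₂ h₃ h12 h13 h23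
  rw [gain, integral_congr_ae (ae_of_all _ hpoint), ← integral_map S.continuous.aemeasurable
    hGc.aestronglyMeasurable, hlaw, integral_eq_lintegral_of_nonneg_ae
      (f := G) (ae_of_all _ fun z => by simp only [hG]; exact le_max_right _ _)
      hGc.aestronglyMeasurable]
  set κ : ℝ := (√(2 * π))⁻¹ with hκ
  have hκ0 : 0 ≤ κ := by positivity
  have hg : gaussianReal 0 1 = volume.withDensity (gaussianPDF 0 1) :=
    gaussianReal_of_var_ne_zero 0 one_ne_zero
  have hpdf : ∀ t : ℝ, gaussianPDFReal 0 1 t = κ * exp (-t ^ 2 / 2) := by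
    intro t
    simp only [gaussianPDFReal, NNReal.coe_one, mul_one, sub_zero, hκ]
  have hmain : ∫⁻ z, ENNReal.ofReal (G z)
      ∂((gaussianReal 0 1).prod (gaussianReal 0 1)).prod (gaussianReal 0 1) =
      ENNReal.ofReal (κ ^ 3) * ∫⁻ θ in Ioo (-π) π,
          ENNReal.ofReal (psi (p₁ * cos θ + p₂ * sin θ - hmax A B θ) q) := by
    rw [hg, prod_withDensity (by fun_prop) (by fun_prop),
      prod_withDensity (by fun_prop) (by fun_prop),
      lintegral_withDensity_eq_lintegral_mul _ (by fun_prop) (by fun_prop),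
      lintegral_prod_symm _ (by fun_prop)]
    set H : (ℝ × ℝ) → ℝ → ℝ≥0∞ := fun w s => ENNReal.ofReal
      (w.1 * exp (-(w.1 ^ 2 + s ^ 2) / 2) *
        max (w.1 * (p₁ * cos w.2 + p₂ * sin w.2 - hmax A B w.2) + q * s) 0) with hH
    have hHc : Continuous (hmax A B) :=
      Continuous.finset_sup'_apply univ_nonempty fun a _ => by fun_prop
    have hHm : Measurable (Function.uncurry H) := by rw [hH]; unfold Function.uncurry; fun_prop
    have hinner : ∀ s : ℝ, ∫⁻ y : ℝ × ℝ, ((fun z : (ℝ × ℝ) × ℝ =>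
          gaussianPDF 0 1 z.1.1 * gaussianPDF 0 1 z.1.2 * gaussianPDF 0 1 z.2) *
          fun z => ENNReal.ofReal (G z)) (y, s) ∂(volume : Measure ℝ).prod volume =
        ∫⁻ w in Ioi (0 : ℝ) ×ˢ Ioo (-π) π, ENNReal.ofReal (κ ^ 3) * H w s
          ∂(volume : Measure ℝ).prod volume := by
      intro s
      rw [← Measure.volume_eq_prod, ← lintegral_comp_polarCoord_symm, polarCoord_target]
      refine setLIntegral_congr_fun (measurableSet_Ioi.prod measurableSet_Ioo) fun w hw => ?_
      have hr : (0 : ℝ) < w.1 := hw.1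
      rw [polarCoord_symm_apply, Pi.mul_apply, smul_eq_mul, gaussianPDF_def]
      simp only [hpdf, hH, hG, hM]
      rw [← ENNReal.ofReal_mul (by positivity), ← ENNReal.ofReal_mul (by positivity),
        ← ENNReal.ofReal_mul (by positivity), ← ENNReal.ofReal_mul hr.le,
        ← ENNReal.ofReal_mul (pow_nonneg hκ0 3)]
      congr 1
      have hsup : (Finset.univ.sup' univ_nonempty fun a => A a * (w.1 * cos w.2) + B a * (w.1 * sin w.2))
          = w.1 * hmax A B w.2 := by
        rw [hmax, Finset.mul₀_sup' hr.le _ _ univ_nonempty]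
        exact Finset.sup'_congr univ_nonempty rfl fun a _ => by ring
      rw [hsup]
      have he : exp (-(w.1 * cos w.2) ^ 2 / 2) * exp (-(w.1 * sin w.2) ^ 2 / 2) * exp (-s ^ 2 / 2) =
          exp (-(w.1 ^ 2 + s ^ 2) / 2) := by
        rw [← exp_add, ← exp_add]
        congr 1
        linear_combination (-(w.1 ^ 2) / 2) * sin_sq_add_cos_sq w.2
      rw [← he, show p₁ * (w.1 * cos w.2) + p₂ * (w.1 * sin w.2) + q * s - w.1 * hmax A B w.2 =
        w.1 * (p₁ * cos w.2 + p₂ * sin w.2 - hmax A B w.2) + q * s by ring]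
      ring
    rw [lintegral_congr hinner, lintegral_lintegral_swap (by
        exact ((hHm.comp measurable_swap).const_mul _).aemeasurable),
      ← Measure.prod_restrict, lintegral_prod_symm _ (by
        exact (Measurable.lintegral_prod_right (hHm.const_mul _)).aemeasurable),
      ← lintegral_const_mul' _ _ ENNReal.ofReal_ne_top]
    refine lintegral_congr fun θ => ?_
    have hθm : Measurable (fun z : ℝ × ℝ => ENNReal.ofReal (z.1 * exp (-(z.1 ^ 2 + z.2 ^ 2) / 2) *
        max (z.1 * (p₁ * cos θ + p₂ * sin θ - hmax A B θ) + q * z.2) 0)) := by fun_prop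
    rw [← lintegral_half_plane _ q hq, Measure.volume_eq_prod,
      ← Measure.prod_restrict, Measure.restrict_univ, lintegral_prod _ hθm.aemeasurable,
      ← lintegral_const_mul' _ _ ENNReal.ofReal_ne_top]
    exact lintegral_congr fun r => lintegral_const_mul' _ _ ENNReal.ofReal_ne_top
  rw [hmain, ENNReal.toReal_mul, ENNReal.toReal_ofReal (by positivity)]

end Vale.Agent.P226
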