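import Mathlib

/-!
# The volume of a simplex
-/

namespace Vale.Agent.P226

open MeasureTheory Set Finset
open scoped Nat

/-- The simplex of size `R`. -/
def simplexSet (n : ℕ) (R : ℝ) : Set (Fin n → ℝ) := {u | (∀ i, 0 ≤ u i) ∧ ∑ i, u i ≤ R}

lemma measurableSet_simplexSet (n : ℕ) (R : ℝ) : MeasurableSet (simplexSet n R) :=
  ((isClosed_iInter fun i => isClosed_le continuous_const (continuous_apply i)).inter
    (isClosed_le (continuous_finsetSum _ fun i _ => continuous_apply i) continuous_const)
    |>.measurableSet) |> fun h => by simpa [simplexSet, Set.ofPred_and, Set.ofPred_forall] using h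

lemma volume_simplexSet_le (n : ℕ) : ∀ R : ℝ, 0 ≤ R →
    volume (simplexSet n R) ≤ ENNReal.ofReal (R ^ n / n !) := by
  induction n with
  | zero =>
    intro R _
    simp only [pow_zero, Nat.factorial_zero, Nat.cast_one, div_one, ENNReal.ofReal_one]
    refine (measure_mono (subset_univ _)).trans_eq ?_
    simp [volume_pi]
  | succ n ih =>
    intro R hR
    have e := volume_preserving_piFinSuccAbove (fun _ : Fin (n + 1) => ℝ) 0
    set T : Set (ℝ × (Fin n → ℝ)) :=
      {p | (0 ≤ p.1 ∧ p.1 ≤ R) ∧ p.2 ∈ simplexSet n (R - p.1)} with hT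
    have hTm : MeasurableSet T := by
      have : T = {p | 0 ≤ p.1} ∩ {p | p.1 ≤ R} ∩ ((⋂ i, {p | 0 ≤ p.2 i}) ∩
          {p | ∑ i, p.2 i ≤ R - p.1}) := by
        ext p; simp [hT, simplexSet]
      rw [this]
      exact ((measurableSet_le (by fun_prop) (by fun_prop)).inter
        (measurableSet_le (by fun_prop) (by fun_prop))).inter
        ((MeasurableSet.iInter fun i => measurableSet_le (by fun_prop) (by fun_prop)).inter
          (measurableSet_le (by fun_prop) (by fun_prop)))
    have hsub : simplexSet (n + 1) R ⊆
        (MeasurableEquiv.piFinSuccAbove (fun _ => ℝ) 0) ⁻¹' T := by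
      intro u hu
      obtain ⟨hp, hs⟩ := hu
      rw [Fin.sum_univ_succ] at hs
      have h0 : 0 ≤ ∑ i : Fin n, u i.succ := Finset.sum_nonneg fun i _ => hp _
      simp only [Set.mem_preimage, MeasurableEquiv.piFinSuccAbove_apply, hT, simplexSet,
        Set.mem_ofPred_eq, Fin.insertNthEquiv_symm_apply, Fin.removeNth, Fin.zero_succAbove]
      exact ⟨⟨hp 0, by linarith⟩, fun i => hp _, by linarith⟩
    refine (measure_mono hsub).trans ?_
    rw [e.measure_preimage hTm.nullMeasurableSet, Measure.volume_eq_prod, Measure.prod_apply hTm]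
    refine (lintegral_mono (g := (Icc 0 R).indicator
      fun x => ENNReal.ofReal ((R - x) ^ n / n !)) fun x => ?_).trans_eq ?_
    · by_cases hx : x ∈ Icc 0 R
      · rw [Set.indicator_of_mem hx]
        refine le_trans (measure_mono fun u hu => ?_) (ih _ (by linarith [hx.2]))
        exact hu.2
      · rw [Set.indicator_of_notMem hx]
        exact le_of_eq (measure_mono_null (fun u hu => absurd hu.1 hx) measure_empty)
    rw [lintegral_indicator measurableSet_Icc, ← ofReal_integral_eq_lintegral_ofReal]
    · congr 1
      rw [integral_Icc_eq_integral_Ioc, ← intervalIntegral.integral_of_le hR,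
        intervalIntegral.integral_eq_sub_of_hasDerivAt
          (f := fun x => -(R - x) ^ (n + 1) / (n + 1) !) (fun x _ => ?_)
          ((by fun_prop : Continuous _).intervalIntegrable _ _)]
      · simp [zero_pow]
        ring
      · refine ((((hasDerivAt_id x).const_sub R).pow (n + 1)).neg.div_const _).congr_deriv ?_
        rw [Nat.factorial_succ]
        simp only [id, Nat.add_sub_cancel, Nat.cast_mul, Nat.cast_add, Nat.cast_one]
        have : (n ! : ℝ) ≠ 0 := by exact_mod_cast n.factorial_ne_zero
        field_simp
    · exact (Continuous.integrableOn_Icc (by fun_prop))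
    · exact (ae_restrict_mem measurableSet_Icc).mono fun x hx =>
        div_nonneg (pow_nonneg (by linarith [hx.2]) _) (Nat.cast_nonneg _)

end Vale.Agent.P226
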