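import Vale.Agent.P226.ThreeCell
import Vale.Agent.P226.Cone
import Vale.Agent.P226.Simplex
import Vale.Agent.P226.PlanarGain

/-!
# A short vector gains little over centred vectors

Where `⟪v, x⟫` exceeds the largest of centred forms, any `d` of the forms lie in a simplex of size
`m ⟪v, x⟫`; bounding the Gaussian density by that of `⟪v, x⟫` alone bounds the gain by
`K_d m^d ‖v‖^(d+2) / √det Gram`.
-/

namespace Vale.Agent.P226

open MeasureTheory ProbabilityTheory Real Set Finset Module
open scoped RealInnerProductSpace NNReal ENNReal Nat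

/-- The constant of the dust lemma. -/
noncomputable def dustK (d : ℕ) : ℝ :=
  (√(2 * π))⁻¹ ^ (d + 1) *
    (∫ y in Ioi (0 : ℝ), y ^ (d + 1) * exp (-y ^ 2 / 2)) / (d + 1) !

lemma dustK_two : dustK 2 = (√(2 * π))⁻¹ ^ 3 / 3 := by
  have h : ∫ y in Ioi (0 : ℝ), y ^ (2 + 1) * exp (-y ^ 2 / 2) = 2 := by
    rw [integral_eq_lintegral_of_nonneg_ae
      ((ae_restrict_mem measurableSet_Ioi).mono fun y hy =>
        mul_nonneg (pow_nonneg (le_of_lt hy) _) (exp_nonneg _)) (by fun_prop),
      lintegral_cube_exp, ENNReal.toReal_ofReal zero_le_two]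
  rw [dustK, h]
  norm_num
  ring

lemma dustK_three : dustK 3 = (√(2 * π))⁻¹ ^ 3 / 16 := by
  have h := integral_rpow_mul_exp_neg_mul_rpow (p := 2) (q := 4) (b := 1 / 2) (by norm_num)
    (by norm_num) (by norm_num)
  have he : ∀ r : ℝ, r ^ (4 : ℝ) * exp (-(1 / 2) * r ^ (2 : ℝ)) = r ^ 4 * exp (-r ^ 2 / 2) := by
    intro r
    rw [show (4 : ℝ) = ((4 : ℕ) : ℝ) by norm_num, show (2 : ℝ) = ((2 : ℕ) : ℝ) by norm_num,
      rpow_natCast, rpow_natCast]
    ring_nf
  simp only [he] at h
  have hG : ((1 : ℝ) / 2) ^ (-((4 : ℝ) + 1) / 2) * (1 / 2) * Gamma (((4 : ℝ) + 1) / 2) =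
      3 / 2 * √(2 * π) := by
    rw [show ((4 : ℝ) + 1) / 2 = ((2 : ℕ) : ℝ) + 1 / 2 by norm_num, Real.Gamma_nat_add_half,
      show -((4 : ℝ) + 1) / 2 = -((2 : ℕ) : ℝ) + -(1 / 2) by norm_num,
      rpow_add (by norm_num), rpow_neg (by norm_num), rpow_natCast, rpow_neg (by norm_num),
      ← sqrt_eq_rpow, ← sqrt_inv, sqrt_mul zero_le_two]
    norm_num [Nat.doubleFactorial]
    ring
  rw [hG] at h
  have hp : √(2 * π) ≠ 0 := (sqrt_pos.2 (by positivity)).ne'
  rw [dustK, show (3 + 1 : ℕ) = 4 from rfl, h]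
  norm_num [Nat.factorial]
  field_simp
  ring

variable {E : Type*} [NormedAddCommGroup E] [InnerProductSpace ℝ E] [FiniteDimensional ℝ E]
  [MeasurableSpace E] [BorelSpace E]

/-- The coordinates along an orthonormal family are a standard Gaussian vector. -/
lemma map_orthonormal {n : ℕ} {e : Fin n → E} (he : Orthonormal ℝ e) :
    (stdGaussian E).map (fun x => WithLp.toLp 2 fun i => ⟪e i, x⟫) =
      stdGaussian (EuclideanSpace ℝ (Fin n)) := by
  have hm : Measurable fun x : E => WithLp.toLp 2 fun i => ⟪e i, x⟫ := by fun_prop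
  refine Measure.ext_of_charFun (funext fun t => ?_)
  have hpt : ∀ x : E, ⟪WithLp.toLp 2 (fun i => ⟪e i, x⟫), t⟫ = ⟪x, ∑ i, t i • e i⟫ := fun x => by
    simp only [inner_sum, real_inner_smul_right, PiLp.inner_apply, real_inner_comm x]
    refine Finset.sum_congr rfl fun i _ => ?_
    simp [mul_comm]
  have hn : ‖∑ i, t i • e i‖ ^ 2 = ‖t‖ ^ 2 := by
    rw [← real_inner_self_eq_norm_sq, he.inner_sum, EuclideanSpace.norm_sq_eq]
    simp [sq]
  rw [charFun_stdGaussian, charFun_apply, integral_map hm.aemeasurable (by fun_prop)]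
  simp only [hpt]
  rw [← charFun_apply, charFun_stdGaussian, ← Complex.ofReal_pow, hn, Complex.ofReal_pow]

variable {m d : ℕ} [NeZero m]

/-- A short vector gains little over centred vectors if `d` forms are confined to a simplex
wherever all the vectors stay below a level. -/
theorem gain_le_dust_forms (W : Fin m → E) (hW : ∑ b, W b = 0) (U : Fin d → E) (q : Fin d → ℝ)
    (hU : ∀ x : E, ∀ s : ℝ, (∀ c, ⟪W c, x⟫ ≤ s) →
      (∀ i, ⟪U i, x⟫ ≤ q i * s) ∧ ∑ i, (q i * s - ⟪U i, x⟫) ≤ (m : ℝ) * s) (v : E)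
    (hdet : (Matrix.gram ℝ (Fin.cons v U : Fin (d + 1) → E)).det ≠ 0) :
    gain W v ≤ dustK d * m ^ d * ‖v‖ ^ (d + 2) /
      √(Matrix.gram ℝ (Fin.cons v U : Fin (d + 1) → E)).det := by
  classical
  set g : Fin (d + 1) → E := Fin.cons v U with hg
  have hli : LinearIndependent ℝ g := Matrix.det_gram_ne_zero_iff_linearIndependent.1 hdet
  set V : Submodule ℝ E := Submodule.span ℝ (Set.range g)
  have hfin : finrank ℝ V = d + 1 := by
    rw [finrank_span_eq_card hli, Fintype.card_fin]
  set b := (stdOrthonormalBasis ℝ V).reindex (finCongr hfin)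
  set e : Fin (d + 1) → E := fun i => (b i : E) with he'
  have he : Orthonormal ℝ e := b.orthonormal.comp_linearIsometry V.subtypeₗᵢ
  have hexp : ∀ i, g i = ∑ j, ⟪g i, e j⟫ • e j := fun i => by
    have h := congrArg (Subtype.val) (b.sum_repr' ⟨g i, Submodule.subset_span ⟨i, rfl⟩⟩)
    simp only [Submodule.coe_sum, Submodule.coe_smul, Submodule.coe_inner] at h
    conv_lhs => rw [← h]
    exact Finset.sum_congr rfl fun j _ => by rw [real_inner_comm]
  set M : Matrix (Fin (d + 1)) (Fin (d + 1)) ℝ := Matrix.of fun i j => ⟪g i, e j⟫ with hM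
  have hG : Matrix.gram ℝ g = M * M.transpose := by
    ext i j
    rw [Matrix.gram_apply, Matrix.mul_apply]
    conv_lhs => rw [hexp j, inner_sum]
    refine Finset.sum_congr rfl fun l _ => ?_
    simp only [hM, Matrix.of_apply, Matrix.transpose_apply, real_inner_smul_right]
    ring
  have hdM : (Matrix.gram ℝ g).det = M.det ^ 2 := by
    rw [hG, Matrix.det_mul, Matrix.det_transpose, sq]
  have hM0 : M.det ≠ 0 := fun h => hdet (by rw [hdM, h]; ring)
  rw [hdM, sqrt_sq_eq_abs]
  have hv0 : 0 < ‖v‖ := norm_pos_iff.2 (by simpa [hg] using hli.ne_zero (0 : Fin (d + 1)))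
  -- the gain as an integral over levels
  set f : E → ℝ := fun x => max (⟪v, x⟫ - supInner W x) 0 with hf
  have hfm : Continuous f :=
    ((continuous_const.inner continuous_id).sub (continuous_supInner W)).max continuous_const
  set B : ℝ → Set (Fin (d + 1) → ℝ) := fun t => {y | 0 ≤ y 0 - t ∧
    (fun i => q i * (y 0 - t) - y i.succ) ∈ simplexSet d ((m : ℝ) * (y 0 - t))} with hB
  set Tm : (Fin (d + 1) → ℝ) → ℝ := fun y => exp (-y 0 ^ 2 / (2 * ‖v‖ ^ 2)) with hTm
  have hBm : ∀ t, MeasurableSet (B t) := fun t => by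
    have : B t = {y | 0 ≤ y 0 - t} ∩ ((⋂ i : Fin d, {y | 0 ≤ q i * (y 0 - t) - y i.succ}) ∩
        {y | ∑ i : Fin d, (q i * (y 0 - t) - y i.succ) ≤ (m : ℝ) * (y 0 - t)}) := by
      ext y; simp [hB, simplexSet]
    rw [this]
    exact (measurableSet_le (by fun_prop) (by fun_prop)).inter
      ((MeasurableSet.iInter fun i => measurableSet_le (by fun_prop) (by fun_prop)).inter
        (measurableSet_le (by fun_prop) (by fun_prop)))
  have hlevel : ∀ t ∈ Ioi (0 : ℝ), stdGaussian E {x | t < f x} ≤
      ENNReal.ofReal ((√(2 * π))⁻¹ ^ (d + 1) * |M.det|⁻¹) *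
        ∫⁻ y in B t, ENNReal.ofReal (Tm y) := by
    intro t ht
    have ht : (0 : ℝ) < t := ht
    have hsub : {x | t < f x} ⊆ (fun x => fun i => ⟪g i, x⟫) ⁻¹' B t := by
      intro x hx
      simp only [Set.mem_ofPred_eq, hf] at hx
      have hx' : supInner W x + t < ⟪v, x⟫ := by
        rcases lt_max_iff.1 hx with h | h <;> linarith
      have hle : ∀ c, ⟪W c, x⟫ ≤ ⟪v, x⟫ - t := fun c => by linarith [le_supInner W c x]
      have hsum : ∑ c, ⟪W c, x⟫ = 0 := by rw [← sum_inner, hW, inner_zero_left]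
      obtain ⟨hlo, hR⟩ := hU x (⟪v, x⟫ - t) hle
      have h0 : 0 ≤ supInner W x := by
        by_contra! hneg
        have : ∑ c, ⟪W c, x⟫ < ∑ _c : Fin m, (0 : ℝ) :=
          Finset.sum_lt_sum_of_nonempty univ_nonempty fun c _ =>
            (le_supInner W c x).trans_lt hneg
        simp [hsum] at this
      refine ⟨?_, fun i => ?_, ?_⟩
      · simp [hg]; linarith
      · simp [hg]; linarith [hlo i]
      · simpa [hg] using hR
    have hlaw := map_orthonormal he
    set P : E → EuclideanSpace ℝ (Fin (d + 1)) := fun x => WithLp.toLp 2 fun j => ⟪e j, x⟫ with hP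
    have hPm : Measurable P := by fun_prop
    set L : (Fin (d + 1) → ℝ) →ₗ[ℝ] (Fin (d + 1) → ℝ) := Matrix.toLin' M with hL
    have hLm : Measurable L := L.continuous_of_finiteDimensional.measurable
    have hLP : ∀ x, L (WithLp.ofLp (P x)) = fun i => ⟪g i, x⟫ := fun x => by
      funext i
      rw [hL, Matrix.toLin'_apply]
      conv_rhs => rw [hexp i, sum_inner]
      simp [Matrix.mulVec, dotProduct, hM, hP, real_inner_smul_left]
    have hS : MeasurableSet ((fun z : EuclideanSpace ℝ (Fin (d + 1)) => L (WithLp.ofLp z)) ⁻¹' B t) :=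
      (hBm t).preimage (hLm.comp (by fun_prop))
    calc stdGaussian E {x | t < f x}
        ≤ stdGaussian E ((fun x => fun i => ⟪g i, x⟫) ⁻¹' B t) := measure_mono hsub
      _ = stdGaussian (EuclideanSpace ℝ (Fin (d + 1)))
            ((fun z => L (WithLp.ofLp z)) ⁻¹' B t) := by
          rw [← hlaw, Measure.map_apply hPm hS]
          congr 1
          ext x
          simp [hLP]
      _ = ∫⁻ z in (fun z : EuclideanSpace ℝ (Fin (d + 1)) => L (WithLp.ofLp z)) ⁻¹' B t,
            ENNReal.ofReal (gaussDensity z) := by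
          rw [stdGaussian_eq_withDensity, withDensity_apply _ hS]
      _ ≤ ∫⁻ z in (fun z : EuclideanSpace ℝ (Fin (d + 1)) => L (WithLp.ofLp z)) ⁻¹' B t,
            ENNReal.ofReal ((√(2 * π))⁻¹ ^ (d + 1) * Tm (L (WithLp.ofLp z))) := by
          refine lintegral_mono fun z => ENNReal.ofReal_le_ofReal ?_
          rw [gaussDensity, finrank_euclideanSpace_fin]
          refine mul_le_mul_of_nonneg_left ?_ (by positivity)
          have h0 : L (WithLp.ofLp z) 0 = ⟪v, ∑ j, z j • e j⟫ := by
            rw [hL, Matrix.toLin'_apply, inner_sum]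
            simp [Matrix.mulVec, dotProduct, hM, hg, real_inner_smul_right, mul_comm]
          have hcs : (L (WithLp.ofLp z) 0) ^ 2 ≤ ‖v‖ ^ 2 * ‖z‖ ^ 2 := by
            have hn : ‖∑ j, z j • e j‖ ^ 2 = ‖z‖ ^ 2 := by
              rw [← real_inner_self_eq_norm_sq, he.inner_sum, EuclideanSpace.norm_sq_eq]
              simp [sq]
            rw [h0, ← hn, ← mul_pow, ← sq_abs]
            exact pow_le_pow_left₀ (abs_nonneg _) (abs_real_inner_le_norm _ _) 2
          refine exp_le_exp.2 ?_
          rw [neg_div, neg_div, neg_le_neg_iff, div_le_div_iff₀ (by positivity) two_pos]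
          linarith
      _ = ENNReal.ofReal ((√(2 * π))⁻¹ ^ (d + 1)) *
            ∫⁻ z in (fun z : EuclideanSpace ℝ (Fin (d + 1)) => L (WithLp.ofLp z)) ⁻¹' B t,
              ENNReal.ofReal (Tm (L (WithLp.ofLp z))) := by
          rw [← lintegral_const_mul' _ _ ENNReal.ofReal_ne_top]
          exact lintegral_congr fun z => ENNReal.ofReal_mul (by positivity)
      _ = ENNReal.ofReal ((√(2 * π))⁻¹ ^ (d + 1)) *
            ∫⁻ y in B t, ENNReal.ofReal (Tm y)
              ∂(Measure.map L (volume : Measure (Fin (d + 1) → ℝ))) := by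
          rw [setLIntegral_map (hBm t) (by fun_prop) hLm,
            ← (PiLp.volume_preserving_ofLp (Fin (d + 1))).setLIntegral_comp_preimage
              ((hBm t).preimage hLm) (by fun_prop)]
          rfl
      _ = _ := by
          rw [hL, Real.map_matrix_volume_pi_eq_smul_volume_pi hM0, Measure.restrict_smul,
            lintegral_smul_measure, smul_eq_mul, abs_inv, ← mul_assoc,
            ← ENNReal.ofReal_mul (by positivity)]
  -- the integral over the simplices
  have hinner : ∀ t, ∫⁻ y in B t, ENNReal.ofReal (Tm y) ≤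
      ∫⁻ s : ℝ, ENNReal.ofReal (exp (-s ^ 2 / (2 * ‖v‖ ^ 2)) *
        ((m : ℝ) ^ d * max (s - t) 0 ^ d / d !)) * (Ioi t).indicator 1 s := by
    intro t
    have ep := volume_preserving_piFinSuccAbove (fun _ : Fin (d + 1) => ℝ) 0
    set C : Set (ℝ × (Fin d → ℝ)) := {p | 0 ≤ p.1 - t ∧
      (fun i => q i * (p.1 - t) - p.2 i) ∈ simplexSet d ((m : ℝ) * (p.1 - t))} with hC
    have hpre : B t = (MeasurableEquiv.piFinSuccAbove (fun _ : Fin (d + 1) => ℝ) 0) ⁻¹' C := by
      ext y
      simp [hB, hC, MeasurableEquiv.piFinSuccAbove_apply, Fin.tail_def]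
    have hCm : MeasurableSet C := by
      rw [← (MeasurableEquiv.piFinSuccAbove (fun _ : Fin (d + 1) => ℝ) 0).measurableSet_preimage, ← hpre]
      exact hBm t
    have hCf : Measurable (C.indicator fun p : ℝ × (Fin d → ℝ) =>
        ENNReal.ofReal (exp (-p.1 ^ 2 / (2 * ‖v‖ ^ 2)))) :=
      (by fun_prop : Measurable fun p : ℝ × (Fin d → ℝ) =>
        ENNReal.ofReal (exp (-p.1 ^ 2 / (2 * ‖v‖ ^ 2)))).indicator hCm
    rw [← lintegral_indicator (hBm t)]
    calc ∫⁻ y, (B t).indicator (fun y => ENNReal.ofReal (Tm y)) y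
        = ∫⁻ p, C.indicator (fun p => ENNReal.ofReal (exp (-p.1 ^ 2 / (2 * ‖v‖ ^ 2)))) p
            ∂(volume : Measure ℝ).prod (volume : Measure (Fin d → ℝ)) := by
          rw [← Measure.volume_eq_prod, ← ep.lintegral_comp hCf]
          refine lintegral_congr fun y => ?_
          rw [hpre, Set.indicator_apply, Set.indicator_apply]
          simp [hTm, MeasurableEquiv.piFinSuccAbove_apply]
      _ = ∫⁻ s, ∫⁻ u, C.indicator (fun p => ENNReal.ofReal (exp (-p.1 ^ 2 / (2 * ‖v‖ ^ 2))))
            (s, u) := by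
          rw [lintegral_prod _ hCf.aemeasurable]
      _ ≤ _ := by
          refine lintegral_mono_ae ?_
          have hne : ∀ᵐ s : ℝ, s ≠ t := by
            simp [ae_iff]
          filter_upwards [hne] with s hs
          rcases lt_or_gt_of_ne hs with h | h
          · refine le_of_eq_of_le ?_ zero_le
            refine (lintegral_congr fun u => ?_).trans lintegral_zero
            exact Set.indicator_of_notMem (fun hu => by linarith [hu.1]) _
          rw [Set.indicator_of_mem (show s ∈ Ioi t from h), Pi.one_apply, mul_one,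
            ENNReal.ofReal_mul (exp_nonneg _)]
          calc ∫⁻ u, C.indicator (fun p => ENNReal.ofReal (exp (-p.1 ^ 2 / (2 * ‖v‖ ^ 2)))) (s, u)
              = ∫⁻ u, ((fun u : Fin d → ℝ => fun i => q i * (s - t) - u i) ⁻¹'
                  simplexSet d ((m : ℝ) * (s - t))).indicator
                    (fun _ => ENNReal.ofReal (exp (-s ^ 2 / (2 * ‖v‖ ^ 2)))) u := by
                refine lintegral_congr fun u => ?_
                simp [Set.indicator_apply, hC, h.le]
            _ = ENNReal.ofReal (exp (-s ^ 2 / (2 * ‖v‖ ^ 2))) *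
                  volume ((fun u : Fin d → ℝ => fun i => q i * (s - t) - u i) ⁻¹'
                    simplexSet d ((m : ℝ) * (s - t))) :=
                lintegral_indicator_const
                  ((measurableSet_simplexSet _ _).preimage (by fun_prop)) _
            _ ≤ _ := by
                refine mul_le_mul' le_rfl ?_
                have hmp : MeasurePreserving (fun u : Fin d → ℝ => (fun i => q i * (s - t)) - u)
                    volume volume :=
                  Measure.measurePreserving_sub_left volume _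
                rw [show (fun u : Fin d → ℝ => fun i => q i * (s - t) - u i) =
                    fun u : Fin d → ℝ => (fun i => q i * (s - t)) - u from rfl,
                  hmp.measure_preimage (measurableSet_simplexSet _ _).nullMeasurableSet,
                  max_eq_left (sub_nonneg.2 h.le), ← mul_pow]
                exact volume_simplexSet_le d _ (mul_nonneg (Nat.cast_nonneg _) (sub_nonneg.2 h.le))
  set I := ∫ y in Ioi (0 : ℝ), y ^ (d + 1) * exp (-y ^ 2 / 2) with hI
  have houter : ∫⁻ t in Ioi (0 : ℝ), ∫⁻ s : ℝ, ENNReal.ofReal (exp (-s ^ 2 / (2 * ‖v‖ ^ 2)) *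
        ((m : ℝ) ^ d * max (s - t) 0 ^ d / d !)) * (Ioi t).indicator 1 s ≤
      ENNReal.ofReal ((m : ℝ) ^ d / (d + 1) ! * (‖v‖ ^ (d + 2) * I)) := by
    rw [lintegral_lintegral_swap]
    swap
    · refine (Measurable.mul (by fun_prop) ?_).aemeasurable
      have hS : MeasurableSet {p : ℝ × ℝ | p.1 < p.2} := measurableSet_lt measurable_fst measurable_snd
      exact measurable_one.indicator hS
    have hrad : ∫⁻ s in Ioi (0 : ℝ), ENNReal.ofReal
        (exp (-s ^ 2 / (2 * ‖v‖ ^ 2)) * ((m : ℝ) ^ d * s ^ (d + 1) / (d + 1) !)) =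
        ENNReal.ofReal ((m : ℝ) ^ d / (d + 1) ! * (‖v‖ ^ (d + 2) * I)) := by
      have hi : IntegrableOn (fun s : ℝ =>
          exp (-s ^ 2 / (2 * ‖v‖ ^ 2)) * ((m : ℝ) ^ d * s ^ (d + 1) / (d + 1) !)) (Ioi 0) := by
        have h := (integrableOn_rpow_mul_exp_neg_mul_sq (b := (2 * ‖v‖ ^ 2)⁻¹) (by positivity)
          (s := ((d + 1 : ℕ) : ℝ)) (by linarith [Nat.cast_nonneg (α := ℝ) (d + 1)])).const_mul
          ((m : ℝ) ^ d / (d + 1) !)
        refine IntegrableOn.congr_fun h (fun s _ => ?_) measurableSet_Ioi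
        simp only [rpow_natCast]
        ring_nf
      rw [← ofReal_integral_eq_lintegral_ofReal hi ((ae_restrict_mem measurableSet_Ioi).mono
        fun s hs => mul_nonneg (exp_nonneg _) (div_nonneg (mul_nonneg (by positivity)
          (pow_nonneg (le_of_lt hs) _)) (Nat.cast_nonneg _)))]
      congr 1
      have hsc := integral_comp_mul_left_Ioi (fun y : ℝ => y ^ (d + 1) * exp (-y ^ 2 / 2)) 0
        (inv_pos.2 hv0)
      rw [mul_zero, inv_inv, smul_eq_mul, ← hI] at hsc
      calc ∫ s in Ioi (0 : ℝ),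
            exp (-s ^ 2 / (2 * ‖v‖ ^ 2)) * ((m : ℝ) ^ d * s ^ (d + 1) / (d + 1) !)
          = ∫ s in Ioi (0 : ℝ), (m : ℝ) ^ d / (d + 1) ! * ‖v‖ ^ (d + 1) *
              ((‖v‖⁻¹ * s) ^ (d + 1) * exp (-(‖v‖⁻¹ * s) ^ 2 / 2)) := by
            refine setIntegral_congr_fun measurableSet_Ioi fun s _ => ?_
            rw [mul_pow, inv_pow, show -(‖v‖⁻¹ * s) ^ 2 / 2 = -s ^ 2 / (2 * ‖v‖ ^ 2) by ring]
            field_simp
        _ = _ := by rw [integral_const_mul, hsc]; ring
    refine le_of_le_of_eq ?_ hrad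
    rw [← lintegral_indicator measurableSet_Ioi]
    refine lintegral_mono fun s => ?_
    rcases le_or_gt s 0 with hs | hs
    · rw [Set.indicator_of_notMem (show s ∉ Ioi (0 : ℝ) by simpa using hs)]
      refine le_of_eq ((setLIntegral_congr_fun measurableSet_Ioi fun t ht => ?_).trans lintegral_zero)
      rw [Set.indicator_of_notMem (show s ∉ Ioi t from fun h => by
        have : (0 : ℝ) < t := ht
        linarith [show t < s from h]), mul_zero]
    rw [Set.indicator_of_mem (show s ∈ Ioi (0 : ℝ) from hs)]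
    calc ∫⁻ t in Ioi (0 : ℝ), ENNReal.ofReal (exp (-s ^ 2 / (2 * ‖v‖ ^ 2)) *
          ((m : ℝ) ^ d * max (s - t) 0 ^ d / d !)) * (Ioi t).indicator 1 s
        = ∫⁻ t in Ioo (0 : ℝ) s, ENNReal.ofReal (exp (-s ^ 2 / (2 * ‖v‖ ^ 2)) *
            ((m : ℝ) ^ d * (s - t) ^ d / d !)) := by
          rw [← lintegral_indicator measurableSet_Ioi, ← lintegral_indicator measurableSet_Ioo]
          refine lintegral_congr fun t => ?_
          by_cases h1 : t < s <;> by_cases h2 : 0 < t <;>
            simp [Set.indicator_apply, h1, h2, le_of_lt]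
      _ = ENNReal.ofReal (∫ t in Ioo (0 : ℝ) s, exp (-s ^ 2 / (2 * ‖v‖ ^ 2)) *
            ((m : ℝ) ^ d * (s - t) ^ d / d !)) := by
          refine (ofReal_integral_eq_lintegral_ofReal
            ((Continuous.integrableOn_Icc (by fun_prop)).mono_set Set.Ioo_subset_Icc_self)
            ((ae_restrict_mem measurableSet_Ioo).mono fun t ht => mul_nonneg (exp_nonneg _)
              (div_nonneg (mul_nonneg (by positivity) (pow_nonneg (by linarith [ht.2]) _))
                (Nat.cast_nonneg _)))).symm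
      _ ≤ _ := by
          refine ENNReal.ofReal_le_ofReal (le_of_eq ?_)
          rw [← integral_Ioc_eq_integral_Ioo, ← intervalIntegral.integral_of_le hs.le,
            intervalIntegral.integral_eq_sub_of_hasDerivAt
              (f := fun t => exp (-s ^ 2 / (2 * ‖v‖ ^ 2)) *
                ((m : ℝ) ^ d * (-(s - t) ^ (d + 1)) / (d + 1) !)) (fun t _ => ?_)
              ((by fun_prop : Continuous _).intervalIntegrable _ _)]
          · simp
            ring
          · refine (((((hasDerivAt_id t).const_sub s).pow (d + 1)).neg.const_mul _).div_const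
              _).const_mul _ |>.congr_deriv ?_
            rw [Nat.factorial_succ]
            simp only [id, Nat.add_sub_cancel, Nat.cast_mul, Nat.cast_add, Nat.cast_one]
            have : (d ! : ℝ) ≠ 0 := by exact_mod_cast d.factorial_ne_zero
            field_simp
  have hI0 : 0 ≤ I := setIntegral_nonneg measurableSet_Ioi fun y hy =>
    mul_nonneg (pow_nonneg (le_of_lt hy) _) (exp_nonneg _)
  have hK0 : 0 ≤ dustK d := by
    rw [dustK, ← hI]; positivity
  rw [gain, integral_eq_lintegral_of_nonneg_ae (f := f) (ae_of_all _ fun x => le_max_right _ _)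
    hfm.aestronglyMeasurable]
  refine ENNReal.toReal_le_of_le_ofReal (by positivity) ?_
  rw [lintegral_eq_lintegral_meas_lt _ (f := f) (ae_of_all _ fun x => le_max_right _ _)
    hfm.aemeasurable]
  refine (setLIntegral_mono' measurableSet_Ioi fun t ht =>
    (hlevel t ht).trans (mul_le_mul' le_rfl (hinner t))).trans ?_
  rw [lintegral_const_mul' _ _ ENNReal.ofReal_ne_top]
  refine (mul_le_mul' le_rfl houter).trans_eq ?_
  rw [← ENNReal.ofReal_mul (by positivity), dustK, ← hI]
  congr 1
  ring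

/-- A short vector gains little over centred vectors. -/
theorem gain_le_dust (W : Fin m → E) (hW : ∑ b, W b = 0) (a : Fin d ↪ Fin m) (v : E)
    (hdet : (Matrix.gram ℝ (Fin.cons v (W ∘ a) : Fin (d + 1) → E)).det ≠ 0) :
    gain W v ≤ dustK d * m ^ d * ‖v‖ ^ (d + 2) /
      √(Matrix.gram ℝ (Fin.cons v (W ∘ a) : Fin (d + 1) → E)).det := by
  refine gain_le_dust_forms W hW (W ∘ a) (fun _ => 1) (fun x s hle => ⟨fun i => ?_, ?_⟩) v hdet
  · simpa using hle (a i)
  · have hsum : ∑ c, ⟪W c, x⟫ = 0 := by rw [← sum_inner, hW, inner_zero_left]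
    calc ∑ i : Fin d, (1 * s - ⟪(W ∘ a) i, x⟫)
        = ∑ c ∈ Finset.univ.map a, (s - ⟪W c, x⟫) := by simp [Finset.sum_map]
      _ ≤ ∑ c, (s - ⟪W c, x⟫) :=
          Finset.sum_le_sum_of_subset_of_nonneg (Finset.subset_univ _) fun c _ _ => by
            linarith [hle c]
      _ = _ := by simp [Finset.sum_sub_distrib, hsum]

end Vale.Agent.P226
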