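import Mathlib

/-!
# The scalar inequalities for five to eight long vectors

`μ` is the largest weight inside the group, `L` the weight leaving that edge, `W` the rest and `l`
the largest single part of `L`. Failing block bounds contradict the energy `μ + L + W`.
-/

namespace Vale.Agent.P226

/-- A concave parabola exceeds its smaller end value. -/
lemma parab_gt {μ L a lo hi T : ℝ} (hμ : 0 ≤ μ) (h1 : lo ≤ L) (h2 : L ≤ hi)
    (hlo : T < μ * (lo * (a - lo))) (hhi : T < μ * (hi * (a - hi))) :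
    T < μ * (L * (a - L)) := by
  rcases le_or_gt (L + lo) a with h | h
  · nlinarith [mul_nonneg (mul_nonneg hμ (sub_nonneg.2 h1)) (sub_nonneg.2 h)]
  · nlinarith [mul_nonneg (mul_nonneg hμ (sub_nonneg.2 h2)) (by linarith : 0 ≤ L + hi - a)]

/-- The same up to a bound on the product. -/
lemma parab_gt_prod {μ L a lo A T : ℝ} (hμ : 0 < μ) (h1 : lo ≤ L) (h2 : μ * L ≤ A)
    (hlo : T < μ * (lo * (a - lo))) (hhi : T * μ < A * (a * μ - A)) :
    T < μ * (L * (a - L)) := by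
  refine parab_gt hμ.le h1 (hi := A / μ) (by rw [le_div_iff₀ hμ]; linarith) hlo ?_
  rw [show μ * (A / μ * (a - A / μ)) = A * (a * μ - A) / μ by field_simp, lt_div_iff₀ hμ]
  exact hhi

/-- Six long vectors. -/
lemma many_six {μ L W l : ℝ} (hμ : 0 ≤ μ) (hL : 0 ≤ L) (hW : 0 ≤ W) (hl : l ≤ 2 * μ)
    (hlL : l ≤ L) (hLc : L ≤ 8 * μ) (hWc : W ≤ 6 * μ) (hE : 16882 / 100000 ≤ μ + L + W)
    (hP : μ * W ≤ 25095 / 10000000) (hM : μ * (L * (L - l) + 2 * L * W) ≤ 5032 / 100000000)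
    (hA : μ * L ≤ 6005 / 1000000) (ht : 66 / 1000 ≤ L + 2 * W) : False := by
  have h1 : 0 ≤ μ * L := mul_nonneg hμ hL
  have hq : μ * (L * (16882 / 100000 - μ - L)) ≤ 2516 / 100000000 := by
    linarith [mul_nonneg h1 (sub_nonneg.2 hlL), mul_le_mul_of_nonneg_left hE h1]
  have hq2 : μ * (L * (33764 / 100000 - 4 * μ - L)) ≤ 5032 / 100000000 := by
    linarith [mul_nonneg h1 (sub_nonneg.2 hl), mul_le_mul_of_nonneg_left hE h1]
  have hqt : μ * (L * (66 / 1000 - L)) ≤ 5032 / 100000000 := by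
    linarith [mul_nonneg h1 (sub_nonneg.2 hlL), mul_le_mul_of_nonneg_left ht h1]
  rcases le_or_gt μ (11 / 1000) with c0 | c0
  · linarith
  rcases le_or_gt μ (17 / 1000) with c1 | c1
  · rcases le_or_gt L (30 / 1000) with d | d
    · linarith
    refine absurd hq2 (not_le.2 (parab_gt hμ d.le hLc ?_ ?_)) <;>
      nlinarith [mul_nonneg (sub_nonneg.2 c0.le) (sub_nonneg.2 c1)]
  rcases le_or_gt μ (22 / 1000) with c2 | c2
  · rcases le_or_gt L (14 / 1000) with d | d
    · linarith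
    refine absurd hq2 (not_le.2 (parab_gt hμ d.le hLc ?_ ?_)) <;>
      nlinarith [mul_nonneg (sub_nonneg.2 c1.le) (sub_nonneg.2 c2)]
  rcases le_or_gt L (10126 / 1000000) with d | d
  · rcases le_or_gt μ (1 / 10) with c3 | c3
    · linarith [mul_le_mul_of_nonneg_left hE hμ, mul_le_mul_of_nonneg_left d hμ,
        mul_nonneg (sub_nonneg.2 c2.le) (sub_nonneg.2 c3)]
    · linarith [mul_le_mul_of_nonneg_left ht hμ, mul_le_mul_of_nonneg_left d hμ]
  rcases le_or_gt μ (28 / 1000) with c3 | c3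
  · refine absurd hq2 (not_le.2 (parab_gt hμ d.le hLc ?_ ?_)) <;>
      nlinarith [mul_nonneg (sub_nonneg.2 c2.le) (sub_nonneg.2 c3)]
  rcases le_or_gt μ (548 / 10000) with c4 | c4
  · refine absurd hq2 (not_le.2 (parab_gt_prod (by linarith) d.le hA ?_ ?_)) <;>
      nlinarith [mul_nonneg (sub_nonneg.2 c3.le) (sub_nonneg.2 c4)]
  rcases le_or_gt μ (109 / 1000) with c5 | c5
  · refine absurd hq (not_le.2 (parab_gt_prod (a := 16882 / 100000 - μ) (by linarith) d.le hA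
      ?_ ?_)) <;>
      nlinarith [mul_nonneg (sub_nonneg.2 c4.le) (sub_nonneg.2 c5)]
  · refine absurd hqt (not_le.2 (parab_gt_prod (by linarith) d.le hA ?_ ?_)) <;> nlinarith

/-- Five long vectors. -/
lemma many_five {μ L W l : ℝ} (hμ : 0 ≤ μ) (hL : 0 ≤ L) (hl : l ≤ 2 * μ)
    (hlL : l ≤ L) (hLc : L ≤ 6 * μ) (hWc : W ≤ 3 * μ) (hE : 166049 / 1000000 ≤ μ + L + W)
    (hP : μ * W ≤ 14445 / 10000000) (hM : μ * (L * (L - l) + 2 * L * W) ≤ 2235 / 100000000)
    (hA : μ * L ≤ 6386 / 1000000) (hB : μ * l ≤ 4258 / 1000000) (ht : 58 / 1000 ≤ L + 2 * W) :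
    False := by
  have h1 : 0 ≤ μ * L := mul_nonneg hμ hL
  have hq : μ * (L * (166049 / 1000000 - μ - L)) ≤ 11175 / 1000000000 := by
    linarith [mul_nonneg h1 (sub_nonneg.2 hlL), mul_le_mul_of_nonneg_left hE h1]
  have hq2 : μ * (L * (332098 / 1000000 - 4 * μ - L)) ≤ 2235 / 100000000 := by
    linarith [mul_nonneg h1 (sub_nonneg.2 hl), mul_le_mul_of_nonneg_left hE h1]
  have hqt : μ * (L * (58 / 1000 - L)) ≤ 2235 / 100000000 := by
    linarith [mul_nonneg h1 (sub_nonneg.2 hlL), mul_le_mul_of_nonneg_left ht h1]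
  rcases le_or_gt μ (166 / 10000) with c0 | c0
  · linarith
  rcases le_or_gt L (7737 / 1000000) with d | d
  · rcases le_or_gt μ (1 / 10) with c3 | c3
    · linarith [mul_le_mul_of_nonneg_left hE hμ, mul_le_mul_of_nonneg_left d hμ,
        mul_nonneg (sub_nonneg.2 c0.le) (sub_nonneg.2 c3)]
    · linarith [mul_le_mul_of_nonneg_left ht hμ, mul_le_mul_of_nonneg_left d hμ]
  rcases le_or_gt μ (32 / 1000) with c1 | c1
  · refine absurd hq2 (not_le.2 (parab_gt hμ d.le hLc ?_ ?_)) <;>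
      nlinarith [mul_nonneg (sub_nonneg.2 c0.le) (sub_nonneg.2 c1)]
  rcases le_or_gt μ (52 / 1000) with c2 | c2
  · refine absurd hq2 (not_le.2 (parab_gt_prod (by linarith) d.le hA ?_ ?_)) <;>
      nlinarith [mul_nonneg (sub_nonneg.2 c1.le) (sub_nonneg.2 c2)]
  rcases le_or_gt μ (1185 / 10000) with c3 | c3
  · have hμ0 : 0 < μ := by linarith
    obtain ⟨b, hb⟩ : ∃ b, μ * b = 4258 / 1000000 :=
      ⟨4258 / 1000000 / μ, mul_div_cancel₀ _ hμ0.ne'⟩
    have hq3 : μ * (L * (332098 / 1000000 - 2 * μ - b - L)) ≤ 2235 / 100000000 := by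
      have e : μ * L * b = 4258 / 1000000 * L := by rw [← hb]; ring
      linarith [mul_le_mul_of_nonneg_right hB hL, mul_le_mul_of_nonneg_left hE h1]
    refine absurd hq3 (not_le.2 (parab_gt_prod hμ0 d.le hA ?_ ?_)) <;>
      nlinarith [mul_nonneg (sub_nonneg.2 c2.le) (sub_nonneg.2 c3)]
  · refine absurd hqt (not_le.2 (parab_gt_prod (by linarith) d.le hA ?_ ?_)) <;> linarith

/-- Seven long vectors, fewer than four very long. -/
lemma many_seven {μ L W l : ℝ} (hμ : 0 ≤ μ) (hL : 0 ≤ L) (hW : 0 ≤ W) (hl : l ≤ 2 * μ)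
    (hlL : l ≤ L) (hS : μ + L + W ≤ 6 * μ + 48 / 1000)
    (hWs : 16 / 1000 < μ → W ≤ μ + 48 / 1000) (hE : 171449 / 1000000 ≤ μ + L + W)
    (hP : μ * W ≤ 2667 / 1000000) (hM : μ * (L * (L - l) + 2 * L * W) ≤ 7347 / 100000000)
    (hA : μ * L ≤ 5926 / 1000000) (ht : 69 / 1000 ≤ L + 2 * W) : False := by
  have h1 : 0 ≤ μ * L := mul_nonneg hμ hL
  have hq : μ * (L * (171449 / 1000000 - μ - L)) ≤ 36735 / 1000000000 := by
    linarith [mul_nonneg h1 (sub_nonneg.2 hlL), mul_le_mul_of_nonneg_left hE h1]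
  have hq2 : μ * (L * (342898 / 1000000 - 4 * μ - L)) ≤ 7347 / 100000000 := by
    linarith [mul_nonneg h1 (sub_nonneg.2 hl), mul_le_mul_of_nonneg_left hE h1]
  have hqt : μ * (L * (69 / 1000 - L)) ≤ 7347 / 100000000 := by
    linarith [mul_nonneg h1 (sub_nonneg.2 hlL), mul_le_mul_of_nonneg_left ht h1]
  have hq0 : μ * (L * (L - 2 * μ)) ≤ 7347 / 100000000 := by
    linarith [mul_nonneg h1 (sub_nonneg.2 hl), mul_nonneg h1 hW]
  rcases le_or_gt μ (2 / 100) with c0 | c0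
  · linarith
  have hW' := hWs (by linarith)
  rcases le_or_gt L (13775 / 1000000) with d | d
  · rcases le_or_gt μ (12 / 100) with c3 | c3
    · linarith [mul_le_mul_of_nonneg_left hE hμ, mul_le_mul_of_nonneg_left d hμ,
        mul_nonneg (sub_nonneg.2 c0.le) (sub_nonneg.2 c3)]
    · linarith [mul_le_mul_of_nonneg_left ht hμ, mul_le_mul_of_nonneg_left d hμ]
  rcases le_or_gt μ (3 / 100) with c1 | c1
  · rcases le_or_gt L (2 / 100) with d1 | d1
    · linarith
    rcases le_or_gt L (12 / 100) with d2 | d2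
    · refine absurd hq2 (not_le.2 (parab_gt hμ d1.le d2 ?_ ?_)) <;>
        nlinarith [mul_nonneg (sub_nonneg.2 c0.le) (sub_nonneg.2 c1)]
    · have h2 : (12 / 100 : ℝ) * (6 / 100) ≤ L * (L - 2 * μ) :=
        mul_le_mul d2.le (by linarith) (by norm_num) hL
      linarith [mul_le_mul c0.le h2 (by norm_num) hμ]
  rcases le_or_gt μ (554 / 10000) with c2 | c2
  · refine absurd hq2 (not_le.2 (parab_gt_prod (by linarith) d.le hA ?_ ?_)) <;>
      nlinarith [mul_nonneg (sub_nonneg.2 c1.le) (sub_nonneg.2 c2)]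
  rcases le_or_gt μ (108 / 1000) with c3 | c3
  · refine absurd hq (not_le.2 (parab_gt_prod (a := 171449 / 1000000 - μ) (by linarith) d.le hA
      ?_ ?_)) <;>
      nlinarith [mul_nonneg (sub_nonneg.2 c2.le) (sub_nonneg.2 c3)]
  · refine absurd hqt (not_le.2 (parab_gt_prod (by linarith) d.le hA ?_ ?_)) <;> nlinarith

/-- Seven long vectors, four of them very long. -/
lemma many_seven_four {μ L W l : ℝ} (hμ : 0 ≤ μ) (hL : 0 ≤ L)
    (hlL : l ≤ L) (hS : μ + L + W ≤ 6 * μ + 48 / 1000)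
    (hWs : 16 / 1000 < μ → W ≤ μ + 48 / 1000) (hE : 170949 / 1000000 ≤ μ + L + W)
    (hP : μ * W ≤ 2987 / 1000000) (hM : μ * (L * (L - l) + 2 * L * W) ≤ 823 / 10000000)
    (hA : μ * L ≤ 1646 / 1000000) (ht : 1 / 10 ≤ L + 2 * W) : False := by
  have h1 : 0 ≤ μ * L := mul_nonneg hμ hL
  have hq : μ * (L * (170949 / 1000000 - μ - L)) ≤ 4115 / 100000000 := by
    linarith [mul_nonneg h1 (sub_nonneg.2 hlL), mul_le_mul_of_nonneg_left hE h1]
  have hqt : μ * (L * (1 / 10 - L)) ≤ 823 / 10000000 := by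
    linarith [mul_nonneg h1 (sub_nonneg.2 hlL), mul_le_mul_of_nonneg_left ht h1]
  rcases le_or_gt μ (204 / 10000) with c0 | c0
  · linarith
  have hW' := hWs (by linarith)
  rcases le_or_gt μ (3 / 100) with c1 | c1
  · rcases le_or_gt L (3 / 100) with d1 | d1
    · linarith
    refine absurd hq (not_le.2 (parab_gt_prod (a := 170949 / 1000000 - μ) (by linarith) d1.le hA
      ?_ ?_)) <;>
      nlinarith [mul_nonneg (sub_nonneg.2 c0.le) (sub_nonneg.2 c1)]
  rcases le_or_gt L (13777 / 1000000) with d | d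
  · rcases le_or_gt μ (1 / 10) with c3 | c3
    · linarith [mul_le_mul_of_nonneg_left hE hμ, mul_le_mul_of_nonneg_left d hμ,
        mul_nonneg (sub_nonneg.2 c1.le) (sub_nonneg.2 c3)]
    · linarith [mul_le_mul_of_nonneg_left ht hμ, mul_le_mul_of_nonneg_left d hμ]
  rcases le_or_gt μ (70 / 1000) with c2 | c2
  · refine absurd hq (not_le.2 (parab_gt_prod (a := 170949 / 1000000 - μ) (by linarith) d.le hA
      ?_ ?_)) <;>
      nlinarith [mul_nonneg (sub_nonneg.2 c1.le) (sub_nonneg.2 c2)]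
  · refine absurd hqt (not_le.2 (parab_gt_prod (by linarith) d.le hA ?_ ?_)) <;> nlinarith

/-- Eight long vectors. -/
lemma many_eight {μ L W l : ℝ} (hμ : 0 ≤ μ) (hL : 0 ≤ L) (hl : l ≤ 2 * μ)
    (hlL : l ≤ L) (hS : μ + L + W ≤ 6 * μ + 48 / 1000) (hE : 172849 / 1000000 ≤ μ + L + W)
    (hP : μ * W ≤ 1977 / 1000000) (hM : μ * (L * (L - l) + 2 * L * W) ≤ 711 / 10000000)
    (hA : μ * L ≤ 4444 / 1000000) (ht : 75 / 1000 ≤ L + 2 * W) : False := by
  have h1 : 0 ≤ μ * L := mul_nonneg hμ hL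
  have hq : μ * (L * (172849 / 1000000 - μ - L)) ≤ 3555 / 100000000 := by
    linarith [mul_nonneg h1 (sub_nonneg.2 hlL), mul_le_mul_of_nonneg_left hE h1]
  have hq2 : μ * (L * (345698 / 1000000 - 4 * μ - L)) ≤ 711 / 10000000 := by
    linarith [mul_nonneg h1 (sub_nonneg.2 hl), mul_le_mul_of_nonneg_left hE h1]
  have hqt : μ * (L * (75 / 1000 - L)) ≤ 711 / 10000000 := by
    linarith [mul_nonneg h1 (sub_nonneg.2 hlL), mul_le_mul_of_nonneg_left ht h1]
  rcases le_or_gt μ (208 / 10000) with c0 | c0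
  · linarith
  rcases le_or_gt L (17982 / 1000000) with d | d
  · rcases le_or_gt μ (12 / 100) with c3 | c3
    · linarith [mul_le_mul_of_nonneg_left hE hμ, mul_le_mul_of_nonneg_left d hμ,
        mul_nonneg (sub_nonneg.2 c0.le) (sub_nonneg.2 c3)]
    · linarith [mul_le_mul_of_nonneg_left ht hμ, mul_le_mul_of_nonneg_left d hμ]
  rcases le_or_gt μ (5 / 100) with c1 | c1
  · refine absurd hq2 (not_le.2 (parab_gt_prod (by linarith) d.le hA ?_ ?_)) <;>
      nlinarith [mul_nonneg (sub_nonneg.2 c0.le) (sub_nonneg.2 c1)]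
  rcases le_or_gt μ (1 / 10) with c2 | c2
  · refine absurd hq (not_le.2 (parab_gt_prod (a := 172849 / 1000000 - μ) (by linarith) d.le hA
      ?_ ?_)) <;>
      nlinarith [mul_nonneg (sub_nonneg.2 c1.le) (sub_nonneg.2 c2)]
  · refine absurd hqt (not_le.2 (parab_gt_prod (by linarith) d.le hA ?_ ?_)) <;> nlinarith

end Vale.Agent.P226
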