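import Mathlib

/-!
# The largest weight and the splits of the remaining members

`a b` is an edge of largest weight `μ`, `L` the weight from this edge to the others, `W` the weight
among the others and `l` the largest weight from one of them to the edge. A bound for every split
of the others into two groups, averaged over the splits of one size, bounds `μ W` and
`μ (L (L - l) + 2 L W)`.
-/

namespace Vale.Agent.P226

open Finset

/-- Over subsets of one size each ordered pair is separated equally often. -/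
lemma sum_splits {n : ℕ} {S : Finset (Finset (Fin n))} {N : ℕ}
    (hN : ∀ x y, x ≠ y → (S.filter fun C => x ∈ C ∧ y ∉ C).card = N)
    (f : Fin n → Fin n → ℝ) (hf : ∀ x, f x x = 0) :
    ∑ C ∈ S, ∑ x ∈ C, ∑ y ∈ Cᶜ, f x y = N * ∑ x, ∑ y, f x y := by
  classical
  have h : ∀ C : Finset (Fin n),
      ∑ x ∈ C, ∑ y ∈ Cᶜ, f x y = ∑ x, ∑ y, if x ∈ C ∧ y ∉ C then f x y else 0 := fun C => by
    rw [← Finset.sum_filter_add_sum_filter_not Finset.univ (· ∈ C)
      (fun x => ∑ y, if x ∈ C ∧ y ∉ C then f x y else 0)]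
    rw [Finset.sum_eq_zero (s := Finset.univ.filter fun x => x ∉ C) fun x hx =>
      Finset.sum_eq_zero fun y _ => if_neg fun hh => (Finset.mem_filter.1 hx).2 hh.1, add_zero]
    refine Finset.sum_congr (by ext; simp) fun x hx => ?_
    rw [← Finset.sum_filter]
    refine Finset.sum_congr ?_ fun _ _ => rfl
    ext y
    have : x ∈ C := by simpa using hx
    simp [this]
  simp only [h]
  rw [Finset.sum_comm, Finset.mul_sum]
  refine Finset.sum_congr rfl fun x _ => ?_
  rw [Finset.sum_comm, Finset.mul_sum]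
  refine Finset.sum_congr rfl fun y _ => ?_
  rcases eq_or_ne x y with rfl | hxy
  · simp [hf]
  · rw [← Finset.sum_filter, Finset.sum_const, hN x y hxy, nsmul_eq_mul]

variable {m : ℕ}

/-- Weights in a set are few large edges and the degrees of the members outside `B`. -/
lemma sum_square_le (g : Fin m → Fin m → ℝ) (hs : ∀ x y, g x y = g y x) (h0 : ∀ x, g x x = 0)
    (hg : ∀ x y, 0 ≤ g x y) {μ : ℝ} (hμ : ∀ x y, g x y ≤ μ) (S B : Finset (Fin m)) :
    ∑ x ∈ S, ∑ y ∈ S, g x y ≤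
      ((S ∩ B).card : ℝ) * (((S ∩ B).card : ℝ) - 1) * μ + 2 * ∑ x ∈ Bᶜ, ∑ y, g x y := by
  classical
  have hd : ∀ x, 0 ≤ ∑ y, g x y := fun x => Finset.sum_nonneg fun y _ => hg x y
  have hB : (S ∩ Bᶜ) ⊆ Bᶜ := Finset.inter_subset_right
  have hsplit : ∀ f : Fin m → ℝ, ∑ x ∈ S, f x = ∑ x ∈ S ∩ B, f x + ∑ x ∈ S ∩ Bᶜ, f x := fun f => by
    rw [← Finset.sdiff_eq_inter_compl, Finset.sum_inter_add_sum_sdiff]
  have h1 : ∀ x ∈ S ∩ B, ∑ y ∈ S ∩ B, g x y ≤ (((S ∩ B).card : ℝ) - 1) * μ := fun x hx => by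
    rw [← Finset.add_sum_erase _ _ hx, h0, zero_add]
    refine (Finset.sum_le_card_nsmul _ _ μ fun y _ => hμ x y).trans_eq ?_
    rw [nsmul_eq_mul, Finset.card_erase_of_mem hx,
      Nat.cast_sub (Finset.card_pos.2 ⟨x, hx⟩), Nat.cast_one]
  have h2 : ∑ x ∈ S ∩ Bᶜ, ∑ y ∈ S, g x y ≤ ∑ x ∈ Bᶜ, ∑ y, g x y :=
    (Finset.sum_le_sum fun x _ => Finset.sum_le_univ_sum_of_nonneg (hg x)).trans
      (Finset.sum_le_sum_of_subset_of_nonneg hB fun x _ _ => hd x)
  have h3 : ∑ x ∈ S ∩ B, ∑ y ∈ S ∩ Bᶜ, g x y ≤ ∑ x ∈ Bᶜ, ∑ y, g x y := by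
    rw [Finset.sum_comm]
    refine (Finset.sum_le_sum fun x _ => ?_).trans
      (Finset.sum_le_sum_of_subset_of_nonneg hB fun x _ _ => hd x)
    rw [Finset.sum_congr rfl fun y _ => hs y x]
    exact Finset.sum_le_univ_sum_of_nonneg (hg x)
  have h4 := Finset.sum_le_card_nsmul _ _ _ h1
  rw [nsmul_eq_mul] at h4
  rw [hsplit, Finset.sum_congr rfl fun x (_ : x ∈ S ∩ B) => hsplit (g x), Finset.sum_add_distrib]
  linarith

/-- The quantities of the edge of largest weight. -/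
lemma exists_weights {n : ℕ} (hmn : n + 2 = m) (hn : 1 ≤ n) (g : Fin m → Fin m → ℝ)
    (hs : ∀ x y, g x y = g y x) (h0 : ∀ x, g x x = 0) (hg : ∀ x y, 0 ≤ g x y) {r N : ℕ}
    (hN : ∀ x y : Fin n, x ≠ y →
      ((Finset.univ.powersetCard r).filter fun C => x ∈ C ∧ y ∉ C).card = N)
    {P T t₂ t₃ : ℝ}
    (hP : ∀ a b (C D : Finset (Fin m)), a ≠ b → Disjoint C D →
      C ∪ D = Finset.univ \ {a, b} → g a b * ∑ x ∈ C, ∑ y ∈ D, g x y ≤ P)
    (hT : ∀ a b (C D : Finset (Fin m)), a ≠ b → Disjoint C D → C ∪ D = Finset.univ \ {a, b} →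
      g a b * ((∑ x ∈ C, (g a x + g b x)) * ∑ x ∈ D, (g a x + g b x) +
        ((∑ x ∈ C, (g a x + g b x)) + ∑ x ∈ D, (g a x + g b x)) *
          ∑ x ∈ C, ∑ y ∈ D, g x y) ≤ T)
    (hpt : ∀ a b c x, a ≠ b → a ≠ c → b ≠ c → x ≠ a → x ≠ b → x ≠ c →
      (g a b * g a c + g a b * g b c + g a c * g b c) * ∑ y, g x y ≤ T)
    (h₂ : ∀ a b, a ≠ b → t₂ < ∑ x ∈ Finset.univ \ {a, b}, ∑ y, g x y)
    (h₃ : ∀ a b c, a ≠ b → a ≠ c → b ≠ c → t₃ < ∑ x ∈ Finset.univ \ {a, b, c}, ∑ y, g x y) :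
    ∃ μ L W l : ℝ, 0 ≤ μ ∧ 0 ≤ L ∧ 0 ≤ W ∧ l ≤ 2 * μ ∧ l ≤ L ∧ L ≤ 2 * n * μ ∧
      2 * W ≤ n * (n - 1) * μ ∧ ∑ x, ∑ y, g x y = 2 * (μ + L + W) ∧
      2 * N * (μ * W) ≤ (n.choose r) * P ∧
      N * (μ * (L * (L - l) + 2 * L * W)) ≤ (n.choose r) * T ∧
      μ * L * t₃ ≤ μ * (L * (L - l) + 2 * L * W) ∧ μ * l * t₃ ≤ (n - 1) * T ∧
      t₂ ≤ L + 2 * W ∧
      ∀ (B : Finset (Fin m)) (cs : ℝ), B.card = 4 → (∀ x ∉ B, ∑ y, g x y ≤ cs) →
        μ + L + W ≤ 6 * μ + ((m : ℝ) - 4) * cs ∧ (cs < μ → W ≤ μ + ((m : ℝ) - 4) * cs) := by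
  classical
  subst hmn
  obtain ⟨⟨a, b⟩, hab', hmax'⟩ := Finset.exists_max_image
    ((Finset.univ : Finset (Fin (n + 2) × Fin (n + 2))).filter fun p => p.1 ≠ p.2)
    (fun p => g p.1 p.2) ⟨(0, 1), by simp⟩
  obtain ⟨-, hab⟩ := Finset.mem_filter.1 hab'
  replace hab : a ≠ b := hab
  simp only [Finset.mem_filter, Finset.mem_univ, true_and, Prod.forall] at hmax'
  have hmax : ∀ x y, g x y ≤ g a b := fun x y => by
    rcases eq_or_ne x y with rfl | h
    · rw [h0]; exact hg a b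
    · exact hmax' x y h
  set O := Finset.univ \ ({a, b} : Finset (Fin (n + 2))) with hO
  have hOc : O.card = n := by
    rw [hO, Finset.card_sdiff_of_subset (Finset.subset_univ _), Finset.card_univ,
      Fintype.card_fin, Finset.card_pair hab, Nat.add_sub_cancel]
  set e := (O.orderEmbOfFin hOc).toEmbedding
  have he : Finset.univ.map e = O := O.map_orderEmbOfFin_univ hOc
  have heq : ∀ f : Fin (n + 2) → ℝ, ∑ x ∈ O, f x = ∑ x, f (e x) := fun f => by
    rw [← he, Finset.sum_map]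
  have hne : ∀ x, e x ≠ a ∧ e x ≠ b := fun x => by
    have := Finset.mem_sdiff.1 (he ▸ Finset.mem_map_of_mem e (Finset.mem_univ x))
    simpa [not_or] using this.2
  have huniv : ∀ f : Fin (n + 2) → ℝ, ∑ x, f x = f a + f b + ∑ x, f (e x) := fun f => by
    have h := Finset.sum_sdiff (f := f) (Finset.subset_univ ({a, b} : Finset (Fin (n + 2))))
    rw [Finset.sum_pair hab] at h
    rw [← heq, hO]
    linarith
  set μ := g a b
  set ℓ := fun x => g a (e x) + g b (e x) with hℓ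
  set L := ∑ x, ℓ x with hLdef
  set W := (∑ x, ∑ y, g (e x) (e y)) / 2 with hWdef
  have : NeZero n := ⟨by omega⟩
  obtain ⟨z, hz⟩ := Finite.exists_max ℓ
  have hℓ0 : ∀ x, 0 ≤ ℓ x := fun x => add_nonneg (hg _ _) (hg _ _)
  have hμ0 : 0 ≤ μ := hg a b
  have hW0 : 0 ≤ W := div_nonneg (Finset.sum_nonneg fun x _ =>
    Finset.sum_nonneg fun y _ => hg _ _) (by norm_num)
  have hL0 : 0 ≤ L := Finset.sum_nonneg fun x _ => hℓ0 x
  have hdeg : ∀ x, ∑ y, g (e x) y = ℓ x + ∑ y, g (e x) (e y) := fun x => by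
    rw [huniv, hs (e x) a, hs (e x) b]
  have hη₂ : ∑ x ∈ O, ∑ y, g x y = L + 2 * W := by
    rw [heq, Finset.sum_congr rfl fun x _ => hdeg x, Finset.sum_add_distrib, hWdef]
    ring
  have htot : ∑ x, ∑ y, g x y = 2 * (μ + L + W) := by
    rw [huniv, ← heq (fun x => ∑ y, g x y), hη₂, huniv (g a), huniv (g b), h0, h0, hs b a]
    simp only [hLdef, hℓ, Finset.sum_add_distrib]
    ring
  have hl2 : ∀ x, ℓ x ≤ 2 * μ := fun x => by
    simp only [hℓ]; linarith [hmax a (e x), hmax b (e x)]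
  -- the splits
  set S := (Finset.univ : Finset (Fin n)).powersetCard r with hS
  have hSc : (S.card : ℝ) = n.choose r := by
    rw [hS, Finset.card_powersetCard, Finset.card_univ, Fintype.card_fin]
  have hCD : ∀ C : Finset (Fin n), Disjoint (C.map e) (Cᶜ.map e) ∧
      C.map e ∪ Cᶜ.map e = O := fun C =>
    ⟨(Finset.disjoint_map e).2 disjoint_compl_right, by
      rw [← Finset.map_union, Finset.union_compl, he]⟩
  have hcut := sum_splits (S := S) hN (fun x y => g (e x) (e y)) fun x => h0 _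
  have hprod := sum_splits (S := S) hN (fun x y => if x = y then 0 else ℓ x * ℓ y)
    fun x => if_pos rfl
  have hsum : ∑ x, ∑ y, (if x = y then 0 else ℓ x * ℓ y) = L * L - ∑ x, ℓ x * ℓ x := by
    rw [hLdef, Finset.sum_mul_sum, ← Finset.sum_sub_distrib]
    refine Finset.sum_congr rfl fun x _ => ?_
    rw [← Finset.add_sum_erase _ _ (Finset.mem_univ x), if_pos rfl,
      ← Finset.add_sum_erase _ (fun y => ℓ x * ℓ y) (Finset.mem_univ x),
      Finset.sum_congr rfl fun y hy => if_neg (Finset.ne_of_mem_erase hy).symm]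
    ring
  have hPW : 2 * N * (μ * W) ≤ (n.choose r) * P := by
    have h := Finset.sum_le_card_nsmul S (fun C => μ * ∑ x ∈ C, ∑ y ∈ Cᶜ, g (e x) (e y)) P
      fun C _ => by simpa only [Finset.sum_map] using hP a b _ _ hab (hCD C).1 (hCD C).2
    rw [← Finset.mul_sum, hcut, nsmul_eq_mul, hSc] at h
    rw [hWdef]
    linarith
  have hMT : N * (μ * (L * (L - ℓ z) + 2 * L * W)) ≤ (n.choose r) * T := by
    have h := Finset.sum_le_card_nsmul S (fun C => μ *
        ((∑ x ∈ C, ∑ y ∈ Cᶜ, if x = y then 0 else ℓ x * ℓ y) +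
          L * ∑ x ∈ C, ∑ y ∈ Cᶜ, g (e x) (e y))) T fun C _ => by
      have hT' := hT a b _ _ hab (hCD C).1 (hCD C).2
      simp only [Finset.sum_map] at hT'
      have h1 : (∑ x ∈ C, ∑ y ∈ Cᶜ, if x = y then 0 else ℓ x * ℓ y) =
          (∑ x ∈ C, ℓ x) * ∑ x ∈ Cᶜ, ℓ x := by
        rw [Finset.sum_mul_sum]
        refine Finset.sum_congr rfl fun x hx => Finset.sum_congr rfl fun y hy => if_neg ?_
        rintro rfl
        exact Finset.mem_compl.1 hy hx
      rw [h1, hLdef, ← Finset.sum_add_sum_compl C]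
      exact hT'
    rw [← Finset.mul_sum, Finset.sum_add_distrib, ← Finset.mul_sum, hcut, hprod, hsum,
      nsmul_eq_mul, hSc] at h
    have hsq : ∑ x, ℓ x * ℓ x ≤ L * ℓ z := by
      rw [hLdef, Finset.sum_mul]
      exact Finset.sum_le_sum fun x _ => mul_le_mul_of_nonneg_left (hz x) (hℓ0 x)
    rw [hWdef]
    nlinarith [mul_le_mul_of_nonneg_left hsq (mul_nonneg (Nat.cast_nonneg (α := ℝ) N) hμ0)]
  have hz₃ : ∀ f : Fin (n + 2) → ℝ, ∑ x ∈ Finset.univ \ {a, b, e z}, f x =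
      (∑ x ∈ O, f x) - f (e z) := fun f => by
    have hmem : e z ∈ O := he ▸ Finset.mem_map_of_mem e (Finset.mem_univ z)
    rw [← Finset.add_sum_erase _ _ hmem, add_sub_cancel_left]
    refine Finset.sum_congr ?_ fun _ _ => rfl
    ext x
    simp [hO]; tauto
  have ht₃ := h₃ a b (e z) hab (hne z).1.symm (hne z).2.symm
  rw [hz₃, hη₂, hdeg] at ht₃
  have hz0 : 0 ≤ ∑ y, g (e z) (e y) := Finset.sum_nonneg fun y _ => hg _ _
  refine ⟨μ, L, W, ℓ z, hμ0, hL0, hW0, hl2 z,
    Finset.single_le_sum (fun x _ => hℓ0 x) (Finset.mem_univ z), ?_, ?_, htot, hPW, hMT, ?_, ?_,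
    (hη₂ ▸ h₂ a b hab).le, fun B cs hB hcs => ?_⟩
  · refine (Finset.sum_le_card_nsmul _ _ (2 * μ) fun x _ => hl2 x).trans_eq ?_
    rw [Finset.card_univ, Fintype.card_fin, nsmul_eq_mul]; ring
  · have h : ∀ x, ∑ y, g (e x) (e y) ≤ ((n : ℝ) - 1) * μ := fun x => by
      rw [← Finset.add_sum_erase _ _ (Finset.mem_univ x), h0, zero_add]
      refine (Finset.sum_le_card_nsmul _ _ μ fun y _ => hmax _ _).trans_eq ?_
      rw [Finset.card_erase_of_mem (Finset.mem_univ x), Finset.card_univ, Fintype.card_fin,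
        nsmul_eq_mul, Nat.cast_sub hn, Nat.cast_one]
    have h' := Finset.sum_le_card_nsmul Finset.univ _ _ fun x _ => h x
    rw [Finset.card_univ, Fintype.card_fin, nsmul_eq_mul] at h'
    rw [hWdef]
    linarith
  · nlinarith [mul_le_mul_of_nonneg_left ht₃.le (mul_nonneg hμ0 hL0),
      mul_nonneg (mul_nonneg hμ0 hL0) hz0]
  · have hl : μ * ℓ z ≤ g a b * g a (e z) + g a b * g b (e z) + g a (e z) * g b (e z) := by
      simp only [hℓ, mul_add]; linarith [mul_nonneg (hg a (e z)) (hg b (e z))]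
    have h := Finset.sum_le_card_nsmul (Finset.univ \ {a, b, e z})
      (fun x => μ * ℓ z * ∑ y, g x y) T fun x hx => by
        simp only [Finset.mem_sdiff, Finset.mem_univ, true_and, Finset.mem_insert,
          Finset.mem_singleton, not_or] at hx
        exact (mul_le_mul_of_nonneg_right hl (Finset.sum_nonneg fun y _ => hg _ _)).trans
          (hpt a b (e z) x hab (hne z).1.symm (hne z).2.symm hx.1 hx.2.1 hx.2.2)
    have hc : ((Finset.univ \ {a, b, e z} : Finset (Fin (n + 2))).card : ℝ) = (n : ℝ) - 1 := by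
      rw [Finset.card_sdiff_of_subset (Finset.subset_univ _), Finset.card_univ, Fintype.card_fin,
        Finset.card_insert_of_notMem (by simp [hab, (hne z).1.symm]),
        Finset.card_pair (hne z).2.symm, Nat.cast_sub (by omega)]
      push_cast; ring
    rw [← Finset.mul_sum, hz₃, hη₂, hdeg, nsmul_eq_mul, hc] at h
    exact (mul_le_mul_of_nonneg_left ht₃.le (mul_nonneg hμ0 (hℓ0 z))).trans h
  · have hBc : ∑ x ∈ Bᶜ, ∑ y, g x y ≤ (((n + 2 : ℕ) : ℝ) - 4) * cs := by
      refine (Finset.sum_le_card_nsmul _ _ cs fun x hx => hcs x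
        (Finset.mem_compl.1 hx)).trans_eq ?_
      rw [Finset.card_compl, Fintype.card_fin, hB, nsmul_eq_mul,
        Nat.cast_sub (hB ▸ (Finset.card_le_univ B).trans_eq (Fintype.card_fin _))]
      norm_num
    refine ⟨?_, fun hμcs => ?_⟩
    · have h := sum_square_le g hs h0 hg hmax Finset.univ B
      rw [Finset.univ_inter, hB, htot] at h
      norm_num at h
      push_cast at hBc ⊢
      linarith
    · have hmem : ∀ x y, g x y = μ → x ∈ B := fun x y hxy => by
        by_contra hx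
        linarith [hcs x hx, Finset.single_le_sum (fun y _ => hg x y) (Finset.mem_univ y)]
      have haB := hmem a b rfl
      have hbB := hmem b a (hs b a)
      have hc : (O ∩ B).card = 2 := by
        rw [show O ∩ B = B \ {a, b} by ext; simp [hO, and_comm],
          Finset.card_sdiff_of_subset (by simp [Finset.insert_subset_iff, haB, hbB]), hB,
          Finset.card_pair hab]
      have h := sum_square_le g hs h0 hg hmax O B
      rw [hc, heq, Finset.sum_congr rfl fun x _ => heq (g (e x))] at h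
      rw [hWdef]
      norm_num at h
      push_cast at hBc ⊢
      linarith

end Vale.Agent.P226
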