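import Vale.Agent.P226.Core
import Vale.Agent.P226.DustLemma
import Vale.Agent.P226.Graph
import Vale.Agent.P226.ManyScalar
import Vale.Agent.P226.ManyWeights

/-!
# Five to eight long vectors: tolerances and failing block bounds are incompatible

The energy of a critical family bounds the weights inside the group from below. If the bounds that
follow from a failure of the gain bound hold, and no pair or triple of the group carries almost
all of this weight, then the scalar inequalities give a contradiction.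
-/

namespace Vale.Agent.P226

open MeasureTheory ProbabilityTheory Real Set Finset
open scoped RealInnerProductSpace

section

variable {E : Type*} [NormedAddCommGroup E] [InnerProductSpace ℝ E] {k m : ℕ}

/-- The consequences of a failing gain for the blocks around an edge. -/
structure Fails (w : Fin k → E) (J : Fin m ↪ Fin k) (P T : ℝ) : Prop where
  pair : ∀ a b (C D : Finset (Fin m)), a ≠ b → Disjoint C D → C ∪ D = Finset.univ \ {a, b} →
    wt w J a b * ∑ x ∈ C, ∑ y ∈ D, wt w J x y ≤ P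
  tri : ∀ a b (C D : Finset (Fin m)), a ≠ b → Disjoint C D → C ∪ D = Finset.univ \ {a, b} →
    wt w J a b * ((∑ x ∈ C, (wt w J a x + wt w J b x)) * ∑ x ∈ D, (wt w J a x + wt w J b x) +
      ((∑ x ∈ C, (wt w J a x + wt w J b x)) + ∑ x ∈ D, (wt w J a x + wt w J b x)) *
        ∑ x ∈ C, ∑ y ∈ D, wt w J x y) ≤ T
  point : ∀ a b c x, a ≠ b → a ≠ c → b ≠ c → x ≠ a → x ≠ b → x ≠ c →
    (wt w J a b * wt w J a c + wt w J a b * wt w J b c + wt w J a c * wt w J b c) *
      inDeg w J x ≤ T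

/-- No pair and no triple carries almost all of the weight. -/
structure Spread (w : Fin k → E) (J : Fin m ↪ Fin k) (t₂ t₃ : ℝ) : Prop where
  pair : ∀ a b, a ≠ b → t₂ < ∑ x ∈ Finset.univ \ {a, b}, inDeg w J x
  triple : ∀ a b c, a ≠ b → a ≠ c → b ≠ c → t₃ < ∑ x ∈ Finset.univ \ {a, b, c}, inDeg w J x

/-- The degree inside the group is at most the squared length. -/
lemma inDeg_le_sq {w : Fin k → E} (hsum : ∑ i, w i = 0)
    (hobt : ∀ i j, i ≠ j → ⟪w i, w j⟫ ≤ 0) (J : Fin m ↪ Fin k) (a : Fin m) :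
    inDeg w J a ≤ ‖w (J a)‖ ^ 2 := by
  have h : ⟪w (J a), ∑ i, w i⟫ = 0 := by rw [hsum, inner_zero_right]
  rw [inner_sum, ← Finset.sum_add_sum_compl (Finset.univ.map J), Finset.sum_map,
    ← Finset.add_sum_erase _ _ (Finset.mem_univ a), real_inner_self_eq_norm_sq] at h
  have hr : ∑ i ∈ (Finset.univ.map J)ᶜ, ⟪w (J a), w i⟫ ≤ 0 :=
    Finset.sum_nonpos fun i hi => hobt _ _ fun hh =>
      Finset.mem_compl.1 hi (hh ▸ Finset.mem_map_of_mem J (Finset.mem_univ a))
  simp only [inDeg, wt, Finset.sum_neg_distrib]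
  linarith

omit [InnerProductSpace ℝ E] in
/-- At most four members are longer than a level: some four contain all of them. -/
lemma exists_four (hm : 4 ≤ m) (w : Fin k → E) (J : Fin m ↪ Fin k) (cs : ℝ)
    (h : (Finset.univ.filter fun a => cs ≤ ‖w (J a)‖ ^ 2).card ≤ 4) :
    ∃ B : Finset (Fin m), B.card = 4 ∧ ∀ x ∉ B, ‖w (J x)‖ ^ 2 ≤ cs := by
  obtain ⟨B, hsub, -, hc⟩ := Finset.exists_subsuperset_card_eq (Finset.subset_univ _) h
    (by simpa using hm)
  refine ⟨B, hc, fun x hx => ?_⟩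
  by_contra! hlt
  exact hx (hsub (Finset.mem_filter.2 ⟨Finset.mem_univ x, hlt.le⟩))

end

/-- The two constants of the dust lemma. -/
lemma dustK_le : dustK 2 ≤ 21165 / 1000000 ∧ dustK 3 ≤ 39684 / 10000000 := by
  have h : (2506627 / 1000000 : ℝ) ≤ √(2 * π) := by
    rw [Real.le_sqrt (by norm_num) (by positivity)]; linarith [pi_gt_d6]
  have h' : (√(2 * π))⁻¹ ^ 3 ≤ (2506627 / 1000000 : ℝ)⁻¹ ^ 3 :=
    pow_le_pow_left₀ (by positivity) (inv_anti₀ (by norm_num) h) 3
  rw [dustK_two, dustK_three]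
  norm_num at h' ⊢
  constructor <;> linarith

/-- A bound by squares of the constants. -/
lemma sq_bound_le {c K K' θ : ℝ} (hc : 0 ≤ c) (hK : 0 ≤ K) (h : K ≤ K') (hθ : 0 ≤ θ) :
    (c * K) ^ 2 * θ ≤ (c * K') ^ 2 * θ := by
  gcongr

variable {k m : ℕ} [NeZero k] {w : Fin k → EuclideanSpace ℝ (Fin (k - 1))}

/-- The quantities of the heaviest edge of a group in a critical family. -/
lemma group_facts {n : ℕ} (hmn : n + 2 = m) (hn : 1 ≤ n) (hw : Crit w) (J : Fin m ↪ Fin k)
    {r N : ℕ} (hN : ∀ x y : Fin n, x ≠ y →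
      ((Finset.univ.powersetCard r).filter fun C => x ∈ C ∧ y ∉ C).card = N)
    {R P T t₂ t₃ : ℝ} (hR : restSq w J ≤ R) (hf : Fails w J P T) (ht : Spread w J t₂ t₃) :
    ∃ μ L W l : ℝ, 0 ≤ μ ∧ 0 ≤ L ∧ 0 ≤ W ∧ l ≤ 2 * μ ∧ l ≤ L ∧ L ≤ 2 * n * μ ∧
      2 * W ≤ n * (n - 1) * μ ∧ 179049 / 1000000 - R ≤ μ + L + W ∧
      2 * N * (μ * W) ≤ (n.choose r) * P ∧
      N * (μ * (L * (L - l) + 2 * L * W)) ≤ (n.choose r) * T ∧
      μ * L * t₃ ≤ μ * (L * (L - l) + 2 * L * W) ∧ μ * l * t₃ ≤ (n - 1) * T ∧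
      t₂ ≤ L + 2 * W ∧
      ∀ (B : Finset (Fin m)) (cs : ℝ), B.card = 4 → (∀ x ∉ B, ‖w (J x)‖ ^ 2 ≤ cs) →
        μ + L + W ≤ 6 * μ + ((m : ℝ) - 4) * cs ∧ (cs < μ → W ≤ μ + ((m : ℝ) - 4) * cs) := by
  classical
  have : NeZero m := ⟨by omega⟩
  set g := fun x y => if x = y then 0 else wt w J x y with hg
  have hne : ∀ {x y}, x ≠ y → g x y = wt w J x y := fun h => if_neg h
  have hdeg : ∀ x, ∑ y, g x y = inDeg w J x := fun x => by
    rw [inDeg, ← Finset.add_sum_erase _ _ (Finset.mem_univ x)]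
    simp only [hg, if_true, zero_add]
    exact Finset.sum_congr rfl fun y hy => if_neg (Finset.ne_of_mem_erase hy).symm
  have hCD : ∀ {C D : Finset (Fin m)}, Disjoint C D →
      ∑ x ∈ C, ∑ y ∈ D, g x y = ∑ x ∈ C, ∑ y ∈ D, wt w J x y := fun h =>
    Finset.sum_congr rfl fun x hx => Finset.sum_congr rfl fun y hy =>
      hne fun he => Finset.disjoint_left.1 h hx (he ▸ hy)
  have hout : ∀ {a b : Fin m} {C D : Finset (Fin m)}, C ∪ D = Finset.univ \ {a, b} →
      ∀ x ∈ C ∪ D, g a x + g b x = wt w J a x + wt w J b x := fun h x hx => by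
    rw [h] at hx
    simp only [Finset.mem_sdiff, Finset.mem_univ, true_and, Finset.mem_insert,
      Finset.mem_singleton, not_or] at hx
    rw [hne (Ne.symm hx.1), hne (Ne.symm hx.2)]
  obtain ⟨μ, L, W, l, h1, h2, h3, h4, h5, h6, h7, hS, h9, h10, h11, h12, h13, h14⟩ :=
    exists_weights hmn hn g (fun x y => by simp only [hg, eq_comm (a := x), wt_comm w J x])
      (fun x => if_pos rfl) (fun x y => by
        by_cases h : x = y
        · simp [hg, h]
        · rw [hne h]; exact wt_nonneg hw.obtuse J h) hN (P := P) (T := T) (t₂ := t₂) (t₃ := t₃)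
      (fun a b C D hab hd hu => by rw [hne hab, hCD hd]; exact hf.pair a b C D hab hd hu)
      (fun a b C D hab hd hu => by
        rw [hne hab, hCD hd, Finset.sum_congr rfl fun x hx =>
          hout hu x (Finset.mem_union_left _ hx), Finset.sum_congr (s₁ := D) rfl fun x hx =>
          hout hu x (Finset.mem_union_right _ hx)]
        exact hf.tri a b C D hab hd hu)
      (fun a b c x hab hac hbc ha hb hc => by
        rw [hne hab, hne hac, hne hbc, hdeg]; exact hf.point a b c x hab hac hbc ha hb hc)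
      (fun a b h => by simp only [hdeg]; exact ht.pair a b h)
      (fun a b c h h' h'' => by simp only [hdeg]; exact ht.triple a b c h h' h'')
  refine ⟨μ, L, W, l, h1, h2, h3, h4, h5, h6, h7, ?_, h9, h10, h11, h12, h13, fun B cs hB hcs =>
    h14 B cs hB fun x hx => by
      rw [hdeg]; exact (inDeg_le_sq hw.sum hw.obtuse J x).trans (hcs x hx)⟩
  have hex : ‖∑ b, w (J b)‖ ^ 2 =
      ∑ a, ‖w (J a)‖ ^ 2 - ∑ x, ∑ y, g x y := by
    rw [← Finset.sum_sub_distrib, ← real_inner_self_eq_norm_sq, sum_inner]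
    refine Finset.sum_congr rfl fun a _ => ?_
    rw [inner_sum, hdeg, inDeg, ← Finset.add_sum_erase _ _ (Finset.mem_univ a),
      real_inner_self_eq_norm_sq]
    simp only [wt, Finset.sum_neg_distrib, sub_neg_eq_add]
  have hc := sq_common_le w hw.sum hw.obtuse J (m := m)
  have hb := hw.big
  rw [← Finset.sum_add_sum_compl (Finset.univ.map J), Finset.sum_map, ← restSq] at hb
  have hF : 358098 / 1000000 ≤ 9 / (8 * π) := by
    rw [le_div_iff₀ (by positivity)]; linarith [pi_lt_d6]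
  linarith

/-- Five long vectors. -/
lemma five_absurd (hw : Crit w) (J : Fin 5 ↪ Fin k) (hR : restSq w J ≤ 13 / 1000)
    (ht : Spread w J (58 / 1000) (35 / 10000))
    (hf : Fails w J ((((5 : ℕ) : ℝ) ^ 2 * dustK 2 / (2 * (2 / 5))) ^ 2 * (22 / 10000))
      ((((5 : ℕ) : ℝ) ^ 3 * dustK 3 / (2 / 5)) ^ 2 * (22 / 10000) ^ 2)) : False := by
  obtain ⟨μ, L, W, l, h1, h2, h3, h4, h5, h6, h7, hS, h9, h10, h11, h12, h13, -⟩ :=
    group_facts (n := 3) (by norm_num) (by norm_num) hw J (r := 1) (N := 1) (by decide) hR hf ht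
  obtain ⟨hK2, hK3⟩ := dustK_le
  have k2 : 0 ≤ dustK 2 := by rw [dustK_two]; positivity
  have k3 : 0 ≤ dustK 3 := by rw [dustK_three]; positivity
  have q2 := sq_bound_le (c := 125 / 4) (θ := 22 / 10000) (by norm_num) k2 hK2 (by norm_num)
  have q3 := sq_bound_le (c := 625 / 2) (θ := (22 / 10000) ^ 2) (by norm_num) k3 hK3 (by norm_num)
  norm_num [Nat.choose] at h6 h7 h9 h10 h12 q2 q3
  exact many_five (W := W) (l := l) h1 h2 h4 h5 (by linarith) (by linarith) (by linarith)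
    (by linarith) (by linarith) (by linarith) (by linarith) h13

/-- Six long vectors. -/
lemma six_absurd (hw : Crit w) (J : Fin 6 ↪ Fin k) (hR : restSq w J ≤ 102 / 10000)
    (ht : Spread w J (66 / 1000) (838 / 100000))
    (hf : Fails w J ((((6 : ℕ) : ℝ) ^ 2 * dustK 2 / (2 * (5 / 12))) ^ 2 * (199 / 100000))
      ((((6 : ℕ) : ℝ) ^ 3 * dustK 3 / (5 / 12)) ^ 2 * (199 / 100000) ^ 2)) : False := by
  obtain ⟨μ, L, W, l, h1, h2, h3, h4, h5, h6, h7, hS, h9, h10, h11, h12, h13, -⟩ :=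
    group_facts (n := 4) (by norm_num) (by norm_num) hw J (r := 2) (N := 2) (by decide) hR hf ht
  obtain ⟨hK2, hK3⟩ := dustK_le
  have k2 : 0 ≤ dustK 2 := by rw [dustK_two]; positivity
  have k3 : 0 ≤ dustK 3 := by rw [dustK_three]; positivity
  have q2 := sq_bound_le (c := 216 / 5) (θ := 199 / 100000) (by norm_num) k2 hK2 (by norm_num)
  have q3 := sq_bound_le (c := 2592 / 5) (θ := (199 / 100000) ^ 2)
    (by norm_num) k3 hK3 (by norm_num)
  norm_num [Nat.choose] at h6 h7 h9 h10 h12 q2 q3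
  exact many_six (l := l) h1 h2 h3 h4 h5 (by linarith) (by linarith) (by linarith) (by linarith)
    (by linarith) (by linarith) h13

/-- Seven long vectors, fewer than four of them very long. -/
lemma seven_absurd (hw : Crit w) (J : Fin 7 ↪ Fin k) (hR : restSq w J ≤ 76 / 10000)
    (h5' : (Finset.univ.filter fun a => 16 / 1000 ≤ ‖w (J a)‖ ^ 2).card ≤ 4)
    (ht : Spread w J (69 / 1000) (124 / 10000))
    (hf : Fails w J ((((7 : ℕ) : ℝ) ^ 2 * dustK 2 / (2 * (58 / 100))) ^ 2 * (20 / 10000))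
      ((((7 : ℕ) : ℝ) ^ 3 * dustK 3 / (58 / 100)) ^ 2 * (20 / 10000) ^ 2)) : False := by
  obtain ⟨μ, L, W, l, h1, h2, h3, h4, h5, h6, h7, hS, h9, h10, h11, h12, h13, hB⟩ :=
    group_facts (n := 5) (by norm_num) (by norm_num) hw J (r := 2) (N := 3) (by decide) hR hf ht
  obtain ⟨B, hc, hcs⟩ := exists_four (by norm_num) w J _ h5'
  obtain ⟨hB1, hB2⟩ := hB B _ hc hcs
  obtain ⟨hK2, hK3⟩ := dustK_le
  have k2 : 0 ≤ dustK 2 := by rw [dustK_two]; positivity
  have k3 : 0 ≤ dustK 3 := by rw [dustK_three]; positivity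
  have q2 := sq_bound_le (c := 1225 / 29) (θ := 20 / 10000) (by norm_num) k2 hK2 (by norm_num)
  have q3 := sq_bound_le (c := 17150 / 29) (θ := (20 / 10000) ^ 2)
    (by norm_num) k3 hK3 (by norm_num)
  norm_num [Nat.choose] at h9 h10 hB1 q2 q3
  exact many_seven (l := l) h1 h2 h3 h4 h5 (by linarith)
    (fun h => by have h' := hB2 h; norm_num at h'; linarith)
    (by linarith) (by linarith) (by linarith) (by linarith) h13

/-- Seven long vectors, four of them very long. -/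
lemma seven_four_absurd (hw : Crit w) (J : Fin 7 ↪ Fin k) (hR : restSq w J ≤ 81 / 10000)
    (h5' : (Finset.univ.filter fun a => 16 / 1000 ≤ ‖w (J a)‖ ^ 2).card ≤ 4)
    (ht : Spread w J (1 / 10) (5 / 100))
    (hf : Fails w J ((((7 : ℕ) : ℝ) ^ 2 * dustK 2 / (2 * (548 / 1000))) ^ 2 * (20 / 10000))
      ((((7 : ℕ) : ℝ) ^ 3 * dustK 3 / (548 / 1000)) ^ 2 * (20 / 10000) ^ 2)) : False := by
  obtain ⟨μ, L, W, l, h1, h2, h3, h4, h5, h6, h7, hS, h9, h10, h11, h12, h13, hB⟩ :=
    group_facts (n := 5) (by norm_num) (by norm_num) hw J (r := 2) (N := 3) (by decide) hR hf ht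
  obtain ⟨B, hc, hcs⟩ := exists_four (by norm_num) w J _ h5'
  obtain ⟨hB1, hB2⟩ := hB B _ hc hcs
  obtain ⟨hK2, hK3⟩ := dustK_le
  have k2 : 0 ≤ dustK 2 := by rw [dustK_two]; positivity
  have k3 : 0 ≤ dustK 3 := by rw [dustK_three]; positivity
  have q2 := sq_bound_le (c := 6125 / 137) (θ := 20 / 10000) (by norm_num) k2 hK2 (by norm_num)
  have q3 := sq_bound_le (c := 85750 / 137) (θ := (20 / 10000) ^ 2) (by norm_num) k3 hK3
    (by norm_num)
  norm_num [Nat.choose] at h9 h10 hB1 q2 q3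
  exact many_seven_four (l := l) h1 h2 h5 (by linarith)
    (fun h => by have h' := hB2 h; norm_num at h'; linarith)
    (by linarith) (by linarith) (by linarith) (by linarith) h13

/-- Eight long vectors. -/
lemma eight_absurd (hw : Crit w) (J : Fin 8 ↪ Fin k) (hR : restSq w J ≤ 62 / 10000)
    (h5' : (Finset.univ.filter fun a => 12 / 1000 ≤ ‖w (J a)‖ ^ 2).card ≤ 4)
    (ht : Spread w J (75 / 1000) (16 / 1000))
    (hf : Fails w J ((((8 : ℕ) : ℝ) ^ 2 * dustK 2 / (2 * (88 / 100))) ^ 2 * (20 / 10000))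
      ((((8 : ℕ) : ℝ) ^ 3 * dustK 3 / (88 / 100)) ^ 2 * (20 / 10000) ^ 2)) : False := by
  obtain ⟨μ, L, W, l, h1, h2, h3, h4, h5, h6, h7, hS, h9, h10, h11, h12, h13, hB⟩ :=
    group_facts (n := 6) (by norm_num) (by norm_num) hw J (r := 3) (N := 6) (by decide +kernel)
      hR hf ht
  obtain ⟨B, hc, hcs⟩ := exists_four (by norm_num) w J _ h5'
  obtain ⟨hB1, -⟩ := hB B _ hc hcs
  obtain ⟨hK2, hK3⟩ := dustK_le
  have k2 : 0 ≤ dustK 2 := by rw [dustK_two]; positivity
  have k3 : 0 ≤ dustK 3 := by rw [dustK_three]; positivity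
  have q2 := sq_bound_le (c := 400 / 11) (θ := 20 / 10000) (by norm_num) k2 hK2 (by norm_num)
  have q3 := sq_bound_le (c := 6400 / 11) (θ := (20 / 10000) ^ 2) (by norm_num) k3 hK3 (by norm_num)
  norm_num [Nat.choose] at h9 h10 hB1 q2 q3
  exact many_eight (l := l) h1 h2 h4 h5 (by linarith) (by linarith) (by linarith) (by linarith)
    (by linarith) h13

end Vale.Agent.P226
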