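import Vale.Agent.P226.Blocks
import Vale.Agent.P226.Graph
import Vale.Agent.P226.ManyCases

/-!
# Weight bounds inside the group when a short vector gains much

If a short vector gains more than `ε` times its squared length over the centred group, products of
weights between blocks of the group are small: the determinants of the merged-block bounds dominate
sums over spanning trees of the quotient graph.
-/

namespace Vale.Agent.P226

open MeasureTheory ProbabilityTheory Real Set Finset Module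
open scoped RealInnerProductSpace

variable {E : Type*} [NormedAddCommGroup E] [InnerProductSpace ℝ E] {k m : ℕ}

/-- The total weight between two blocks of the group. -/
noncomputable def cut (w : Fin k → E) (J : Fin m ↪ Fin k) (C D : Finset (Fin m)) : ℝ :=
  ∑ a ∈ C, ∑ b ∈ D, wt w J a b

lemma cut_comm (w : Fin k → E) (J : Fin m ↪ Fin k) (C D : Finset (Fin m)) :
    cut w J C D = cut w J D C := by
  rw [cut, cut, Finset.sum_comm]
  exact Finset.sum_congr rfl fun a _ => Finset.sum_congr rfl fun b _ => wt_comm w J b a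

lemma cut_nonneg {w : Fin k → E} (hobt : ∀ i j, i ≠ j → ⟪w i, w j⟫ ≤ 0) (J : Fin m ↪ Fin k)
    {C D : Finset (Fin m)} (h : Disjoint C D) : 0 ≤ cut w J C D :=
  Finset.sum_nonneg fun _ ha => Finset.sum_nonneg fun _ hb =>
    wt_nonneg hobt J fun e => Finset.disjoint_left.1 h ha (e ▸ hb)

lemma cut_singleton (w : Fin k → E) (J : Fin m ↪ Fin k) (a b : Fin m) :
    cut w J {a} {b} = wt w J a b := by
  simp [cut]

lemma cut_pair_left (w : Fin k → E) (J : Fin m ↪ Fin k) {a b : Fin m} (h : a ≠ b)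
    (D : Finset (Fin m)) : cut w J {a, b} D = cut w J {a} D + cut w J {b} D := by
  simp [cut, Finset.sum_pair h]

/-- The weights inside the group bound a combination of the centred group and one outside vector. -/
lemma quad_group_le [NeZero m] (w : Fin k → E) (hsum : ∑ i, w i = 0)
    (hobt : ∀ i j, i ≠ j → ⟪w i, w j⟫ ≤ 0) (J : Fin m ↪ Fin k) {i : Fin k}
    (hi : i ∈ (Finset.univ.map J)ᶜ) (x : Fin m → ℝ) (t : ℝ) :
    ∑ a, ∑ b, wt w J a b * (x a - x b) ^ 2 ≤
      2 * ‖∑ b, x b • centred w J b + t • w i‖ ^ 2 := by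
  classical
  set μ := (m : ℝ)⁻¹ * ∑ b, x b with hμ
  set ξ : Fin k → ℝ := fun l =>
    (∑ b, if J b = l then x b - μ else 0) + if i = l then t else 0 with hξ
  have hξJ : ∀ b, ξ (J b) = x b - μ := fun b => by
    simp only [hξ, J.injective.eq_iff, Finset.sum_ite_eq', Finset.mem_univ, if_true]
    rw [if_neg fun h : i = J b =>
      (Finset.mem_compl.1 hi) (h ▸ Finset.mem_map_of_mem J (Finset.mem_univ b)), add_zero]
  have hvec : ∑ l, ξ l • w l = ∑ b, x b • centred w J b + t • w i := by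
    simp only [hξ, add_smul, Finset.sum_add_distrib, Finset.sum_smul, ite_smul, zero_smul,
      Finset.sum_ite_eq, Finset.mem_univ, if_true]
    rw [Finset.sum_comm]
    simp only [Finset.sum_ite_eq, Finset.mem_univ, if_true, centred, sub_smul, smul_sub,
      Finset.sum_sub_distrib, hμ, smul_smul, ← Finset.sum_smul, ← Finset.smul_sum]
    rw [mul_comm, Finset.sum_mul]
  rw [← hvec]
  have hid : 2 * ‖∑ l, ξ l • w l‖ ^ 2 = ∑ l, ∑ l', -⟪w l, w l'⟫ * (ξ l - ξ l') ^ 2 := by
    have z1 : ∀ l, ∑ l', ⟪w l, w l'⟫ = 0 := fun l => by rw [← inner_sum, hsum, inner_zero_right]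
    have z2 : ∀ l', ∑ l, ⟪w l, w l'⟫ = 0 := fun l' => by rw [← sum_inner, hsum, inner_zero_left]
    have e : ∀ l l', -⟪w l, w l'⟫ * (ξ l - ξ l') ^ 2 =
        2 * (ξ l * (ξ l' * ⟪w l, w l'⟫)) - ξ l ^ 2 * ⟪w l, w l'⟫ - ξ l' ^ 2 * ⟪w l, w l'⟫ :=
      fun l l' => by ring
    simp only [e, Finset.sum_sub_distrib, ← Finset.mul_sum, z1, mul_zero, sub_zero]
    rw [Finset.sum_comm (f := fun l l' => ξ l' ^ 2 * ⟪w l, w l'⟫)]
    simp only [← Finset.mul_sum, z2, mul_zero, Finset.sum_const_zero, sub_zero,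
      ← real_inner_self_eq_norm_sq, sum_inner, inner_sum, real_inner_smul_left,
      real_inner_smul_right]
    simp only [Finset.mul_sum, real_inner_comm]
  have hnn : ∀ l l', 0 ≤ -⟪w l, w l'⟫ * (ξ l - ξ l') ^ 2 := fun l l' => by
    rcases eq_or_ne l l' with rfl | hlm
    · simp
    · exact mul_nonneg (neg_nonneg.2 (hobt l l' hlm)) (sq_nonneg _)
  rw [hid]
  refine le_trans ?_ (Finset.sum_le_univ_sum_of_nonneg (s := Finset.univ.map J)
    fun l => Finset.sum_nonneg fun l' _ => hnn l l')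
  rw [Finset.sum_map]
  refine Finset.sum_le_sum fun a _ => le_trans ?_
    (Finset.sum_le_univ_sum_of_nonneg (s := Finset.univ.map J) fun l' => hnn _ l')
  rw [Finset.sum_map]
  simp [hξJ, wt]

/-- The fibre of a labelling. -/
def fib (f : Fin m → Fin 4) (r : Fin 4) : Finset (Fin m) := Finset.univ.filter fun x => f x = r

lemma fib_disjoint (f : Fin m → Fin 4) {r s : Fin 4} (h : r ≠ s) :
    Disjoint (fib f r) (fib f s) :=
  Finset.disjoint_filter.2 fun _ _ hx hx' => h (hx.symm.trans hx')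

/-- The quotient graph on four blocks bounds a combination that is constant on the blocks. -/
lemma quad_fib_le [NeZero m] (w : Fin k → E) (hsum : ∑ i, w i = 0)
    (hobt : ∀ i j, i ≠ j → ⟪w i, w j⟫ ≤ 0) (J : Fin m ↪ Fin k) {i : Fin k}
    (hi : i ∈ (Finset.univ.map J)ᶜ) (f : Fin m → Fin 4) (z : Fin 4 → ℝ) (t : ℝ) :
    quadFour (cut w J (fib f 0) (fib f 1)) (cut w J (fib f 0) (fib f 2))
      (cut w J (fib f 1) (fib f 2)) (cut w J (fib f 0) (fib f 3)) (cut w J (fib f 1) (fib f 3))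
      (cut w J (fib f 2) (fib f 3)) z ≤
      ‖∑ r, z r • (∑ x ∈ fib f r, centred w J x) + t • w i‖ ^ 2 := by
  have h := quad_group_le w hsum hobt J hi (fun x => z (f x)) t
  have e1 : ∑ x, z (f x) • centred w J x = ∑ r, z r • ∑ x ∈ fib f r, centred w J x := by
    rw [← Finset.sum_fiberwise Finset.univ f fun x => z (f x) • centred w J x]
    refine Finset.sum_congr rfl fun r _ => ?_
    rw [Finset.smul_sum]
    exact Finset.sum_congr rfl fun x hx => by rw [(Finset.mem_filter.1 hx).2]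
  have e2 : ∑ a, ∑ b, wt w J a b * (z (f a) - z (f b)) ^ 2 =
      ∑ r, ∑ s, cut w J (fib f r) (fib f s) * (z r - z s) ^ 2 := by
    rw [← Finset.sum_fiberwise Finset.univ f
      fun a => ∑ b, wt w J a b * (z (f a) - z (f b)) ^ 2]
    refine Finset.sum_congr rfl fun r _ => ?_
    simp only [cut, Finset.sum_mul]
    rw [Finset.sum_comm (t := fib f r)]
    refine Finset.sum_congr rfl fun a ha => ?_
    rw [(Finset.mem_filter.1 ha).2, ← Finset.sum_fiberwise Finset.univ f
      fun b => wt w J a b * (z r - z (f b)) ^ 2]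
    refine Finset.sum_congr rfl fun s _ => ?_
    exact Finset.sum_congr rfl fun b hb => by rw [(Finset.mem_filter.1 hb).2]
  rw [e1, e2] at h
  simp only [Fin.sum_univ_four, cut_comm w J (fib f 1) (fib f 0),
    cut_comm w J (fib f 2) (fib f 0), cut_comm w J (fib f 2) (fib f 1),
    cut_comm w J (fib f 3) (fib f 0), cut_comm w J (fib f 3) (fib f 1),
    cut_comm w J (fib f 3) (fib f 2)] at h ⊢
  rw [quadFour]
  linarith

/-- A large gain against a bound through a determinant makes the determinant small. -/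
lemma det_le_of_gain {G ε n c D : ℝ} (hε : 0 < ε) (hn : 0 < n) (hD : 0 < D) (h : ε * n < G)
    (hG : G ≤ c * n / √D) : D ≤ (c / ε) ^ 2 := by
  have hs := sqrt_pos.2 hD
  have h1 := (le_div_iff₀ hs).1 (h.le.trans hG)
  have h2 : √D ≤ c / ε := (le_div_iff₀ hε).2 (le_of_mul_le_mul_right (by linarith) hn)
  exact (sq_sqrt hD.le).symm.le.trans (pow_le_pow_left₀ hs.le h2 2)

/-- The labelling by two singletons, one block and the remaining vertices. -/
def labels (a b : Fin m) (C : Finset (Fin m)) (x : Fin m) : Fin 4 :=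
  if x = a then 0 else if x = b then 1 else if x ∈ C then 2 else 3

lemma fib_labels {a b : Fin m} (hab : a ≠ b) {C : Finset (Fin m)} (ha : a ∉ C) (hb : b ∉ C) :
    fib (labels a b C) 0 = {a} ∧ fib (labels a b C) 1 = {b} ∧ fib (labels a b C) 2 = C ∧
      fib (labels a b C) 3 = Finset.univ \ ({a, b} ∪ C) := by
  refine ⟨?_, ?_, ?_, ?_⟩ <;> ext x <;> rw [fib, Finset.mem_filter] <;>
    by_cases h1 : x = a <;> by_cases h2 : x = b <;> by_cases h3 : x ∈ C <;> simp_all [labels]

section gain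

variable [FiniteDimensional ℝ E] [MeasurableSpace E] [BorelSpace E] [NeZero m] {w : Fin k → E}
  {J : Fin m ↪ Fin k} {i : Fin k} {ε θ : ℝ}

/-- Three merged blocks: the spanning trees of the quotient are few. -/
lemma blocks_fail (hsum : ∑ i, w i = 0) (hobt : ∀ i j, i ≠ j → ⟪w i, w j⟫ ≤ 0)
    (hi : i ∈ (Finset.univ.map J)ᶜ) (hε : 0 < ε) (hv : w i ≠ 0) (hn : ‖w i‖ ^ 2 ≤ θ)
    (hfail : ¬ gain (centred w J) (w i) ≤ ε * ‖w i‖ ^ 2) (f : Fin m → Fin 4)
    {X p q r s Y L : ℝ} (hX : cut w J (fib f 0) (fib f 1) = X)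
    (hp : cut w J (fib f 0) (fib f 2) = p) (hq : cut w J (fib f 1) (fib f 2) = q)
    (hr : cut w J (fib f 0) (fib f 3) = r) (hs : cut w J (fib f 1) (fib f 3) = s)
    (hY : cut w J (fib f 2) (fib f 3) = Y) (ha : 0 < X + p + r)
    (hac : 0 < (X + p + r) * (X + q + s) - X ^ 2) (hL : 0 < L)
    (hdet : L ≤ (X + p + r) * (X + q + s) * (p + q + Y) - (X + p + r) * q ^ 2 -
      X ^ 2 * (p + q + Y) - 2 * X * p * q - p ^ 2 * (X + q + s)) :
    L ≤ ((m : ℝ) ^ 3 * dustK 3 / ε) ^ 2 * θ ^ 2 := by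
  have hG := gain_le_block (centred w J) (sum_centred w J) (fun r => fib f r.castSucc)
    (fun r s h => fib_disjoint f (mt (Fin.castSucc_inj).1 h)) (w i) hv (b := -X) (d := -p) (f := -q)
    (c := X + q + s) (g := p + q + Y) ha (by linarith) hL (by linarith) fun t x y z => by
      have h := quad_fib_le w hsum hobt J hi f ![x, y, z, 0] t
      rw [hX, hp, hq, hr, hs, hY] at h
      simp [quadFour, Fin.sum_univ_four] at h
      simp only [Fin.castSucc_zero, show Fin.castSucc (1 : Fin 3) = (1 : Fin 4) from rfl,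
        show Fin.castSucc (2 : Fin 3) = (2 : Fin 4) from rfl]
      rw [show t • w i + x • (∑ x ∈ fib f 0, centred w J x) + y • (∑ x ∈ fib f 1, centred w J x) +
          z • (∑ x ∈ fib f 2, centred w J x) = x • (∑ x ∈ fib f 0, centred w J x) +
          y • (∑ x ∈ fib f 1, centred w J x) + z • (∑ x ∈ fib f 2, centred w J x) + t • w i by abel]
      linarith
  have hn0 : 0 < ‖w i‖ ^ 2 := by positivity
  have h := det_le_of_gain (c := dustK 3 * (m : ℝ) ^ 3 * ‖w i‖ ^ 2) hε hn0 hL (not_le.1 hfail)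
    (hG.trans_eq (by ring))
  refine h.trans ?_
  rw [mul_comm (dustK 3), mul_div_right_comm, mul_pow]
  gcongr

/-- A pair and two blocks made of all the others. -/
theorem pair_fail (hE : 4 ≤ finrank ℝ E) (hsum : ∑ i, w i = 0)
    (hobt : ∀ i j, i ≠ j → ⟪w i, w j⟫ ≤ 0)
    (hi : i ∈ (Finset.univ.map J)ᶜ) (hε : 0 < ε) (hv : w i ≠ 0) (hn : ‖w i‖ ^ 2 ≤ θ)
    (hfail : ¬ gain (centred w J) (w i) ≤ ε * ‖w i‖ ^ 2) {a b : Fin m} (hab : a ≠ b)
    {C D : Finset (Fin m)} (hCD : Disjoint C D) (huniv : C ∪ D = Finset.univ \ {a, b}) :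
    wt w J a b * cut w J C D ≤ ((m : ℝ) ^ 2 * dustK 2 / (2 * ε)) ^ 2 * θ := by
  have hn0 : 0 < ‖w i‖ ^ 2 := by positivity
  have hθ : 0 ≤ θ := hn0.le.trans hn
  rcases (wt_nonneg hobt J hab).eq_or_lt with hA | hA
  · rw [← hA, zero_mul]; positivity
  rcases (cut_nonneg hobt J hCD).eq_or_lt with hB | hB
  · rw [← hB, mul_zero]; positivity
  have hC : a ∉ C ∧ b ∉ C := by
    constructor <;> intro h <;>
      · have h' := Finset.mem_union_left D h
        rw [huniv] at h'
        simp at h'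
  have hD : D = Finset.univ \ ({a, b} ∪ C) := by
    ext y
    have h1 := Finset.ext_iff.1 huniv y
    have h2 : y ∈ C → y ∉ D := fun h => Finset.disjoint_left.1 hCD h
    simp only [Finset.mem_union, Finset.mem_sdiff, Finset.mem_univ, true_and] at h1 ⊢
    tauto
  obtain ⟨h0, h1, h2, h3⟩ := fib_labels hab hC.1 hC.2
  rw [← hD] at h3
  have hG := gain_le_pair_block hE (centred w J) (sum_centred w J) hab C D hCD huniv (w i) hv hA hB
    fun x z p t => by
      have h := quad_fib_le w hsum hobt J hi (labels a b C) ![x + p, p, z, 0] t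
      simp [quadFour, Fin.sum_univ_four, h0, h1, h2, h3, cut_singleton] at h
      rw [show x • centred w J a + z • (∑ i ∈ C, centred w J i) +
          p • (centred w J a + centred w J b) + t • w i = (x + p) • centred w J a +
          p • centred w J b + z • (∑ i ∈ C, centred w J i) + t • w i by module]
      have n1 : ∀ u : Fin m, u ∉ C → 0 ≤ cut w J {u} C := fun u hu =>
        cut_nonneg hobt J (Finset.disjoint_singleton_left.2 hu)
      have n2 : ∀ u : Fin m, u ∉ D → 0 ≤ cut w J {u} D := fun u hu =>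
        cut_nonneg hobt J (Finset.disjoint_singleton_left.2 hu)
      nlinarith [mul_nonneg (n1 a hC.1) (sq_nonneg (x + p - z)),
        mul_nonneg (n1 b hC.2) (sq_nonneg (p - z)),
        mul_nonneg (n2 a (by simp [hD])) (sq_nonneg (x + p)),
        mul_nonneg (n2 b (by simp [hD])) (sq_nonneg p)]
  have h := det_le_of_gain (c := (m : ℝ) ^ 2 / 2 * dustK 2 * ‖w i‖) hε hn0 (mul_pos hA hB)
    (not_le.1 hfail) (hG.trans_eq (by ring))
  refine h.trans ?_
  rw [show ((m : ℝ) ^ 2 / 2 * dustK 2 * ‖w i‖ / ε) ^ 2 =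
    ((m : ℝ) ^ 2 * dustK 2 / (2 * ε)) ^ 2 * ‖w i‖ ^ 2 by ring]
  gcongr

/-- A pair, one block and the remaining vertices: trees through the pair. -/
theorem tri_fail (hsum : ∑ i, w i = 0) (hobt : ∀ i j, i ≠ j → ⟪w i, w j⟫ ≤ 0)
    (hi : i ∈ (Finset.univ.map J)ᶜ) (hε : 0 < ε) (hv : w i ≠ 0) (hn : ‖w i‖ ^ 2 ≤ θ)
    (hfail : ¬ gain (centred w J) (w i) ≤ ε * ‖w i‖ ^ 2) {a b : Fin m} (hab : a ≠ b)
    {C D : Finset (Fin m)} (hCD : Disjoint C D) (huniv : C ∪ D = Finset.univ \ {a, b}) :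
    wt w J a b * (cut w J {a, b} C * cut w J {a, b} D +
      (cut w J {a, b} C + cut w J {a, b} D) * cut w J C D) ≤
      ((m : ℝ) ^ 3 * dustK 3 / ε) ^ 2 * θ ^ 2 := by
  have hC : a ∉ C ∧ b ∉ C := by
    constructor <;> intro h <;>
      · have h' := Finset.mem_union_left D h
        rw [huniv] at h'
        simp at h'
  have hD : D = Finset.univ \ ({a, b} ∪ C) := by
    ext y
    have h1 := Finset.ext_iff.1 huniv y
    have h2 : y ∈ C → y ∉ D := fun h => Finset.disjoint_left.1 hCD h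
    simp only [Finset.mem_union, Finset.mem_sdiff, Finset.mem_univ, true_and] at h1 ⊢
    tauto
  obtain ⟨h0, h1, h2, h3⟩ := fib_labels hab hC.1 hC.2
  rw [← hD] at h3
  rw [cut_pair_left w J hab, cut_pair_left w J hab]
  have X0 := wt_nonneg hobt J hab
  have p0 : 0 ≤ cut w J {a} C := cut_nonneg hobt J (Finset.disjoint_singleton_left.2 hC.1)
  have q0 : 0 ≤ cut w J {b} C := cut_nonneg hobt J (Finset.disjoint_singleton_left.2 hC.2)
  have r0 : 0 ≤ cut w J {a} D := cut_nonneg hobt J (by simp [hD])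
  have s0 : 0 ≤ cut w J {b} D := cut_nonneg hobt J (by simp [hD])
  have Y0 := cut_nonneg hobt J hCD
  set X := wt w J a b
  set p := cut w J {a} C
  set q := cut w J {b} C
  set r := cut w J {a} D
  set s := cut w J {b} D
  set Y := cut w J C D
  rcases lt_or_ge 0 (X * ((p + q) * (r + s) + (p + q + (r + s)) * Y)) with hL | hL
  swap
  · exact hL.trans (by positivity)
  have hX : 0 < X := X0.lt_of_ne fun h => by rw [← h, zero_mul] at hL; exact lt_irrefl 0 hL
  have hS : 0 < p + q + (r + s) := by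
    by_contra! h
    have : p + q = 0 ∧ r + s = 0 := ⟨by linarith, by linarith⟩
    rw [this.1, this.2] at hL
    simp at hL
  refine blocks_fail hsum hobt hi hε hv hn hfail (labels a b C) (X := X) (p := p) (q := q) (r := r)
    (s := s) (Y := Y) (by rw [h0, h1, cut_singleton]) (by rw [h0, h2]) (by rw [h1, h2])
    (by rw [h0, h3]) (by rw [h1, h3]) (by rw [h2, h3]) (by linarith) ?_ hL ?_
  · nlinarith [mul_pos hX hS, mul_nonneg (add_nonneg p0 r0) (add_nonneg q0 s0)]
  · have : 0 ≤ p * r * s + p * s * Y + q * r * s + q * r * Y + r * s * Y + p * q * (r + s) +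
        p * q * Y := by positivity
    linarith

/-- Trees of a triangle times the degree of a further vertex. -/
theorem point_fail (hsum : ∑ i, w i = 0) (hobt : ∀ i j, i ≠ j → ⟪w i, w j⟫ ≤ 0)
    (hi : i ∈ (Finset.univ.map J)ᶜ) (hε : 0 < ε) (hv : w i ≠ 0) (hn : ‖w i‖ ^ 2 ≤ θ)
    (hfail : ¬ gain (centred w J) (w i) ≤ ε * ‖w i‖ ^ 2) {a b c x : Fin m} (hab : a ≠ b)
    (hac : a ≠ c) (hbc : b ≠ c) (hax : a ≠ x) (hbx : b ≠ x) (hcx : c ≠ x) :
    (wt w J a b * wt w J a c + wt w J a b * wt w J b c + wt w J a c * wt w J b c) *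
      inDeg w J x ≤ ((m : ℝ) ^ 3 * dustK 3 / ε) ^ 2 * θ ^ 2 := by
  obtain ⟨h0, h1, h2, h3⟩ :=
    fib_labels hab (C := {x}) (by simp [hax]) (by simp [hbx])
  set R := Finset.univ \ (({a, b} : Finset (Fin m)) ∪ {x}) with hR
  have hcR : c ∈ R := by simp [hR, hac.symm, hbc.symm, hcx]
  have hdeg : inDeg w J x = wt w J a x + wt w J b x + cut w J {x} R := by
    have he : Finset.univ.erase x = {a, b} ∪ R := by
      ext y; by_cases hy : y = x <;> simp [hR, hy, hax.symm, hbx.symm]
      tauto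
    rw [inDeg, he, Finset.sum_union (Finset.disjoint_left.2 fun y hy => by
      simp only [hR, Finset.mem_sdiff, Finset.mem_union, not_and, not_not]
      exact fun _ => Or.inl hy), Finset.sum_pair hab, cut, Finset.sum_singleton,
      wt_comm w J x a, wt_comm w J x b]
  have hr : ∀ u, u ∉ R → wt w J u c ≤ cut w J {u} R := fun u hu => by
    rw [cut, Finset.sum_singleton]
    exact Finset.single_le_sum (fun y hy => wt_nonneg hobt J fun e : u = y => hu (e ▸ hy)) hcR
  have X0 := wt_nonneg hobt J hab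
  have p0 := wt_nonneg hobt J hax
  have q0 := wt_nonneg hobt J hbx
  have ar := hr a (by simp [hR])
  have bs := hr b (by simp [hR])
  have hc0 := wt_nonneg hobt J hac
  have hd0 := wt_nonneg hobt J hbc
  have Y0 : 0 ≤ cut w J {x} R := cut_nonneg hobt J (by simp [hR])
  rw [hdeg]
  set X := wt w J a b
  set r' := wt w J a c
  set s' := wt w J b c
  set p := wt w J a x
  set q := wt w J b x
  set r := cut w J {a} R
  set s := cut w J {b} R
  set Y := cut w J {x} R
  have r0 : 0 ≤ r := hc0.trans ar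
  have s0 : 0 ≤ s := hd0.trans bs
  rcases lt_or_ge 0 ((X * r' + X * s' + r' * s') * (p + q + Y)) with hL | hL
  swap
  · exact hL.trans (by positivity)
  have hτ : (X * r' + X * s' + r' * s') ≤ X * r + X * s + r * s := by gcongr
  have hτ0 : 0 < X * r' + X * s' + r' * s' := (pos_iff_pos_of_mul_pos hL).2 (by
    rcases (add_nonneg (add_nonneg p0 q0) Y0).eq_or_lt with h | h
    · rw [← h, mul_zero] at hL; exact absurd hL (lt_irrefl 0)
    · exact h)
  refine le_trans (mul_le_mul_of_nonneg_right hτ (by positivity)) ?_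
  refine blocks_fail hsum hobt hi hε hv hn hfail (labels a b {x}) (X := X) (p := p) (q := q)
    (r := r) (s := s) (Y := Y) (by rw [h0, h1, cut_singleton]) (by rw [h0, h2, cut_singleton])
    (by rw [h1, h2, cut_singleton]) (by rw [h0, h3]) (by rw [h1, h3]) (by rw [h2, h3]) ?_ ?_
    (lt_of_lt_of_le hL (mul_le_mul_of_nonneg_right hτ (by positivity))) ?_
  · rcases (add_nonneg X0 r0).eq_or_lt with h | h
    · exfalso
      have : X = 0 ∧ r = 0 := ⟨by linarith, by linarith⟩
      have hr' : r' = 0 := le_antisymm (ar.trans_eq this.2) hc0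
      rw [this.1, hr'] at hτ0
      simp at hτ0
    · linarith
  · nlinarith [mul_nonneg X0 p0, mul_nonneg X0 q0, mul_nonneg p0 s0, mul_nonneg r0 q0,
      mul_nonneg p0 q0]
  · have : 0 ≤ p * q * (r + s + Y) + p * Y * (X + s) + q * Y * (X + r) := by positivity
    linarith

end gain

/-- The weights from any members to the outside are at most the energy outside. -/
theorem rest_edges (w : Fin k → E) (hsum : ∑ i, w i = 0)
    (hobt : ∀ i j, i ≠ j → ⟪w i, w j⟫ ≤ 0) (J : Fin m ↪ Fin k) (O : Finset (Fin m)) :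
    0 ≤ ∑ x ∈ O, (‖w (J x)‖ ^ 2 - inDeg w J x) ∧
      ∑ x ∈ O, (‖w (J x)‖ ^ 2 - inDeg w J x) ≤ restSq w J := by
  classical
  set T := (Finset.univ.map J)ᶜ with hT
  have e : ∀ x, ‖w (J x)‖ ^ 2 - inDeg w J x = ∑ l ∈ T, -⟪w (J x), w l⟫ := fun x => by
    have h : ∑ l, ⟪w (J x), w l⟫ = 0 := by rw [← inner_sum, hsum, inner_zero_right]
    rw [← Finset.sum_add_sum_compl (Finset.univ.map J), Finset.sum_map,
      ← Finset.add_sum_erase _ _ (Finset.mem_univ x), real_inner_self_eq_norm_sq] at h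
    simp only [inDeg, wt, Finset.sum_neg_distrib]
    linarith
  have hnn : ∀ x, 0 ≤ ∑ l ∈ T, -⟪w (J x), w l⟫ := fun x =>
    Finset.sum_nonneg fun l hl => neg_nonneg.2 (hobt _ _ fun h =>
      Finset.mem_compl.1 hl (h ▸ Finset.mem_map_of_mem J (Finset.mem_univ x)))
  simp only [e]
  refine ⟨Finset.sum_nonneg fun x _ => hnn x,
    (Finset.sum_le_univ_sum_of_nonneg hnn).trans ?_⟩
  rw [Finset.sum_comm, restSq]
  refine Finset.sum_le_sum fun l hl => ?_
  have h : ∑ x, w (J x) = -∑ l ∈ T, w l := by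
    rw [← Finset.sum_add_sum_compl (Finset.univ.map J), Finset.sum_map] at hsum
    exact eq_neg_of_add_eq_zero_left hsum
  rw [Finset.sum_neg_distrib, ← sum_inner, h, inner_neg_left, neg_neg, sum_inner,
    ← Finset.add_sum_erase _ _ hl, real_inner_self_eq_norm_sq]
  exact add_le_of_nonpos_right
    (Finset.sum_nonpos fun j hj => hobt j l (Finset.ne_of_mem_erase hj))

/-- A gain of more than `ε` times the squared length makes the blocks around every edge light. -/
theorem fails_of_not_gain [NeZero k] [NeZero m] {w : Fin k → EuclideanSpace ℝ (Fin (k - 1))} (hw : Crit w)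
    {J : Fin m ↪ Fin k} {i : Fin k} (hi : i ∈ (Finset.univ.map J)ᶜ) {ε θ : ℝ}
    (hn : ‖w i‖ ^ 2 ≤ θ) (hε : 0 < ε)
    (hfail : ¬ gain (centred w J) (w i) ≤ ε * ‖w i‖ ^ 2) (hm : 5 ≤ m) (hmk : m < k) :
    Fails w J (((m : ℝ) ^ 2 * dustK 2 / (2 * ε)) ^ 2 * θ)
      (((m : ℝ) ^ 3 * dustK 3 / ε) ^ 2 * θ ^ 2) := by
  have hE : 4 ≤ finrank ℝ (EuclideanSpace ℝ (Fin (k - 1))) := by
    rw [finrank_euclideanSpace_fin]; omega
  refine ⟨fun a b C D hab hCD hu => ?_, fun a b C D hab hCD hu => ?_,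
    fun a b c x hab hac hbc hxa hxb hxc => point_fail hw.sum hw.obtuse hi hε (hw.ne i) hn hfail
      hab hac hbc hxa.symm hxb.symm hxc.symm⟩
  · exact pair_fail hE hw.sum hw.obtuse hi hε (hw.ne i) hn hfail hab hCD hu
  · have h := tri_fail hw.sum hw.obtuse hi hε (hw.ne i) hn hfail hab hCD hu
    simp only [cut, Finset.sum_pair hab] at h
    simpa only [Finset.sum_add_distrib] using h

end Vale.Agent.P226
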