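import Vale.Agent.P226.CapLines

/-!
# Rational lines for the cap certificates

Generated by an exact search; every line is checked against the cap bound here.
-/

namespace Vale.Agent.P226

open MeasureTheory ProbabilityTheory Real Set
open scoped RealInnerProductSpace

variable {E : Type*} [NormedAddCommGroup E] [InnerProductSpace ℝ E] [FiniteDimensional ℝ E]
  [MeasurableSpace E] [BorelSpace E]

/-- Lines for 5 cells. -/
def lines5 : List (ℚ × ℚ) :=
  [((357 / 100000), (106029 / 25000)),
   ((893 / 100000), (40291 / 10000)),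
   ((349 / 20000), (47713 / 12500)),
   ((2953 / 100000), (180249 / 50000)),
   ((4551 / 100000), (339293 / 100000)),
   ((6571 / 100000), (318087 / 100000)),
   ((9039 / 100000), (296881 / 100000)),
   ((11979 / 100000), (11027 / 4000)),
   ((1541 / 10000), (25447 / 10000)),
   ((19353 / 100000), (14579 / 6250)),
   ((1489 / 6250), (106029 / 50000)),
   ((7209 / 25000), (47713 / 25000)),
   ((6881 / 20000), (169647 / 100000)),
   ((2027 / 5000), (148441 / 100000)),
   ((11813 / 25000), (25447 / 20000)),
   ((13637 / 25000), (106029 / 100000)),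
   ((15609 / 25000), (10603 / 12500)),
   ((35461 / 50000), (31809 / 50000)),
   ((80009 / 100000), (10603 / 25000)),
   ((89701 / 100000), (10603 / 50000)),
   ((1), (0))]

theorem lines5_valid (hn : Module.finrank ℝ E = 4) {X : Set E} (hX : IsCone X) (hm : MeasurableSet X) :
    ∀ l ∈ lines5, √(2 * π) * ‖mom X‖ ≤ (l.1 : ℝ) + (l.2 : ℝ) * (stdGaussian E).real X := by
  have hlo := pi_gt_d6
  have hhi := pi_lt_d6
  simp only [lines5, List.forall_mem_cons, List.not_mem_nil, false_implies, implies_true, and_true]
  refine ⟨?_, ?_, ?_, ?_, ?_, ?_, ?_, ?_, ?_, ?_, ?_, ?_, ?_, ?_, ?_, ?_, ?_, ?_, ?_, ?_, ?_⟩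
  · refine cap_line hn (by norm_num) hX hm (s := (9 / 10)) (q := (43589 / 100000)) (G := (1512091 / 2000000)) (by norm_num) (by norm_num)
      (by norm_num) (by norm_num) ?_ ?_ ?_
    · have h1 : arcsin (9 / 10) ≤ (111979 / 100000) := arcsin_le_seven (by norm_num) (by norm_num) (by norm_num)
      have h2 : √(1 - (9 / 10) ^ 2) ≤ (43589 / 100000) := sqrt_le_iff.2 ⟨by norm_num, by norm_num⟩
      norm_num [capPrim] at h1 h2 ⊢ <;> linarith
    · norm_num [capPrim, arcsin_one] <;> linarith
    · norm_num [capPrim, arcsin_one] <;> linarith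
  · refine cap_line hn (by norm_num) hX hm (s := (171 / 200)) (q := (129657 / 250000)) (G := (73449347 / 100000000)) (by norm_num) (by norm_num)
      (by norm_num) (by norm_num) ?_ ?_ ?_
    · have h1 : arcsin (171 / 200) ≤ (25639 / 25000) := arcsin_le_seven (by norm_num) (by norm_num) (by norm_num)
      have h2 : √(1 - (171 / 200) ^ 2) ≤ (129657 / 250000) := sqrt_le_iff.2 ⟨by norm_num, by norm_num⟩
      norm_num [capPrim] at h1 h2 ⊢ <;> linarith
    · norm_num [capPrim, arcsin_one] <;> linarith
    · norm_num [capPrim, arcsin_one] <;> linarith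
  · refine cap_line hn (by norm_num) hX hm (s := (81 / 100)) (q := (58643 / 100000)) (G := (14191683 / 20000000)) (by norm_num) (by norm_num)
      (by norm_num) (by norm_num) ?_ ?_ ?_
    · have h1 : arcsin (81 / 100) ≤ (5901 / 6250) := arcsin_le_seven (by norm_num) (by norm_num) (by norm_num)
      have h2 : √(1 - (81 / 100) ^ 2) ≤ (58643 / 100000) := sqrt_le_iff.2 ⟨by norm_num, by norm_num⟩
      norm_num [capPrim] at h1 h2 ⊢ <;> linarith
    · norm_num [capPrim, arcsin_one] <;> linarith
    · norm_num [capPrim, arcsin_one] <;> linarith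
  · refine cap_line hn (by norm_num) hX hm (s := (153 / 200)) (q := (644031 / 1000000)) (G := (272746743 / 400000000)) (by norm_num) (by norm_num)
      (by norm_num) (by norm_num) ?_ ?_ ?_
    · have h1 : arcsin (153 / 200) ≤ (17421 / 20000) := arcsin_le_seven (by norm_num) (by norm_num) (by norm_num)
      have h2 : √(1 - (153 / 200) ^ 2) ≤ (644031 / 1000000) := sqrt_le_iff.2 ⟨by norm_num, by norm_num⟩
      norm_num [capPrim] at h1 h2 ⊢ <;> linarith
    · norm_num [capPrim, arcsin_one] <;> linarith
    · norm_num [capPrim, arcsin_one] <;> linarith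
  · refine cap_line hn (by norm_num) hX hm (s := (18 / 25)) (q := (27759 / 40000)) (G := (81467 / 125000)) (by norm_num) (by norm_num)
      (by norm_num) (by norm_num) ?_ ?_ ?_
    · have h1 : arcsin (18 / 25) ≤ (80381 / 100000) := arcsin_le_seven (by norm_num) (by norm_num) (by norm_num)
      have h2 : √(1 - (18 / 25) ^ 2) ≤ (27759 / 40000) := sqrt_le_iff.2 ⟨by norm_num, by norm_num⟩
      norm_num [capPrim] at h1 h2 ⊢ <;> linarith
    · norm_num [capPrim, arcsin_one] <;> linarith
    · norm_num [capPrim, arcsin_one] <;> linarith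
  · refine cap_line hn (by norm_num) hX hm (s := (27 / 40)) (q := (368909 / 500000)) (G := (24779943 / 40000000)) (by norm_num) (by norm_num)
      (by norm_num) (by norm_num) ?_ ?_ ?_
    · have h1 : arcsin (27 / 40) ≤ (74097 / 100000) := arcsin_le_seven (by norm_num) (by norm_num) (by norm_num)
      have h2 : √(1 - (27 / 40) ^ 2) ≤ (368909 / 500000) := sqrt_le_iff.2 ⟨by norm_num, by norm_num⟩
      norm_num [capPrim] at h1 h2 ⊢ <;> linarith
    · norm_num [capPrim, arcsin_one] <;> linarith
    · norm_num [capPrim, arcsin_one] <;> linarith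
  · refine cap_line hn (by norm_num) hX hm (s := (63 / 100)) (q := (194149 / 250000)) (G := (29270387 / 50000000)) (by norm_num) (by norm_num)
      (by norm_num) (by norm_num) ?_ ?_ ?_
    · have h1 : arcsin (63 / 100) ≤ (17039 / 25000) := arcsin_le_seven (by norm_num) (by norm_num) (by norm_num)
      have h2 : √(1 - (63 / 100) ^ 2) ≤ (194149 / 250000) := sqrt_le_iff.2 ⟨by norm_num, by norm_num⟩
      norm_num [capPrim] at h1 h2 ⊢ <;> linarith
    · norm_num [capPrim, arcsin_one] <;> linarith
    · norm_num [capPrim, arcsin_one] <;> linarith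
  · refine cap_line hn (by norm_num) hX hm (s := (117 / 200)) (q := (405517 / 500000)) (G := (109934489 / 200000000)) (by norm_num) (by norm_num)
      (by norm_num) (by norm_num) ?_ ?_ ?_
    · have h1 : arcsin (117 / 200) ≤ (62489 / 100000) := arcsin_le_seven (by norm_num) (by norm_num) (by norm_num)
      have h2 : √(1 - (117 / 200) ^ 2) ≤ (405517 / 500000) := sqrt_le_iff.2 ⟨by norm_num, by norm_num⟩
      norm_num [capPrim] at h1 h2 ⊢ <;> linarith
    · norm_num [capPrim, arcsin_one] <;> linarith
    · norm_num [capPrim, arcsin_one] <;> linarith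
  · refine cap_line hn (by norm_num) hX hm (s := (27 / 50)) (q := (420833 / 500000)) (G := (25623491 / 50000000)) (by norm_num) (by norm_num)
      (by norm_num) (by norm_num) ?_ ?_ ?_
    · have h1 : arcsin (27 / 50) ≤ (14261 / 25000) := arcsin_le_seven (by norm_num) (by norm_num) (by norm_num)
      have h2 : √(1 - (27 / 50) ^ 2) ≤ (420833 / 500000) := sqrt_le_iff.2 ⟨by norm_num, by norm_num⟩
      norm_num [capPrim] at h1 h2 ⊢ <;> linarith
    · norm_num [capPrim, arcsin_one] <;> linarith
    · norm_num [capPrim, arcsin_one] <;> linarith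
  · refine cap_line hn (by norm_num) hX hm (s := (99 / 200)) (q := (868893 / 1000000)) (G := (189588407 / 400000000)) (by norm_num) (by norm_num)
      (by norm_num) (by norm_num) ?_ ?_ ?_
    · have h1 : arcsin (99 / 200) ≤ (6473 / 12500) := arcsin_le_seven (by norm_num) (by norm_num) (by norm_num)
      have h2 : √(1 - (99 / 200) ^ 2) ≤ (868893 / 1000000) := sqrt_le_iff.2 ⟨by norm_num, by norm_num⟩
      norm_num [capPrim] at h1 h2 ⊢ <;> linarith
    · norm_num [capPrim, arcsin_one] <;> linarith
    · norm_num [capPrim, arcsin_one] <;> linarith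
  · refine cap_line hn (by norm_num) hX hm (s := (9 / 20)) (q := (893029 / 1000000)) (G := (17372661 / 40000000)) (by norm_num) (by norm_num)
      (by norm_num) (by norm_num) ?_ ?_ ?_
    · have h1 : arcsin (9 / 20) ≤ (46677 / 100000) := arcsin_le_seven (by norm_num) (by norm_num) (by norm_num)
      have h2 : √(1 - (9 / 20) ^ 2) ≤ (893029 / 1000000) := sqrt_le_iff.2 ⟨by norm_num, by norm_num⟩
      norm_num [capPrim] at h1 h2 ⊢ <;> linarith
    · norm_num [capPrim, arcsin_one] <;> linarith
    · norm_num [capPrim, arcsin_one] <;> linarith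
  · refine cap_line hn (by norm_num) hX hm (s := (81 / 200)) (q := (914317 / 1000000)) (G := (157455677 / 400000000)) (by norm_num) (by norm_num)
      (by norm_num) (by norm_num) ?_ ?_ ?_
    · have h1 : arcsin (81 / 200) ≤ (20849 / 50000) := arcsin_le_seven (by norm_num) (by norm_num) (by norm_num)
      have h2 : √(1 - (81 / 200) ^ 2) ≤ (914317 / 1000000) := sqrt_le_iff.2 ⟨by norm_num, by norm_num⟩
      norm_num [capPrim] at h1 h2 ⊢ <;> linarith
    · norm_num [capPrim, arcsin_one] <;> linarith
    · norm_num [capPrim, arcsin_one] <;> linarith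
  · refine cap_line hn (by norm_num) hX hm (s := (9 / 25)) (q := (932953 / 1000000)) (G := (17603327 / 50000000)) (by norm_num) (by norm_num)
      (by norm_num) (by norm_num) ?_ ?_ ?_
    · have h1 : arcsin (9 / 25) ≤ (36827 / 100000) := arcsin_le_seven (by norm_num) (by norm_num) (by norm_num)
      have h2 : √(1 - (9 / 25) ^ 2) ≤ (932953 / 1000000) := sqrt_le_iff.2 ⟨by norm_num, by norm_num⟩
      norm_num [capPrim] at h1 h2 ⊢ <;> linarith
    · norm_num [capPrim, arcsin_one] <;> linarith
    · norm_num [capPrim, arcsin_one] <;> linarith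
  · refine cap_line hn (by norm_num) hX hm (s := (63 / 200)) (q := (237273 / 250000)) (G := (30971199 / 100000000)) (by norm_num) (by norm_num)
      (by norm_num) (by norm_num) ?_ ?_ ?_
    · have h1 : arcsin (63 / 200) ≤ (16023 / 50000) := arcsin_le_seven (by norm_num) (by norm_num) (by norm_num)
      have h2 : √(1 - (63 / 200) ^ 2) ≤ (237273 / 250000) := sqrt_le_iff.2 ⟨by norm_num, by norm_num⟩
      norm_num [capPrim] at h1 h2 ⊢ <;> linarith
    · norm_num [capPrim, arcsin_one] <;> linarith
    · norm_num [capPrim, arcsin_one] <;> linarith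
  · refine cap_line hn (by norm_num) hX hm (s := (27 / 100)) (q := (962861 / 1000000)) (G := (53337247 / 200000000)) (by norm_num) (by norm_num)
      (by norm_num) (by norm_num) ?_ ?_ ?_
    · have h1 : arcsin (27 / 100) ≤ (1367 / 5000) := arcsin_le_seven (by norm_num) (by norm_num) (by norm_num)
      have h2 : √(1 - (27 / 100) ^ 2) ≤ (962861 / 1000000) := sqrt_le_iff.2 ⟨by norm_num, by norm_num⟩
      norm_num [capPrim] at h1 h2 ⊢ <;> linarith
    · norm_num [capPrim, arcsin_one] <;> linarith
    · norm_num [capPrim, arcsin_one] <;> linarith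
  · refine cap_line hn (by norm_num) hX hm (s := (9 / 40)) (q := (974359 / 1000000)) (G := (17847231 / 80000000)) (by norm_num) (by norm_num)
      (by norm_num) (by norm_num) ?_ ?_ ?_
    · have h1 : arcsin (9 / 40) ≤ (4539 / 20000) := arcsin_le_seven (by norm_num) (by norm_num) (by norm_num)
      have h2 : √(1 - (9 / 40) ^ 2) ≤ (974359 / 1000000) := sqrt_le_iff.2 ⟨by norm_num, by norm_num⟩
      norm_num [capPrim] at h1 h2 ⊢ <;> linarith
    · norm_num [capPrim, arcsin_one] <;> linarith
    · norm_num [capPrim, arcsin_one] <;> linarith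
  · refine cap_line hn (by norm_num) hX hm (s := (9 / 50)) (q := (983667 / 1000000)) (G := (17902503 / 100000000)) (by norm_num) (by norm_num)
      (by norm_num) (by norm_num) ?_ ?_ ?_
    · have h1 : arcsin (9 / 50) ≤ (18099 / 100000) := arcsin_le_seven (by norm_num) (by norm_num) (by norm_num)
      have h2 : √(1 - (9 / 50) ^ 2) ≤ (983667 / 1000000) := sqrt_le_iff.2 ⟨by norm_num, by norm_num⟩
      norm_num [capPrim] at h1 h2 ⊢ <;> linarith
    · norm_num [capPrim, arcsin_one] <;> linarith
    · norm_num [capPrim, arcsin_one] <;> linarith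
  · refine cap_line hn (by norm_num) hX hm (s := (27 / 200)) (q := (495423 / 500000)) (G := (26918421 / 200000000)) (by norm_num) (by norm_num)
      (by norm_num) (by norm_num) ?_ ?_ ?_
    · have h1 : arcsin (27 / 200) ≤ (6771 / 50000) := arcsin_le_seven (by norm_num) (by norm_num) (by norm_num)
      have h2 : √(1 - (27 / 200) ^ 2) ≤ (495423 / 500000) := sqrt_le_iff.2 ⟨by norm_num, by norm_num⟩
      norm_num [capPrim] at h1 h2 ⊢ <;> linarith
    · norm_num [capPrim, arcsin_one] <;> linarith
    · norm_num [capPrim, arcsin_one] <;> linarith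
  · refine cap_line hn (by norm_num) hX hm (s := (9 / 100)) (q := (497971 / 500000)) (G := (8988239 / 100000000)) (by norm_num) (by norm_num)
      (by norm_num) (by norm_num) ?_ ?_ ?_
    · have h1 : arcsin (9 / 100) ≤ (9013 / 100000) := arcsin_le_seven (by norm_num) (by norm_num) (by norm_num)
      have h2 : √(1 - (9 / 100) ^ 2) ≤ (497971 / 500000) := sqrt_le_iff.2 ⟨by norm_num, by norm_num⟩
      norm_num [capPrim] at h1 h2 ⊢ <;> linarith
    · norm_num [capPrim, arcsin_one] <;> linarith
    · norm_num [capPrim, arcsin_one] <;> linarith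
  · refine cap_line hn (by norm_num) hX hm (s := (9 / 200)) (q := (998987 / 1000000)) (G := (17994883 / 400000000)) (by norm_num) (by norm_num)
      (by norm_num) (by norm_num) ?_ ?_ ?_
    · have h1 : arcsin (9 / 200) ≤ (2251 / 50000) := arcsin_le_seven (by norm_num) (by norm_num) (by norm_num)
      have h2 : √(1 - (9 / 200) ^ 2) ≤ (998987 / 1000000) := sqrt_le_iff.2 ⟨by norm_num, by norm_num⟩
      norm_num [capPrim] at h1 h2 ⊢ <;> linarith
    · norm_num [capPrim, arcsin_one] <;> linarith
    · norm_num [capPrim, arcsin_one] <;> linarith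
  · refine cap_line hn (by norm_num) hX hm (s := (0)) (q := (1)) (G := (0)) (by norm_num) (by norm_num)
      (by norm_num) (by norm_num) ?_ ?_ ?_
    · have h1 : arcsin (0) ≤ (0) := arcsin_le_seven (by norm_num) (by norm_num) (by norm_num)
      have h2 : √(1 - (0) ^ 2) ≤ (1) := sqrt_le_iff.2 ⟨by norm_num, by norm_num⟩
      norm_num [capPrim] at h1 h2 ⊢ <;> linarith
    · norm_num [capPrim, arcsin_one] <;> linarith
    · norm_num [capPrim, arcsin_one] <;> linarith

/-- The chain above threshold 5 for 5 cells. -/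
def chain5_5 : List ((ℚ × ℚ) × ℚ) :=
  [(((2953 / 100000), (180249 / 50000)), (471 / 6250)),
   (((4551 / 100000), (339293 / 100000)), (4763 / 50000)),
   (((6571 / 100000), (318087 / 100000)), (5819 / 50000)),
   (((9039 / 100000), (296881 / 100000)), (1733 / 12500)),
   (((11979 / 100000), (11027 / 4000)), (809 / 5000)),
   (((1541 / 10000), (25447 / 10000)), (9297 / 50000)),
   (((19353 / 100000), (14579 / 6250)), (5271 / 25000)),
   (((1489 / 6250), (106029 / 50000)), (4727 / 20000)),
   (((7209 / 25000), (47713 / 25000)), (26263 / 100000)),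
   (((6881 / 20000), (169647 / 100000)), (2893 / 10000)),
   (((2027 / 5000), (148441 / 100000)), (31651 / 100000)),
   (((11813 / 25000), (25447 / 20000)), (6881 / 20000)),
   (((13637 / 25000), (106029 / 100000)), (37199 / 100000)),
   (((15609 / 25000), (10603 / 12500)), (40017 / 100000)),
   (((35461 / 50000), (31809 / 50000)), (42851 / 100000)),
   (((80009 / 100000), (10603 / 25000)), (5713 / 12500)),
   (((89701 / 100000), (10603 / 50000)), (24283 / 50000)),
   (((1), (0)), (1))]

/-- Lines for 6 cells. -/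
def lines6 : List (ℚ × ℚ) :=
  [((131 / 100000), (24 / 5)),
   ((317 / 100000), (230667 / 50000)),
   ((157 / 25000), (442667 / 100000)),
   ((109 / 10000), (106 / 25)),
   ((1733 / 100000), (202667 / 50000)),
   ((2583 / 100000), (386667 / 100000)),
   ((733 / 20000), (92 / 25)),
   ((1199 / 25000), (88 / 25)),
   ((6373 / 100000), (166667 / 50000)),
   ((1031 / 12500), (314667 / 100000)),
   ((10443 / 100000), (74 / 25)),
   ((12977 / 100000), (138667 / 50000)),
   ((3967 / 25000), (258667 / 100000)),
   ((9567 / 50000), (12 / 5)),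
   ((2279 / 10000), (110667 / 50000)),
   ((6713 / 25000), (202667 / 100000)),
   ((31333 / 100000), (46 / 25)),
   ((18123 / 50000), (82667 / 50000)),
   ((20801 / 50000), (146667 / 100000)),
   ((4741 / 10000), (32 / 25)),
   ((13189 / 25000), (28 / 25)),
   ((14857 / 25000), (46667 / 50000)),
   ((2663 / 4000), (74667 / 100000)),
   ((37101 / 50000), (14 / 25)),
   ((82313 / 100000), (18667 / 50000)),
   ((2841 / 3125), (18667 / 100000)),
   ((1), (0))]

theorem lines6_valid (hn : Module.finrank ℝ E = 5) {X : Set E} (hX : IsCone X) (hm : MeasurableSet X) :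
    ∀ l ∈ lines6, √(2 * π) * ‖mom X‖ ≤ (l.1 : ℝ) + (l.2 : ℝ) * (stdGaussian E).real X := by
  have hlo := pi_gt_d6
  have hhi := pi_lt_d6
  simp only [lines6, List.forall_mem_cons, List.not_mem_nil, false_implies, implies_true, and_true]
  refine ⟨?_, ?_, ?_, ?_, ?_, ?_, ?_, ?_, ?_, ?_, ?_, ?_, ?_, ?_, ?_, ?_, ?_, ?_, ?_, ?_, ?_, ?_, ?_, ?_, ?_, ?_, ?_⟩
  · refine cap_line hn (by norm_num) hX hm (s := (9 / 10)) (q := (43589 / 100000)) (G := capPrim 4 (9 / 10)) (by norm_num) (by norm_num)
      (by norm_num) (by norm_num) le_rfl ?_ ?_ <;> norm_num [capPrim]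
  · refine cap_line hn (by norm_num) hX hm (s := (173 / 200)) (q := (125443 / 250000)) (G := capPrim 4 (173 / 200)) (by norm_num) (by norm_num)
      (by norm_num) (by norm_num) le_rfl ?_ ?_ <;> norm_num [capPrim]
  · refine cap_line hn (by norm_num) hX hm (s := (83 / 100)) (q := (139441 / 250000)) (G := capPrim 4 (83 / 100)) (by norm_num) (by norm_num)
      (by norm_num) (by norm_num) le_rfl ?_ ?_ <;> norm_num [capPrim]
  · refine cap_line hn (by norm_num) hX hm (s := (159 / 200)) (q := (60661 / 100000)) (G := capPrim 4 (159 / 200)) (by norm_num) (by norm_num)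
      (by norm_num) (by norm_num) le_rfl ?_ ?_ <;> norm_num [capPrim]
  · refine cap_line hn (by norm_num) hX hm (s := (19 / 25)) (q := (162481 / 250000)) (G := capPrim 4 (19 / 25)) (by norm_num) (by norm_num)
      (by norm_num) (by norm_num) le_rfl ?_ ?_ <;> norm_num [capPrim]
  · refine cap_line hn (by norm_num) hX hm (s := (29 / 40)) (q := (688749 / 1000000)) (G := capPrim 4 (29 / 40)) (by norm_num) (by norm_num)
      (by norm_num) (by norm_num) le_rfl ?_ ?_ <;> norm_num [capPrim]
  · refine cap_line hn (by norm_num) hX hm (s := (69 / 100)) (q := (72381 / 100000)) (G := capPrim 4 (69 / 100)) (by norm_num) (by norm_num)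
      (by norm_num) (by norm_num) le_rfl ?_ ?_ <;> norm_num [capPrim]
  · refine cap_line hn (by norm_num) hX hm (s := (33 / 50)) (q := (375633 / 500000)) (G := capPrim 4 (33 / 50)) (by norm_num) (by norm_num)
      (by norm_num) (by norm_num) le_rfl ?_ ?_ <;> norm_num [capPrim]
  · refine cap_line hn (by norm_num) hX hm (s := (5 / 8)) (q := (1249 / 1600)) (G := capPrim 4 (5 / 8)) (by norm_num) (by norm_num)
      (by norm_num) (by norm_num) le_rfl ?_ ?_ <;> norm_num [capPrim]
  · refine cap_line hn (by norm_num) hX hm (s := (59 / 100)) (q := (201851 / 250000)) (G := capPrim 4 (59 / 100)) (by norm_num) (by norm_num)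
      (by norm_num) (by norm_num) le_rfl ?_ ?_ <;> norm_num [capPrim]
  · refine cap_line hn (by norm_num) hX hm (s := (111 / 200)) (q := (831851 / 1000000)) (G := capPrim 4 (111 / 200)) (by norm_num) (by norm_num)
      (by norm_num) (by norm_num) le_rfl ?_ ?_ <;> norm_num [capPrim]
  · refine cap_line hn (by norm_num) hX hm (s := (13 / 25)) (q := (854167 / 1000000)) (G := capPrim 4 (13 / 25)) (by norm_num) (by norm_num)
      (by norm_num) (by norm_num) le_rfl ?_ ?_ <;> norm_num [capPrim]
  · refine cap_line hn (by norm_num) hX hm (s := (97 / 200)) (q := (174903 / 200000)) (G := capPrim 4 (97 / 200)) (by norm_num) (by norm_num)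
      (by norm_num) (by norm_num) le_rfl ?_ ?_ <;> norm_num [capPrim]
  · refine cap_line hn (by norm_num) hX hm (s := (9 / 20)) (q := (893029 / 1000000)) (G := capPrim 4 (9 / 20)) (by norm_num) (by norm_num)
      (by norm_num) (by norm_num) le_rfl ?_ ?_ <;> norm_num [capPrim]
  · refine cap_line hn (by norm_num) hX hm (s := (83 / 200)) (q := (454911 / 500000)) (G := capPrim 4 (83 / 200)) (by norm_num) (by norm_num)
      (by norm_num) (by norm_num) le_rfl ?_ ?_ <;> norm_num [capPrim]
  · refine cap_line hn (by norm_num) hX hm (s := (19 / 50)) (q := (924987 / 1000000)) (G := capPrim 4 (19 / 50)) (by norm_num) (by norm_num)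
      (by norm_num) (by norm_num) le_rfl ?_ ?_ <;> norm_num [capPrim]
  · refine cap_line hn (by norm_num) hX hm (s := (69 / 200)) (q := (938603 / 1000000)) (G := capPrim 4 (69 / 200)) (by norm_num) (by norm_num)
      (by norm_num) (by norm_num) le_rfl ?_ ?_ <;> norm_num [capPrim]
  · refine cap_line hn (by norm_num) hX hm (s := (31 / 100)) (q := (950737 / 1000000)) (G := capPrim 4 (31 / 100)) (by norm_num) (by norm_num)
      (by norm_num) (by norm_num) le_rfl ?_ ?_ <;> norm_num [capPrim]
  · refine cap_line hn (by norm_num) hX hm (s := (11 / 40)) (q := (192289 / 200000)) (G := capPrim 4 (11 / 40)) (by norm_num) (by norm_num)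
      (by norm_num) (by norm_num) le_rfl ?_ ?_ <;> norm_num [capPrim]
  · refine cap_line hn (by norm_num) hX hm (s := (6 / 25)) (q := (970773 / 1000000)) (G := capPrim 4 (6 / 25)) (by norm_num) (by norm_num)
      (by norm_num) (by norm_num) le_rfl ?_ ?_ <;> norm_num [capPrim]
  · refine cap_line hn (by norm_num) hX hm (s := (21 / 100)) (q := (488851 / 500000)) (G := capPrim 4 (21 / 100)) (by norm_num) (by norm_num)
      (by norm_num) (by norm_num) le_rfl ?_ ?_ <;> norm_num [capPrim]
  · refine cap_line hn (by norm_num) hX hm (s := (7 / 40)) (q := (984569 / 1000000)) (G := capPrim 4 (7 / 40)) (by norm_num) (by norm_num)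
      (by norm_num) (by norm_num) le_rfl ?_ ?_ <;> norm_num [capPrim]
  · refine cap_line hn (by norm_num) hX hm (s := (7 / 50)) (q := (123769 / 125000)) (G := capPrim 4 (7 / 50)) (by norm_num) (by norm_num)
      (by norm_num) (by norm_num) le_rfl ?_ ?_ <;> norm_num [capPrim]
  · refine cap_line hn (by norm_num) hX hm (s := (21 / 200)) (q := (994473 / 1000000)) (G := capPrim 4 (21 / 200)) (by norm_num) (by norm_num)
      (by norm_num) (by norm_num) le_rfl ?_ ?_ <;> norm_num [capPrim]
  · refine cap_line hn (by norm_num) hX hm (s := (7 / 100)) (q := (997547 / 1000000)) (G := capPrim 4 (7 / 100)) (by norm_num) (by norm_num)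
      (by norm_num) (by norm_num) le_rfl ?_ ?_ <;> norm_num [capPrim]
  · refine cap_line hn (by norm_num) hX hm (s := (7 / 200)) (q := (249847 / 250000)) (G := capPrim 4 (7 / 200)) (by norm_num) (by norm_num)
      (by norm_num) (by norm_num) le_rfl ?_ ?_ <;> norm_num [capPrim]
  · refine cap_line hn (by norm_num) hX hm (s := (0)) (q := (1)) (G := capPrim 4 (0)) (by norm_num) (by norm_num)
      (by norm_num) (by norm_num) le_rfl ?_ ?_ <;> norm_num [capPrim]

/-- The chain above threshold 4 for 6 cells. -/
def chain6_4 : List ((ℚ × ℚ) × ℚ) :=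
  [(((2583 / 100000), (386667 / 100000)), (1449 / 25000)),
   (((733 / 20000), (92 / 25)), (7069 / 100000)),
   (((1199 / 25000), (88 / 25)), (8449 / 100000)),
   (((6373 / 100000), (166667 / 50000)), (2511 / 25000)),
   (((1031 / 12500), (314667 / 100000)), (11759 / 100000)),
   (((10443 / 100000), (74 / 25)), (543 / 4000)),
   (((12977 / 100000), (138667 / 50000)), (15487 / 100000)),
   (((3967 / 25000), (258667 / 100000)), (2187 / 12500)),
   (((9567 / 50000), (12 / 5)), (9793 / 50000)),
   (((2279 / 10000), (110667 / 50000)), (136 / 625)),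
   (((6713 / 25000), (202667 / 100000)), (4801 / 20000)),
   (((31333 / 100000), (46 / 25)), (26321 / 100000)),
   (((18123 / 50000), (82667 / 50000)), (7173 / 25000)),
   (((20801 / 50000), (146667 / 100000)), (15557 / 50000)),
   (((4741 / 10000), (32 / 25)), (8353 / 25000)),
   (((13189 / 25000), (28 / 25)), (1117 / 3125)),
   (((14857 / 25000), (46667 / 50000)), (38287 / 100000)),
   (((2663 / 4000), (74667 / 100000)), (20429 / 50000)),
   (((37101 / 50000), (14 / 25)), (43453 / 100000)),
   (((82313 / 100000), (18667 / 50000)), (9213 / 20000)),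
   (((2841 / 3125), (18667 / 100000)), (9737 / 20000)),
   (((1), (0)), (1))]

/-- The chain above threshold 5 for 6 cells. -/
def chain6_5 : List ((ℚ × ℚ) × ℚ) :=
  [(((1733 / 100000), (202667 / 50000)), (4553 / 100000)),
   (((2583 / 100000), (386667 / 100000)), (1449 / 25000)),
   (((733 / 20000), (92 / 25)), (7069 / 100000)),
   (((1199 / 25000), (88 / 25)), (8449 / 100000)),
   (((6373 / 100000), (166667 / 50000)), (2511 / 25000)),
   (((1031 / 12500), (314667 / 100000)), (11759 / 100000)),
   (((10443 / 100000), (74 / 25)), (543 / 4000)),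
   (((12977 / 100000), (138667 / 50000)), (15487 / 100000)),
   (((3967 / 25000), (258667 / 100000)), (2187 / 12500)),
   (((9567 / 50000), (12 / 5)), (9793 / 50000)),
   (((2279 / 10000), (110667 / 50000)), (136 / 625)),
   (((6713 / 25000), (202667 / 100000)), (4801 / 20000)),
   (((31333 / 100000), (46 / 25)), (26321 / 100000)),
   (((18123 / 50000), (82667 / 50000)), (7173 / 25000)),
   (((20801 / 50000), (146667 / 100000)), (15557 / 50000)),
   (((4741 / 10000), (32 / 25)), (8353 / 25000)),
   (((13189 / 25000), (28 / 25)), (1117 / 3125)),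
   (((14857 / 25000), (46667 / 50000)), (38287 / 100000)),
   (((2663 / 4000), (74667 / 100000)), (20429 / 50000)),
   (((37101 / 50000), (14 / 25)), (43453 / 100000)),
   (((82313 / 100000), (18667 / 50000)), (9213 / 20000)),
   (((2841 / 3125), (18667 / 100000)), (9737 / 20000)),
   (((1), (0)), (1))]

/-- The chain above threshold 6 for 6 cells. -/
def chain6_6 : List ((ℚ × ℚ) × ℚ) :=
  [(((109 / 10000), (106 / 25)), (689 / 20000)),
   (((1733 / 100000), (202667 / 50000)), (4553 / 100000)),
   (((2583 / 100000), (386667 / 100000)), (1449 / 25000)),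
   (((733 / 20000), (92 / 25)), (7069 / 100000)),
   (((1199 / 25000), (88 / 25)), (8449 / 100000)),
   (((6373 / 100000), (166667 / 50000)), (2511 / 25000)),
   (((1031 / 12500), (314667 / 100000)), (11759 / 100000)),
   (((10443 / 100000), (74 / 25)), (543 / 4000)),
   (((12977 / 100000), (138667 / 50000)), (15487 / 100000)),
   (((3967 / 25000), (258667 / 100000)), (2187 / 12500)),
   (((9567 / 50000), (12 / 5)), (9793 / 50000)),
   (((2279 / 10000), (110667 / 50000)), (136 / 625)),
   (((6713 / 25000), (202667 / 100000)), (4801 / 20000)),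
   (((31333 / 100000), (46 / 25)), (26321 / 100000)),
   (((18123 / 50000), (82667 / 50000)), (7173 / 25000)),
   (((20801 / 50000), (146667 / 100000)), (15557 / 50000)),
   (((4741 / 10000), (32 / 25)), (8353 / 25000)),
   (((13189 / 25000), (28 / 25)), (1117 / 3125)),
   (((14857 / 25000), (46667 / 50000)), (38287 / 100000)),
   (((2663 / 4000), (74667 / 100000)), (20429 / 50000)),
   (((37101 / 50000), (14 / 25)), (43453 / 100000)),
   (((82313 / 100000), (18667 / 50000)), (9213 / 20000)),
   (((2841 / 3125), (18667 / 100000)), (9737 / 20000)),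
   (((1), (0)), (1))]

/-- Lines for 7 cells. -/
def lines7 : List (ℚ × ℚ) :=
  [((53 / 100000), (16567 / 3125)),
   ((169 / 50000), (242983 / 50000)),
   ((71 / 6250), (441787 / 100000)),
   ((2747 / 100000), (49701 / 12500)),
   ((5489 / 100000), (35343 / 10000)),
   ((9669 / 100000), (309251 / 100000)),
   ((779 / 5000), (16567 / 6250)),
   ((5873 / 25000), (110447 / 50000)),
   ((16821 / 50000), (35343 / 20000)),
   ((4623 / 10000), (16567 / 12500)),
   ((12283 / 20000), (44179 / 50000)),
   ((19829 / 25000), (44179 / 100000)),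
   ((1), (0))]

theorem lines7_valid (hn : Module.finrank ℝ E = 6) {X : Set E} (hX : IsCone X) (hm : MeasurableSet X) :
    ∀ l ∈ lines7, √(2 * π) * ‖mom X‖ ≤ (l.1 : ℝ) + (l.2 : ℝ) * (stdGaussian E).real X := by
  have hlo := pi_gt_d6
  have hhi := pi_lt_d6
  simp only [lines7, List.forall_mem_cons, List.not_mem_nil, false_implies, implies_true, and_true]
  refine ⟨?_, ?_, ?_, ?_, ?_, ?_, ?_, ?_, ?_, ?_, ?_, ?_, ?_⟩
  · refine cap_line hn (by norm_num) hX hm (s := (9 / 10)) (q := (43589 / 100000)) (G := (234267369 / 400000000)) (by norm_num) (by norm_num)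
      (by norm_num) (by norm_num) ?_ ?_ ?_
    · have h1 : arcsin (9 / 10) ≤ (111979 / 100000) := arcsin_le_seven (by norm_num) (by norm_num) (by norm_num)
      have h2 : √(1 - (9 / 10) ^ 2) ≤ (43589 / 100000) := sqrt_le_iff.2 ⟨by norm_num, by norm_num⟩
      norm_num [capPrim] at h1 h2 ⊢ <;> linarith
    · norm_num [capPrim, arcsin_one] <;> linarith
    · norm_num [capPrim, arcsin_one] <;> linarith
  · refine cap_line hn (by norm_num) hX hm (s := (33 / 40)) (q := (565133 / 1000000)) (G := (147428531379 / 256000000000)) (by norm_num) (by norm_num)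
      (by norm_num) (by norm_num) ?_ ?_ ?_
    · have h1 : arcsin (33 / 40) ≤ (97021 / 100000) := arcsin_le_seven (by norm_num) (by norm_num) (by norm_num)
      have h2 : √(1 - (33 / 40) ^ 2) ≤ (565133 / 1000000) := sqrt_le_iff.2 ⟨by norm_num, by norm_num⟩
      norm_num [capPrim] at h1 h2 ⊢ <;> linarith
    · norm_num [capPrim, arcsin_one] <;> linarith
    · norm_num [capPrim, arcsin_one] <;> linarith
  · refine cap_line hn (by norm_num) hX hm (s := (3 / 4)) (q := (330719 / 500000)) (G := (71464227 / 128000000)) (by norm_num) (by norm_num)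
      (by norm_num) (by norm_num) ?_ ?_ ?_
    · have h1 : arcsin (3 / 4) ≤ (84807 / 100000) := arcsin_le_seven (by norm_num) (by norm_num) (by norm_num)
      have h2 : √(1 - (3 / 4) ^ 2) ≤ (330719 / 500000) := sqrt_le_iff.2 ⟨by norm_num, by norm_num⟩
      norm_num [capPrim] at h1 h2 ⊢ <;> linarith
    · norm_num [capPrim, arcsin_one] <;> linarith
    · norm_num [capPrim, arcsin_one] <;> linarith
  · refine cap_line hn (by norm_num) hX hm (s := (27 / 40)) (q := (368909 / 500000)) (G := (68147496153 / 128000000000)) (by norm_num) (by norm_num)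
      (by norm_num) (by norm_num) ?_ ?_ ?_
    · have h1 : arcsin (27 / 40) ≤ (74097 / 100000) := arcsin_le_seven (by norm_num) (by norm_num) (by norm_num)
      have h2 : √(1 - (27 / 40) ^ 2) ≤ (368909 / 500000) := sqrt_le_iff.2 ⟨by norm_num, by norm_num⟩
      norm_num [capPrim] at h1 h2 ⊢ <;> linarith
    · norm_num [capPrim, arcsin_one] <;> linarith
    · norm_num [capPrim, arcsin_one] <;> linarith
  · refine cap_line hn (by norm_num) hX hm (s := (3 / 5)) (q := (4 / 5)) (G := (398493 / 800000)) (by norm_num) (by norm_num)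
      (by norm_num) (by norm_num) ?_ ?_ ?_
    · have h1 : arcsin (3 / 5) ≤ (64351 / 100000) := arcsin_le_seven (by norm_num) (by norm_num) (by norm_num)
      have h2 : √(1 - (3 / 5) ^ 2) ≤ (4 / 5) := sqrt_le_iff.2 ⟨by norm_num, by norm_num⟩
      norm_num [capPrim] at h1 h2 ⊢ <;> linarith
    · norm_num [capPrim, arcsin_one] <;> linarith
    · norm_num [capPrim, arcsin_one] <;> linarith
  · refine cap_line hn (by norm_num) hX hm (s := (21 / 40)) (q := (851103 / 1000000)) (G := (116671707117 / 256000000000)) (by norm_num) (by norm_num)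
      (by norm_num) (by norm_num) ?_ ?_ ?_
    · have h1 : arcsin (21 / 40) ≤ (6909 / 12500) := arcsin_le_seven (by norm_num) (by norm_num) (by norm_num)
      have h2 : √(1 - (21 / 40) ^ 2) ≤ (851103 / 1000000) := sqrt_le_iff.2 ⟨by norm_num, by norm_num⟩
      norm_num [capPrim] at h1 h2 ⊢ <;> linarith
    · norm_num [capPrim, arcsin_one] <;> linarith
    · norm_num [capPrim, arcsin_one] <;> linarith
  · refine cap_line hn (by norm_num) hX hm (s := (9 / 20)) (q := (893029 / 1000000)) (G := (12987482859 / 32000000000)) (by norm_num) (by norm_num)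
      (by norm_num) (by norm_num) ?_ ?_ ?_
    · have h1 : arcsin (9 / 20) ≤ (46677 / 100000) := arcsin_le_seven (by norm_num) (by norm_num) (by norm_num)
      have h2 : √(1 - (9 / 20) ^ 2) ≤ (893029 / 1000000) := sqrt_le_iff.2 ⟨by norm_num, by norm_num⟩
      norm_num [capPrim] at h1 h2 ⊢ <;> linarith
    · norm_num [capPrim, arcsin_one] <;> linarith
    · norm_num [capPrim, arcsin_one] <;> linarith
  · refine cap_line hn (by norm_num) hX hm (s := (3 / 8)) (q := (37081 / 40000)) (G := (28606461 / 81920000)) (by norm_num) (by norm_num)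
      (by norm_num) (by norm_num) ?_ ?_ ?_
    · have h1 : arcsin (3 / 8) ≤ (961 / 2500) := arcsin_le_seven (by norm_num) (by norm_num) (by norm_num)
      have h2 : √(1 - (3 / 8) ^ 2) ≤ (37081 / 40000) := sqrt_le_iff.2 ⟨by norm_num, by norm_num⟩
      norm_num [capPrim] at h1 h2 ⊢ <;> linarith
    · norm_num [capPrim, arcsin_one] <;> linarith
    · norm_num [capPrim, arcsin_one] <;> linarith
  · refine cap_line hn (by norm_num) hX hm (s := (3 / 10)) (q := (47697 / 50000)) (G := (57337431 / 200000000)) (by norm_num) (by norm_num)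
      (by norm_num) (by norm_num) ?_ ?_ ?_
    · have h1 : arcsin (3 / 10) ≤ (3047 / 10000) := arcsin_le_seven (by norm_num) (by norm_num) (by norm_num)
      have h2 : √(1 - (3 / 10) ^ 2) ≤ (47697 / 50000) := sqrt_le_iff.2 ⟨by norm_num, by norm_num⟩
      norm_num [capPrim] at h1 h2 ⊢ <;> linarith
    · norm_num [capPrim, arcsin_one] <;> linarith
    · norm_num [capPrim, arcsin_one] <;> linarith
  · refine cap_line hn (by norm_num) hX hm (s := (9 / 40)) (q := (974359 / 1000000)) (G := (56153816289 / 256000000000)) (by norm_num) (by norm_num)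
      (by norm_num) (by norm_num) ?_ ?_ ?_
    · have h1 : arcsin (9 / 40) ≤ (4539 / 20000) := arcsin_le_seven (by norm_num) (by norm_num) (by norm_num)
      have h2 : √(1 - (9 / 40) ^ 2) ≤ (974359 / 1000000) := sqrt_le_iff.2 ⟨by norm_num, by norm_num⟩
      norm_num [capPrim] at h1 h2 ⊢ <;> linarith
    · norm_num [capPrim, arcsin_one] <;> linarith
    · norm_num [capPrim, arcsin_one] <;> linarith
  · refine cap_line hn (by norm_num) hX hm (s := (3 / 20)) (q := (494343 / 500000)) (G := (2373101739 / 16000000000)) (by norm_num) (by norm_num)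
      (by norm_num) (by norm_num) ?_ ?_ ?_
    · have h1 : arcsin (3 / 20) ≤ (15057 / 100000) := arcsin_le_seven (by norm_num) (by norm_num) (by norm_num)
      have h2 : √(1 - (3 / 20) ^ 2) ≤ (494343 / 500000) := sqrt_le_iff.2 ⟨by norm_num, by norm_num⟩
      norm_num [capPrim] at h1 h2 ⊢ <;> linarith
    · norm_num [capPrim, arcsin_one] <;> linarith
    · norm_num [capPrim, arcsin_one] <;> linarith
  · refine cap_line hn (by norm_num) hX hm (s := (3 / 40)) (q := (15581 / 15625)) (G := (299171313 / 4000000000)) (by norm_num) (by norm_num)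
      (by norm_num) (by norm_num) ?_ ?_ ?_
    · have h1 : arcsin (3 / 40) ≤ (1877 / 25000) := arcsin_le_seven (by norm_num) (by norm_num) (by norm_num)
      have h2 : √(1 - (3 / 40) ^ 2) ≤ (15581 / 15625) := sqrt_le_iff.2 ⟨by norm_num, by norm_num⟩
      norm_num [capPrim] at h1 h2 ⊢ <;> linarith
    · norm_num [capPrim, arcsin_one] <;> linarith
    · norm_num [capPrim, arcsin_one] <;> linarith
  · refine cap_line hn (by norm_num) hX hm (s := (0)) (q := (1)) (G := (0)) (by norm_num) (by norm_num)
      (by norm_num) (by norm_num) ?_ ?_ ?_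
    · have h1 : arcsin (0) ≤ (0) := arcsin_le_seven (by norm_num) (by norm_num) (by norm_num)
      have h2 : √(1 - (0) ^ 2) ≤ (1) := sqrt_le_iff.2 ⟨by norm_num, by norm_num⟩
      norm_num [capPrim] at h1 h2 ⊢ <;> linarith
    · norm_num [capPrim, arcsin_one] <;> linarith
    · norm_num [capPrim, arcsin_one] <;> linarith

/-- The chain above threshold 4 for 7 cells. -/
def chain7_4 : List ((ℚ × ℚ) × ℚ) :=
  [(((2747 / 100000), (49701 / 12500)), (6207 / 100000)),
   (((5489 / 100000), (35343 / 10000)), (4731 / 50000)),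
   (((9669 / 100000), (309251 / 100000)), (669 / 5000)),
   (((779 / 5000), (16567 / 6250)), (17909 / 100000)),
   (((5873 / 25000), (110447 / 50000)), (919 / 4000)),
   (((16821 / 50000), (35343 / 20000)), (28493 / 100000)),
   (((4623 / 10000), (16567 / 12500)), (8593 / 25000)),
   (((12283 / 20000), (44179 / 50000)), (40519 / 100000)),
   (((19829 / 25000), (44179 / 100000)), (46819 / 100000)),
   (((1), (0)), (1))]

/-- The chain above threshold 5 for 7 cells. -/
def chain7_5 : List ((ℚ × ℚ) × ℚ) :=
  [(((2747 / 100000), (49701 / 12500)), (6207 / 100000)),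
   (((5489 / 100000), (35343 / 10000)), (4731 / 50000)),
   (((9669 / 100000), (309251 / 100000)), (669 / 5000)),
   (((779 / 5000), (16567 / 6250)), (17909 / 100000)),
   (((5873 / 25000), (110447 / 50000)), (919 / 4000)),
   (((16821 / 50000), (35343 / 20000)), (28493 / 100000)),
   (((4623 / 10000), (16567 / 12500)), (8593 / 25000)),
   (((12283 / 20000), (44179 / 50000)), (40519 / 100000)),
   (((19829 / 25000), (44179 / 100000)), (46819 / 100000)),
   (((1), (0)), (1))]

/-- The chain above threshold 6 for 7 cells. -/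
def chain7_6 : List ((ℚ × ℚ) × ℚ) :=
  [(((71 / 6250), (441787 / 100000)), (3647 / 100000)),
   (((2747 / 100000), (49701 / 12500)), (6207 / 100000)),
   (((5489 / 100000), (35343 / 10000)), (4731 / 50000)),
   (((9669 / 100000), (309251 / 100000)), (669 / 5000)),
   (((779 / 5000), (16567 / 6250)), (17909 / 100000)),
   (((5873 / 25000), (110447 / 50000)), (919 / 4000)),
   (((16821 / 50000), (35343 / 20000)), (28493 / 100000)),
   (((4623 / 10000), (16567 / 12500)), (8593 / 25000)),
   (((12283 / 20000), (44179 / 50000)), (40519 / 100000)),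
   (((19829 / 25000), (44179 / 100000)), (46819 / 100000)),
   (((1), (0)), (1))]

/-- Lines for 8 cells. -/
def lines8 : List (ℚ × ℚ) :=
  [((19 / 100000), (144 / 25)),
   ((169 / 100000), (132 / 25)),
   ((669 / 100000), (24 / 5)),
   ((91 / 5000), (108 / 25)),
   ((1987 / 50000), (96 / 25)),
   ((751 / 10000), (84 / 25)),
   ((801 / 6250), (72 / 25)),
   ((10133 / 50000), (12 / 5)),
   ((6041 / 20000), (48 / 25)),
   ((21467 / 50000), (36 / 25)),
   ((587 / 1000), (24 / 25)),
   ((15537 / 20000), (12 / 25)),
   ((1), (0))]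

theorem lines8_valid (hn : Module.finrank ℝ E = 7) {X : Set E} (hX : IsCone X) (hm : MeasurableSet X) :
    ∀ l ∈ lines8, √(2 * π) * ‖mom X‖ ≤ (l.1 : ℝ) + (l.2 : ℝ) * (stdGaussian E).real X := by
  have hlo := pi_gt_d6
  have hhi := pi_lt_d6
  simp only [lines8, List.forall_mem_cons, List.not_mem_nil, false_implies, implies_true, and_true]
  refine ⟨?_, ?_, ?_, ?_, ?_, ?_, ?_, ?_, ?_, ?_, ?_, ?_, ?_⟩
  · refine cap_line hn (by norm_num) hX hm (s := (9 / 10)) (q := (43589 / 100000)) (G := capPrim 6 (9 / 10)) (by norm_num) (by norm_num)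
      (by norm_num) (by norm_num) le_rfl ?_ ?_ <;> norm_num [capPrim]
  · refine cap_line hn (by norm_num) hX hm (s := (33 / 40)) (q := (565133 / 1000000)) (G := capPrim 6 (33 / 40)) (by norm_num) (by norm_num)
      (by norm_num) (by norm_num) le_rfl ?_ ?_ <;> norm_num [capPrim]
  · refine cap_line hn (by norm_num) hX hm (s := (3 / 4)) (q := (330719 / 500000)) (G := capPrim 6 (3 / 4)) (by norm_num) (by norm_num)
      (by norm_num) (by norm_num) le_rfl ?_ ?_ <;> norm_num [capPrim]
  · refine cap_line hn (by norm_num) hX hm (s := (27 / 40)) (q := (368909 / 500000)) (G := capPrim 6 (27 / 40)) (by norm_num) (by norm_num)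
      (by norm_num) (by norm_num) le_rfl ?_ ?_ <;> norm_num [capPrim]
  · refine cap_line hn (by norm_num) hX hm (s := (3 / 5)) (q := (4 / 5)) (G := capPrim 6 (3 / 5)) (by norm_num) (by norm_num)
      (by norm_num) (by norm_num) le_rfl ?_ ?_ <;> norm_num [capPrim]
  · refine cap_line hn (by norm_num) hX hm (s := (21 / 40)) (q := (851103 / 1000000)) (G := capPrim 6 (21 / 40)) (by norm_num) (by norm_num)
      (by norm_num) (by norm_num) le_rfl ?_ ?_ <;> norm_num [capPrim]
  · refine cap_line hn (by norm_num) hX hm (s := (9 / 20)) (q := (893029 / 1000000)) (G := capPrim 6 (9 / 20)) (by norm_num) (by norm_num)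
      (by norm_num) (by norm_num) le_rfl ?_ ?_ <;> norm_num [capPrim]
  · refine cap_line hn (by norm_num) hX hm (s := (3 / 8)) (q := (37081 / 40000)) (G := capPrim 6 (3 / 8)) (by norm_num) (by norm_num)
      (by norm_num) (by norm_num) le_rfl ?_ ?_ <;> norm_num [capPrim]
  · refine cap_line hn (by norm_num) hX hm (s := (3 / 10)) (q := (47697 / 50000)) (G := capPrim 6 (3 / 10)) (by norm_num) (by norm_num)
      (by norm_num) (by norm_num) le_rfl ?_ ?_ <;> norm_num [capPrim]
  · refine cap_line hn (by norm_num) hX hm (s := (9 / 40)) (q := (974359 / 1000000)) (G := capPrim 6 (9 / 40)) (by norm_num) (by norm_num)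
      (by norm_num) (by norm_num) le_rfl ?_ ?_ <;> norm_num [capPrim]
  · refine cap_line hn (by norm_num) hX hm (s := (3 / 20)) (q := (494343 / 500000)) (G := capPrim 6 (3 / 20)) (by norm_num) (by norm_num)
      (by norm_num) (by norm_num) le_rfl ?_ ?_ <;> norm_num [capPrim]
  · refine cap_line hn (by norm_num) hX hm (s := (3 / 40)) (q := (15581 / 15625)) (G := capPrim 6 (3 / 40)) (by norm_num) (by norm_num)
      (by norm_num) (by norm_num) le_rfl ?_ ?_ <;> norm_num [capPrim]
  · refine cap_line hn (by norm_num) hX hm (s := (0)) (q := (1)) (G := capPrim 6 (0)) (by norm_num) (by norm_num)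
      (by norm_num) (by norm_num) le_rfl ?_ ?_ <;> norm_num [capPrim]

/-- The chain above threshold 4 for 8 cells. -/
def chain8_4 : List ((ℚ × ℚ) × ℚ) :=
  [(((1987 / 50000), (96 / 25)), (7367 / 100000)),
   (((751 / 10000), (84 / 25)), (5527 / 50000)),
   (((801 / 6250), (72 / 25)), (15521 / 100000)),
   (((10133 / 50000), (12 / 5)), (10353 / 50000)),
   (((6041 / 20000), (48 / 25)), (26519 / 100000)),
   (((21467 / 50000), (36 / 25)), (16423 / 50000)),
   (((587 / 1000), (24 / 25)), (1236 / 3125)),
   (((15537 / 20000), (12 / 25)), (4649 / 10000)),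
   (((1), (0)), (1))]

/-- The chain above threshold 5 for 8 cells. -/
def chain8_5 : List ((ℚ × ℚ) × ℚ) :=
  [(((91 / 5000), (108 / 25)), (561 / 12500)),
   (((1987 / 50000), (96 / 25)), (7367 / 100000)),
   (((751 / 10000), (84 / 25)), (5527 / 50000)),
   (((801 / 6250), (72 / 25)), (15521 / 100000)),
   (((10133 / 50000), (12 / 5)), (10353 / 50000)),
   (((6041 / 20000), (48 / 25)), (26519 / 100000)),
   (((21467 / 50000), (36 / 25)), (16423 / 50000)),
   (((587 / 1000), (24 / 25)), (1236 / 3125)),
   (((15537 / 20000), (12 / 25)), (4649 / 10000)),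
   (((1), (0)), (1))]

/-- The chain above threshold 6 for 8 cells. -/
def chain8_6 : List ((ℚ × ℚ) × ℚ) :=
  [(((91 / 5000), (108 / 25)), (561 / 12500)),
   (((1987 / 50000), (96 / 25)), (7367 / 100000)),
   (((751 / 10000), (84 / 25)), (5527 / 50000)),
   (((801 / 6250), (72 / 25)), (15521 / 100000)),
   (((10133 / 50000), (12 / 5)), (10353 / 50000)),
   (((6041 / 20000), (48 / 25)), (26519 / 100000)),
   (((21467 / 50000), (36 / 25)), (16423 / 50000)),
   (((587 / 1000), (24 / 25)), (1236 / 3125)),
   (((15537 / 20000), (12 / 25)), (4649 / 10000)),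
   (((1), (0)), (1))]

/-- Lines for 9 cells. -/
def lines9 : List (ℚ × ℚ) :=
  [((3 / 25000), (309251 / 50000)),
   ((11 / 12500), (7087 / 1250)),
   ((201 / 50000), (257709 / 50000)),
   ((1221 / 100000), (115969 / 25000)),
   ((727 / 25000), (82467 / 20000)),
   ((184 / 3125), (360793 / 100000)),
   ((10627 / 100000), (309251 / 100000)),
   ((17601 / 100000), (257709 / 100000)),
   ((6817 / 25000), (25771 / 12500)),
   ((40039 / 100000), (77313 / 50000)),
   ((2813 / 5000), (25771 / 25000)),
   ((38097 / 50000), (25771 / 50000)),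
   ((1), (0))]

theorem lines9_valid (hn : Module.finrank ℝ E = 8) {X : Set E} (hX : IsCone X) (hm : MeasurableSet X) :
    ∀ l ∈ lines9, √(2 * π) * ‖mom X‖ ≤ (l.1 : ℝ) + (l.2 : ℝ) * (stdGaussian E).real X := by
  have hlo := pi_gt_d6
  have hhi := pi_lt_d6
  simp only [lines9, List.forall_mem_cons, List.not_mem_nil, false_implies, implies_true, and_true]
  refine ⟨?_, ?_, ?_, ?_, ?_, ?_, ?_, ?_, ?_, ?_, ?_, ?_, ?_⟩
  · refine cap_line hn (by norm_num) hX hm (s := (9 / 10)) (q := (43589 / 100000)) (G := (4904173631 / 10000000000)) (by norm_num) (by norm_num)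
      (by norm_num) (by norm_num) ?_ ?_ ?_
    · have h1 : arcsin (9 / 10) ≤ (111979 / 100000) := arcsin_le_seven (by norm_num) (by norm_num) (by norm_num)
      have h2 : √(1 - (9 / 10) ^ 2) ≤ (43589 / 100000) := sqrt_le_iff.2 ⟨by norm_num, by norm_num⟩
      norm_num [capPrim] at h1 h2 ⊢ <;> linarith
    · norm_num [capPrim, arcsin_one] <;> linarith
    · norm_num [capPrim, arcsin_one] <;> linarith
  · refine cap_line hn (by norm_num) hX hm (s := (33 / 40)) (q := (565133 / 1000000)) (G := (99908936621023 / 204800000000000)) (by norm_num) (by norm_num)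
      (by norm_num) (by norm_num) ?_ ?_ ?_
    · have h1 : arcsin (33 / 40) ≤ (97021 / 100000) := arcsin_le_seven (by norm_num) (by norm_num) (by norm_num)
      have h2 : √(1 - (33 / 40) ^ 2) ≤ (565133 / 1000000) := sqrt_le_iff.2 ⟨by norm_num, by norm_num⟩
      norm_num [capPrim] at h1 h2 ⊢ <;> linarith
    · norm_num [capPrim, arcsin_one] <;> linarith
    · norm_num [capPrim, arcsin_one] <;> linarith
  · refine cap_line hn (by norm_num) hX hm (s := (3 / 4)) (q := (330719 / 500000)) (G := (492633411 / 1024000000)) (by norm_num) (by norm_num)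
      (by norm_num) (by norm_num) ?_ ?_ ?_
    · have h1 : arcsin (3 / 4) ≤ (84807 / 100000) := arcsin_le_seven (by norm_num) (by norm_num) (by norm_num)
      have h2 : √(1 - (3 / 4) ^ 2) ≤ (330719 / 500000) := sqrt_le_iff.2 ⟨by norm_num, by norm_num⟩
      norm_num [capPrim] at h1 h2 ⊢ <;> linarith
    · norm_num [capPrim, arcsin_one] <;> linarith
    · norm_num [capPrim, arcsin_one] <;> linarith
  · refine cap_line hn (by norm_num) hX hm (s := (27 / 40)) (q := (368909 / 500000)) (G := (47950489536021 / 102400000000000)) (by norm_num) (by norm_num)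
      (by norm_num) (by norm_num) ?_ ?_ ?_
    · have h1 : arcsin (27 / 40) ≤ (74097 / 100000) := arcsin_le_seven (by norm_num) (by norm_num) (by norm_num)
      have h2 : √(1 - (27 / 40) ^ 2) ≤ (368909 / 500000) := sqrt_le_iff.2 ⟨by norm_num, by norm_num⟩
      norm_num [capPrim] at h1 h2 ⊢ <;> linarith
    · norm_num [capPrim, arcsin_one] <;> linarith
    · norm_num [capPrim, arcsin_one] <;> linarith
  · refine cap_line hn (by norm_num) hX hm (s := (3 / 5)) (q := (4 / 5)) (G := (3582919 / 8000000)) (by norm_num) (by norm_num)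
      (by norm_num) (by norm_num) ?_ ?_ ?_
    · have h1 : arcsin (3 / 5) ≤ (64351 / 100000) := arcsin_le_seven (by norm_num) (by norm_num) (by norm_num)
      have h2 : √(1 - (3 / 5) ^ 2) ≤ (4 / 5) := sqrt_le_iff.2 ⟨by norm_num, by norm_num⟩
      norm_num [capPrim] at h1 h2 ⊢ <;> linarith
    · norm_num [capPrim, arcsin_one] <;> linarith
    · norm_num [capPrim, arcsin_one] <;> linarith
  · refine cap_line hn (by norm_num) hX hm (s := (21 / 40)) (q := (851103 / 1000000)) (G := (85784031500601 / 204800000000000)) (by norm_num) (by norm_num)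
      (by norm_num) (by norm_num) ?_ ?_ ?_
    · have h1 : arcsin (21 / 40) ≤ (6909 / 12500) := arcsin_le_seven (by norm_num) (by norm_num) (by norm_num)
      have h2 : √(1 - (21 / 40) ^ 2) ≤ (851103 / 1000000) := sqrt_le_iff.2 ⟨by norm_num, by norm_num⟩
      norm_num [capPrim] at h1 h2 ⊢ <;> linarith
    · norm_num [capPrim, arcsin_one] <;> linarith
    · norm_num [capPrim, arcsin_one] <;> linarith
  · refine cap_line hn (by norm_num) hX hm (s := (9 / 20)) (q := (893029 / 1000000)) (G := (2437207048707 / 6400000000000)) (by norm_num) (by norm_num)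
      (by norm_num) (by norm_num) ?_ ?_ ?_
    · have h1 : arcsin (9 / 20) ≤ (46677 / 100000) := arcsin_le_seven (by norm_num) (by norm_num) (by norm_num)
      have h2 : √(1 - (9 / 20) ^ 2) ≤ (893029 / 1000000) := sqrt_le_iff.2 ⟨by norm_num, by norm_num⟩
      norm_num [capPrim] at h1 h2 ⊢ <;> linarith
    · norm_num [capPrim, arcsin_one] <;> linarith
    · norm_num [capPrim, arcsin_one] <;> linarith
  · refine cap_line hn (by norm_num) hX hm (s := (3 / 8)) (q := (37081 / 40000)) (G := (175001797 / 524288000)) (by norm_num) (by norm_num)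
      (by norm_num) (by norm_num) ?_ ?_ ?_
    · have h1 : arcsin (3 / 8) ≤ (961 / 2500) := arcsin_le_seven (by norm_num) (by norm_num) (by norm_num)
      have h2 : √(1 - (3 / 8) ^ 2) ≤ (37081 / 40000) := sqrt_le_iff.2 ⟨by norm_num, by norm_num⟩
      norm_num [capPrim] at h1 h2 ⊢ <;> linarith
    · norm_num [capPrim, arcsin_one] <;> linarith
    · norm_num [capPrim, arcsin_one] <;> linarith
  · refine cap_line hn (by norm_num) hX hm (s := (3 / 10)) (q := (47697 / 50000)) (G := (1392019241 / 5000000000)) (by norm_num) (by norm_num)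
      (by norm_num) (by norm_num) ?_ ?_ ?_
    · have h1 : arcsin (3 / 10) ≤ (3047 / 10000) := arcsin_le_seven (by norm_num) (by norm_num) (by norm_num)
      have h2 : √(1 - (3 / 10) ^ 2) ≤ (47697 / 50000) := sqrt_le_iff.2 ⟨by norm_num, by norm_num⟩
      norm_num [capPrim] at h1 h2 ⊢ <;> linarith
    · norm_num [capPrim, arcsin_one] <;> linarith
    · norm_num [capPrim, arcsin_one] <;> linarith
  · refine cap_line hn (by norm_num) hX hm (s := (9 / 40)) (q := (974359 / 1000000)) (G := (44180471395797 / 204800000000000)) (by norm_num) (by norm_num)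
      (by norm_num) (by norm_num) ?_ ?_ ?_
    · have h1 : arcsin (9 / 40) ≤ (4539 / 20000) := arcsin_le_seven (by norm_num) (by norm_num) (by norm_num)
      have h2 : √(1 - (9 / 40) ^ 2) ≤ (974359 / 1000000) := sqrt_le_iff.2 ⟨by norm_num, by norm_num⟩
      norm_num [capPrim] at h1 h2 ⊢ <;> linarith
    · norm_num [capPrim, arcsin_one] <;> linarith
    · norm_num [capPrim, arcsin_one] <;> linarith
  · refine cap_line hn (by norm_num) hX hm (s := (3 / 20)) (q := (494343 / 500000)) (G := (471092608683 / 3200000000000)) (by norm_num) (by norm_num)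
      (by norm_num) (by norm_num) ?_ ?_ ?_
    · have h1 : arcsin (3 / 20) ≤ (15057 / 100000) := arcsin_le_seven (by norm_num) (by norm_num) (by norm_num)
      have h2 : √(1 - (3 / 20) ^ 2) ≤ (494343 / 500000) := sqrt_le_iff.2 ⟨by norm_num, by norm_num⟩
      norm_num [capPrim] at h1 h2 ⊢ <;> linarith
    · norm_num [capPrim, arcsin_one] <;> linarith
    · norm_num [capPrim, arcsin_one] <;> linarith
  · refine cap_line hn (by norm_num) hX hm (s := (3 / 40)) (q := (15581 / 15625)) (G := (238887431261 / 3200000000000)) (by norm_num) (by norm_num)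
      (by norm_num) (by norm_num) ?_ ?_ ?_
    · have h1 : arcsin (3 / 40) ≤ (1877 / 25000) := arcsin_le_seven (by norm_num) (by norm_num) (by norm_num)
      have h2 : √(1 - (3 / 40) ^ 2) ≤ (15581 / 15625) := sqrt_le_iff.2 ⟨by norm_num, by norm_num⟩
      norm_num [capPrim] at h1 h2 ⊢ <;> linarith
    · norm_num [capPrim, arcsin_one] <;> linarith
    · norm_num [capPrim, arcsin_one] <;> linarith
  · refine cap_line hn (by norm_num) hX hm (s := (0)) (q := (1)) (G := (0)) (by norm_num) (by norm_num)
      (by norm_num) (by norm_num) ?_ ?_ ?_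
    · have h1 : arcsin (0) ≤ (0) := arcsin_le_seven (by norm_num) (by norm_num) (by norm_num)
      have h2 : √(1 - (0) ^ 2) ≤ (1) := sqrt_le_iff.2 ⟨by norm_num, by norm_num⟩
      norm_num [capPrim] at h1 h2 ⊢ <;> linarith
    · norm_num [capPrim, arcsin_one] <;> linarith
    · norm_num [capPrim, arcsin_one] <;> linarith

/-- The chain above threshold 4 for 9 cells. -/
def chain9_4 : List ((ℚ × ℚ) × ℚ) :=
  [(((727 / 25000), (82467 / 20000)), (2891 / 50000)),
   (((184 / 3125), (360793 / 100000)), (4597 / 50000)),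
   (((10627 / 100000), (309251 / 100000)), (13531 / 100000)),
   (((17601 / 100000), (257709 / 100000)), (4689 / 25000)),
   (((6817 / 25000), (25771 / 12500)), (12389 / 50000)),
   (((40039 / 100000), (77313 / 50000)), (31471 / 100000)),
   (((2813 / 5000), (25771 / 25000)), (1547 / 4000)),
   (((38097 / 50000), (25771 / 50000)), (11547 / 25000)),
   (((1), (0)), (1))]

/-- The chain above threshold 5 for 9 cells. -/
def chain9_5 : List ((ℚ × ℚ) × ℚ) :=
  [(((727 / 25000), (82467 / 20000)), (2891 / 50000)),
   (((184 / 3125), (360793 / 100000)), (4597 / 50000)),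
   (((10627 / 100000), (309251 / 100000)), (13531 / 100000)),
   (((17601 / 100000), (257709 / 100000)), (4689 / 25000)),
   (((6817 / 25000), (25771 / 12500)), (12389 / 50000)),
   (((40039 / 100000), (77313 / 50000)), (31471 / 100000)),
   (((2813 / 5000), (25771 / 25000)), (1547 / 4000)),
   (((38097 / 50000), (25771 / 50000)), (11547 / 25000)),
   (((1), (0)), (1))]

/-- The chain above threshold 6 for 9 cells. -/
def chain9_6 : List ((ℚ × ℚ) × ℚ) :=
  [(((1221 / 100000), (115969 / 25000)), (3273 / 100000)),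
   (((727 / 25000), (82467 / 20000)), (2891 / 50000)),
   (((184 / 3125), (360793 / 100000)), (4597 / 50000)),
   (((10627 / 100000), (309251 / 100000)), (13531 / 100000)),
   (((17601 / 100000), (257709 / 100000)), (4689 / 25000)),
   (((6817 / 25000), (25771 / 12500)), (12389 / 50000)),
   (((40039 / 100000), (77313 / 50000)), (31471 / 100000)),
   (((2813 / 5000), (25771 / 25000)), (1547 / 4000)),
   (((38097 / 50000), (25771 / 50000)), (11547 / 25000)),
   (((1), (0)), (1))]

/-- Lines for 10 cells. -/
def lines10 : List (ℚ × ℚ) :=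
  [((811 / 50000), (526393 / 100000)),
   ((1153 / 50000), (246903 / 50000)),
   ((1617 / 50000), (23061 / 5000)),
   ((4529 / 100000), (427381 / 100000)),
   ((6179 / 100000), (78959 / 20000)),
   ((4159 / 50000), (11319 / 3125)),
   ((2793 / 25000), (328369 / 100000)),
   ((293 / 2000), (295783 / 100000)),
   ((18971 / 100000), (263197 / 100000)),
   ((4853 / 20000), (23061 / 10000)),
   ((30667 / 100000), (24753 / 12500)),
   ((1207 / 3125), (32837 / 20000)),
   ((1907 / 4000), (131599 / 100000)),
   ((14549 / 25000), (24753 / 25000)),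
   ((2831 / 4000), (65173 / 100000)),
   ((84551 / 100000), (32587 / 100000)),
   ((1), (0))]

theorem lines10_valid {X : Set E} (hm : MeasurableSet X) :
    ∀ l ∈ lines10, √(2 * π) * ‖mom X‖ ≤ (l.1 : ℝ) + (l.2 : ℝ) * (stdGaussian E).real X := by
  have hlo := pi_gt_d6
  have hhi := pi_lt_d6
  have hL : ((626657 / 250000) : ℝ) ≤ √(2 * π) := le_sqrt_of_sq_le (by linarith)
  have hU : √(2 * π) ≤ ((2506629 / 1000000) : ℝ) := sqrt_le_iff.2 ⟨by norm_num, by linarith⟩
  simp only [lines10, List.forall_mem_cons, List.not_mem_nil, false_implies, implies_true, and_true]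
  refine ⟨?_, ?_, ?_, ?_, ?_, ?_, ?_, ?_, ?_, ?_, ?_, ?_, ?_, ?_, ?_, ?_, ?_⟩
  · refine iso_line hm (t := (21 / 10)) (e := (22051 / 200000)) (by norm_num) ?_ hL hU ?_ ?_ <;>
      norm_num [expTay, gaussPrim, Finset.sum_range_succ, Nat.factorial]
  · refine iso_line hm (t := (197 / 100)) (e := (143641 / 1000000)) (by norm_num) ?_ hL hU ?_ ?_ <;>
      norm_num [expTay, gaussPrim, Finset.sum_range_succ, Nat.factorial]
  · refine iso_line hm (t := (46 / 25)) (e := (46001 / 250000)) (by norm_num) ?_ hL hU ?_ ?_ <;>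
      norm_num [expTay, gaussPrim, Finset.sum_range_succ, Nat.factorial]
  · refine iso_line hm (t := (341 / 200)) (e := (58437 / 250000)) (by norm_num) ?_ hL hU ?_ ?_ <;>
      norm_num [expTay, gaussPrim, Finset.sum_range_succ, Nat.factorial]
  · refine iso_line hm (t := (63 / 40)) (e := (144647 / 500000)) (by norm_num) ?_ hL hU ?_ ?_ <;>
      norm_num [expTay, gaussPrim, Finset.sum_range_succ, Nat.factorial]
  · refine iso_line hm (t := (289 / 200)) (e := (8801 / 25000)) (by norm_num) ?_ hL hU ?_ ?_ <;>
      norm_num [expTay, gaussPrim, Finset.sum_range_succ, Nat.factorial]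
  · refine iso_line hm (t := (131 / 100)) (e := (423989 / 1000000)) (by norm_num) ?_ hL hU ?_ ?_ <;>
      norm_num [expTay, gaussPrim, Finset.sum_range_succ, Nat.factorial]
  · refine iso_line hm (t := (59 / 50)) (e := (124619 / 250000)) (by norm_num) ?_ hL hU ?_ ?_ <;>
      norm_num [expTay, gaussPrim, Finset.sum_range_succ, Nat.factorial]
  · refine iso_line hm (t := (21 / 20)) (e := (57623 / 100000)) (by norm_num) ?_ hL hU ?_ ?_ <;>
      norm_num [expTay, gaussPrim, Finset.sum_range_succ, Nat.factorial]
  · refine iso_line hm (t := (23 / 25)) (e := (163737 / 250000)) (by norm_num) ?_ hL hU ?_ ?_ <;>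
      norm_num [expTay, gaussPrim, Finset.sum_range_succ, Nat.factorial]
  · refine iso_line hm (t := (79 / 100)) (e := (146389 / 200000)) (by norm_num) ?_ hL hU ?_ ?_ <;>
      norm_num [expTay, gaussPrim, Finset.sum_range_succ, Nat.factorial]
  · refine iso_line hm (t := (131 / 200)) (e := (161387 / 200000)) (by norm_num) ?_ hL hU ?_ ?_ <;>
      norm_num [expTay, gaussPrim, Finset.sum_range_succ, Nat.factorial]
  · refine iso_line hm (t := (21 / 40)) (e := (871263 / 1000000)) (by norm_num) ?_ hL hU ?_ ?_ <;>
      norm_num [expTay, gaussPrim, Finset.sum_range_succ, Nat.factorial]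
  · refine iso_line hm (t := (79 / 200)) (e := (924953 / 1000000)) (by norm_num) ?_ hL hU ?_ ?_ <;>
      norm_num [expTay, gaussPrim, Finset.sum_range_succ, Nat.factorial]
  · refine iso_line hm (t := (13 / 50)) (e := (193353 / 200000)) (by norm_num) ?_ hL hU ?_ ?_ <;>
      norm_num [expTay, gaussPrim, Finset.sum_range_succ, Nat.factorial]
  · refine iso_line hm (t := (13 / 100)) (e := (495793 / 500000)) (by norm_num) ?_ hL hU ?_ ?_ <;>
      norm_num [expTay, gaussPrim, Finset.sum_range_succ, Nat.factorial]
  · refine iso_line hm (t := (0)) (e := (1)) (by norm_num) ?_ hL hU ?_ ?_ <;>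
      norm_num [expTay, gaussPrim, Finset.sum_range_succ, Nat.factorial]

/-- The chain above threshold 4 for 10 cells. -/
def chain10_4 : List ((ℚ × ℚ) × ℚ) :=
  [(((4529 / 100000), (427381 / 100000)), (633 / 12500)),
   (((6179 / 100000), (78959 / 20000)), (1641 / 25000)),
   (((4159 / 50000), (11319 / 3125)), (4217 / 50000)),
   (((2793 / 25000), (328369 / 100000)), (10673 / 100000)),
   (((293 / 2000), (295783 / 100000)), (663 / 5000)),
   (((18971 / 100000), (263197 / 100000)), (8123 / 50000)),
   (((4853 / 20000), (23061 / 10000)), (9823 / 50000)),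
   (((30667 / 100000), (24753 / 12500)), (11757 / 50000)),
   (((1207 / 3125), (32837 / 20000)), (868 / 3125)),
   (((1907 / 4000), (131599 / 100000)), (16143 / 50000)),
   (((14549 / 25000), (24753 / 25000)), (37173 / 100000)),
   (((2831 / 4000), (65173 / 100000)), (10569 / 25000)),
   (((84551 / 100000), (32587 / 100000)), (2963 / 6250)),
   (((1), (0)), (1))]

/-- The chain above threshold 5 for 10 cells. -/
def chain10_5 : List ((ℚ × ℚ) × ℚ) :=
  [(((1617 / 50000), (23061 / 5000)), (3827 / 100000)),
   (((4529 / 100000), (427381 / 100000)), (633 / 12500)),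
   (((6179 / 100000), (78959 / 20000)), (1641 / 25000)),
   (((4159 / 50000), (11319 / 3125)), (4217 / 50000)),
   (((2793 / 25000), (328369 / 100000)), (10673 / 100000)),
   (((293 / 2000), (295783 / 100000)), (663 / 5000)),
   (((18971 / 100000), (263197 / 100000)), (8123 / 50000)),
   (((4853 / 20000), (23061 / 10000)), (9823 / 50000)),
   (((30667 / 100000), (24753 / 12500)), (11757 / 50000)),
   (((1207 / 3125), (32837 / 20000)), (868 / 3125)),
   (((1907 / 4000), (131599 / 100000)), (16143 / 50000)),
   (((14549 / 25000), (24753 / 25000)), (37173 / 100000)),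
   (((2831 / 4000), (65173 / 100000)), (10569 / 25000)),
   (((84551 / 100000), (32587 / 100000)), (2963 / 6250)),
   (((1), (0)), (1))]

/-- The chain above threshold 6 for 10 cells. -/
def chain10_6 : List ((ℚ × ℚ) × ℚ) :=
  [(((1153 / 50000), (246903 / 50000)), (89 / 3125)),
   (((1617 / 50000), (23061 / 5000)), (3827 / 100000)),
   (((4529 / 100000), (427381 / 100000)), (633 / 12500)),
   (((6179 / 100000), (78959 / 20000)), (1641 / 25000)),
   (((4159 / 50000), (11319 / 3125)), (4217 / 50000)),
   (((2793 / 25000), (328369 / 100000)), (10673 / 100000)),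
   (((293 / 2000), (295783 / 100000)), (663 / 5000)),
   (((18971 / 100000), (263197 / 100000)), (8123 / 50000)),
   (((4853 / 20000), (23061 / 10000)), (9823 / 50000)),
   (((30667 / 100000), (24753 / 12500)), (11757 / 50000)),
   (((1207 / 3125), (32837 / 20000)), (868 / 3125)),
   (((1907 / 4000), (131599 / 100000)), (16143 / 50000)),
   (((14549 / 25000), (24753 / 25000)), (37173 / 100000)),
   (((2831 / 4000), (65173 / 100000)), (10569 / 25000)),
   (((84551 / 100000), (32587 / 100000)), (2963 / 6250)),
   (((1), (0)), (1))]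

end Vale.Agent.P226
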