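import Vale.Agent.P226.CapData

/-!
# Certificates for five cells

One more line for five cells and the chains above the two thresholds of five cells.
-/

namespace Vale.Agent.P226

open MeasureTheory ProbabilityTheory Real Set
open scoped RealInnerProductSpace

variable {E : Type*} [NormedAddCommGroup E] [InnerProductSpace ℝ E] [FiniteDimensional ℝ E]
  [MeasurableSpace E] [BorelSpace E]

/-- The lines for five cells, with one more near `p = 1/10`. -/
def lines5x : List (ℚ × ℚ) := ((33119 / 100000), (174359 / 100000)) :: lines5

theorem lines5x_valid (hn : Module.finrank ℝ E = 4) {X : Set E} (hX : IsCone X)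
    (hm : MeasurableSet X) :
    ∀ l ∈ lines5x, √(2 * π) * ‖mom X‖ ≤ (l.1 : ℝ) + (l.2 : ℝ) * (stdGaussian E).real X := by
  have hlo := pi_gt_d6
  have hhi := pi_lt_d6
  refine List.forall_mem_cons.2 ⟨?_, lines5_valid hn hX hm⟩
  refine cap_line hn (by norm_num) hX hm (s := (37 / 100)) (q := (116129 / 125000)) (G := (4517199 / 12500000)) (by norm_num) (by norm_num)
    (by norm_num) (by norm_num) ?_ ?_ ?_
  · have h1 : arcsin (37 / 100) ≤ (37901 / 100000) := arcsin_le_seven (by norm_num) (by norm_num) (by norm_num)
    have h2 : √(1 - (37 / 100) ^ 2) ≤ (116129 / 125000) := sqrt_le_iff.2 ⟨by norm_num, by norm_num⟩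
    norm_num [capPrim] at h1 h2 ⊢ <;> linarith
  · norm_num [capPrim, arcsin_one] <;> linarith
  · norm_num [capPrim, arcsin_one] <;> linarith

/-- The chain above threshold 4 of five cells. -/
def chainfive4 : List ((ℚ × ℚ) × ℚ) :=
  [(((2953 / 100000), (180249 / 50000)), (471 / 6250)),
   (((4551 / 100000), (339293 / 100000)), (11907 / 125000)),
   (((6571 / 100000), (318087 / 100000)), (58191 / 500000)),
   (((9039 / 100000), (296881 / 100000)), (1733 / 12500)),
   (((11979 / 100000), (11027 / 4000)), (161801 / 1000000)),
   (((1541 / 10000), (25447 / 10000)), (92969 / 500000)),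
   (((19353 / 100000), (14579 / 6250)), (210837 / 1000000)),
   (((1489 / 6250), (106029 / 50000)), (59087 / 250000)),
   (((7209 / 25000), (47713 / 25000)), (129843 / 500000)),
   (((33119 / 100000), (174359 / 100000)), (6823 / 25000)),
   (((6881 / 20000), (169647 / 100000)), (57861 / 200000)),
   (((2027 / 5000), (148441 / 100000)), (158257 / 500000)),
   (((11813 / 25000), (25447 / 20000)), (172027 / 500000)),
   (((13637 / 25000), (106029 / 100000)), (92997 / 250000)),
   (((15609 / 25000), (10603 / 12500)), (40017 / 100000)),
   (((35461 / 50000), (31809 / 50000)), (428511 / 1000000)),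
   (((80009 / 100000), (10603 / 25000)), (5713 / 12500)),
   (((89701 / 100000), (10603 / 50000)), (15177 / 31250)),
   (((1), (0)), (1))]

/-- The chain above threshold 5 of five cells. -/
def chainfive5 : List ((ℚ × ℚ) × ℚ) :=
  [(((349 / 20000), (47713 / 12500)), (11393 / 200000)),
   (((2953 / 100000), (180249 / 50000)), (471 / 6250)),
   (((4551 / 100000), (339293 / 100000)), (11907 / 125000)),
   (((6571 / 100000), (318087 / 100000)), (58191 / 500000)),
   (((9039 / 100000), (296881 / 100000)), (1733 / 12500)),
   (((11979 / 100000), (11027 / 4000)), (161801 / 1000000)),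
   (((1541 / 10000), (25447 / 10000)), (92969 / 500000)),
   (((19353 / 100000), (14579 / 6250)), (210837 / 1000000)),
   (((1489 / 6250), (106029 / 50000)), (59087 / 250000)),
   (((7209 / 25000), (47713 / 25000)), (129843 / 500000)),
   (((33119 / 100000), (174359 / 100000)), (6823 / 25000)),
   (((6881 / 20000), (169647 / 100000)), (57861 / 200000)),
   (((2027 / 5000), (148441 / 100000)), (158257 / 500000)),
   (((11813 / 25000), (25447 / 20000)), (172027 / 500000)),
   (((13637 / 25000), (106029 / 100000)), (92997 / 250000)),
   (((15609 / 25000), (10603 / 12500)), (40017 / 100000)),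
   (((35461 / 50000), (31809 / 50000)), (428511 / 1000000)),
   (((80009 / 100000), (10603 / 25000)), (5713 / 12500)),
   (((89701 / 100000), (10603 / 50000)), (15177 / 31250)),
   (((1), (0)), (1))]

end Vale.Agent.P226
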