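import Mathlib

/-!
# The cap polynomial on four cells

For four numbers at least `1/10` with sum one, `∑ p² (1 - p)² ≤ 9/64`.
-/

namespace Vale.Agent.P226

/-- The function bounded by the cap estimate. -/
def capFun (p : ℝ) : ℝ := p ^ 2 * (1 - p) ^ 2

theorem capFun_le_line {m p : ℝ} (h : (1 - m - p) ^ 2 ≤ 2 * m * (1 - m)) :
    capFun p ≤ capFun m + 2 * m * (1 - m) * (1 - 2 * m) * (p - m) := by
  have h2 := mul_nonneg (sq_nonneg (p - m)) (sub_nonneg.2 h)
  simp only [capFun]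
  nlinarith [h2]

theorem capFun_sum_le' {a b c d : ℝ} (ha : 1 / 10 ≤ a) (hb : a ≤ b) (hc : a ≤ c) (hd : a ≤ d)
    (hs : a + b + c + d = 1) :
    capFun a + capFun b + capFun c + capFun d ≤ 9 / 64 := by
  set m := (1 - a) / 3 with hm
  have ha4 : a ≤ 1 / 4 := by linarith
  have key : ∀ p, a ≤ p → p ≤ 1 - 3 * a →
      capFun p ≤ capFun m + 2 * m * (1 - m) * (1 - 2 * m) * (p - m) := fun p h1 h2 => by
    refine capFun_le_line ?_
    rw [hm]
    nlinarith [mul_nonneg (sub_nonneg.2 h1) (sub_nonneg.2 h2),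
      mul_nonneg (sub_nonneg.2 ha) (sub_nonneg.2 ha4), sq_nonneg (a - 1 / 4), sq_nonneg (a - 1 / 10)]
  have hbb := key b hb (by linarith)
  have hcc := key c hc (by linarith)
  have hdd := key d hd (by linarith)
  have hz : (b - m) + (c - m) + (d - m) = 0 := by rw [hm]; linarith
  have h1 : capFun a + 3 * capFun m ≤ 9 / 64 := by
    simp only [capFun, hm]
    nlinarith [mul_nonneg (mul_nonneg (sub_nonneg.2 ha) (sub_nonneg.2 ha4)) (sub_nonneg.2 ha4),
      mul_nonneg (sub_nonneg.2 ha4) (sub_nonneg.2 ha4), sq_nonneg (a - 1 / 4),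
      mul_nonneg (mul_nonneg (sub_nonneg.2 ha) (sub_nonneg.2 ha)) (sq_nonneg (a - 1 / 4))]
  have e : 2 * m * (1 - m) * (1 - 2 * m) * (b - m) + 2 * m * (1 - m) * (1 - 2 * m) * (c - m) +
      2 * m * (1 - m) * (1 - 2 * m) * (d - m) = 0 := by
    rw [← mul_add, ← mul_add, hz, mul_zero]
  linarith

/-- The cap polynomial inequality. -/
theorem capFun_sum_le {p : Fin 4 → ℝ} (hp : ∀ i, 1 / 10 ≤ p i) (hs : ∑ i, p i = 1) :
    ∑ i, capFun (p i) ≤ 9 / 64 := by
  rw [Fin.sum_univ_four] at hs ⊢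
  rcases le_total (p 0) (p 1) with h01 | h01 <;> rcases le_total (p 2) (p 3) with h23 | h23
  all_goals
    rcases le_total (p 0) (p 2) with h02 | h02 <;> rcases le_total (p 1) (p 3) with h13 | h13 <;>
      rcases le_total (p 0) (p 3) with h03 | h03 <;> rcases le_total (p 1) (p 2) with h12 | h12
  all_goals first
    | linarith [capFun_sum_le' (hp 0) (by linarith : p 0 ≤ p 1) (by linarith : p 0 ≤ p 2)
        (by linarith : p 0 ≤ p 3) hs]
    | linarith [capFun_sum_le' (hp 1) (by linarith : p 1 ≤ p 0) (by linarith : p 1 ≤ p 2)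
        (by linarith : p 1 ≤ p 3) (by linarith)]
    | linarith [capFun_sum_le' (hp 2) (by linarith : p 2 ≤ p 0) (by linarith : p 2 ≤ p 1)
        (by linarith : p 2 ≤ p 3) (by linarith)]
    | linarith [capFun_sum_le' (hp 3) (by linarith : p 3 ≤ p 0) (by linarith : p 3 ≤ p 1)
        (by linarith : p 3 ≤ p 2) (by linarith)]

end Vale.Agent.P226
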