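import Vale.Agent.P226.GainThree

/-!
# The cost of a short moment

A scaled moment at most `T` has square at most `γ` times the measure, for `γ` just above the ratio
of the square to the measure of the half line that carries the moment `T`.
-/

namespace Vale.Agent.P226

open MeasureTheory ProbabilityTheory Real Set Finset
open scoped RealInnerProductSpace

variable {E : Type*} [NormedAddCommGroup E] [InnerProductSpace ℝ E] [FiniteDimensional ℝ E]
  [MeasurableSpace E] [BorelSpace E]

/-- A short scaled moment has square at most `γ` times the measure. -/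
theorem short_sq_le {X : Set E} (hm : MeasurableSet X) {T γ lam t₀ B : ℝ} (hγ : 0 < γ)
    (hl0 : 0 < lam) (hl1 : lam ≤ 1) (ht1 : 1 ≤ t₀) (ht : t₀ * (250663 / 100000) * T ≤ lam * γ)
    (hB : √(2 * π) * psiTail t₀ ≤ B) (hB' : t₀ * B * (250663 / 100000) ≤ (1 - lam) * lam * γ)
    (hσ : √(2 * π) * ‖mom X‖ ≤ T) :
    (√(2 * π) * ‖mom X‖) ^ 2 ≤ γ * (stdGaussian E).real X := by
  set W := √(2 * π) with hW
  set σ := W * ‖mom X‖ with hσ'
  rcases eq_or_ne σ 0 with h0 | h0
  · rw [h0]
    simpa using mul_nonneg hγ.le (measureReal_nonneg (μ := stdGaussian E) (s := X))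
  have hU : W ≤ 250663 / 100000 := by
    have := pi_lt_d6
    exact sqrt_le_iff.2 ⟨by norm_num, by linarith⟩
  have hW0 : 0 < W := by positivity
  have hσ0 : 0 < σ := lt_of_le_of_ne (by positivity) (Ne.symm h0)
  by_contra! hc
  set t := lam * γ / (W * σ) with ht'
  have hte : t * (W * σ) = lam * γ := div_mul_cancel₀ _ (by positivity)
  have ht0 : t₀ ≤ t := by
    rw [ht', le_div_iff₀ (by positivity)]
    calc t₀ * (W * σ) ≤ t₀ * (250663 / 100000 * T) :=
          mul_le_mul_of_nonneg_left (mul_le_mul hU hσ hσ0.le (by norm_num)) (by linarith)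
      _ ≤ lam * γ := by linarith
  have htp : 0 < t := lt_of_lt_of_le (by linarith) ht0
  have h := mul_le_mul_of_nonneg_left (norm_mom_le_tail hm t) hW0.le
  rw [← hσ'] at h
  have hmono := mul_le_mul_of_nonneg_left (mul_psiTail_le ht1 ht0) hW0.le
  have h1 : W * t * (stdGaussian E).real X < lam * σ := by
    refine lt_of_mul_lt_mul_left ?_ hγ.le
    have h' := mul_lt_mul_of_pos_left hc (show 0 < W * t by positivity)
    have h'' : W * t * σ ^ 2 = γ * (lam * σ) := by
      rw [show W * t * σ ^ 2 = t * (W * σ) * σ by ring, hte]; ring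
    rw [h''] at h'
    linarith
  have h2 : (1 - lam) * σ < W * psiTail t := by linarith
  have h3 := mul_lt_mul_of_pos_left h2 htp
  have h4 : (1 - lam) * (lam * γ) = W * (t * ((1 - lam) * σ)) := by rw [← hte]; ring
  have h5 : W * (t * (W * psiTail t)) ≤ t₀ * B * (250663 / 100000) := by
    have hB0 : 0 ≤ W * psiTail t₀ :=
      mul_nonneg hW0.le (integral_nonneg fun s => le_max_right _ _)
    calc W * (t * (W * psiTail t)) ≤ W * (t₀ * (W * psiTail t₀)) :=
          mul_le_mul_of_nonneg_left (by linarith) hW0.le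
      _ ≤ 250663 / 100000 * (t₀ * B) :=
          mul_le_mul hU (mul_le_mul_of_nonneg_left hB (by linarith))
            (mul_nonneg (by linarith) hB0) (by norm_num)
      _ = _ := by ring
  have h6 := mul_lt_mul_of_pos_left h3 hW0
  linarith

private lemma sqrt_two_pi_ge : (250662 / 100000 : ℝ) ≤ √(2 * π) := by
  have := pi_gt_d6
  exact le_sqrt_of_sq_le (by linarith)

/-- A squared length below `22/10000` costs at most `718/1000` times the measure. -/
theorem short_sq_le_five {X : Set E} (hm : MeasurableSet X)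
    (h : ‖mom X‖ ^ 2 ≤ 22 / 10000) :
    2 * π * ‖mom X‖ ^ 2 ≤ 718 / 1000 * (stdGaussian E).real X := by
  have e : (√(2 * π) * ‖mom X‖) ^ 2 = 2 * π * ‖mom X‖ ^ 2 := by
    rw [mul_pow, sq_sqrt (by positivity)]
  rw [← e]
  refine short_sq_le hm (T := 5879 / 50000) (lam := 8499 / 10000) (t₀ := 1294 / 625)
    (B := 17601 / 1000000) (by norm_num) (by norm_num) (by norm_num) (by norm_num) (by norm_num)
    ?_ (by norm_num) ?_
  · refine (scaled_psiTail_le (e := 117273 / 1000000) (by norm_num) ?_ sqrt_two_pi_ge).trans ?_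
    · norm_num [expTay, Finset.sum_range_succ, Nat.factorial]
    · norm_num [gaussPrim, Finset.sum_range_succ, Nat.factorial]
  · refine le_of_pow_le_pow_left₀ two_ne_zero (by norm_num) ?_
    rw [e]
    have := pi_lt_d6
    nlinarith [pi_pos, sq_nonneg ‖mom X‖]

/-- A squared length below `20/10000` costs at most `6903/10000` times the measure. -/
theorem short_sq_le_six {X : Set E} (hm : MeasurableSet X)
    (h : ‖mom X‖ ^ 2 ≤ 20 / 10000) :
    2 * π * ‖mom X‖ ^ 2 ≤ 6903 / 10000 * (stdGaussian E).real X := by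
  have e : (√(2 * π) * ‖mom X‖) ^ 2 = 2 * π * ‖mom X‖ ^ 2 := by
    rw [mul_pow, sq_sqrt (by positivity)]
  rw [← e]
  refine short_sq_le hm (T := 1121 / 10000) (lam := 4261 / 5000) (t₀ := 4187 / 2000)
    (B := 16521 / 1000000) (by norm_num) (by norm_num) (by norm_num) (by norm_num) (by norm_num)
    ?_ (by norm_num) ?_
  · refine (scaled_psiTail_le (e := 13971 / 125000) (by norm_num) ?_ sqrt_two_pi_ge).trans ?_
    · norm_num [expTay, Finset.sum_range_succ, Nat.factorial]
    · norm_num [gaussPrim, Finset.sum_range_succ, Nat.factorial]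
  · refine le_of_pow_le_pow_left₀ two_ne_zero (by norm_num) ?_
    rw [e]
    have := pi_lt_d6
    nlinarith [pi_pos, sq_nonneg ‖mom X‖]

end Vale.Agent.P226
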