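import Vale.Agent.P226.Cap

/-!
# The cap bound in three dimensions

In dimension three the cap of height `s` has measure `(1 - s) / 2`, so a cone of measure `p` has
moment at most `4 p (1 - p) / √(2π)`.
-/

namespace Vale.Agent.P226

open MeasureTheory ProbabilityTheory Real Set Finset
open scoped RealInnerProductSpace

variable {E : Type*} [NormedAddCommGroup E] [InnerProductSpace ℝ E] [FiniteDimensional ℝ E]
  [MeasurableSpace E] [BorelSpace E]

/-- In three dimensions: the mean norm and the measure of caps. -/
theorem cap_three (hn : Module.finrank ℝ E = 3) :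
    meanNorm E = 4 * (√(2 * π))⁻¹ ∧
      ∀ s : ℝ, 0 ≤ s → s < 1 → capMass 2 s = (1 - s) / 2 := by
  set φ := (√(2 * π))⁻¹ with hφ
  have hφ0 : 0 < φ := by positivity
  set g := fun s => meanNorm E * capMass 2 s with hg
  have hsq : ∀ s : ℝ, 0 ≤ s → s < 1 → √(1 - s ^ 2) ^ 2 = 1 - s ^ 2 := fun s h0 h1 =>
    sq_sqrt (by nlinarith)
  have step : ∀ s t : ℝ, 0 < s → s ≤ t → t < 1 →
      |g s - g t - 2 * φ * (t - s)| ≤ φ * (t - s) ^ 2 / s := by
    intro s t hs hst ht
    have h1 := capMass_sandwich (n := 2) hn hs.le (hst.trans_lt ht) (hs.le.trans hst) ht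
    have h2 := capMass_sandwich (n := 2) hn (hs.le.trans hst) ht hs.le (hst.trans_lt ht)
    rw [hsq s hs.le (hst.trans_lt ht), hsq t (hs.le.trans hst) ht] at h1 h2
    rw [le_div_iff₀ hs, ← abs_of_pos hs, ← abs_mul, abs_le]
    simp only [hg, abs_of_pos hs]
    constructor <;> nlinarith [mul_nonneg hφ0.le (sq_nonneg (t - s))]
  have exact' : ∀ s t : ℝ, 0 < s → s ≤ t → t < 1 → g s - g t = 2 * φ * (t - s) := by
    intro s t hs hst ht
    have hN : ∀ N : ℕ, 0 < N →
        |g s - g t - 2 * φ * (t - s)| ≤ φ * (t - s) ^ 2 / s / N := by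
      intro N hN
      set f := fun i : ℕ => s + (t - s) * i / N with hf
      have hf0 : f 0 = s := by simp [hf]
      have hfN : f N = t := by simp [hf, (Nat.cast_pos.2 hN).ne']
      have hN' : (0 : ℝ) < N := Nat.cast_pos.2 hN
      have hd : ∀ i, f (i + 1) - f i = (t - s) / N := fun i => by simp [hf]; ring
      have htel : g s - g t - 2 * φ * (t - s) = ∑ i ∈ Finset.range N,
          (g (f i) - g (f (i + 1)) - 2 * φ * (f (i + 1) - f i)) := by
        rw [Finset.sum_sub_distrib, Finset.sum_range_sub' (fun i => g (f i)), ← Finset.mul_sum,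
          Finset.sum_range_sub f, hf0, hfN]
      rw [htel]
      refine (Finset.abs_sum_le_sum_abs _ _).trans (le_of_le_of_eq
        (Finset.sum_le_sum (g := fun _ => φ * ((t - s) / N) ^ 2 / s) fun i hi => ?_) ?_)
      · have h0 : s ≤ f i := by
          have := div_nonneg (mul_nonneg (sub_nonneg.2 hst) (Nat.cast_nonneg i)) hN'.le
          simp only [hf]; linarith
        have hi' : (i : ℝ) + 1 ≤ N := by exact_mod_cast Finset.mem_range.1 hi
        have h1 : f i ≤ f (i + 1) := by
          have := div_nonneg (sub_nonneg.2 hst) hN'.le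
          linarith [hd i]
        have h2 : f (i + 1) ≤ t := by
          rw [← hfN]
          simp only [hf]
          push_cast
          gcongr
        refine (step _ _ (hs.trans_le h0) h1 (h2.trans_lt ht)).trans ?_
        rw [hd]
        exact div_le_div_of_nonneg_left (by positivity) hs h0
      · rw [Finset.sum_const, Finset.card_range, nsmul_eq_mul]
        field_simp
    by_contra hne
    have hpos : 0 < |g s - g t - 2 * φ * (t - s)| := abs_pos.2 (sub_ne_zero.2 hne)
    obtain ⟨N, hN'⟩ := exists_nat_gt (φ * (t - s) ^ 2 / s / |g s - g t - 2 * φ * (t - s)|)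
    have hN0 : 0 < N := by
      rcases Nat.eq_zero_or_pos N with h | h
      · subst h
        have : 0 ≤ φ * (t - s) ^ 2 / s / |g s - g t - 2 * φ * (t - s)| := by positivity
        simp at hN'
        linarith
      · exact h
    have := hN N hN0
    rw [div_lt_iff₀ hpos] at hN'
    rw [le_div_iff₀ (Nat.cast_pos.2 hN0)] at this
    linarith
  have hgs : ∀ s : ℝ, 0 < s → s < 1 → g s = 2 * φ * (1 - s) := by
    intro s hs hs1
    refine le_antisymm (le_of_forall_pos_le_add fun ε hε => ?_)
      (le_of_forall_pos_le_add fun ε hε => ?_)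
    all_goals
      obtain ⟨t, ht, hst, ht1⟩ : ∃ t, 1 - ε * s / (4 * φ) ≤ t ∧ s ≤ t ∧ t < 1 :=
        ⟨max s (1 - ε * s / (4 * φ)), le_max_right _ _, le_max_left _ _,
          max_lt hs1 (sub_lt_self _ (by positivity))⟩
      have he := exact' s t hs hst ht1
      obtain ⟨h0, h1⟩ := mul_capMass_le (n := 2) hn (hs.le.trans hst) ht1
      rw [hsq t (hs.le.trans hst) ht1] at h1
      have ht' : 4 * φ * (1 - t) ≤ ε * s := by
        have : 1 - t ≤ ε * s / (4 * φ) := by linarith
        rwa [le_div_iff₀ (by positivity), mul_comm] at this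
      simp only [hg] at he ⊢
    · have hgt : meanNorm E * capMass 2 t ≤ ε := by
        have h2 : t * (meanNorm E * capMass 2 t) ≤ φ * (2 * (1 - t)) :=
          h1.trans (mul_le_mul_of_nonneg_left (by nlinarith) hφ0.le)
        nlinarith [mul_le_mul_of_nonneg_right hst h0]
      linarith [mul_nonneg hφ0.le (sub_nonneg.2 ht1.le)]
    · nlinarith
  obtain ⟨h0, hnear⟩ := capMass_zero_near (n := 2) hn
  have hK0 : 0 ≤ meanNorm E := integral_nonneg fun x => norm_nonneg x
  have hK : meanNorm E = 4 * φ := by
    refine le_antisymm (le_of_forall_pos_le_add fun ε hε => ?_) ?_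
    · set A := meanNorm E * (1 + meanNorm E) + 1 with hA
      have hA0 : 0 < A := by positivity
      set t := min (1 / 2) ((ε / (2 * A)) ^ 2) with ht
      have ht0 : 0 < t := lt_min (by norm_num) (by positivity)
      have ht1 : t < 1 := (min_le_left _ _).trans_lt (by norm_num)
      have hst : √t ≤ ε / (2 * A) := sqrt_le_iff.2 ⟨by positivity, min_le_right _ _⟩
      have h1 := mul_le_mul_of_nonneg_left (hnear t ht0 ht1) hK0
      have h2 := hgs t ht0 ht1
      have h3 : meanNorm E * (√t * (1 + meanNorm E)) ≤ ε / 2 := by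
        calc meanNorm E * (√t * (1 + meanNorm E)) = (A - 1) * √t := by ring
          _ ≤ A * (ε / (2 * A)) := mul_le_mul (by linarith) hst (sqrt_nonneg _) hA0.le
          _ = ε / 2 := by field_simp
      simp only [hg] at h2
      have := mul_pos hφ0 ht0
      nlinarith
    · refine le_of_forall_pos_le_add fun ε hε => ?_
      set t := min (1 / 2) (ε / (4 * φ)) with ht
      have ht0 : 0 < t := lt_min (by norm_num) (by positivity)
      have ht1 : t < 1 := (min_le_left _ _).trans_lt (by norm_num)
      have h1 := capMass_sandwich (n := 2) hn ht0.le ht1 le_rfl one_pos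
      have h3 := capMass_sandwich (n := 2) hn le_rfl one_pos ht0.le ht1
      have h2 := hgs t ht0 ht1
      rw [h0, hsq t ht0.le ht1, hsq 0 le_rfl one_pos] at h1 h3
      simp only [hg] at h2
      have h5 : 4 * φ * t ≤ ε := by
        have := min_le_right (1 / 2) (ε / (4 * φ))
        rw [← ht, le_div_iff₀ (by positivity)] at this
        linarith
      nlinarith
  refine ⟨hK, fun s hs hs1 => ?_⟩
  rcases hs.eq_or_lt with rfl | hs'
  · rw [h0]; norm_num
  · have := hgs s hs' hs1
    simp only [hg, hK] at this
    nlinarith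

/-- A cone of measure `p` in three dimensions has moment at most `4 p (1 - p) / √(2π)`. -/
theorem norm_mom_le_cap_three (hn : Module.finrank ℝ E = 3) {A : Set E} (hA : IsCone A)
    (hm : MeasurableSet A) :
    ‖mom A‖ ≤ (√(2 * π))⁻¹ *
      (4 * (stdGaussian E).real A * (1 - (stdGaussian E).real A)) := by
  obtain ⟨hK, hP⟩ := cap_three hn
  have key : ∀ B : Set E, IsCone B → MeasurableSet B → (stdGaussian E).real B ≤ 1 / 2 →
      ‖mom B‖ ≤ (√(2 * π))⁻¹ *
        (4 * (stdGaussian E).real B * (1 - (stdGaussian E).real B)) := by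
    intro B hB hmB hle
    rcases (measureReal_nonneg (μ := stdGaussian E) (s := B)).eq_or_lt with h | h
    · rw [mom, setIntegral_measure_zero _ ((measureReal_eq_zero_iff (measure_ne_top _ _)).1 h.symm), norm_zero, ← h]
      simp
    set p := (stdGaussian E).real B
    have hh := norm_mom_le_cap (n := 2) hn hB hmB (s := 1 - 2 * p) (by linarith) (by linarith)
    rw [hP _ (by linarith) (by linarith), hK, sq_sqrt (by nlinarith)] at hh
    refine hh.trans_eq ?_
    ring
  rcases le_total ((stdGaussian E).real A) (1 / 2) with h | h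
  · exact key A hA hm h
  · have hc : IsCone Aᶜ := fun c hc x => not_congr (hA c hc x)
    have hmom : mom Aᶜ = -mom A := by
      have := integral_add_compl hm (IsGaussian.integrable_id (μ := stdGaussian E))
      simp only [id] at this
      rw [integral_id_stdGaussian] at this
      exact eq_neg_of_add_eq_zero_right this
    have := key Aᶜ hc hm.compl (by rw [probReal_compl_eq_one_sub hm]; linarith)
    rw [hmom, norm_neg, probReal_compl_eq_one_sub hm] at this
    linarith

end Vale.Agent.P226
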