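import Vale.Agent.P226.Extremal

/-!
# An extremal family has boundedly many nonzero vectors

Cells with tiny moment vectors sit where two well separated linear forms are small compared with
the total small moment, a quadratically unlikely event; iterating this over a few scales shows
that there are no such cells.
-/

namespace Vale.Agent.P226

open MeasureTheory ProbabilityTheory Real Set Finset
open scoped RealInnerProductSpace

variable {E : Type*} [NormedAddCommGroup E] [InnerProductSpace ℝ E] [FiniteDimensional ℝ E]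
  [MeasurableSpace E] [BorelSpace E] {k : ℕ} [NeZero k]

/-- Indices of short vectors. -/
noncomputable def small (w : Fin k → E) (τ : ℝ) : Finset (Fin k) :=
  Finset.univ.filter fun i => ‖w i‖ ≤ τ

/-- Squared length of the short vectors. -/
noncomputable def tailSq (w : Fin k → E) (τ : ℝ) : ℝ := ∑ i ∈ small w τ, ‖w i‖ ^ 2

/-- Mass of the cells of the short vectors. -/
noncomputable def tailMass (w : Fin k → E) (τ : ℝ) : ℝ :=
  ∑ i ∈ small w τ, (stdGaussian E).real (cell w i)

/-- Number of long vectors. -/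
noncomputable def longCount (w : Fin k → E) (τ : ℝ) : ℝ := ((small w τ)ᶜ.card : ℝ)

lemma one_le_momC : 1 ≤ momC := by have := qmom_nonneg; unfold momC; linarith

lemma tailSq_nonneg (w : Fin k → E) (τ : ℝ) : 0 ≤ tailSq w τ :=
  Finset.sum_nonneg fun _ _ => sq_nonneg _

lemma tailMass_nonneg (w : Fin k → E) (τ : ℝ) : 0 ≤ tailMass w τ :=
  Finset.sum_nonneg fun _ _ => measureReal_nonneg

lemma tailMass_le_one (w : Fin k → E) (τ : ℝ) : tailMass w τ ≤ 1 := by
  rw [← (cell_isPart w).sum_measure]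
  exact Finset.sum_le_sum_of_subset_of_nonneg (Finset.subset_univ _)
    fun i _ _ => measureReal_nonneg

lemma norm_rpow_inv_le {w : Fin k → E} (h0 : ∀ i, w i = mom (cell w i)) (i : Fin k) :
    ‖w i‖ ^ (bexp⁻¹) ≤ momC ^ 2 * (stdGaussian E).real (cell w i) := by
  have hb : 0 < bexp := by unfold bexp; norm_num
  have h1 : ‖w i‖ ≤ momC * (stdGaussian E).real (cell w i) ^ bexp := by
    have := norm_mom_le (E := E) ((cell_isPart w).meas i)
    rwa [← h0 i] at this
  refine (Real.rpow_le_rpow (norm_nonneg _) h1 (inv_nonneg.mpr hb.le)).trans ?_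
  rw [Real.mul_rpow (by linarith [one_le_momC]) (Real.rpow_nonneg measureReal_nonneg _),
    ← Real.rpow_mul measureReal_nonneg, mul_inv_cancel₀ hb.ne', Real.rpow_one]
  refine mul_le_mul_of_nonneg_right ?_ measureReal_nonneg
  rw [← Real.rpow_two]
  exact Real.rpow_le_rpow_of_exponent_le one_le_momC (by unfold bexp; norm_num)

/-- The exponent `2 - 1 / bexp`. -/
noncomputable def muExp : ℝ := 2 - bexp⁻¹

/-- The exponent `2 * bexp - 1 / bexp`. -/
noncomputable def kapExp : ℝ := 2 * bexp - bexp⁻¹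

lemma sum_small_rpow_le {w : Fin k → E} (h0 : ∀ i, w i = mom (cell w i)) (τ : ℝ) (hτ : 0 < τ)
    (e : ℝ) (he : 0 < e) :
    ∑ i ∈ small w τ, ‖w i‖ ^ (e + bexp⁻¹) ≤ momC ^ 2 * τ ^ e * tailMass w τ := by
  have hb : 0 < bexp := by unfold bexp; norm_num
  unfold tailMass
  rw [Finset.mul_sum]
  refine Finset.sum_le_sum fun i hi => ?_
  rw [Real.rpow_add_of_nonneg (norm_nonneg _) he.le (inv_nonneg.mpr hb.le)]
  calc ‖w i‖ ^ e * ‖w i‖ ^ bexp⁻¹ ≤ τ ^ e * (momC ^ 2 * (stdGaussian E).real (cell w i)) :=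
        mul_le_mul (Real.rpow_le_rpow (norm_nonneg _) (by simpa [small] using hi) he.le)
          (norm_rpow_inv_le h0 i) (Real.rpow_nonneg (norm_nonneg _) _) (by positivity)
    _ = _ := by ring

lemma tailSq_le {w : Fin k → E} (h0 : ∀ i, w i = mom (cell w i)) (τ : ℝ) (hτ : 0 < τ) :
    tailSq w τ ≤ momC ^ 2 * τ ^ muExp * tailMass w τ := by
  refine le_of_eq_of_le ?_ (sum_small_rpow_le h0 τ hτ muExp (by unfold muExp bexp; norm_num))
  refine Finset.sum_congr rfl fun i _ => ?_
  rw [muExp, sub_add_cancel, Real.rpow_two]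

lemma tailSq_le_mass {w : Fin k → E} (h0 : ∀ i, w i = mom (cell w i)) (τ : ℝ) :
    tailSq w τ ≤ momC ^ 2 * tailMass w τ ^ (2 * bexp) := by
  have hp : ∀ i, 0 ≤ (stdGaussian E).real (cell w i) := fun i => measureReal_nonneg
  have he : 0 ≤ 2 * bexp - 1 := by unfold bexp; norm_num
  have hsum : tailMass w τ ^ (2 * bexp) =
      ∑ i ∈ small w τ, (stdGaussian E).real (cell w i) * tailMass w τ ^ (2 * bexp - 1) := by
    rw [← Finset.sum_mul]
    calc tailMass w τ ^ (2 * bexp) = tailMass w τ ^ ((1 : ℝ) + (2 * bexp - 1)) := by ring_nf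
      _ = tailMass w τ * tailMass w τ ^ (2 * bexp - 1) := by
        rw [Real.rpow_add_of_nonneg (tailMass_nonneg _ _) zero_le_one he, Real.rpow_one]
      _ = _ := rfl
  rw [hsum, Finset.mul_sum]
  refine Finset.sum_le_sum fun i hi => ?_
  have h1 : ‖w i‖ ≤ momC * (stdGaussian E).real (cell w i) ^ bexp := by
    have := norm_mom_le (E := E) ((cell_isPart w).meas i)
    rwa [← h0 i] at this
  calc ‖w i‖ ^ 2 ≤ (momC * (stdGaussian E).real (cell w i) ^ bexp) ^ 2 :=
        pow_le_pow_left₀ (norm_nonneg _) h1 2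
    _ = momC ^ 2 * ((stdGaussian E).real (cell w i) *
          (stdGaussian E).real (cell w i) ^ (2 * bexp - 1)) := by
        rw [mul_pow, ← Real.rpow_natCast ((stdGaussian E).real (cell w i) ^ bexp) 2,
          ← Real.rpow_mul (hp i)]
        congr 1
        calc (stdGaussian E).real (cell w i) ^ (bexp * ((2 : ℕ) : ℝ))
            = (stdGaussian E).real (cell w i) ^ ((1 : ℝ) + (2 * bexp - 1)) := by
              push_cast; ring_nf
          _ = _ := by rw [Real.rpow_add_of_nonneg (hp i) zero_le_one he, Real.rpow_one]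
    _ ≤ _ := mul_le_mul_of_nonneg_left (mul_le_mul_of_nonneg_left
          (Real.rpow_le_rpow (hp i) (Finset.single_le_sum (fun j _ => hp j) hi) he) (hp i))
          (by positivity)

lemma small_mono (w : Fin k → E) {τ τ' : ℝ} (h : τ' ≤ τ) : small w τ' ⊆ small w τ := by
  intro i hi
  simp only [small, Finset.mem_filter, Finset.mem_univ, true_and] at hi ⊢
  linarith

lemma longCount_le {w : Fin k → E} (h0 : ∀ i, w i = mom (cell w i)) (τ τ' : ℝ) (hτ' : 0 < τ')
    (hle : τ' ≤ τ) :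
    longCount w τ' ≤ longCount w τ + momC ^ 2 * tailMass w τ * τ' ^ (-bexp⁻¹) := by
  classical
  have hsub : (small w τ')ᶜ ⊆ (small w τ)ᶜ ∪ (small w τ \ small w τ') := by
    intro i hi
    simp only [Finset.mem_union, Finset.mem_compl, Finset.mem_sdiff] at hi ⊢
    by_cases h : i ∈ small w τ
    · exact Or.inr ⟨h, hi⟩
    · exact Or.inl h
  have h1 : longCount w τ' ≤ longCount w τ + ((small w τ \ small w τ').card : ℝ) := by
    unfold longCount
    exact_mod_cast (Finset.card_le_card hsub).trans (Finset.card_union_le _ _)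
  refine h1.trans (add_le_add le_rfl ?_)
  have hb : 0 ≤ bexp⁻¹ := by unfold bexp; norm_num
  have h2 : ((small w τ \ small w τ').card : ℝ) * τ' ^ bexp⁻¹ ≤ momC ^ 2 * tailMass w τ := by
    unfold tailMass
    rw [← nsmul_eq_mul, ← Finset.sum_const, Finset.mul_sum]
    refine (Finset.sum_le_sum fun i hi => ?_).trans
      (Finset.sum_le_sum_of_subset_of_nonneg Finset.sdiff_subset fun i _ _ =>
        mul_nonneg (sq_nonneg _) measureReal_nonneg)
    refine (Real.rpow_le_rpow hτ'.le ?_ hb).trans (norm_rpow_inv_le h0 i)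
    simp only [small, Finset.mem_sdiff, Finset.mem_filter, Finset.mem_univ, true_and, not_le] at hi
    exact hi.2.le
  rw [Real.rpow_neg hτ'.le, ← div_eq_mul_inv, le_div_iff₀ (Real.rpow_pos_of_pos hτ' _)]
  exact h2

/-- The constant of the scale step. -/
noncomputable def stepC (ρ : ℝ) : ℝ := 4 * slabC ρ * momC ^ 2

lemma slabC_pos (ρ : ℝ) : 1 ≤ slabC ρ := by
  have := qmom_nonneg
  unfold slabC
  nlinarith [sq_nonneg (2 / ρ ^ 2)]

lemma stepC_pos (ρ : ℝ) : 1 ≤ stepC ρ := by
  have h1 := slabC_pos ρ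
  have h2 := one_le_momC
  unfold stepC
  nlinarith [mul_le_mul h1 (pow_le_pow_left₀ zero_le_one h2 2) (by norm_num) (by linarith)]

/-- The scale step. -/
lemma step {w : Fin k → E} (h0 : ∀ i, w i = mom (cell w i))
    (hmax : ∀ A : Fin k → Set E, IsPart A → val A ≤ ∑ i, ‖w i‖ ^ 2)
    (ρ : ℝ) (hρ : 0 < ρ) (hρ1 : ρ ≤ 1) (a b : Fin k) (ha : ρ ≤ ‖w a‖) (hb : ρ ≤ ‖w b‖)
    (hb1 : ‖w b‖ ≤ 1)
    (hab : ρ ≤ ‖w b - (⟪‖w a‖⁻¹ • w a, w b⟫) • (‖w a‖⁻¹ • w a)‖)
    (τ τ' : ℝ) (hτ' : 0 < τ') (hle : τ' ≤ τ) (hτρ : τ < ρ)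
    (hsmall : stepC ρ * (longCount w τ + 1) ^ (2 * bexp) * τ' ^ kapExp ≤ 1 / 2) :
    tailMass w τ' ≤ 2 * stepC ρ * tailSq w τ ^ bexp := by
  classical
  set Z := ∑ i ∈ small w τ, w i with hZ
  set n := longCount w τ with hn
  have hn0 : 0 ≤ n := by rw [hn, longCount]; positivity
  have hbig : ∀ i, ρ ≤ ‖w i‖ → i ∈ (small w τ)ᶜ := fun i hi => by
    simp only [small, Finset.mem_compl, Finset.mem_filter, Finset.mem_univ, true_and, not_le]
    linarith
  have hsum0 : ∑ i, w i = 0 := by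
    conv_lhs => arg 2; ext i; rw [h0 i]
    exact (cell_isPart w).sum_mom
  set U := {x : E | |⟪w a, x⟫| ≤ |⟪(2 : ℝ) • Z, x⟫| ∧ |⟪w b, x⟫| ≤ |⟪(2 : ℝ) • Z, x⟫|} with hU
  set V := fun s : Fin k => {x : E | |⟪w a, x⟫| ≤ |⟪(2 * (n + 1)) • w s, x⟫| ∧
    |⟪w b, x⟫| ≤ |⟪(2 * (n + 1)) • w s, x⟫|} with hV
  have hsub : ∀ s, cell w s ⊆ (cell w s ∩ U) ∪ V s := by
    intro s x hx
    set M := ⟪w s, x⟫ with hM
    have hM0 : 0 ≤ M := by
      have h := Finset.sum_le_sum (s := Finset.univ) fun j _ => hx.1 j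
      rw [← sum_inner, hsum0, inner_zero_left, Finset.sum_const, Finset.card_univ,
        Fintype.card_fin, nsmul_eq_mul] at h
      have hk : (0 : ℝ) < k := by exact_mod_cast Nat.pos_of_ne_zero (NeZero.ne k)
      exact nonneg_of_mul_nonneg_right (by linarith) hk
    have hfor : ∀ c, c ∈ (small w τ)ᶜ → |⟪w c, x⟫| ≤ (n + 1) * M + |⟪Z, x⟫| := by
      intro c hc
      rw [abs_le]
      constructor
      · have h1 : ⟪w c, x⟫ + (∑ j ∈ ((small w τ)ᶜ).erase c, ⟪w j, x⟫) + ⟪Z, x⟫ = 0 := by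
          rw [Finset.add_sum_erase _ (fun j => ⟪w j, x⟫) hc, hZ, sum_inner, add_comm,
            Finset.sum_add_sum_compl, ← sum_inner, hsum0, inner_zero_left]
        have h2 : ∑ j ∈ ((small w τ)ᶜ).erase c, ⟪w j, x⟫ ≤ n * M := by
          refine (Finset.sum_le_sum fun j _ => hx.1 j).trans ?_
          rw [Finset.sum_const, nsmul_eq_mul]
          refine mul_le_mul_of_nonneg_right ?_ hM0
          rw [hn, longCount]
          exact_mod_cast Finset.card_erase_le
        have := le_abs_self ⟪Z, x⟫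
        nlinarith
      · have := hx.1 c
        have := abs_nonneg ⟪Z, x⟫
        nlinarith
    have ha' := hfor a (hbig a ha)
    have hb' := hfor b (hbig b hb)
    by_cases hc : (n + 1) * M ≤ |⟪Z, x⟫|
    · left
      refine ⟨hx, ?_⟩
      simp only [hU, Set.mem_ofPred_eq, real_inner_smul_left, abs_mul, abs_two]
      constructor <;> linarith
    · right
      push Not at hc
      have : |⟪(2 * (n + 1)) • w s, x⟫| = 2 * ((n + 1) * M) := by
        rw [real_inner_smul_left, ← hM, abs_of_nonneg (by positivity)]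
        ring
      simp only [hV, Set.mem_ofPred_eq, this]
      constructor <;> linarith
  have hmeasU : MeasurableSet U := by
    rw [hU]
    exact ((isClosed_le (by fun_prop : Continuous fun x : E => |⟪w a, x⟫|)
        (by fun_prop : Continuous fun x : E => |⟪(2 : ℝ) • Z, x⟫|)).measurableSet).inter
      (isClosed_le (by fun_prop : Continuous fun x : E => |⟪w b, x⟫|)
        (by fun_prop : Continuous fun x : E => |⟪(2 : ℝ) • Z, x⟫|)).measurableSet
  have hUb : (stdGaussian E).real U ≤ slabC ρ * (4 * tailSq w τ ^ bexp) := by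
    refine (slab_le ρ hρ hρ1 (w a) (w b) _ ha hb1 hab).trans
      (mul_le_mul_of_nonneg_left ?_ (by linarith [slabC_pos ρ]))
    rw [norm_smul, Real.norm_eq_abs, abs_two, Real.rpow_mul (by positivity), Real.rpow_two,
      mul_pow, Real.mul_rpow (by positivity) (by positivity)]
    refine mul_le_mul ?_ (Real.rpow_le_rpow (by positivity) (merge_le w h0 hmax _)
      (by unfold bexp; norm_num)) (Real.rpow_nonneg (by positivity) _) (by norm_num)
    calc ((2 : ℝ) ^ 2) ^ bexp ≤ ((2 : ℝ) ^ 2) ^ (1 : ℝ) :=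
          Real.rpow_le_rpow_of_exponent_le (by norm_num) (by unfold bexp; norm_num)
      _ = 4 := by norm_num
  have hVb : ∀ s, (stdGaussian E).real (V s) ≤
      slabC ρ * (4 * (n + 1) ^ (2 * bexp) * ‖w s‖ ^ (2 * bexp)) := by
    intro s
    refine (slab_le ρ hρ hρ1 (w a) (w b) _ ha hb1 hab).trans
      (mul_le_mul_of_nonneg_left ?_ (by linarith [slabC_pos ρ]))
    rw [norm_smul, Real.norm_eq_abs, abs_of_nonneg (by positivity),
      Real.mul_rpow (by positivity) (norm_nonneg _), Real.mul_rpow (by norm_num) (by positivity)]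
    refine mul_le_mul_of_nonneg_right (mul_le_mul_of_nonneg_right ?_ (by positivity))
      (Real.rpow_nonneg (norm_nonneg _) _)
    calc (2 : ℝ) ^ (2 * bexp) ≤ (2 : ℝ) ^ (2 : ℝ) :=
          Real.rpow_le_rpow_of_exponent_le (by norm_num) (by unfold bexp; norm_num)
      _ = 4 := by norm_num
  have hcell : ∀ s, (stdGaussian E).real (cell w s) ≤
      (stdGaussian E).real (cell w s ∩ U) + (stdGaussian E).real (V s) := fun s =>
    (measureReal_mono (hsub s)).trans (measureReal_union_le _ _)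
  have hU2 : ∑ s ∈ small w τ', (stdGaussian E).real (cell w s ∩ U) ≤ (stdGaussian E).real U := by
    rw [← measureReal_biUnion_finset (fun i _ j _ hij =>
      ((cell_isPart w).disj hij).mono Set.inter_subset_left Set.inter_subset_left)
      fun i _ => ((cell_isPart w).meas i).inter hmeasU]
    exact measureReal_mono (Set.iUnion₂_subset fun i _ => Set.inter_subset_right)
  have hV2 : ∑ s ∈ small w τ', (stdGaussian E).real (V s) ≤
      stepC ρ * (n + 1) ^ (2 * bexp) * τ' ^ kapExp * tailMass w τ' := by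
    have hk : kapExp + bexp⁻¹ = 2 * bexp := by unfold kapExp; ring
    have h := sum_small_rpow_le h0 τ' hτ' kapExp (by unfold kapExp bexp; norm_num)
    rw [hk] at h
    calc ∑ s ∈ small w τ', (stdGaussian E).real (V s)
        ≤ ∑ s ∈ small w τ', slabC ρ * (4 * (n + 1) ^ (2 * bexp) * ‖w s‖ ^ (2 * bexp)) :=
          Finset.sum_le_sum fun s _ => hVb s
      _ = slabC ρ * 4 * (n + 1) ^ (2 * bexp) * ∑ s ∈ small w τ', ‖w s‖ ^ (2 * bexp) := by
          rw [Finset.mul_sum]; exact Finset.sum_congr rfl fun s _ => by ring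
      _ ≤ slabC ρ * 4 * (n + 1) ^ (2 * bexp) * (momC ^ 2 * τ' ^ kapExp * tailMass w τ') :=
          mul_le_mul_of_nonneg_left h (by have := slabC_pos ρ; positivity)
      _ = _ := by unfold stepC; ring
  have htot : tailMass w τ' ≤ slabC ρ * (4 * tailSq w τ ^ bexp) + (1 / 2) * tailMass w τ' := by
    calc tailMass w τ' ≤ ∑ s ∈ small w τ',
          ((stdGaussian E).real (cell w s ∩ U) + (stdGaussian E).real (V s)) :=
          Finset.sum_le_sum fun s _ => hcell s
      _ ≤ _ := by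
          rw [Finset.sum_add_distrib]
          exact add_le_add (hU2.trans hUb)
            (hV2.trans (mul_le_mul_of_nonneg_right hsmall (tailMass_nonneg _ _)))
  have hC : slabC ρ * 4 ≤ stepC ρ := by
    have h2 : (1 : ℝ) ≤ momC ^ 2 := one_le_pow₀ one_le_momC
    have := slabC_pos ρ
    unfold stepC
    nlinarith
  have := mul_le_mul_of_nonneg_right hC (Real.rpow_nonneg (tailSq_nonneg w τ) bexp)
  linarith

/-- The bookkeeping of one scale `t ^ A`. -/
def Scale (w : Fin k → E) (t A N P : ℝ) : Prop :=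
  longCount w (t ^ A) + 1 ≤ t ^ (-N) ∧ tailMass w (t ^ A) ≤ t ^ P

lemma smallness (t : ℝ) (ht : 0 < t) (ht1 : t ≤ 1) (L : ℝ) (hL0 : 0 ≤ L)
    (hL : L * t ^ (1 / 1000 : ℝ) ≤ 1) (e : ℝ) : L * t ^ e ≤ t ^ (e - 1 / 1000) := by
  have h : t ^ e = t ^ (1 / 1000 : ℝ) * t ^ (e - 1 / 1000) := by
    rw [← Real.rpow_add ht]; ring_nf
  rw [h, ← mul_assoc]
  have := Real.rpow_nonneg ht.le (e - 1 / 1000)
  nlinarith

lemma scale_step {w : Fin k → E} (h0 : ∀ i, w i = mom (cell w i))
    (hmax : ∀ A : Fin k → Set E, IsPart A → val A ≤ ∑ i, ‖w i‖ ^ 2)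
    (ρ : ℝ) (hρ : 0 < ρ) (hρ1 : ρ ≤ 1) (a b : Fin k) (ha : ρ ≤ ‖w a‖) (hb : ρ ≤ ‖w b‖)
    (hb1 : ‖w b‖ ≤ 1)
    (hab : ρ ≤ ‖w b - (⟪‖w a‖⁻¹ • w a, w b⟫) • (‖w a‖⁻¹ • w a)‖)
    (t : ℝ) (ht : 0 < t) (ht1 : t ≤ 1) (htρ : t < ρ)
    (hbigC : 8 * stepC ρ ^ 2 * momC ^ 2 * t ^ (1 / 1000 : ℝ) ≤ 1)
    (A N P A' N' P' : ℝ) (hA : 1 ≤ A) (hAA : A ≤ A')
    (hcond : 2 * bexp * N + 1 / 1000 ≤ kapExp * A')
    (hP : P' ≤ (muExp * A + P - 1 / 1000) * bexp - 1 / 1000)
    (hN1 : N + 1 / 1000 ≤ N') (hN2 : A' / bexp - P + 2 / 1000 ≤ N')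
    (hS : Scale w t A N P) :
    Scale w t A' N' P' := by
  obtain ⟨hn, hp⟩ := hS
  have hC := stepC_pos ρ
  have hm2 : (1 : ℝ) ≤ momC ^ 2 := one_le_pow₀ one_le_momC
  have hC2 : stepC ρ ≤ stepC ρ ^ 2 := by nlinarith
  have h2 : (2 : ℝ) * t ^ (1 / 1000 : ℝ) ≤ 1 := by
    have := Real.rpow_nonneg ht.le (1 / 1000 : ℝ)
    nlinarith [mul_le_mul (one_le_pow₀ (n := 2) hC) hm2 zero_le_one (by positivity)]
  have h2C : 2 * stepC ρ * t ^ (1 / 1000 : ℝ) ≤ 1 := by
    have := Real.rpow_nonneg ht.le (1 / 1000 : ℝ)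
    nlinarith [mul_le_mul hC2 hm2 zero_le_one (by positivity)]
  have hM : momC ^ 2 * t ^ (1 / 1000 : ℝ) ≤ 1 := by
    have := Real.rpow_nonneg ht.le (1 / 1000 : ℝ)
    nlinarith [mul_le_mul_of_nonneg_right (one_le_pow₀ (n := 2) hC) (by positivity : (0 : ℝ) ≤
      momC ^ 2 * t ^ (1 / 1000 : ℝ))]
  have hτ : (0 : ℝ) < t ^ A' := Real.rpow_pos_of_pos ht _
  have hle : t ^ A' ≤ t ^ A := Real.rpow_le_rpow_of_exponent_ge ht ht1 hAA
  have htA : t ^ A < ρ :=
    lt_of_le_of_lt ((Real.rpow_le_rpow_of_exponent_ge ht ht1 hA).trans_eq (Real.rpow_one t)) htρ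
  have hn0 : 0 ≤ longCount w (t ^ A) + 1 := by unfold longCount; positivity
  have hsmall : stepC ρ * (longCount w (t ^ A) + 1) ^ (2 * bexp) * (t ^ A') ^ kapExp ≤ 1 / 2 := by
    have h3 : (longCount w (t ^ A) + 1) ^ (2 * bexp) ≤ t ^ (-N * (2 * bexp)) := by
      rw [Real.rpow_mul ht.le]
      exact Real.rpow_le_rpow hn0 hn (by unfold bexp; norm_num)
    calc stepC ρ * (longCount w (t ^ A) + 1) ^ (2 * bexp) * (t ^ A') ^ kapExp
        ≤ stepC ρ * t ^ (-N * (2 * bexp)) * (t ^ A') ^ kapExp :=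
          mul_le_mul_of_nonneg_right (mul_le_mul_of_nonneg_left h3 (by linarith)) (by positivity)
      _ = stepC ρ * t ^ (-N * (2 * bexp) + A' * kapExp) := by
          rw [← Real.rpow_mul ht.le, mul_assoc, ← Real.rpow_add ht]
      _ ≤ stepC ρ * t ^ (1 / 1000 : ℝ) :=
          mul_le_mul_of_nonneg_left (Real.rpow_le_rpow_of_exponent_ge ht ht1 (by linarith))
            (by linarith)
      _ ≤ 1 / 2 := by linarith
  have hmass := step h0 hmax ρ hρ hρ1 a b ha hb hb1 hab (t ^ A) (t ^ A') hτ hle htA hsmall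
  have hR : tailSq w (t ^ A) ≤ t ^ (muExp * A + P - 1 / 1000) := by
    refine (tailSq_le h0 _ (Real.rpow_pos_of_pos ht _)).trans ?_
    rw [← Real.rpow_mul ht.le]
    calc momC ^ 2 * t ^ (A * muExp) * tailMass w (t ^ A)
        ≤ momC ^ 2 * t ^ (A * muExp) * t ^ P :=
          mul_le_mul_of_nonneg_left hp (by positivity)
      _ = momC ^ 2 * t ^ (muExp * A + P) := by
          rw [mul_assoc, ← Real.rpow_add ht]; ring_nf
      _ ≤ _ := smallness t ht ht1 _ (by positivity) hM _
  have hP' : tailMass w (t ^ A') ≤ t ^ P' := by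
    refine hmass.trans ?_
    calc 2 * stepC ρ * tailSq w (t ^ A) ^ bexp
        ≤ 2 * stepC ρ * t ^ ((muExp * A + P - 1 / 1000) * bexp) := by
          rw [Real.rpow_mul ht.le]
          exact mul_le_mul_of_nonneg_left
            (Real.rpow_le_rpow (tailSq_nonneg _ _) hR (by unfold bexp; norm_num)) (by linarith)
      _ ≤ t ^ ((muExp * A + P - 1 / 1000) * bexp - 1 / 1000) :=
          smallness t ht ht1 _ (by linarith) h2C _
      _ ≤ t ^ P' := Real.rpow_le_rpow_of_exponent_ge ht ht1 hP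
  refine ⟨?_, hP'⟩
  have hcnt := longCount_le h0 (t ^ A) (t ^ A') hτ hle
  have h4 : momC ^ 2 * tailMass w (t ^ A) * (t ^ A') ^ (-bexp⁻¹) ≤
      t ^ (-(N' - 1 / 1000)) := by
    rw [← Real.rpow_mul ht.le]
    calc momC ^ 2 * tailMass w (t ^ A) * t ^ (A' * -bexp⁻¹)
        ≤ momC ^ 2 * t ^ P * t ^ (A' * -bexp⁻¹) :=
          mul_le_mul_of_nonneg_right (mul_le_mul_of_nonneg_left hp (by positivity))
            (Real.rpow_nonneg ht.le _)
      _ = momC ^ 2 * t ^ (P + A' * -bexp⁻¹) := by rw [mul_assoc, ← Real.rpow_add ht]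
      _ ≤ t ^ (P + A' * -bexp⁻¹ - 1 / 1000) := smallness t ht ht1 _ (by positivity) hM _
      _ ≤ _ := Real.rpow_le_rpow_of_exponent_ge ht ht1 (by rw [div_eq_mul_inv] at hN2; linarith)
  have h5 : t ^ (-N) ≤ t ^ (-(N' - 1 / 1000)) :=
    Real.rpow_le_rpow_of_exponent_ge ht ht1 (by linarith)
  calc longCount w (t ^ A') + 1 ≤ 2 * t ^ (-(N' - 1 / 1000)) := by linarith
    _ ≤ t ^ (-(N' - 1 / 1000) - 1 / 1000) := smallness t ht ht1 _ (by norm_num) h2 _
    _ = t ^ (-N') := by ring_nf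

lemma integral_pos_inner (e : E) (he : ‖e‖ = 1) :
    ∫ x, max ⟪e, x⟫ 0 ∂stdGaussian E = (√(2 * π))⁻¹ := by
  rw [← integral_pos_part, ← map_inner_unit e he, integral_map (by fun_prop)
    (by fun_prop : Measurable fun s : ℝ => max s 0).aestronglyMeasurable]

lemma norm_le_one {w : Fin k → E} (h0 : ∀ i, w i = mom (cell w i)) (i : Fin k) : ‖w i‖ ≤ 1 := by
  rcases eq_or_ne (w i) 0 with h | h
  · rw [h, norm_zero]; norm_num
  · have hu : ‖‖w i‖⁻¹ • w i‖ = 1 := norm_smul_inv_norm (𝕜 := ℝ) h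
    set u := ‖w i‖⁻¹ • w i with hudef
    have h1 : ∫ x in cell w i, ⟪u, x⟫ ∂stdGaussian E ≤ (√(2 * π))⁻¹ := by
      rw [← integral_pos_inner u hu]
      exact (setIntegral_mono_on (integrable_inner u).integrableOn
        (integrable_inner u).pos_part.integrableOn ((cell_isPart w).meas i)
        fun x _ => le_max_left _ _).trans
        (setIntegral_le_integral (integrable_inner u).pos_part
          (ae_of_all _ fun x => le_max_right _ _))
    rw [inner_mom, ← h0 i, hudef, real_inner_smul_left, real_inner_self_eq_norm_sq, pow_two,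
      inv_mul_cancel_left₀ (norm_ne_zero_iff.mpr h)] at h1
    refine h1.trans (inv_le_one_of_one_le₀ ?_)
    rw [Real.le_sqrt (by norm_num) (by positivity)]
    nlinarith [Real.pi_gt_three]

/-- A family beating the value of two half-spaces has two long, well separated vectors. -/
lemma exists_two_directions :
    ∃ ρ : ℝ, 0 < ρ ∧ ρ ≤ 1 ∧ ∀ (E : Type) [NormedAddCommGroup E] [InnerProductSpace ℝ E]
      [FiniteDimensional ℝ E] [MeasurableSpace E] [BorelSpace E] (k : ℕ) [NeZero k]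
      (w : Fin k → E), (∀ i, w i = mom (cell w i)) → 9 / (8 * π) < ∑ i, ‖w i‖ ^ 2 →
      ∃ a b, ρ ≤ ‖w a‖ ∧ ρ ≤ ‖w b‖ ∧
        ρ ≤ ‖w b - (⟪‖w a‖⁻¹ • w a, w b⟫) • (‖w a‖⁻¹ • w a)‖ := by
  classical
  have hpi := Real.pi_pos
  have hsc : √(1 / π) < √(9 / (8 * π)) := by
    apply Real.sqrt_lt_sqrt (by positivity)
    rw [div_lt_div_iff₀ hpi (by positivity)]
    nlinarith
  set δ := √(9 / (8 * π)) * (√(9 / (8 * π)) - √(1 / π)) with hδ
  have hδ0 : 0 < δ := mul_pos (lt_of_le_of_lt (Real.sqrt_nonneg _) hsc) (by linarith)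
  have hm1 := one_le_momC
  have hmu : 0 < muExp := by unfold muExp bexp; norm_num
  set τ := min 1 ((δ / (3 * momC ^ 2)) ^ muExp⁻¹) with hτdef
  have hτ0 : 0 < τ := lt_min one_pos (by positivity)
  have hτ1 : τ ≤ 1 := min_le_left _ _
  have hτmu : momC ^ 2 * τ ^ muExp ≤ δ / 3 := by
    have h := Real.rpow_le_rpow hτ0.le (min_le_right (1 : ℝ) ((δ / (3 * momC ^ 2)) ^ muExp⁻¹))
      hmu.le
    rw [← Real.rpow_mul (by positivity), inv_mul_cancel₀ hmu.ne', Real.rpow_one] at h
    rw [le_div_iff₀ (by positivity)] at h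
    linarith
  set n0 := momC ^ 2 * τ ^ (-bexp⁻¹) + 1 with hn0
  have hn00 : 0 < n0 := by positivity
  refine ⟨min τ (δ / (3 * n0 * momC)), lt_min hτ0 (by positivity), (min_le_left _ _).trans hτ1,
    fun E _ _ _ _ _ k _ w h0 hW => ?_⟩
  set ρ := min τ (δ / (3 * n0 * momC)) with hρdef
  have hρ0 : 0 < ρ := lt_min hτ0 (by positivity)
  set W := ∑ i, ‖w i‖ ^ 2 with hWdef
  have hW0 : 0 < W := lt_trans (by positivity) hW
  have hsW : √(9 / (8 * π)) < √W := Real.sqrt_lt_sqrt (by positivity) hW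
  have hR : tailSq w τ ≤ δ / 3 := by
    refine (tailSq_le h0 τ hτ0).trans (le_trans ?_ hτmu)
    calc momC ^ 2 * τ ^ muExp * tailMass w τ ≤ momC ^ 2 * τ ^ muExp * 1 :=
          mul_le_mul_of_nonneg_left (tailMass_le_one w τ) (by positivity)
      _ = _ := mul_one _
  have hδW : δ < W - √(1 / π) * √W := by
    have h1 : W = √W * √W := (Real.mul_self_sqrt hW0.le).symm
    have h2 : √(9 / (8 * π)) * (√(9 / (8 * π)) - √(1 / π)) < √W * (√W - √(1 / π)) := by
      apply mul_lt_mul hsW (by linarith) (by linarith) (Real.sqrt_nonneg _)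
    rw [hδ]
    nlinarith
  have hne : ((small w τ)ᶜ).Nonempty := by
    by_contra hne
    rw [Finset.not_nonempty_iff_eq_empty, Finset.compl_eq_empty_iff] at hne
    have : tailSq w τ = W := by rw [tailSq, hne]
    have := mul_nonneg (Real.sqrt_nonneg (1 / π)) (Real.sqrt_nonneg W)
    linarith
  obtain ⟨a, ha⟩ := hne
  simp only [small, Finset.mem_compl, Finset.mem_filter, Finset.mem_univ, true_and, not_le] at ha
  have hρa : ρ ≤ ‖w a‖ := (min_le_left _ _).trans ha.le
  set e := ‖w a‖⁻¹ • w a with he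
  have he1 : ‖e‖ = 1 := norm_smul_inv_norm (𝕜 := ℝ) (norm_pos_iff.mp (hτ0.trans ha))
  by_contra hno
  push Not at hno
  set al := fun i => ⟪e, w i⟫ with hal
  set Pp := √(∑ i, max (al i) 0 ^ 2) with hPp
  set Pm := √(∑ i, max (-al i) 0 ^ 2) with hPm
  have hPsq : Pp ^ 2 + Pm ^ 2 ≤ W := by
    rw [hPp, hPm, Real.sq_sqrt (by positivity), Real.sq_sqrt (by positivity),
      ← Finset.sum_add_distrib]
    refine Finset.sum_le_sum fun i _ => ?_
    have h := abs_real_inner_le_norm e (w i)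
    rw [he1, one_mul] at h
    have h2 : max (al i) 0 ^ 2 + max (-al i) 0 ^ 2 = al i ^ 2 := by
      rcases le_total 0 (al i) with h' | h' <;> simp [h']
    rw [h2, ← sq_abs]
    exact pow_le_pow_left₀ (abs_nonneg _) h 2
  set g := fun x : E => Pp * max ⟪e, x⟫ 0 + Pm * max ⟪-e, x⟫ 0 with hg
  have hgi : Integrable g (stdGaussian E) :=
    ((integrable_inner e).pos_part.const_mul Pp).add
      ((integrable_inner (-e)).pos_part.const_mul Pm)
  have hg0 : ∀ x, 0 ≤ g x := fun x => by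
    simp only [hg]; positivity
  have hpt : ∀ i x, al i * ⟪e, x⟫ ≤ g x := by
    intro i x
    have h1 : al i ≤ Pp := (le_max_left _ _).trans (Real.le_sqrt_of_sq_le
      (Finset.single_le_sum (f := fun j => max (al j) 0 ^ 2) (fun j _ => sq_nonneg _)
        (Finset.mem_univ i)))
    have h2 : -al i ≤ Pm := (le_max_left _ _).trans (Real.le_sqrt_of_sq_le
      (Finset.single_le_sum (f := fun j => max (-al j) 0 ^ 2) (fun j _ => sq_nonneg _)
        (Finset.mem_univ i)))
    simp only [hg, inner_neg_left]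
    rcases le_total 0 ⟪e, x⟫ with h | h
    · rw [max_eq_left h, max_eq_right (by linarith : -⟪e, x⟫ ≤ 0)]
      nlinarith
    · rw [max_eq_right h, max_eq_left (by linarith : 0 ≤ -⟪e, x⟫)]
      nlinarith
  have hlong : longCount w τ ≤ n0 := by
    have h : longCount w τ * τ ^ bexp⁻¹ ≤ momC ^ 2 := by
      rw [longCount, ← nsmul_eq_mul, ← Finset.sum_const]
      refine (Finset.sum_le_sum (g := fun i => momC ^ 2 * (stdGaussian E).real (cell w i))
        fun i hi => ?_).trans ?_
      · refine (Real.rpow_le_rpow hτ0.le ?_ (by unfold bexp; norm_num)).trans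
          (norm_rpow_inv_le h0 i)
        simp only [small, Finset.mem_compl, Finset.mem_filter, Finset.mem_univ, true_and,
          not_le] at hi
        exact hi.le
      · refine (Finset.sum_le_sum_of_subset_of_nonneg (Finset.subset_univ _) fun i _ _ =>
          mul_nonneg (sq_nonneg _) measureReal_nonneg).trans ?_
        rw [← Finset.mul_sum, (cell_isPart w).sum_measure, mul_one]
    rw [hn0, Real.rpow_neg hτ0.le, ← div_eq_mul_inv]
    exact ((le_div_iff₀ (Real.rpow_pos_of_pos hτ0 _)).mpr h).trans (by linarith)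
  have hbound : ∑ i ∈ (small w τ)ᶜ, ‖w i‖ ^ 2 ≤ (√(2 * π))⁻¹ * (Pp + Pm) + δ / 3 := by
    calc ∑ i ∈ (small w τ)ᶜ, ‖w i‖ ^ 2
        ≤ ∑ i ∈ (small w τ)ᶜ, (∫ x in cell w i, g x ∂stdGaussian E + ρ * momC) := by
          refine Finset.sum_le_sum fun i hi => ?_
          simp only [small, Finset.mem_compl, Finset.mem_filter, Finset.mem_univ, true_and,
            not_le] at hi
          have hperp : ‖w i - al i • e‖ ≤ ρ :=
            (hno a i hρa ((min_le_left _ _).trans hi.le)).le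
          have h1 : ‖w i‖ ^ 2 = al i * ⟪e, mom (cell w i)⟫ +
              ⟪w i - al i • e, mom (cell w i)⟫ := by
            rw [inner_sub_left, real_inner_smul_left (x := e), ← h0 i, real_inner_self_eq_norm_sq]
            ring
          rw [h1]
          refine add_le_add ?_ ((real_inner_le_norm _ _).trans (mul_le_mul hperp ?_
            (norm_nonneg _) hρ0.le))
          · rw [← inner_mom, ← integral_const_mul]
            exact setIntegral_mono_on ((integrable_inner e).const_mul _).integrableOn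
              hgi.integrableOn ((cell_isPart w).meas i) fun x _ => hpt i x
          · refine (norm_mom_le ((cell_isPart w).meas i)).trans ?_
            calc momC * (stdGaussian E).real (cell w i) ^ bexp ≤ momC * 1 :=
                  mul_le_mul_of_nonneg_left (Real.rpow_le_one measureReal_nonneg
                    measureReal_le_one (by unfold bexp; norm_num)) (by linarith)
              _ = momC := mul_one _
      _ ≤ _ := by
          rw [Finset.sum_add_distrib, Finset.sum_const, nsmul_eq_mul]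
          refine add_le_add ?_ ?_
          · refine (Finset.sum_le_sum_of_subset_of_nonneg (Finset.subset_univ _)
              fun i _ _ => integral_nonneg hg0).trans ?_
            rw [(cell_isPart w).integral_eq hgi]
            simp only [hg]
            rw [integral_add ((integrable_inner e).pos_part.const_mul Pp)
              ((integrable_inner (-e)).pos_part.const_mul Pm), integral_const_mul,
              integral_const_mul, integral_pos_inner e he1,
              integral_pos_inner (-e) (by rw [norm_neg, he1])]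
            linarith
          · have h1 : longCount w τ * (ρ * momC) ≤ n0 * (ρ * momC) :=
              mul_le_mul_of_nonneg_right hlong (by positivity)
            have h2 : ρ * (3 * n0 * momC) ≤ δ :=
              (le_div_iff₀ (by positivity)).mp (min_le_right _ _)
            unfold longCount at h1
            linarith
  have hsum : tailSq w τ + ∑ i ∈ (small w τ)ᶜ, ‖w i‖ ^ 2 = W := Finset.sum_add_sum_compl _ _
  have hsq : Pp + Pm ≤ √2 * √W := by
    rw [← Real.sqrt_mul (by norm_num)]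
    refine Real.le_sqrt_of_sq_le ?_
    nlinarith [sq_nonneg (Pp - Pm)]
  have hphi : (√(2 * π))⁻¹ * (√2 * √W) = √(1 / π) * √W := by
    rw [Real.sqrt_mul (by norm_num), one_div, Real.sqrt_inv]
    field_simp
  have := mul_le_mul_of_nonneg_left hsq (inv_nonneg.mpr (Real.sqrt_nonneg (2 * π)))
  linarith

/-- Extremal families above `9 / (8π)` have boundedly many nonzero vectors. -/
theorem card_nonzero_bounded :
    ∃ K : ℕ, ∀ (E : Type) [NormedAddCommGroup E] [InnerProductSpace ℝ E]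
      [FiniteDimensional ℝ E] [MeasurableSpace E] [BorelSpace E] (k : ℕ) [NeZero k]
      (w : Fin k → E), (∀ i, w i = mom (cell w i)) →
      (∀ A : Fin k → Set E, IsPart A → val A ≤ ∑ i, ‖w i‖ ^ 2) →
      9 / (8 * π) < ∑ i, ‖w i‖ ^ 2 → Nat.card {i // w i ≠ 0} ≤ K := by
  classical
  obtain ⟨ρ, hρ, hρ1, hdir⟩ := exists_two_directions
  have hm1 := one_le_momC
  set C := 8 * stepC ρ ^ 2 * momC ^ 2 with hC
  have hC1 : 8 ≤ C := by
    rw [hC]
    nlinarith [mul_le_mul (one_le_pow₀ (n := 2) (stepC_pos ρ)) (one_le_pow₀ (n := 2) hm1)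
      zero_le_one (by positivity)]
  set t := min (ρ / 2) ((1 / C) ^ (1000 : ℝ)) with htdef
  have ht : 0 < t := lt_min (by positivity) (Real.rpow_pos_of_pos (by positivity) _)
  have htρ : t < ρ := lt_of_le_of_lt (min_le_left _ _) (by linarith)
  have ht1 : t ≤ 1 := htρ.le.trans hρ1
  have hbig : C * t ^ (1 / 1000 : ℝ) ≤ 1 := by
    have h := Real.rpow_le_rpow ht.le (min_le_right (ρ / 2) ((1 / C) ^ (1000 : ℝ)))
      (by norm_num : (0 : ℝ) ≤ 1 / 1000)
    rw [← Real.rpow_mul (by positivity)] at h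
    norm_num at h
    calc C * t ^ (1 / 1000 : ℝ) ≤ C * C⁻¹ := mul_le_mul_of_nonneg_left
          (by simpa using h) (by linarith)
      _ = 1 := mul_inv_cancel₀ (by linarith)
  refine ⟨⌈t ^ (-(4253 / 1000 : ℝ))⌉₊, fun E _ _ _ _ _ k _ w h0 hmax hW => ?_⟩
  obtain ⟨a, b, ha, hb, hab⟩ := hdir E k w h0 hW
  have hb1 : ‖w b‖ ≤ 1 := norm_le_one h0 b
  have hm2 : (1 : ℝ) ≤ momC ^ 2 := one_le_pow₀ hm1
  have hC2 : (1 : ℝ) ≤ stepC ρ ^ 2 := one_le_pow₀ (stepC_pos ρ)
  have hte : 0 ≤ t ^ (1 / 1000 : ℝ) := Real.rpow_nonneg ht.le _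
  have s0 : Scale w t 1 (1012 / 1000) 0 := by
    refine ⟨?_, by simpa using tailMass_le_one w _⟩
    rw [Real.rpow_one]
    have h1 := longCount_le h0 1 t ht ht1
    have h2 : longCount w (1 : ℝ) = 0 := by
      have : small w (1 : ℝ) = Finset.univ := by
        apply Finset.filter_true_of_mem
        exact fun i _ => norm_le_one h0 i
      simp [longCount, this]
    have h3 : momC ^ 2 * tailMass w (1 : ℝ) * t ^ (-bexp⁻¹) ≤ momC ^ 2 * t ^ (-bexp⁻¹) :=
      mul_le_mul_of_nonneg_right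
        (mul_le_of_le_one_right (sq_nonneg _) (tailMass_le_one w _)) (Real.rpow_nonneg ht.le _)
    have h4 : 1 ≤ momC ^ 2 * t ^ (-bexp⁻¹) :=
      one_le_mul_of_one_le_of_one_le hm2 (Real.one_le_rpow_of_pos_of_le_one_of_nonpos ht ht1
        (by unfold bexp; norm_num))
    have h5 : 2 * momC ^ 2 * t ^ (1 / 1000 : ℝ) ≤ 1 := by
      rw [hC] at hbig
      nlinarith [mul_le_mul_of_nonneg_right hC2 (mul_nonneg (by positivity : (0 : ℝ) ≤ momC ^ 2)
        hte)]
    calc longCount w t + 1 ≤ 2 * momC ^ 2 * t ^ (-bexp⁻¹) := by linarith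
      _ ≤ t ^ (-bexp⁻¹ - 1 / 1000) := smallness t ht ht1 _ (by positivity) h5 _
      _ ≤ _ := Real.rpow_le_rpow_of_exponent_ge ht ht1 (by unfold bexp; norm_num)
  have s1 := scale_step h0 hmax ρ hρ hρ1 a b ha hb hb1 hab t ht ht1 htρ hbig 1 (1012 / 1000) 0
    (21 / 10) (2124 / 1000) (978 / 1000) le_rfl (by norm_num)
    (by norm_num [bexp, kapExp]) (by norm_num [bexp, muExp]) (by norm_num)
    (by norm_num [bexp]) s0
  have s2 := scale_step h0 hmax ρ hρ hρ1 a b ha hb hb1 hab t ht ht1 htρ hbig _ _ _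
    (44 / 10) (3469 / 1000) (3023 / 1000) (by norm_num) (by norm_num)
    (by norm_num [bexp, kapExp]) (by norm_num [bexp, muExp]) (by norm_num)
    (by norm_num [bexp]) s1
  have s3 := scale_step h0 hmax ρ hρ hρ1 a b ha hb hb1 hab t ht ht1 htρ hbig _ _ _
    (72 / 10) (4252 / 1000) (73 / 10) (by norm_num) (by norm_num)
    (by norm_num [bexp, kapExp]) (by norm_num [bexp, muExp]) (by norm_num)
    (by norm_num [bexp]) s2
  have s4 := scale_step h0 hmax ρ hρ hρ1 a b ha hb hb1 hab t ht ht1 htρ hbig _ _ _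
    (88 / 10) (4253 / 1000) 14 (by norm_num) (by norm_num)
    (by norm_num [bexp, kapExp]) (by norm_num [bexp, muExp]) (by norm_num)
    (by norm_num [bexp]) s3
  obtain ⟨hn, hp⟩ := s4
  set τ := t ^ (88 / 10 : ℝ) with hτdef
  have hτ0 : 0 < τ := Real.rpow_pos_of_pos ht _
  have hτρ : τ < ρ :=
    lt_of_le_of_lt ((Real.rpow_le_rpow_of_exponent_ge ht ht1
      (by norm_num : (1 : ℝ) ≤ 88 / 10)).trans_eq (Real.rpow_one t)) htρ
  have hzero : tailSq w τ = 0 := by
    by_contra hne
    have hpos : 0 < tailSq w τ := lt_of_le_of_ne (tailSq_nonneg _ _) (Ne.symm hne)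
    have hn0 : 0 ≤ longCount w τ + 1 := by unfold longCount; positivity
    have hsmall : stepC ρ * (longCount w τ + 1) ^ (2 * bexp) * τ ^ kapExp ≤ 1 / 2 := by
      have h3 : (longCount w τ + 1) ^ (2 * bexp) ≤ t ^ (-(4253 / 1000 : ℝ) * (2 * bexp)) := by
        rw [Real.rpow_mul ht.le]
        exact Real.rpow_le_rpow hn0 hn (by unfold bexp; norm_num)
      have h2C : 2 * stepC ρ * t ^ (1 / 1000 : ℝ) ≤ 1 := by
        rw [hC] at hbig
        nlinarith [mul_le_mul (pow_le_pow_left₀ zero_le_one le_rfl 2) hm2 zero_le_one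
          (by norm_num : (0 : ℝ) ≤ (1 : ℝ) ^ 2), stepC_pos ρ,
          mul_le_mul (le_self_pow₀ (stepC_pos ρ) (two_ne_zero)) hm2 zero_le_one (by positivity)]
      calc stepC ρ * (longCount w τ + 1) ^ (2 * bexp) * τ ^ kapExp
          ≤ stepC ρ * t ^ (-(4253 / 1000 : ℝ) * (2 * bexp)) * τ ^ kapExp :=
            mul_le_mul_of_nonneg_right
              (mul_le_mul_of_nonneg_left h3 (by linarith [stepC_pos ρ])) (by positivity)
        _ = stepC ρ * t ^ (-(4253 / 1000 : ℝ) * (2 * bexp) + 88 / 10 * kapExp) := by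
            rw [hτdef, ← Real.rpow_mul ht.le, mul_assoc, ← Real.rpow_add ht]
        _ ≤ stepC ρ * t ^ (1 / 1000 : ℝ) :=
            mul_le_mul_of_nonneg_left (Real.rpow_le_rpow_of_exponent_ge ht ht1
              (by norm_num [bexp, kapExp])) (by linarith [stepC_pos ρ])
        _ ≤ 1 / 2 := by linarith
    have hmass := step h0 hmax ρ hρ hρ1 a b ha hb hb1 hab τ τ hτ0 le_rfl hτρ hsmall
    have hR : tailSq w τ ≤ t := by
      refine (tailSq_le h0 τ hτ0).trans ?_
      calc momC ^ 2 * τ ^ muExp * tailMass w τ ≤ momC ^ 2 * τ ^ muExp * 1 :=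
            mul_le_mul_of_nonneg_left (tailMass_le_one w τ) (by positivity)
        _ = momC ^ 2 * t ^ (88 / 10 * muExp) := by
            rw [mul_one, hτdef, ← Real.rpow_mul ht.le]
        _ ≤ t ^ (88 / 10 * muExp - 1 / 1000) := by
            refine smallness t ht ht1 _ (by positivity) ?_ _
            rw [hC] at hbig
            nlinarith [mul_le_mul_of_nonneg_right hC2
              (mul_nonneg (by positivity : (0 : ℝ) ≤ momC ^ 2) hte)]
        _ ≤ t := by
            simpa using Real.rpow_le_rpow_of_exponent_ge ht ht1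
              (by norm_num [bexp, muExp] : (1 : ℝ) ≤ 88 / 10 * muExp - 1 / 1000)
    have hRb : tailMass w τ ^ (2 * bexp) ≤
        4 * stepC ρ ^ 2 * tailSq w τ ^ (bexp * (2 * bexp)) := by
      refine (Real.rpow_le_rpow (tailMass_nonneg _ _) hmass (by unfold bexp; norm_num)).trans ?_
      rw [Real.mul_rpow (by linarith [stepC_pos ρ]) (Real.rpow_nonneg (tailSq_nonneg _ _) _),
        ← Real.rpow_mul (tailSq_nonneg _ _)]
      refine mul_le_mul_of_nonneg_right ?_ (Real.rpow_nonneg (tailSq_nonneg _ _) _)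
      calc (2 * stepC ρ) ^ (2 * bexp) ≤ (2 * stepC ρ) ^ (2 : ℝ) :=
            Real.rpow_le_rpow_of_exponent_le (by linarith [stepC_pos ρ])
              (by unfold bexp; norm_num)
        _ = _ := by rw [Real.rpow_two]; ring
    have hfin : tailSq w τ ≤ C / 2 * (tailSq w τ * tailSq w τ ^ (bexp * (2 * bexp) - 1)) := by
      refine (tailSq_le_mass h0 τ).trans ?_
      refine (mul_le_mul_of_nonneg_left hRb (sq_nonneg momC)).trans (le_of_eq ?_)
      have : tailSq w τ * tailSq w τ ^ (bexp * (2 * bexp) - 1) =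
          tailSq w τ ^ (bexp * (2 * bexp)) := by
        rw [← Real.rpow_one_add' hpos.le (by norm_num [bexp])]
        ring_nf
      rw [this, hC]
      ring
    have hone : C / 2 * tailSq w τ ^ (bexp * (2 * bexp) - 1) < 1 := by
      have h1 : tailSq w τ ^ (bexp * (2 * bexp) - 1) ≤ t ^ (1 / 1000 : ℝ) :=
        (Real.rpow_le_rpow hpos.le hR (by norm_num [bexp])).trans
          (Real.rpow_le_rpow_of_exponent_ge ht ht1 (by norm_num [bexp]))
      have := mul_le_mul_of_nonneg_left h1 (by linarith : 0 ≤ C / 2)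
      linarith
    nlinarith
  have hsub : ∀ i, w i ≠ 0 → i ∈ (small w τ)ᶜ := by
    intro i hi
    rw [Finset.mem_compl]
    intro hmem
    have := (Finset.sum_eq_zero_iff_of_nonneg fun j _ => sq_nonneg ‖w j‖).mp hzero i hmem
    simp [hi] at this
  rw [Nat.card_eq_fintype_card, Fintype.card_subtype]
  have hcard : (Finset.univ.filter fun i => w i ≠ 0).card ≤ ((small w τ)ᶜ).card :=
    Finset.card_le_card fun i hi => hsub i (Finset.mem_filter.mp hi).2
  refine hcard.trans ?_
  have : (((small w τ)ᶜ).card : ℝ) ≤ (⌈t ^ (-(4253 / 1000 : ℝ))⌉₊ : ℝ) := by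
    have h1 := Nat.le_ceil (t ^ (-(4253 / 1000 : ℝ)))
    unfold longCount at hn
    linarith
  exact_mod_cast this

end Vale.Agent.P226
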