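import Vale.Agent.P226.Core
import Vale.Agent.P226.CapPoly
import Vale.Agent.P226.CapThree
import Vale.Agent.P226.CapData
import Vale.Agent.P226.CapFive
import Vale.Agent.P226.CapTabs
import Vale.Agent.P226.CapShort
import Vale.Agent.P226.Reduction

/-!
# No critical family has many long vectors

The table of thresholds, and the certificate that a critical family of `k` cells never has, for
every `j` from `4` to `k`, at least `j` vectors above the threshold of `j`.
-/

namespace Vale.Agent.P226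

open MeasureTheory ProbabilityTheory Real Set Finset
open scoped RealInnerProductSpace

/-- The thresholds on squared lengths for `k` cells. -/
noncomputable def theta (k j : ℕ) : ℝ :=
  if k = 4 then 207 / 10000 else if j ≤ 4 then 96 / 10000
    else if j = 5 then (if k = 5 then 85 / 10000 else 55 / 10000)
    else if j = 6 then 22 / 10000 else 199 / 100000

lemma theta_four (j : ℕ) : theta 4 j = 207 / 10000 := if_pos rfl

lemma theta_low {k j : ℕ} (hk : k ≠ 4) (hj : j ≤ 4) : theta k j = 96 / 10000 := by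
  rw [theta, if_neg hk, if_pos hj]

lemma theta_five_five : theta 5 5 = 85 / 10000 := by norm_num [theta]

lemma theta_five {k : ℕ} (hk : 6 ≤ k) : theta k 5 = 55 / 10000 := by
  rw [theta, if_neg (by omega), if_neg (by omega), if_pos rfl, if_neg (by omega)]

lemma theta_six {k : ℕ} (hk : 6 ≤ k) : theta k 6 = 22 / 10000 := by
  rw [theta, if_neg (by omega), if_neg (by omega), if_neg (by omega), if_pos rfl]

lemma theta_high {k j : ℕ} (hk : k ≠ 4) (hj : 6 < j) : theta k j = 199 / 100000 := by
  rw [theta, if_neg hk, if_neg (by omega), if_neg (by omega), if_neg (by omega)]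

/-- The thresholds for at least six cells. -/
def thQ (j : ℕ) : ℚ :=
  if j ≤ 4 then 96 / 10000 else if j = 5 then 55 / 10000
  else if j = 6 then 22 / 10000 else 199 / 100000

lemma theta_eq_thQ {k : ℕ} (hk : 6 ≤ k) (j : ℕ) : theta k j = (thQ j : ℝ) := by
  rw [theta, thQ, if_neg (show k ≠ 4 by omega)]
  split_ifs <;> first | omega | norm_num

lemma sq_scaled (c : ℝ) : (√(2 * π) * c) ^ 2 = 2 * π * c ^ 2 := by
  rw [mul_pow, sq_sqrt (by positivity)]

variable {k : ℕ} [NeZero k] {w : Fin k → EuclideanSpace ℝ (Fin (k - 1))}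

/-- The majorant of the square of a long vector, from a chain of valid lines. -/
lemma level_le (hw : ∀ i, w i = mom (cell w i)) (L : List (ℚ × ℚ))
    (hv : ∀ X : Set (EuclideanSpace ℝ (Fin (k - 1))), IsCone X → MeasurableSet X → ∀ l ∈ L,
      √(2 * π) * ‖mom X‖ ≤ (l.1 : ℝ) + (l.2 : ℝ) * (stdGaussian _).real X)
    {τ α β x : ℚ} {l : ℚ × ℚ} {C : List ((ℚ × ℚ) × ℚ)}
    (h : (decide (0 < l.2 ∧ l.1 + l.2 * x ≤ τ ∧ C ≠ []) && chainOK α β x C) = true)
    (hmem : l ∈ L ∧ ∀ c ∈ C, c.1 ∈ L) {θ : ℝ} (hτ : (τ : ℝ) ^ 2 ≤ 2 * π * θ) {i : Fin k}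
    (hi : θ ≤ ‖w i‖ ^ 2) :
    2 * π * ‖w i‖ ^ 2 ≤ α + β * (stdGaussian (EuclideanSpace ℝ (Fin (k - 1)))).real (cell w i) := by
  have hb : ∀ l ∈ L, √(2 * π) * ‖w i‖ ≤
      (l.1 : ℝ) + (l.2 : ℝ) * (stdGaussian _).real (cell w i) := fun l hl => by
    rw [hw i]
    exact hv _ (isCone_cell w i) ((cell_isPart w).meas i) l hl
  have hy : 0 ≤ √(2 * π) * ‖w i‖ := by positivity
  rw [← sq_scaled]
  refine sq_le_of_level hy measureReal_le_one ?_ h (hb l hmem.1) fun c hc => hb _ (hmem.2 c hc)
  refine le_of_pow_le_pow_left₀ two_ne_zero hy (hτ.trans ?_)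
  rw [sq_scaled]
  exact mul_le_mul_of_nonneg_left hi (by positivity)

/-- Three majorants leave too little for the propeller bound. -/
lemma false_of_levels (hw : Crit w) (hL : Long (theta k) w k) (hk : 5 ≤ k) {a b c β : ℚ}
    (h4 : ∀ i, theta k 4 ≤ ‖w i‖ ^ 2 →
      2 * π * ‖w i‖ ^ 2 ≤ a + β * (stdGaussian (EuclideanSpace ℝ (Fin (k - 1)))).real (cell w i))
    (h5 : ∀ i, theta k 5 ≤ ‖w i‖ ^ 2 →
      2 * π * ‖w i‖ ^ 2 ≤ b + β * (stdGaussian (EuclideanSpace ℝ (Fin (k - 1)))).real (cell w i))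
    (h6 : ∀ i, theta k k ≤ ‖w i‖ ^ 2 →
      2 * π * ‖w i‖ ^ 2 ≤ c + β * (stdGaussian (EuclideanSpace ℝ (Fin (k - 1)))).real (cell w i))
    (hθ : theta k 5 ≤ theta k 4) (hab : a ≤ b) (hbc : b ≤ c)
    (hfin : (k : ℝ) * c + 5 * (b - c) + 4 * (a - b) + β ≤ 9 / 4) : False := by
  classical
  set p := fun i => (stdGaussian (EuclideanSpace ℝ (Fin (k - 1)))).real (cell w i) with hp
  set S := Finset.univ.filter fun i => theta k 5 ≤ ‖w i‖ ^ 2 with hS
  set T := Finset.univ.filter fun i => theta k 4 ≤ ‖w i‖ ^ 2 with hT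
  have hS5 : 5 ≤ S.card := hL 5 (by norm_num) hk
  have hT4 : 4 ≤ T.card := hL 4 le_rfl (by omega)
  have hall : ∀ i, theta k k ≤ ‖w i‖ ^ 2 := by
    have h := hL k (by omega) le_rfl
    have e := Finset.eq_univ_of_card _ (le_antisymm (Finset.card_le_univ _)
      (by simpa using h) : (Finset.univ.filter fun i => theta k k ≤ ‖w i‖ ^ 2).card = _)
    intro i
    simpa using (e.symm ▸ Finset.mem_univ i :
      i ∈ Finset.univ.filter fun i => theta k k ≤ ‖w i‖ ^ 2)
  have hpt : ∀ i, 2 * π * ‖w i‖ ^ 2 ≤ (c : ℝ) + β * p i +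
      (if i ∈ S then (b : ℝ) - c else 0) + (if i ∈ T then (a : ℝ) - b else 0) := fun i => by
    by_cases hi : i ∈ T
    · have hi' := (Finset.mem_filter.1 hi).2
      have hiS : i ∈ S := Finset.mem_filter.2 ⟨Finset.mem_univ i, hθ.trans hi'⟩
      rw [if_pos hi, if_pos hiS]
      have := h4 i hi'
      simp only [hp]; linarith
    · rw [if_neg hi, add_zero]
      by_cases hiS : i ∈ S
      · rw [if_pos hiS]
        have := h5 i (Finset.mem_filter.1 hiS).2
        simp only [hp]; linarith
      · rw [if_neg hiS, add_zero]; exact h6 i (hall i)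
  have h := Finset.sum_le_sum (s := Finset.univ) fun i _ => hpt i
  rw [Finset.sum_add_distrib, Finset.sum_add_distrib, Finset.sum_add_distrib, ← Finset.mul_sum,
    ← Finset.mul_sum, (cell_isPart w).sum_measure, Finset.sum_const, Finset.card_univ,
    Fintype.card_fin, ← Finset.sum_filter, ← Finset.sum_filter, Finset.filter_univ_mem,
    Finset.filter_univ_mem, Finset.sum_const, Finset.sum_const, nsmul_eq_mul, nsmul_eq_mul,
    nsmul_eq_mul, mul_one] at h
  have hS5' : (5 : ℝ) ≤ (S.card : ℝ) := by exact_mod_cast hS5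
  have hT4' : (4 : ℝ) ≤ (T.card : ℝ) := by exact_mod_cast hT4
  have hab' : (a : ℝ) ≤ b := by exact_mod_cast hab
  have hbc' : (b : ℝ) ≤ c := by exact_mod_cast hbc
  have := mul_le_mul_of_nonpos_right hS5' (sub_nonpos.2 hbc')
  have := mul_le_mul_of_nonpos_right hT4' (sub_nonpos.2 hab')
  have hbig := hw.big
  rw [div_lt_iff₀ (by positivity)] at hbig
  nlinarith [hbig]

section tables

/-- The same vectors in decreasing order, above the thresholds. -/
theorem exists_sorted (hk : 6 ≤ k) {m : ℕ} (J : Fin m ↪ Fin k) (hJ : IsTop w J)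
    (hL : Long (theta k) w m) (hm : 4 ≤ m) :
    ∃ (J' : Fin m ↪ Fin k) (σ : Equiv.Perm (Fin m)), J' = σ.toEmbedding.trans J ∧
      Finset.univ.map J' = Finset.univ.map J ∧
      (∀ i j, i ≤ j → ‖w (J' j)‖ ^ 2 ≤ ‖w (J' i)‖ ^ 2) ∧
      ∀ j : Fin m, (thQ (max 4 ((j : ℕ) + 1)) : ℝ) ≤ ‖w (J' j)‖ ^ 2 := by
  obtain ⟨σ, hmono, hθ⟩ := exists_slots J hJ hL hm
  refine ⟨σ.toEmbedding.trans J, σ, rfl, ?_, hmono,
    fun j => (theta_eq_thQ hk _).symm.trans_le (hθ j)⟩
  rw [← Finset.map_map, Finset.map_univ_equiv]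

omit [NeZero k] in
/-- Fewer than `a + 1` vectors above `c` leave the slot `a` below `c`. -/
lemma slot_lt_of_card {m : ℕ} {J : Fin m ↪ Fin k}
    (hmono : ∀ i j, i ≤ j → ‖w (J j)‖ ^ 2 ≤ ‖w (J i)‖ ^ 2) {c : ℝ} (a : Fin m)
    (h : (Finset.univ.filter fun x => c ≤ ‖w (J x)‖ ^ 2).card < (a : ℕ) + 1) :
    ‖w (J a)‖ ^ 2 < c := by
  by_contra! hc
  have hsub : Finset.Iic a ⊆ Finset.univ.filter fun x => c ≤ ‖w (J x)‖ ^ 2 := fun x hx =>
    Finset.mem_filter.2 ⟨Finset.mem_univ x, hc.trans (hmono x a (Finset.mem_Iic.1 hx))⟩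
  have := Finset.card_le_card hsub
  rw [Fin.card_Iic] at this
  omega

omit [NeZero k] in
/-- At least `a + 1` vectors above `c` put the first slots above `c`. -/
lemma slot_ge_of_card {m : ℕ} {J : Fin m ↪ Fin k}
    (hmono : ∀ i j, i ≤ j → ‖w (J j)‖ ^ 2 ≤ ‖w (J i)‖ ^ 2) {c : ℝ} (a : Fin m)
    (h : (a : ℕ) + 1 ≤ (Finset.univ.filter fun x => c ≤ ‖w (J x)‖ ^ 2).card) :
    c ≤ ‖w (J a)‖ ^ 2 := by
  by_contra! hc
  have hsub : (Finset.univ.filter fun x => c ≤ ‖w (J x)‖ ^ 2) ⊆ Finset.Iio a := fun x hx => by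
    refine Finset.mem_Iio.2 (not_le.1 fun hax => ?_)
    linarith [hmono a x hax, (Finset.mem_filter.1 hx).2]
  have := Finset.card_le_card hsub
  rw [Fin.card_Iio] at this
  omega

/-- The thresholds of a table hold for sorted vectors in a bin. -/
lemma tab_bounds (hw : Crit w) {m : ℕ} {J : Fin m ↪ Fin k}
    (hth : ∀ j : Fin m, (thQ (max 4 ((j : ℕ) + 1)) : ℝ) ≤ ‖w (J j)‖ ^ 2) (lv : Fin m → Lev)
    (a : ℕ) (c₁ c₂ : ℚ) (hlo : ∀ j : Fin m, (j : ℕ) < a → (c₁ : ℝ) ≤ ‖w (J j)‖ ^ 2)
    (hhi : ∀ j : Fin m, 3 ≤ (j : ℕ) → ‖w (J j)‖ ^ 2 ≤ (c₂ : ℝ))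
    (hθ : ∀ j : Fin m, (lv j).θ ≤ max (thQ (max 4 ((j : ℕ) + 1))) (if (j : ℕ) < a then c₁ else 0))
    (hcut : ∀ j : Fin m, (if 3 ≤ (j : ℕ) then c₂ else 1) ≤ (lv j).cut) :
    (∀ j, ((lv j).θ : ℝ) ≤ ‖w (J j)‖ ^ 2) ∧ ∀ j, ‖w (J j)‖ ^ 2 ≤ ((lv j).cut : ℝ) := by
  refine ⟨fun j => ?_, fun j => ?_⟩
  · rcases le_max_iff.1 (hθ j) with h | h
    · exact le_trans (Rat.cast_le.2 h) (hth j)
    · split_ifs at h with ha
      · exact le_trans (Rat.cast_le.2 h) (hlo j ha)
      · exact le_trans (by exact_mod_cast h) (sq_nonneg _)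
  · have h := (Rat.cast_le (K := ℝ)).2 (hcut j)
    split_ifs at h with h3
    · exact (hhi j h3).trans h
    · refine le_trans ?_ h
      push_cast
      exact pow_le_one₀ (norm_nonneg _) (norm_le_one hw.self _)

omit [NeZero k] in
/-- The iso lines hold in every dimension. -/
lemma capGridIso_all (X : Set (EuclideanSpace ℝ (Fin (k - 1)))) (_ : IsCone X)
    (hm : MeasurableSet X) : ∀ l ∈ capGridIso,
      √(2 * π) * ‖mom X‖ ≤ (l.1 : ℝ) + (l.2 : ℝ) * (stdGaussian _).real X :=
  capGridIso_valid hm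

/-- A vector outside the longest costs at most `β` times its measure. -/
lemma rest_le_beta (hw : Crit w) {β : ℚ} {v : Lev} (hv : v.okT capGridIso β = true)
    (hα : v.α ≤ 0) (hθ : v.θ ≤ 96 / 10000) (hβ : 12867 / 10000 ≤ β) {i : Fin k}
    (hcut : ‖w i‖ ^ 2 ≤ (v.cut : ℝ)) :
    2 * π * ‖w i‖ ^ 2 ≤
      β * (stdGaussian (EuclideanSpace ℝ (Fin (k - 1)))).real (cell w i) := by
  have hp0 := measureReal_nonneg (μ := stdGaussian (EuclideanSpace ℝ (Fin (k - 1))))
    (s := cell w i)
  rw [← sq_scaled]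
  rcases le_or_gt (96 / 10000 : ℝ) (‖w i‖ ^ 2) with h | h
  · have h' := Lev.sq_le hv (y := √(2 * π) * ‖w i‖)
      (p := (stdGaussian (EuclideanSpace ℝ (Fin (k - 1)))).real (cell w i)) (by positivity)
      (by
        rw [sq_scaled]
        refine mul_le_mul_of_nonneg_left (le_trans ?_ h) (by positivity)
        have := (Rat.cast_le (K := ℝ)).2 hθ
        push_cast at this
        exact this)
      (by rw [sq_scaled]; exact mul_le_mul_of_nonneg_left hcut (by positivity)) measureReal_le_one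
      (fun l hl => by
        rw [hw.self i]
        exact capGridIso_all _ (isCone_cell w i) ((cell_isPart w).meas i) l hl)
    have := (Rat.cast_le (K := ℝ)).2 hα
    push_cast at this
    linarith
  · have hpi := pi_lt_d6
    have h' := dust_measure ((cell_isPart w).meas i) (by
      rw [← hw.self i]
      refine le_of_pow_le_pow_left₀ two_ne_zero (by norm_num) ?_
      rw [sq_scaled]
      nlinarith [pi_pos, sq_nonneg ‖w i‖])
    rw [← hw.self i] at h'
    have := (Rat.cast_le (K := ℝ)).2 hβ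
    push_cast at this
    nlinarith

/-- A table whose vectors alone leave too little, whatever the others are. -/
lemma false_of_tab (hw : Crit w) {m : ℕ} (J : Fin m ↪ Fin k) {L : List (ℚ × ℚ)} {β : ℚ}
    (hv : ∀ X : Set (EuclideanSpace ℝ (Fin (k - 1))), IsCone X → MeasurableSet X → ∀ l ∈ L,
      √(2 * π) * ‖mom X‖ ≤ (l.1 : ℝ) + (l.2 : ℝ) * (stdGaussian _).real X)
    (lv : Fin m → Lev) (hok : ∀ j, (lv j).okT L β = true)
    (hb : (∀ j, ((lv j).θ : ℝ) ≤ ‖w (J j)‖ ^ 2) ∧ ∀ j, ‖w (J j)‖ ^ 2 ≤ ((lv j).cut : ℝ))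
    (hrest : ∀ i ∈ (Finset.univ.map J)ᶜ, 2 * π * ‖w i‖ ^ 2 ≤
      β * (stdGaussian (EuclideanSpace ℝ (Fin (k - 1)))).real (cell w i))
    (htot : (∑ j, (lv j).α) + β ≤ 9 / 4) : False := by
  have h1 := sum_le_levs hw J hv lv hok hb.1 hb.2
  have h2 := Finset.sum_le_sum hrest
  rw [← Finset.mul_sum, ← Finset.mul_sum] at h2
  have hp := (cell_isPart w).sum_measure
  rw [← Finset.sum_add_sum_compl (Finset.univ.map J), Finset.sum_map] at hp
  have hbig := hw.big
  rw [← Finset.sum_add_sum_compl (Finset.univ.map J), Finset.sum_map,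
    div_lt_iff₀ (by positivity)] at hbig
  have h3 := (Rat.cast_le (K := ℝ)).2 htot
  push_cast at h3
  have h4 := congrArg ((β : ℝ) * ·) hp
  simp only [mul_add, mul_one] at h4
  nlinarith

/-- At most ten vectors are long. -/
theorem long_le_ten (hw : Crit w) {m : ℕ} (hL : Long (theta k) w m) : m ≤ 10 := by
  classical
  by_contra hm
  have hk : 11 ≤ k := by
    have h := (hL m (by omega) le_rfl).trans (Finset.card_le_univ _)
    simp only [Fintype.card_fin] at h
    omega
  obtain ⟨J, hJ⟩ := exists_isTop w (show 11 ≤ k by omega)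
  obtain ⟨J', σ, -, hmap, hmono, hth⟩ := exists_sorted (by omega) J hJ
    (fun j h4 hj => hL j h4 (by omega)) (by norm_num)
  have hrest : ∀ i ∈ (Finset.univ.map J')ᶜ, ∀ j, ‖w i‖ ^ 2 ≤ ‖w (J' j)‖ ^ 2 := fun i hi j => by
    rw [hmap] at hi
    obtain ⟨a, -, ha⟩ := Finset.mem_map.1 (hmap ▸ Finset.mem_map_of_mem J' (Finset.mem_univ j))
    rw [← ha]
    exact hJ i hi a
  rcases lt_or_ge (‖w (J' 3)‖ ^ 2) (300 / 10000) with h3 | h3
  · have hhi : ∀ j : Fin 11, 3 ≤ (j : ℕ) → ‖w (J' j)‖ ^ 2 ≤ ((300 / 10000 : ℚ) : ℝ) :=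
      fun j hj => by push_cast; linarith [hmono 3 j (Fin.le_def.2 (by simpa using hj))]
    exact false_of_tab hw J' capGridIso_all tab_iso11low tab_iso11low_ok
      (tab_bounds hw hth _ 0 0 (300 / 10000) (fun j hj => absurd hj (Nat.not_lt_zero _)) hhi
        (by decide +kernel) (by decide +kernel))
      (fun i hi => rest_le_beta hw (tab_iso11low_ok 10) (by decide +kernel) (by decide +kernel)
        (by decide +kernel) (by
          refine (hrest i hi 3).trans (h3.le.trans ?_)
          have := (Rat.cast_le (K := ℝ)).2 (show (300 / 10000 : ℚ) ≤ (tab_iso11low 10).cut by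
            decide +kernel)
          push_cast at this
          exact this))
      (by decide +kernel)
  · exact false_of_tab hw J' capGridIso_all tab_iso11high tab_iso11high_ok
      (tab_bounds hw hth _ 4 (300 / 10000) 1
        (fun j hj => by
          push_cast
          exact h3.trans (hmono j 3 (Fin.le_def.2 (by
            have : ((3 : Fin 11) : ℕ) = 3 := rfl
            omega))))
        (fun j _ => by push_cast; exact pow_le_one₀ (norm_nonneg _) (norm_le_one hw.self _))
        (by decide +kernel) (by decide +kernel))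
      (fun i hi => rest_le_beta hw (tab_iso11high_ok 10) (by decide +kernel) (by decide +kernel)
        (by decide +kernel) (le_trans (pow_le_one₀ (norm_nonneg _) (norm_le_one hw.self i)) (by
          have := (Rat.cast_le (K := ℝ)).2 (show (1 : ℚ) ≤ (tab_iso11high 10).cut by decide +kernel)
          push_cast at this
          exact this)))
      (by decide +kernel)

end tables

omit [NeZero k] in
lemma not_long_four {w : Fin 4 → EuclideanSpace ℝ (Fin (4 - 1))} (hw : Crit w) :
    ¬ Long (theta 4) w 4 := by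
  intro hL
  have hall : ∀ i, 207 / 10000 ≤ ‖w i‖ ^ 2 := by
    have h := hL 4 le_rfl le_rfl
    simp only [theta_four] at h
    have e := Finset.eq_univ_of_card _ (le_antisymm (Finset.card_le_univ _)
      (by simpa using h) : (Finset.univ.filter fun i => (207 / 10000 : ℝ) ≤ ‖w i‖ ^ 2).card = _)
    intro i
    simpa using (e.symm ▸ Finset.mem_univ i :
      i ∈ Finset.univ.filter fun i => (207 / 10000 : ℝ) ≤ ‖w i‖ ^ 2)
  set p := fun i => (stdGaussian (EuclideanSpace ℝ (Fin (4 - 1)))).real (cell w i) with hp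
  have hpi := pi_gt_d6
  have hb : ∀ i, 2 * π * ‖w i‖ ^ 2 ≤ 16 * capFun (p i) ∧ 1 / 10 ≤ p i := fun i => by
    have h := norm_mom_le_cap_three (E := EuclideanSpace ℝ (Fin (4 - 1)))
      finrank_euclideanSpace_fin (isCone_cell w i) ((cell_isPart w).meas i)
    rw [← hw.self i] at h
    have h0 : 0 ≤ p i := measureReal_nonneg
    have h1 : p i ≤ 1 := measureReal_le_one
    have hy : √(2 * π) * ‖w i‖ ≤ 4 * p i * (1 - p i) := by
      have h' := mul_le_mul_of_nonneg_left h (show 0 ≤ √(2 * π) by positivity)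
      rwa [← mul_assoc, mul_inv_cancel₀ (by positivity), one_mul] at h'
    have h2 := pow_le_pow_left₀ (by positivity) hy 2
    rw [sq_scaled] at h2
    refine ⟨h2.trans (le_of_eq (by simp only [capFun]; ring)), ?_⟩
    by_contra hc
    have hq : 4 * p i * (1 - p i) ≤ 9 / 25 := by nlinarith
    have h3 := h2.trans (pow_le_pow_left₀ (by nlinarith) hq 2)
    nlinarith [mul_le_mul_of_nonneg_left (hall i) (show 0 ≤ 2 * π by positivity)]
  have hc := capFun_sum_le (fun i => (hb i).2) (cell_isPart w).sum_measure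
  have h := Finset.sum_le_sum (s := Finset.univ) fun i _ => (hb i).1
  rw [← Finset.mul_sum, ← Finset.mul_sum] at h
  have hbig := hw.big
  rw [div_lt_iff₀ (by positivity)] at hbig
  linarith [hbig]

/-- No critical family has many long vectors. -/
theorem not_long (hk : 4 ≤ k) (w : Fin k → EuclideanSpace ℝ (Fin (k - 1))) (hw : Crit w) :
    ¬ Long (theta k) w k := by
  have hpi := pi_gt_d6
  have t5 : ((24559 / 100000 : ℚ) : ℝ) ^ 2 ≤ 2 * π * (96 / 10000) := by push_cast; linarith
  intro hL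
  rcases eq_or_lt_of_le hk with rfl | hk5
  · exact not_long_four hw hL
  by_cases hk11 : 11 ≤ k
  · exact absurd (long_le_ten hw hL) (by omega)
  interval_cases k
  · have hv := fun (X : Set (EuclideanSpace ℝ (Fin (5 - 1)))) (hX : IsCone X) =>
      lines5x_valid finrank_euclideanSpace_fin hX
    have t55 : (((23109 / 100000) : ℚ) : ℝ) ^ 2 ≤ 2 * π * (85 / 10000) := by push_cast; linarith
    refine false_of_levels hw hL le_rfl (a := (-5303 / 50000)) (b := (-10197 / 100000)) (c := (-10197 / 100000))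
      (β := (347 / 125))
      (fun i hi => level_le hw.self lines5x hv (x := (59933 / 1000000))
        (l := ((2953 / 100000), (180249 / 50000))) (C := chainfive4) (by decide +kernel)
        (by decide +kernel) t5 (by rwa [theta_low (by omega) le_rfl] at hi))
      (fun i hi => level_le hw.self lines5x hv (x := (5597 / 100000))
        (l := ((349 / 20000), (47713 / 12500))) (C := chainfive5) (by decide +kernel)
        (by decide +kernel) t55 (by rwa [theta_five_five] at hi))
      (fun i hi => level_le hw.self lines5x hv (x := (5597 / 100000))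
        (l := ((349 / 20000), (47713 / 12500))) (C := chainfive5) (by decide +kernel)
        (by decide +kernel) t55 (by rwa [theta_five_five] at hi))
      (by rw [theta_five_five, theta_low (by omega) le_rfl]; norm_num) (by norm_num) le_rfl ?_
    push_cast; norm_num
  · obtain ⟨J, hJ⟩ := exists_isTop w (le_refl 6)
    obtain ⟨J', σ, -, -, hmono, hth⟩ := exists_sorted le_rfl J hJ hL (by norm_num)
    have hv := fun (X : Set (EuclideanSpace ℝ (Fin (6 - 1)))) (hX : IsCone X) =>
      capGrid4_valid finrank_euclideanSpace_fin hX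
    have hu : ∀ i, i ∉ (Finset.univ.map J')ᶜ := fun i hi => by
      rw [Finset.eq_univ_of_card (Finset.univ.map J') (by simp)] at hi
      simp at hi
    rcases lt_or_ge (‖w (J' 3)‖ ^ 2) (300 / 10000) with h3 | h3
    · exact false_of_tab hw J' hv tab_k6low tab_k6low_ok
        (tab_bounds hw hth _ 0 0 (300 / 10000) (fun j hj => absurd hj (Nat.not_lt_zero _))
          (fun j hj => by push_cast; linarith [hmono 3 j (Fin.le_def.2 (by simpa using hj))])
          (by decide +kernel) (by decide +kernel))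
        (fun i hi => absurd hi (hu i)) (by decide +kernel)
    · exact false_of_tab hw J' hv tab_k6high tab_k6high_ok
        (tab_bounds hw hth _ 4 (300 / 10000) 1
          (fun j hj => by
            push_cast
            exact h3.trans (hmono j 3 (Fin.le_def.2 (by
              have : ((3 : Fin 6) : ℕ) = 3 := rfl
              omega))))
          (fun j _ => by push_cast; exact pow_le_one₀ (norm_nonneg _) (norm_le_one hw.self _))
          (by decide +kernel) (by decide +kernel))
        (fun i hi => absurd hi (hu i)) (by decide +kernel)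
  · obtain ⟨J, hJ⟩ := exists_isTop w (le_refl 7)
    obtain ⟨J', σ, -, -, -, hth⟩ := exists_sorted (by norm_num) J hJ hL (by norm_num)
    refine false_of_tab hw J' (fun X hX => capGrid5_valid finrank_euclideanSpace_fin hX)
      tab_k7 tab_k7_ok
      (tab_bounds hw hth _ 0 0 1 (fun j hj => absurd hj (Nat.not_lt_zero _))
        (fun j _ => by push_cast; exact pow_le_one₀ (norm_nonneg _) (norm_le_one hw.self _))
        (by decide +kernel) (by decide +kernel))
      (fun i hi => absurd hi ?_) (by decide +kernel)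
    rw [Finset.eq_univ_of_card (Finset.univ.map J') (by simp)]
    simp
  · obtain ⟨J, hJ⟩ := exists_isTop w (le_refl 8)
    obtain ⟨J', σ, -, -, -, hth⟩ := exists_sorted (by norm_num) J hJ hL (by norm_num)
    refine false_of_tab hw J' (fun X hX => capGrid6_valid finrank_euclideanSpace_fin hX)
      tab_k8 tab_k8_ok
      (tab_bounds hw hth _ 0 0 1 (fun j hj => absurd hj (Nat.not_lt_zero _))
        (fun j _ => by push_cast; exact pow_le_one₀ (norm_nonneg _) (norm_le_one hw.self _))
        (by decide +kernel) (by decide +kernel))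
      (fun i hi => absurd hi ?_) (by decide +kernel)
    rw [Finset.eq_univ_of_card (Finset.univ.map J') (by simp)]
    simp
  · obtain ⟨J, hJ⟩ := exists_isTop w (le_refl 9)
    obtain ⟨J', σ, -, -, -, hth⟩ := exists_sorted (by norm_num) J hJ hL (by norm_num)
    refine false_of_tab hw J' (fun X hX => capGrid7_valid finrank_euclideanSpace_fin hX)
      tab_k9 tab_k9_ok
      (tab_bounds hw hth _ 0 0 1 (fun j hj => absurd hj (Nat.not_lt_zero _))
        (fun j _ => by push_cast; exact pow_le_one₀ (norm_nonneg _) (norm_le_one hw.self _))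
        (by decide +kernel) (by decide +kernel))
      (fun i hi => absurd hi ?_) (by decide +kernel)
    rw [Finset.eq_univ_of_card (Finset.univ.map J') (by simp)]
    simp
  · obtain ⟨J, hJ⟩ := exists_isTop w (le_refl 10)
    obtain ⟨J', σ, -, -, -, hth⟩ := exists_sorted (by norm_num) J hJ hL (by norm_num)
    refine false_of_tab hw J' (fun X hX => capGrid8_valid finrank_euclideanSpace_fin hX)
      tab_k10 tab_k10_ok
      (tab_bounds hw hth _ 0 0 1 (fun j hj => absurd hj (Nat.not_lt_zero _))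
        (fun j _ => by push_cast; exact pow_le_one₀ (norm_nonneg _) (norm_le_one hw.self _))
        (by decide +kernel) (by decide +kernel))
      (fun i hi => absurd hi ?_) (by decide +kernel)
    rw [Finset.eq_univ_of_card (Finset.univ.map J') (by simp)]
    simp

end Vale.Agent.P226
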