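import Mathlib.Tactic

/-!
# Scalar certificate for a short vector next to four long ones

All squared lengths and inner products are scaled by `2π`. `X` is the largest weight inside the
four, on the pair `a b`; `y` and `e` are the weights from this pair to the two other vectors and `Y`
the weight between these. If the pairing, triangle and tetrahedron bounds all fail, the four
vectors and the measure left for the short ones cannot beat the propeller.
-/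

namespace Vale.Agent.P226

private lemma zero_high (X Y y d : ℝ) (hX : (30 : ℝ) / 100 ≤ X) (hX2 : X ≤ 60 / 100) (hY : 0 ≤ Y)
    (hy : 0 ≤ y) (hd : 0 ≤ d) (hdy : d ≤ y + Y) (hT : 2 * X + y ≤ 2) (hs : 4 / 100 ≤ y)
    (h1 : X * y < 17708 / 100000) (h2 : X * Y < 4427 / 100000) (h3 : X * y * d < 345 / 100000) :
    9330 / 10000 * (X + y + d) + 14460 / 10000 - 770 / 10000 < 9 / 4 := by
  nlinarith [mul_nonneg (sub_nonneg.2 h1.le) (sub_nonneg.2 hs),
    mul_nonneg (sub_nonneg.2 hX) (sub_nonneg.2 hX2), mul_nonneg hy (sub_nonneg.2 hX),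
    mul_nonneg hd (sub_nonneg.2 hs)]

private lemma zero_low (X Y y d : ℝ) (hX : (30 : ℝ) / 100 ≤ X) (hX2 : X ≤ 60 / 100) (hY : 0 ≤ Y)
    (hy : 0 ≤ y) (hd : 0 ≤ d) (hdy : d ≤ y + Y) (hT : 2 * X + y ≤ 2) (hs : y ≤ 4 / 100)
    (h2 : X * Y < 4427 / 100000) :
    9330 / 10000 * (X + y + d) + 14460 / 10000 - 770 / 10000 < 9 / 4 := by
  nlinarith

private lemma zero_small (X Y y d : ℝ) (hX : (0 : ℝ) ≤ X) (hX2 : X ≤ 30 / 100) (hY : 0 ≤ Y)
    (hy : 0 ≤ y) (hd : 0 ≤ d) (hyX : y ≤ 2 * X) (hYX : Y ≤ X) (hdy : d ≤ y + Y)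
    (h1 : X * y < 17708 / 100000) (h3 : X * y * d < 345 / 100000) :
    9330 / 10000 * (X + y + d) + 14460 / 10000 - 770 / 10000 < 9 / 4 := by
  rcases le_total y (4 / 100) with hs | hs
  · nlinarith
  · nlinarith [mul_nonneg (sub_nonneg.2 h1.le) (sub_nonneg.2 hs),
      mul_nonneg (sub_nonneg.2 hX) (sub_nonneg.2 hX2), mul_nonneg hy hX,
      mul_nonneg hd (sub_nonneg.2 hs)]

private lemma one_line (X Y y d : ℝ) (hX : (60 : ℝ) / 100 ≤ X) (hX2 : X ≤ 70 / 100) (hY : 0 ≤ Y)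
    (hy : 0 ≤ y) (hd : 0 ≤ d) (hdy : d ≤ y + Y) (hT : 2 * X + y ≤ 2)
    (h1 : X * y < 17708 / 100000) (h2 : X * Y < 4427 / 100000) (h3 : X * y * d < 345 / 100000) :
    9330 / 10000 * (X + y + d) + 14460 / 10000 + 1147 / 10000 - 1387 / 10000 * (2 * X + y)
      < 9 / 4 := by
  rcases le_total y (4 / 100) with hs | hs
  · nlinarith
  · nlinarith [mul_nonneg (sub_nonneg.2 h1.le) (sub_nonneg.2 hs),
      mul_nonneg (sub_nonneg.2 hX) (sub_nonneg.2 hX2), mul_nonneg hy (sub_nonneg.2 hX),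
      mul_nonneg hd (sub_nonneg.2 hs)]

private lemma two_line (X Y y d : ℝ) (hX : (70 : ℝ) / 100 ≤ X) (hX2 : X ≤ 90 / 100) (hY : 0 ≤ Y)
    (hy : 0 ≤ y) (hd : 0 ≤ d) (hdy : d ≤ y + Y) (hT : 2 * X + y ≤ 2)
    (h1 : X * y < 17708 / 100000) (h2 : X * Y < 4427 / 100000) (h3 : X * y * d < 345 / 100000) :
    9330 / 10000 * (X + y + d) + 14460 / 10000 + 4830 / 10000 - 3629 / 10000 * (2 * X + y)
      < 9 / 4 := by
  rcases le_total y (4 / 100) with hs | hs
  · nlinarith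
  · nlinarith [mul_nonneg (sub_nonneg.2 h1.le) (sub_nonneg.2 hs),
      mul_nonneg (sub_nonneg.2 hX) (sub_nonneg.2 hX2), mul_nonneg hy (sub_nonneg.2 hX),
      mul_nonneg hd (sub_nonneg.2 hs)]

private lemma three_line (X Y y d : ℝ) (hX : (90 : ℝ) / 100 ≤ X) (hX2 : X ≤ 100 / 100) (hY : 0 ≤ Y)
    (hy : 0 ≤ y) (hd : 0 ≤ d) (hdy : d ≤ y + Y) (hT : 2 * X + y ≤ 2)
    (h1 : X * y < 17708 / 100000) (h2 : X * Y < 4427 / 100000) (h3 : X * y * d < 345 / 100000) :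
    9330 / 10000 * (X + y + d) + 14460 / 10000 + 6910 / 10000 - 4750 / 10000 * (2 * X + y)
      < 9 / 4 := by
  rcases le_total y (4 / 100) with hs | hs
  · nlinarith
  · nlinarith [mul_nonneg (sub_nonneg.2 h1.le) (sub_nonneg.2 hs),
      mul_nonneg (sub_nonneg.2 hX) (sub_nonneg.2 hX2), mul_nonneg hy (sub_nonneg.2 hX),
      mul_nonneg hd (sub_nonneg.2 hs)]

/-- With the three bounds failing, four long vectors and the short ones cannot reach `9/4`. -/
theorem four_six_absurd {X Y y e n0 n1 n2 n3 p0 p1 p2 p3 Q : ℝ} (hX : 0 ≤ X) (hY : 0 ≤ Y)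
    (he : 0 ≤ e) (hey : e ≤ y) (hYX : Y ≤ X) (hyX : y ≤ 2 * X)
    (h0 : X ≤ n0) (h1 : X ≤ n1) (h01 : 2 * X + (y + e) ≤ n0 + n1) (h2 : y + Y ≤ n2)
    (h3 : e + Y ≤ n3) (hn0 : n0 ≤ 1) (hn1 : n1 ≤ 1)
    (hA : X * y < 17708 / 100000) (hB : X * Y < 4427 / 100000)
    (hC : X * y * (e + Y) < 345 / 100000)
    (hF : 9 / 4 ≤ n0 + n1 + n2 + n3 + Q)
    (hE : n0 + n1 + n2 + n3 - 2 * (X + Y + y + e) ≤ Q)
    (hQ : Q ≤ 1039 / 1000 * (1 - p0 - p1 - p2 - p3))
    (a0 : n0 ≤ -3607 / 50000 + 57 / 20 * p0) (a1 : n1 ≤ -3607 / 50000 + 57 / 20 * p1)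
    (a2 : n2 ≤ -3607 / 50000 + 57 / 20 * p2) (a3 : n3 ≤ -3607 / 50000 + 57 / 20 * p3)
    (b0 : n0 ≤ 85 / 1000 + 2262 / 1000 * p0) (b1 : n1 ≤ 85 / 1000 + 2262 / 1000 * p1)
    (c0 : n0 ≤ 269 / 1000 + 16965 / 10000 * p0) (c1 : n1 ≤ 269 / 1000 + 16965 / 10000 * p1)
    (d0 : n0 ≤ 342 / 1000 + 1508 / 1000 * p0) (d1 : n1 ≤ 342 / 1000 + 1508 / 1000 * p1) :
    False := by
  have hy : 0 ≤ y := he.trans hey
  have hd : 0 ≤ e + Y := by linarith
  have hdy : e + Y ≤ y + Y := by linarith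
  have hT : 2 * X + y ≤ 2 := by linarith
  rcases le_total X (60 / 100) with x1 | x1
  · rcases le_total X (30 / 100) with x0 | x0
    · have := zero_small X Y y (e + Y) hX x0 hY hy hd hyX hYX hdy hA hC
      linarith
    · rcases le_total y (4 / 100) with hs | hs
      · have := zero_low X Y y (e + Y) x0 x1 hY hy hd hdy hT hs hB
        linarith
      · have := zero_high X Y y (e + Y) x0 x1 hY hy hd hdy hT hs hA hB hC
        linarith
  rcases le_total X (70 / 100) with x2 | x2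
  · have := one_line X Y y (e + Y) x1 x2 hY hy hd hdy hT hA hB hC
    linarith
  rcases le_total X (90 / 100) with x3 | x3
  · have := two_line X Y y (e + Y) x2 x3 hY hy hd hdy hT hA hB hC
    linarith
  · have := three_line X Y y (e + Y) x3 (by linarith) hY hy hd hdy hT hA hB hC
    linarith

end Vale.Agent.P226
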