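import Vale.Agent.P226.PairLemma

/-!
# The pairing bound from a quadratic lower bound

If the half differences of two pairs carry squared length `A` and `B` away from the short vector and
the sum of the first pair, the gain of the short vector is at most
`m² dustK 2 ‖v‖³ / (2 √(A B))`. The sum of the first pair may be a multiple of the short vector.
-/

namespace Vale.Agent.P226

open MeasureTheory ProbabilityTheory Real Set Finset Module
open scoped RealInnerProductSpace

variable {E : Type*} [NormedAddCommGroup E] [InnerProductSpace ℝ E]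

/-- The Gram determinant of four vectors, given two separate lower bounds for the last two. -/
lemma det_gram_four_ge {v P U V : E} (hli : LinearIndependent ℝ ![v, P]) {A B : ℝ} (hA : 0 ≤ A)
    (hB : 0 ≤ B)
    (hq : ∀ x y p t : ℝ, A * x ^ 2 + B * y ^ 2 ≤ ‖x • U + y • V + p • P + t • v‖ ^ 2) :
    0 < (Matrix.gram ℝ ![v, P]).det ∧
      (Matrix.gram ℝ ![v, P]).det * (A * B) ≤ (Matrix.gram ℝ ![v, P, U, V]).det := by
  have h2 : 0 < (Matrix.gram ℝ ![v, P]).det :=
    (Matrix.posDef_gram_of_linearIndependent hli).det_pos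
  refine ⟨h2, ?_⟩
  set D := (Matrix.gram ℝ ![v, P]).det with hD
  rw [Matrix.det_fin_two] at hD
  simp only [Matrix.gram_apply, Matrix.cons_val_zero, Matrix.cons_val_one, Matrix.cons_val_fin_one]
    at hD
  rw [real_inner_comm v P] at hD
  -- the coefficients that remove the components along `v` and `P`
  set r : E → ℝ := fun u => (⟪v, u⟫ * ⟪P, P⟫ - ⟪P, u⟫ * ⟪v, P⟫) / D with hr
  set q : E → ℝ := fun u => (⟪P, u⟫ * ⟪v, v⟫ - ⟪v, u⟫ * ⟪v, P⟫) / D with hq'
  set S : E → E → ℝ := fun a b => ⟪a, b⟫ - r b * ⟪v, a⟫ - q b * ⟪P, a⟫ with hS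
  have hne : D ≠ 0 := h2.ne'
  have hrv : ∀ u : E, r u * ⟪v, v⟫ + q u * ⟪v, P⟫ = ⟪v, u⟫ := fun u => by
    simp only [hr, hq']; field_simp; rw [hD]; ring
  have hrP : ∀ u : E, r u * ⟪v, P⟫ + q u * ⟪P, P⟫ = ⟪P, u⟫ := fun u => by
    simp only [hr, hq']; field_simp; rw [hD]; ring
  set a := S U U with ha
  set b := S V V with hb
  set c := S U V with hc
  have hform : ∀ x y : ℝ, A * x ^ 2 + B * y ^ 2 ≤ a * x ^ 2 + 2 * c * x * y + b * y ^ 2 := by
    intro x y
    refine (hq x y (-(x * q U + y * q V)) (-(x * r U + y * r V))).trans (le_of_eq ?_)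
    rw [← real_inner_self_eq_norm_sq]
    simp only [inner_add_left, inner_add_right, real_inner_smul_left, real_inner_smul_right]
    have := hrv U
    have := hrv V
    have := hrP U
    have := hrP V
    have hcs : r V * ⟪v, U⟫ + q V * ⟪P, U⟫ = r U * ⟪v, V⟫ + q U * ⟪P, V⟫ := by
      rw [← hrv U, ← hrP U, ← hrv V, ← hrP V]; ring
    simp only [ha, hb, hc, hS, real_inner_comm v U, real_inner_comm v V, real_inner_comm P U,
      real_inner_comm P V, real_inner_comm v P, real_inner_comm U V]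
    grind
  have haA : A ≤ a := by simpa using hform 1 0
  have hbB : B ≤ b := by simpa using hform 0 1
  have hdet : (Matrix.gram ℝ ![v, P, U, V]).det = D * (a * b - c ^ 2) := by
    rw [Matrix.det_succ_row_zero, Fin.sum_univ_four, Matrix.det_fin_three, Matrix.det_fin_three,
      Matrix.det_fin_three, Matrix.det_fin_three]
    simp [Matrix.gram_apply, Fin.succAbove, real_inner_comm v U, real_inner_comm v V,
      real_inner_comm P U, real_inner_comm P V, real_inner_comm v P, real_inner_comm U V,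
      ha, hb, hc, hS, hr, hq']
    simp only [← real_inner_self_eq_norm_sq]
    field_simp
    rw [hD]
    ring
  rw [hdet]
  refine mul_le_mul_of_nonneg_left ?_ h2.le
  have hsc : c ^ 2 ≤ (a - A) * (b - B) := by
    rcases eq_or_lt_of_le hbB with h | h
    · rcases eq_or_ne c 0 with hc0 | hc0
      · rw [hc0, ← h, sub_self, mul_zero]; norm_num
      · exfalso
        have h1 := hform 1 (-(a - A + 1) / (2 * c))
        have h2 : 2 * c * (-(a - A + 1) / (2 * c)) = -(a - A + 1) := by field_simp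
        rw [← h, one_pow, mul_one, mul_one, mul_one, h2] at h1
        linarith
    · have h0 := hform (b - B) (-c)
      have : 0 ≤ (b - B) * ((a - A) * (b - B) - c ^ 2) := by linarith
      linarith [nonneg_of_mul_nonneg_right this (sub_pos.2 h)]
  nlinarith [mul_le_mul_of_nonneg_left hbB hA, mul_le_mul_of_nonneg_left haA hB]

variable [FiniteDimensional ℝ E] [MeasurableSpace E] [BorelSpace E] {m : ℕ} [NeZero m]

/-- A small change of the vectors changes the gain little. -/
lemma gain_le_gain_add (W W' : Fin m → E) (v : E) :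
    gain W v ≤ gain W' v + (∑ i, ‖W i - W' i‖) * ∫ x, ‖x‖ ∂stdGaussian E := by
  have hn : Integrable (fun x : E => ‖x‖) (stdGaussian E) := IsGaussian.integrable_id.norm
  have hi : ∀ Z : Fin m → E,
      Integrable (fun x => max (⟪v, x⟫ - supInner Z x) 0) (stdGaussian E) := fun Z =>
    ((integrable_inner v).sub (integrable_supInner Z)).pos_part
  rw [gain, gain, ← integral_const_mul, ← integral_add (hi W') (hn.const_mul _)]
  refine integral_mono (hi W) ((hi W').add (hn.const_mul _)) fun x => ?_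
  have := abs_le.1 (abs_supInner_sub_le W W' x)
  simp only
  refine max_le ?_ (add_nonneg (le_max_right _ _)
    (mul_nonneg (Finset.sum_nonneg fun i _ => norm_nonneg _) (norm_nonneg x)))
  linarith [le_max_left (⟪v, x⟫ - supInner W' x) 0]

/-- A short vector gains little over two pairs that stay apart from it and the first sum. -/
theorem gain_le_pair_quad (hE : 4 ≤ finrank ℝ E) (W : Fin m → E) (hW : ∑ a, W a = 0)
    (σ : Fin 4 ↪ Fin m) (v : E) (hv : v ≠ 0) {A B : ℝ} (hA : 0 < A) (hB : 0 < B)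
    (hq : ∀ x y p t : ℝ, A * x ^ 2 + B * y ^ 2 ≤
      ‖x • (2 : ℝ)⁻¹ • (W (σ 0) - W (σ 1)) + y • (2 : ℝ)⁻¹ • (W (σ 2) - W (σ 3)) +
        p • (W (σ 0) + W (σ 1)) + t • v‖ ^ 2) :
    gain W v ≤ (m : ℝ) ^ 2 / 2 * dustK 2 * ‖v‖ ^ 3 / √(A * B) := by
  classical
  have hK : 0 ≤ dustK 2 := by rw [dustK_two]; positivity
  -- the case of an independent sum
  have key : ∀ Z : Fin m → E, ∑ a, Z a = 0 → LinearIndependent ℝ ![v, Z (σ 0) + Z (σ 1)] →
      (∀ x y p t : ℝ, A * x ^ 2 + B * y ^ 2 ≤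
        ‖x • (2 : ℝ)⁻¹ • (Z (σ 0) - Z (σ 1)) + y • (2 : ℝ)⁻¹ • (Z (σ 2) - Z (σ 3)) +
          p • (Z (σ 0) + Z (σ 1)) + t • v‖ ^ 2) →
      gain Z v ≤ (m : ℝ) ^ 2 / 2 * dustK 2 * ‖v‖ ^ 3 / √(A * B) := by
    intro Z hZ hli hZq
    obtain ⟨h2, h4⟩ := det_gram_four_ge hli hA.le hB.le hZq
    have h4' := lt_of_lt_of_le (mul_pos h2 (mul_pos hA hB)) h4
    refine (gain_le_pair_many Z hZ σ v h4'.ne').trans ?_
    rw [div_le_div_iff₀ (sqrt_pos.2 h4') (sqrt_pos.2 (mul_pos hA hB))]
    calc _ = (m : ℝ) ^ 2 / 2 * dustK 2 * ‖v‖ ^ 3 *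
          √((Matrix.gram ℝ ![v, Z (σ 0) + Z (σ 1)]).det * (A * B)) := by
          rw [sqrt_mul h2.le]; ring
      _ ≤ _ := by gcongr
  set P := W (σ 0) + W (σ 1) with hP
  by_cases hli : LinearIndependent ℝ ![v, P]
  · exact key W hW hli hq
  obtain ⟨c, hc⟩ : ∃ c : ℝ, P = c • v := by
    simp only [LinearIndependent.pair_iff' hv, not_forall, not_not] at hli
    obtain ⟨c, hc⟩ := hli
    exact ⟨c, hc.symm⟩
  set U := (2 : ℝ)⁻¹ • (W (σ 0) - W (σ 1)) with hU
  set V := (2 : ℝ)⁻¹ • (W (σ 2) - W (σ 3)) with hV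
  -- a spare direction
  set T := Submodule.span ℝ (Set.range ![v, U, V]) with hT
  have hTlt : finrank ℝ T < finrank ℝ E := by
    have h3 : finrank ℝ T ≤ 3 := (finrank_range_le_card ![v, U, V]).trans_eq (by simp)
    omega
  obtain ⟨u, huT, hu0⟩ : ∃ u ∈ Tᗮ, u ≠ (0 : E) := by
    refine Submodule.exists_mem_ne_zero_of_ne_bot fun h => ?_
    have := T.finrank_add_finrank_orthogonal
    rw [h, finrank_bot] at this
    omega
  have horth : ∀ i, ⟪![v, U, V] i, u⟫ = 0 := fun i =>
    huT _ (Submodule.subset_span ⟨i, rfl⟩)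
  refine le_of_forall_pos_le_add fun e he => ?_
  set C := (4 * ‖u‖) * ∫ x, ‖x‖ ∂stdGaussian E with hC
  have hC0 : 0 ≤ C := mul_nonneg (by positivity) (integral_nonneg fun x => norm_nonneg x)
  obtain ⟨δ, hδ, hδC⟩ : ∃ δ : ℝ, 0 < δ ∧ δ * C ≤ e :=
    ⟨e / (C + 1), by positivity, by
      rw [div_mul_eq_mul_div, div_le_iff₀ (by linarith)]; nlinarith⟩
  set f : Fin 4 → ℝ := ![δ, δ, -δ, -δ] with hf
  set W' : Fin m → E := fun a => W a + ∑ j, if σ j = a then f j • u else 0 with hW'
  have hval : ∀ j, W' (σ j) = W (σ j) + f j • u := fun j => by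
    simp only [hW', σ.injective.eq_iff, Finset.sum_ite_eq', Finset.mem_univ, if_true]
  have hsum : ∑ a, W' a = 0 := by
    simp only [hW', Finset.sum_add_distrib, hW, zero_add]
    rw [Finset.sum_comm]
    simp [Fin.sum_univ_four, hf, Finset.sum_ite_eq]
  have hU' : (2 : ℝ)⁻¹ • (W' (σ 0) - W' (σ 1)) = U := by
    simp [hval, hU, hf]
  have hV' : (2 : ℝ)⁻¹ • (W' (σ 2) - W' (σ 3)) = V := by
    simp [hval, hV, hf]
  have hP' : W' (σ 0) + W' (σ 1) = P + (2 * δ) • u := by
    rw [hval, hval, hP]; simp [hf]; module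
  have hli' : LinearIndependent ℝ ![v, W' (σ 0) + W' (σ 1)] := by
    rw [LinearIndependent.pair_iff' hv]
    intro s hs
    rw [hP', hc] at hs
    have := congrArg (fun z => ⟪u, z⟫) hs
    simp only [inner_add_right, real_inner_smul_right, real_inner_comm v u] at this
    rw [show ⟪v, u⟫ = 0 from horth 0] at this
    have hu2 : 0 < ⟪u, u⟫ := real_inner_self_pos.2 hu0
    nlinarith
  have hq2 : ∀ x y p t : ℝ, A * x ^ 2 + B * y ^ 2 ≤
      ‖x • (2 : ℝ)⁻¹ • (W' (σ 0) - W' (σ 1)) + y • (2 : ℝ)⁻¹ • (W' (σ 2) - W' (σ 3)) +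
        p • (W' (σ 0) + W' (σ 1)) + t • v‖ ^ 2 := by
    intro x y p t
    rw [hU', hV', hP']
    set Z := x • U + y • V + p • P + t • v with hZ
    rw [show x • U + y • V + p • (P + (2 * δ) • u) + t • v = Z + (p * (2 * δ)) • u by
      rw [hZ]; module, norm_add_sq_real]
    have : ⟪Z, u⟫ = 0 := by
      rw [hZ, hc]
      simp [inner_add_left, real_inner_smul_left, show ⟪v, u⟫ = 0 from horth 0,
        show ⟪U, u⟫ = 0 from horth 1, show ⟪V, u⟫ = 0 from horth 2]
    rw [real_inner_smul_right, this, mul_zero, mul_zero, add_zero]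
    exact (hq x y p t).trans (le_add_of_nonneg_right (sq_nonneg _))
  refine (gain_le_gain_add W W' v).trans (add_le_add (key W' hsum hli' hq2) ?_)
  calc (∑ i, ‖W i - W' i‖) * ∫ x, ‖x‖ ∂stdGaussian E
      ≤ (4 * (δ * ‖u‖)) * ∫ x, ‖x‖ ∂stdGaussian E := by
        refine mul_le_mul_of_nonneg_right ?_ (integral_nonneg fun x => norm_nonneg x)
        calc ∑ i, ‖W i - W' i‖ ≤ ∑ i, ∑ j, ‖if σ j = i then f j • u else 0‖ :=
              Finset.sum_le_sum fun i _ => by
                simp only [hW', sub_add_cancel_left, norm_neg]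
                exact norm_sum_le _ _
          _ = _ := by
                rw [Finset.sum_comm]
                simp [Fin.sum_univ_four, hf, apply_ite norm, norm_smul, abs_of_pos hδ]
                ring
    _ = δ * C := by rw [hC]; ring
    _ ≤ e := hδC

end Vale.Agent.P226
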