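import Vale.Agent.P226.GainThree
import Vale.Agent.P226.PairQuad
import Vale.Agent.P226.CapTable
import Vale.Agent.P226.FourScalar

/-!
# A short vector gains little over the four longest

For obtuse moments with sum zero the squared length of a combination is a sum over pairs of their
weights times squared differences of the coefficients. The weights inside the four longest thus
bound the Gram determinants of the three dust bounds from below: for one pair, two disjoint pairs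
and three of the four. If all three fail, the scalar certificate applies.
-/

namespace Vale.Agent.P226

open MeasureTheory ProbabilityTheory Real Set Finset Module
open scoped RealInnerProductSpace

/-- The determinant is monotone in a nonnegative binary form. -/
lemma det_two_mono {A B C a b c : ℝ} (ha : 0 < a) (hd : 0 ≤ a * c - b ^ 2)
    (h : ∀ x y : ℝ, a * x ^ 2 + 2 * b * x * y + c * y ^ 2 ≤
      A * x ^ 2 + 2 * B * x * y + C * y ^ 2) :
    a * c - b ^ 2 ≤ A * C - B ^ 2 := by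
  have haA : a ≤ A := by simpa using h 1 0
  have h1 : (a * c - b ^ 2) * A ^ 2 ≤ a * (A * (A * C - B ^ 2)) := by
    have := mul_le_mul_of_nonneg_left (h (-B) A) ha.le
    nlinarith [sq_nonneg (a * -B + b * A)]
  have h2 : 0 ≤ A * C - B ^ 2 := by
    refine nonneg_of_mul_nonneg_right ?_ (mul_pos ha (ha.trans_le haA))
    nlinarith [mul_nonneg hd (sq_nonneg A)]
  refine le_of_mul_le_mul_right (h1.trans ?_) (pow_pos (ha.trans_le haA) 2)
  nlinarith [mul_le_mul_of_nonneg_right haA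
    (mul_nonneg (ha.trans_le haA).le h2)]

/-- The determinant is monotone in a nonnegative ternary form. -/
lemma det_three_mono {A B C D F G a b c d f g : ℝ} (ha : 0 < a)
    (hd : 0 < a * c - b ^ 2)
    (hdet : 0 ≤ a * c * g - a * f ^ 2 - b ^ 2 * g + 2 * b * d * f - d ^ 2 * c)
    (h : ∀ x y z : ℝ,
      a * x ^ 2 + 2 * b * x * y + c * y ^ 2 + 2 * d * x * z + 2 * f * y * z + g * z ^ 2 ≤
        A * x ^ 2 + 2 * B * x * y + C * y ^ 2 + 2 * D * x * z + 2 * F * y * z + G * z ^ 2) :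
    a * c * g - a * f ^ 2 - b ^ 2 * g + 2 * b * d * f - d ^ 2 * c ≤
      A * C * G - A * F ^ 2 - B ^ 2 * G + 2 * B * D * F - D ^ 2 * C := by
  have haA : a ≤ A := by simpa using h 1 0 0
  have hA : 0 < A := ha.trans_le haA
  have key := det_two_mono (A := a * (A * C - B ^ 2)) (B := a * (A * F - B * D))
    (C := a * (A * G - D ^ 2)) (a := A * (a * c - b ^ 2)) (b := A * (a * f - b * d))
    (c := A * (a * g - d ^ 2)) (mul_pos hA hd) (by
      have := mul_nonneg (mul_nonneg (sq_nonneg A) ha.le) hdet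
      linarith) fun y z => by
    have h0 := mul_le_mul_of_nonneg_left (h (-(B * y + D * z)) (A * y) (A * z)) ha.le
    refine le_of_mul_le_mul_left ?_ hA
    nlinarith [sq_nonneg (a * -(B * y + D * z) + b * (A * y) + d * (A * z))]
  have hpos : 0 ≤ A * C * G - A * F ^ 2 - B ^ 2 * G + 2 * B * D * F - D ^ 2 * C := by
    refine nonneg_of_mul_nonneg_right ?_ (mul_pos (pow_pos ha 2) hA)
    nlinarith [mul_nonneg (mul_nonneg (sq_nonneg A) ha.le) hdet]
  refine le_of_mul_le_mul_left (le_trans ?_ (mul_le_mul_of_nonneg_right haA hpos)) hA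
  refine le_of_mul_le_mul_left ?_ (mul_pos ha hA)
  linarith

variable {E : Type*} [NormedAddCommGroup E] [InnerProductSpace ℝ E]

/-- A lower bound for the Gram determinant of three vectors by a binary form in the last two. -/
lemma det_gram_three_ge {v u₁ u₂ : E} (hv : v ≠ 0) {a b c : ℝ} (ha : 0 < a)
    (hd : 0 ≤ a * c - b ^ 2)
    (h : ∀ t x y : ℝ, a * x ^ 2 + 2 * b * x * y + c * y ^ 2 ≤
      ‖t • v + x • u₁ + y • u₂‖ ^ 2) :
    ‖v‖ ^ 2 * (a * c - b ^ 2) ≤ (Matrix.gram ℝ ![v, u₁, u₂]).det := by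
  have hn : 0 < ‖v‖ ^ 2 := by positivity
  set n := ‖v‖ ^ 2 with hndef
  have key := det_two_mono (A := n * ‖u₁‖ ^ 2 - ⟪v, u₁⟫ ^ 2)
    (B := n * ⟪u₁, u₂⟫ - ⟪v, u₁⟫ * ⟪v, u₂⟫) (C := n * ‖u₂‖ ^ 2 - ⟪v, u₂⟫ ^ 2)
    (a := n * a) (b := n * b) (c := n * c) (mul_pos hn ha)
    (by nlinarith [mul_nonneg (sq_nonneg n) hd]) fun x y => by
      have h0 := h (-(x * ⟪v, u₁⟫ + y * ⟪v, u₂⟫)) (n * x) (n * y)
      simp only [← real_inner_self_eq_norm_sq, inner_add_left, inner_add_right,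
        real_inner_smul_left, real_inner_smul_right, real_inner_comm v u₁, real_inner_comm v u₂,
        real_inner_comm u₁ u₂] at h0
      simp only [real_inner_self_eq_norm_sq, ← hndef] at h0
      refine le_of_mul_le_mul_left ?_ hn
      linarith
  have e : n * (Matrix.gram ℝ ![v, u₁, u₂]).det =
      (n * ‖u₁‖ ^ 2 - ⟪v, u₁⟫ ^ 2) * (n * ‖u₂‖ ^ 2 - ⟪v, u₂⟫ ^ 2) -
        (n * ⟪u₁, u₂⟫ - ⟪v, u₁⟫ * ⟪v, u₂⟫) ^ 2 := by
    rw [Matrix.det_fin_three]
    simp [Matrix.gram_apply, real_inner_comm v u₁, real_inner_comm v u₂, real_inner_comm u₁ u₂,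
      ← hndef]
    ring
  refine le_of_mul_le_mul_left ?_ hn
  rw [e]
  linarith

/-- A lower bound for the Gram determinant of four vectors by a ternary form in the last three. -/
lemma det_gram_four_ge' {v u₁ u₂ u₃ : E} (hv : v ≠ 0) {a b c d f g : ℝ} (ha : 0 < a)
    (hd : 0 < a * c - b ^ 2)
    (hdet : 0 ≤ a * c * g - a * f ^ 2 - b ^ 2 * g + 2 * b * d * f - d ^ 2 * c)
    (h : ∀ t x y z : ℝ,
      a * x ^ 2 + 2 * b * x * y + c * y ^ 2 + 2 * d * x * z + 2 * f * y * z + g * z ^ 2 ≤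
        ‖t • v + x • u₁ + y • u₂ + z • u₃‖ ^ 2) :
    ‖v‖ ^ 2 * (a * c * g - a * f ^ 2 - b ^ 2 * g + 2 * b * d * f - d ^ 2 * c) ≤
      (Matrix.gram ℝ ![v, u₁, u₂, u₃]).det := by
  have hn : 0 < ‖v‖ ^ 2 := by positivity
  set n := ‖v‖ ^ 2 with hndef
  have key := det_three_mono (A := n * ‖u₁‖ ^ 2 - ⟪v, u₁⟫ ^ 2)
    (B := n * ⟪u₁, u₂⟫ - ⟪v, u₁⟫ * ⟪v, u₂⟫) (C := n * ‖u₂‖ ^ 2 - ⟪v, u₂⟫ ^ 2)
    (D := n * ⟪u₁, u₃⟫ - ⟪v, u₁⟫ * ⟪v, u₃⟫) (F := n * ⟪u₂, u₃⟫ - ⟪v, u₂⟫ * ⟪v, u₃⟫)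
    (G := n * ‖u₃‖ ^ 2 - ⟪v, u₃⟫ ^ 2)
    (a := n * a) (b := n * b) (c := n * c) (d := n * d) (f := n * f) (g := n * g) (mul_pos hn ha)
    (by nlinarith [mul_pos (pow_pos hn 2) hd]) (by nlinarith [mul_nonneg (pow_nonneg hn.le 3) hdet])
    fun x y z => by
      have h0 := h (-(x * ⟪v, u₁⟫ + y * ⟪v, u₂⟫ + z * ⟪v, u₃⟫)) (n * x) (n * y) (n * z)
      simp only [← real_inner_self_eq_norm_sq, inner_add_left, inner_add_right,
        real_inner_smul_left, real_inner_smul_right, real_inner_comm v u₁, real_inner_comm v u₂,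
        real_inner_comm v u₃, real_inner_comm u₁ u₂, real_inner_comm u₁ u₃,
        real_inner_comm u₂ u₃] at h0
      simp only [real_inner_self_eq_norm_sq, ← hndef] at h0
      refine le_of_mul_le_mul_left ?_ hn
      linarith
  refine le_of_mul_le_mul_left ?_ (pow_pos hn 2)
  refine le_trans (le_of_eq ?_) (key.trans (le_of_eq ?_))
  · ring
  · rw [Matrix.det_succ_row_zero, Fin.sum_univ_four, Matrix.det_fin_three, Matrix.det_fin_three,
      Matrix.det_fin_three, Matrix.det_fin_three]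
    simp [Matrix.gram_apply, Fin.succAbove, real_inner_comm v u₁, real_inner_comm v u₂,
      real_inner_comm v u₃, real_inner_comm u₁ u₂, real_inner_comm u₁ u₃, real_inner_comm u₂ u₃,
      ← hndef]
    ring

/-- Four weights between two pairs and one inside each. -/
def quadFour (X p q r s Y : ℝ) (x : Fin 4 → ℝ) : ℝ :=
  X * (x 0 - x 1) ^ 2 + p * (x 0 - x 2) ^ 2 + q * (x 1 - x 2) ^ 2 + r * (x 0 - x 3) ^ 2 +
    s * (x 1 - x 3) ^ 2 + Y * (x 2 - x 3) ^ 2

variable [FiniteDimensional ℝ E] [MeasurableSpace E] [BorelSpace E]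

/-- Permuting the forms does not change the gain. -/
lemma supInner_comp {m : ℕ} [NeZero m] (W : Fin m → E) (σ : Equiv.Perm (Fin m)) (x : E) :
    supInner (W ∘ σ) x = supInner W x :=
  le_antisymm (Finset.sup'_le _ _ fun b _ => le_supInner W (σ b) x)
    (Finset.sup'_le _ _ fun b _ => by simpa using le_supInner (W ∘ σ) (σ.symm b) x)

section criteria

variable {W : Fin 4 → E} {v : E} {X p q r s Y : ℝ}

lemma sqrt_two_pi_pow : ((√(2 * π))⁻¹ ^ 3) ^ 2 = ((2 * π) ^ 3)⁻¹ := by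
  rw [← pow_mul, inv_pow, show (√(2 * π)) ^ (3 * 2) = (√(2 * π) ^ 2) ^ 3 by ring,
    sq_sqrt (by positivity)]

/-- A pair among four bounds the gain. -/
lemma gain_four_of_pair (hW : ∑ b, W b = 0) (hv : v ≠ 0) (hX : 0 < X) (hp : 0 ≤ p) (hq : 0 ≤ q)
    (hr : 0 ≤ r) (hs : 0 ≤ s)
    (hQ : ∀ x : Fin 4 → ℝ, ∀ t : ℝ, quadFour X p q r s Y x ≤ ‖∑ b, x b • W b + t • v‖ ^ 2)
    (hτ : (128 / 9) ^ 2 * ‖v‖ ^ 2 ≤ (2 * π) ^ 3 * (X * (p + q + r + s) + p * q)) :
    gain W v ≤ 3 / 8 * ‖v‖ ^ 2 := by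
  have hn : 0 < ‖v‖ ^ 2 := by positivity
  set T : Fin 2 ↪ Fin 4 := Fin.castLEEmb (by norm_num)
  have e : (Fin.cons v (W ∘ T) : Fin 3 → E) = ![v, W 0, W 1] := by
    funext j; fin_cases j <;> rfl
  have hge := det_gram_three_ge (u₁ := W 0) (u₂ := W 1) hv (a := X + p + r) (b := -X)
    (c := X + q + s) (by linarith) (by nlinarith [mul_nonneg (add_nonneg hp hr) (add_nonneg hq hs)])
    fun t x y => by
      have h := hQ ![x, y, 0, 0] t
      simp [quadFour, Fin.sum_univ_four] at h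
      rw [show t • v + x • W 0 + y • W 1 = x • W 0 + y • W 1 + t • v by abel]
      linarith
  rw [← e] at hge
  have hL : X * (p + q + r + s) + p * q ≤ (X + p + r) * (X + q + s) - (-X) ^ 2 := by
    linarith [mul_nonneg hp hs, mul_nonneg hr hq, mul_nonneg hr hs]
  have hdet : (128 / 9) ^ 2 / (2 * π) ^ 3 * (‖v‖ ^ 2) ^ 2 ≤
      (Matrix.gram ℝ (Fin.cons v (W ∘ T) : Fin 3 → E)).det := by
    refine le_trans ?_ hge
    rw [div_mul_eq_mul_div, div_le_iff₀ (by positivity)]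
    nlinarith [mul_le_mul_of_nonneg_left hτ hn.le,
      mul_le_mul_of_nonneg_left hL (show 0 ≤ (2 * π) ^ 3 * ‖v‖ ^ 2 by positivity)]
  have hpos := lt_of_lt_of_le (by positivity) hdet
  refine (gain_le_dust W hW T v hpos.ne').trans ((div_le_iff₀ (sqrt_pos.2 hpos)).2 ?_)
  have hK : 128 / 3 * dustK 2 * ‖v‖ ^ 2 ≤
      √(Matrix.gram ℝ (Fin.cons v (W ∘ T) : Fin 3 → E)).det := by
    refine le_sqrt_of_sq_le (le_trans (le_of_eq ?_) hdet)
    rw [dustK_two, mul_pow, mul_pow, div_pow ((√(2 * π))⁻¹ ^ 3), sqrt_two_pi_pow]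
    field_simp
    ring
  have := mul_le_mul_of_nonneg_left hK (show 0 ≤ 3 / 8 * ‖v‖ ^ 2 by positivity)
  rw [show ‖v‖ ^ (2 + 2) = (‖v‖ ^ 2) ^ 2 by ring]
  push_cast
  linarith

/-- Two disjoint pairs among four bound the gain. -/
lemma gain_four_of_pairs (hE : 4 ≤ finrank ℝ E) (hW : ∑ b, W b = 0) (hv : v ≠ 0) (hX : 0 < X)
    (hY : 0 < Y) (hp : 0 ≤ p) (hq : 0 ≤ q) (hr : 0 ≤ r) (hs : 0 ≤ s)
    (hQ : ∀ x : Fin 4 → ℝ, ∀ t : ℝ, quadFour X p q r s Y x ≤ ‖∑ b, x b • W b + t • v‖ ^ 2)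
    (hτ : (64 / 9) ^ 2 * ‖v‖ ^ 2 ≤ (2 * π) ^ 3 * (X * Y)) :
    gain W v ≤ 3 / 8 * ‖v‖ ^ 2 := by
  have hn : 0 < ‖v‖ := norm_pos_iff.2 hv
  refine (gain_le_pair_quad hE W hW (Function.Embedding.refl _) v hv hX hY
    fun x y u t => ?_).trans ((div_le_iff₀ (sqrt_pos.2 (mul_pos hX hY))).2 ?_)
  · simp only [Function.Embedding.refl_apply]
    have h := hQ ![x / 2 + u, -x / 2 + u, y / 2, -y / 2] t
    have e : x • (2 : ℝ)⁻¹ • (W 0 - W 1) + y • (2 : ℝ)⁻¹ • (W 2 - W 3) + u • (W 0 + W 1) + t • v =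
        ∑ b, ![x / 2 + u, -x / 2 + u, y / 2, -y / 2] b • W b + t • v := by
      simp [Fin.sum_univ_four]
      module
    rw [e]
    refine le_trans ?_ h
    simp [quadFour]
    nlinarith [mul_nonneg hp (sq_nonneg (x / 2 + u - y / 2)),
      mul_nonneg hq (sq_nonneg (-x / 2 + u - y / 2)), mul_nonneg hr (sq_nonneg (x / 2 + u + y / 2)),
      mul_nonneg hs (sq_nonneg (-x / 2 + u + y / 2))]
  · have hK : 64 / 3 * dustK 2 * ‖v‖ ≤ √(X * Y) := by
      refine le_sqrt_of_sq_le ?_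
      rw [dustK_two, mul_pow, mul_pow, div_pow ((√(2 * π))⁻¹ ^ 3), sqrt_two_pi_pow]
      refine le_of_mul_le_mul_left (le_trans (le_of_eq ?_) hτ)
        (show 0 < (2 * π) ^ 3 by positivity)
      field_simp
      ring
    have := mul_le_mul_of_nonneg_left hK (show 0 ≤ 3 / 8 * ‖v‖ ^ 2 by positivity)
    push_cast
    nlinarith

/-- Three of four bound the gain. -/
lemma gain_four_of_tetra (hW : ∑ b, W b = 0) (hv : v ≠ 0) (hX : 0 < X) (hp : 0 ≤ p) (hq : 0 ≤ q)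
    (hr : 0 ≤ r) (hs : 0 ≤ s) (hY : 0 ≤ Y) (hpq : 0 < p + q)
    (hQ : ∀ x : Fin 4 → ℝ, ∀ t : ℝ, quadFour X p q r s Y x ≤ ‖∑ b, x b • W b + t • v‖ ^ 2)
    (hτ : (32 / 3) ^ 2 * (‖v‖ ^ 2) ^ 2 ≤
      (2 * π) ^ 3 * ((X * (p + q) + p * q) * (r + s) + (X * (p + q + r + s) + p * q) * Y)) :
    gain W v ≤ 3 / 8 * ‖v‖ ^ 2 := by
  have hn : 0 < ‖v‖ ^ 2 := by positivity
  set T : Fin 3 ↪ Fin 4 := Fin.castLEEmb (by norm_num)
  have e : (Fin.cons v (W ∘ T) : Fin 4 → E) = ![v, W 0, W 1, W 2] := by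
    funext j; fin_cases j <;> rfl
  have hL : (X * (p + q) + p * q) * (r + s) + (X * (p + q + r + s) + p * q) * Y ≤
      (X + p + r) * (X + q + s) * (p + q + Y) -
      (X + p + r) * (-q) ^ 2 - (-X) ^ 2 * (p + q + Y) + 2 * -X * -p * -q -
      (-p) ^ 2 * (X + q + s) := by
    have : 0 ≤ p * r * s + p * s * Y + q * r * s + q * r * Y + r * s * Y := by positivity
    linarith
  have hL0 : 0 ≤ (X * (p + q) + p * q) * (r + s) + (X * (p + q + r + s) + p * q) * Y := by positivity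
  have hge := det_gram_four_ge' (u₁ := W 0) (u₂ := W 1) (u₃ := W 2) hv (a := X + p + r) (b := -X)
    (c := X + q + s) (d := -p) (f := -q) (g := p + q + Y) (by linarith)
    (by nlinarith [mul_pos hX hpq, mul_nonneg hX.le (add_nonneg hr hs),
      mul_nonneg (add_nonneg hp hr) (add_nonneg hq hs)]) (hL0.trans hL)
    fun t x y z => by
      have h := hQ ![x, y, z, 0] t
      simp [quadFour, Fin.sum_univ_four] at h
      rw [show t • v + x • W 0 + y • W 1 + z • W 2 = x • W 0 + y • W 1 + z • W 2 + t • v by abel]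
      linarith
  rw [← e] at hge
  have hdet : (32 / 3) ^ 2 / (2 * π) ^ 3 * (‖v‖ ^ 2) ^ 3 ≤
      (Matrix.gram ℝ (Fin.cons v (W ∘ T) : Fin 4 → E)).det := by
    refine le_trans ?_ hge
    rw [div_mul_eq_mul_div, div_le_iff₀ (by positivity)]
    nlinarith [mul_le_mul_of_nonneg_left hτ hn.le,
      mul_le_mul_of_nonneg_left hL (show 0 ≤ (2 * π) ^ 3 * ‖v‖ ^ 2 by positivity)]
  have hpos := lt_of_lt_of_le (by positivity) hdet
  refine (gain_le_dust W hW T v hpos.ne').trans ((div_le_iff₀ (sqrt_pos.2 hpos)).2 ?_)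
  have hK : 512 / 3 * dustK 3 * ‖v‖ ^ 3 ≤
      √(Matrix.gram ℝ (Fin.cons v (W ∘ T) : Fin 4 → E)).det := by
    refine le_sqrt_of_sq_le (le_trans (le_of_eq ?_) hdet)
    rw [dustK_three, mul_pow, mul_pow, div_pow ((√(2 * π))⁻¹ ^ 3), sqrt_two_pi_pow]
    field_simp
    ring
  have := mul_le_mul_of_nonneg_left hK (show 0 ≤ 3 / 8 * ‖v‖ ^ 2 by positivity)
  push_cast
  nlinarith

end criteria

section measure

/-- A very short moment has measure at least its scaled square over `1039/1000`. -/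
lemma dust_measure_short {S : Set E} (hm : MeasurableSet S)
    (hσ : √(2 * π) * ‖mom S‖ ≤ 1859 / 10000) :
    (√(2 * π) * ‖mom S‖) ^ 2 ≤ 1039 / 1000 * (stdGaussian E).real S := by
  have := pi_gt_d6
  have := pi_lt_d6
  have hL : (250662 / 100000 : ℝ) ≤ √(2 * π) := le_sqrt_of_sq_le (by linarith)
  have hU : √(2 * π) ≤ 250663 / 100000 := sqrt_le_iff.2 ⟨by norm_num, by linarith⟩
  set U := √(2 * π) with hU'
  set σ := U * ‖mom S‖ with hσ'
  rcases eq_or_ne σ 0 with h0 | h0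
  · rw [h0]; simp
  have hU0 : 0 < U := by positivity
  have hσ0 : 0 < σ := lt_of_le_of_ne (by positivity) (Ne.symm h0)
  by_contra! hc
  set t := 823 / 1000 * (1039 / 1000) / (U * σ) with ht
  have hte : t * (U * σ) = 823 / 1000 * (1039 / 1000) := div_mul_cancel₀ _ (by positivity)
  have ht0 : 1835 / 1000 ≤ t := by
    rw [ht, le_div_iff₀ (by positivity)]
    nlinarith [mul_le_mul hU hσ hσ0.le (by norm_num : (0:ℝ) ≤ 250663 / 100000)]
  have htp : 0 < t := lt_of_lt_of_le (by norm_num) ht0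
  have h := mul_le_mul_of_nonneg_left (norm_mom_le_tail hm t) hU0.le
  rw [← hσ'] at h
  have hψ : U * psiTail (1835 / 1000) ≤ 3277 / 100000 := by
    refine (scaled_psiTail_le (e := 185703 / 1000000) (by norm_num) ?_ hL).trans ?_
    · norm_num [expTay, Finset.sum_range_succ, Nat.factorial]
    · norm_num [gaussPrim, Finset.sum_range_succ, Nat.factorial]
  have hmono := mul_le_mul_of_nonneg_left
    (mul_psiTail_le (by norm_num : (1:ℝ) ≤ 1835 / 1000) ht0) hU0.le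
  have h1 : U * t * (stdGaussian E).real S < 823 / 1000 * σ := by
    have h' := mul_lt_mul_of_pos_left hc (show 0 < U * t by positivity)
    have h'' : U * t * σ ^ 2 = 823 / 1000 * (1039 / 1000) * σ := by rw [← hte]; ring
    rw [h''] at h'
    nlinarith
  have h2 : 177 / 1000 * σ < U * psiTail t := by nlinarith
  have h3 := mul_lt_mul_of_pos_left h2 htp
  have h4 : 823 / 1000 * (1039 / 1000) * (177 / 1000) ≤ U * (t * (177 / 1000 * σ)) := by
    rw [← hte]; exact le_of_eq (by ring)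
  nlinarith

/-- A middle majorant of the square. -/
lemma iso_majorant_mid {S : Set E} (hm : MeasurableSet S) :
    (√(2 * π) * ‖mom S‖) ^ 2 ≤ 269 / 1000 + 16965 / 10000 * (stdGaussian E).real S := by
  have := pi_gt_d6
  have := pi_lt_d6
  have hL : (250662 / 100000 : ℝ) ≤ √(2 * π) := le_sqrt_of_sq_le (by linarith)
  have hU : √(2 * π) ≤ 250663 / 100000 := sqrt_le_iff.2 ⟨by norm_num, by linarith⟩
  have line : ∀ (t e a b : ℝ), 0 ≤ t → expTay 13 (t ^ 2 / 2) ≤ e →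
      e - t * (250662 / 100000 / 2 - gaussPrim t) ≤ a → 250663 / 100000 * t ≤ b →
      √(2 * π) * ‖mom S‖ ≤ a + b * (stdGaussian E).real S := fun t e a b ht he ha hb =>
    iso_line hm ht he hL hU ha hb
  have l0 : √(2 * π) * ‖mom S‖ ≤ 1 + 0 * (stdGaussian E).real S := by
    refine line 0 1 1 0 le_rfl ?_ ?_ ?_ <;> norm_num [expTay, gaussPrim, Finset.sum_range_succ]
  have l1 : √(2 * π) * ‖mom S‖ ≤ 64037 / 100000 + 82719 / 100000 * (stdGaussian E).real S := by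
    refine line (33 / 100) (947006 / 1000000) _ _ (by norm_num) ?_ ?_ ?_ <;>
      norm_num [expTay, gaussPrim, Finset.sum_range_succ, Nat.factorial]
  have l2 : √(2 * π) * ‖mom S‖ ≤ 15099 / 25000 + 46373 / 50000 * (stdGaussian E).real S := by
    refine line (37 / 100) (933841 / 1000000) _ _ (by norm_num) ?_ ?_ ?_ <;>
      norm_num [expTay, gaussPrim, Finset.sum_range_succ, Nat.factorial]
  have l3 : √(2 * π) * ‖mom S‖ ≤ 49581 / 100000 + 31333 / 25000 * (stdGaussian E).real S := by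
    refine line (1 / 2) (882497 / 1000000) _ _ (by norm_num) ?_ ?_ ?_ <;>
      norm_num [expTay, gaussPrim, Finset.sum_range_succ, Nat.factorial]
  have h := sq_le_of_chain (α := 269 / 1000) (β := 16965 / 10000) (lo := 0)
    (y := √(2 * π) * ‖mom S‖) (by positivity) measureReal_le_one
    (C := [((49581 / 100000, 31333 / 25000), 3319 / 10000),
      ((15099 / 25000, 46373 / 50000), 3631 / 10000),
      ((64037 / 100000, 82719 / 100000), 1087 / 2500), ((1, 0), 1)])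
    (by decide +kernel) (by exact_mod_cast measureReal_nonneg) (by simp) (by
      simp only [List.forall_mem_cons, List.not_mem_nil, false_implies, implies_true, and_true]
      push_cast
      exact ⟨l3, l2, l1, l0⟩)
  push_cast at h
  exact h

end measure

variable {k : ℕ}

omit [FiniteDimensional ℝ E] [MeasurableSpace E] [BorelSpace E] in
/-- The weights inside four obtuse vectors bound their combinations with one further vector. -/
lemma quadFour_le (z : Fin k → E) (hsum : ∑ i, z i = 0)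
    (hobt : ∀ i j, i ≠ j → ⟪z i, z j⟫ ≤ 0) (J : Fin 4 ↪ Fin k) {i : Fin k}
    (hi : i ∈ (Finset.univ.map J)ᶜ) (x : Fin 4 → ℝ) (t : ℝ) :
    quadFour (-⟪z (J 0), z (J 1)⟫) (-⟪z (J 0), z (J 2)⟫) (-⟪z (J 1), z (J 2)⟫)
      (-⟪z (J 0), z (J 3)⟫) (-⟪z (J 1), z (J 3)⟫) (-⟪z (J 2), z (J 3)⟫) x ≤
      ‖∑ b, x b • centred z J b + t • z i‖ ^ 2 := by
  classical
  set μ := (4 : ℝ)⁻¹ * ∑ b, x b with hμ
  set ξ : Fin k → ℝ := fun l =>
    (∑ b, if J b = l then x b - μ else 0) + if i = l then t else 0 with hξ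
  have hξJ : ∀ b, ξ (J b) = x b - μ := fun b => by
    simp only [hξ, J.injective.eq_iff, Finset.sum_ite_eq', Finset.mem_univ, if_true]
    rw [if_neg fun h : i = J b =>
      (Finset.mem_compl.1 hi) (h ▸ Finset.mem_map_of_mem J (Finset.mem_univ b)), add_zero]
  have hvec : ∑ l, ξ l • z l = ∑ b, x b • centred z J b + t • z i := by
    simp only [hξ, add_smul, Finset.sum_add_distrib, Finset.sum_smul, ite_smul, zero_smul,
      Finset.sum_ite_eq, Finset.mem_univ, if_true]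
    rw [Finset.sum_comm]
    simp only [Finset.sum_ite_eq, Finset.mem_univ, if_true, centred, hμ, Fin.sum_univ_four]
    push_cast
    module
  rw [← hvec]
  have hid : 2 * ‖∑ l, ξ l • z l‖ ^ 2 = ∑ l, ∑ m, -⟪z l, z m⟫ * (ξ l - ξ m) ^ 2 := by
    have z1 : ∀ l, ∑ m, ⟪z l, z m⟫ = 0 := fun l => by rw [← inner_sum, hsum, inner_zero_right]
    have z2 : ∀ m, ∑ l, ⟪z l, z m⟫ = 0 := fun m => by rw [← sum_inner, hsum, inner_zero_left]
    have e : ∀ l m, -⟪z l, z m⟫ * (ξ l - ξ m) ^ 2 =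
        2 * (ξ l * (ξ m * ⟪z l, z m⟫)) - ξ l ^ 2 * ⟪z l, z m⟫ - ξ m ^ 2 * ⟪z l, z m⟫ :=
      fun l m => by ring
    simp only [e, Finset.sum_sub_distrib, ← Finset.mul_sum, z1, mul_zero, sub_zero]
    rw [Finset.sum_comm (f := fun l m => ξ m ^ 2 * ⟪z l, z m⟫)]
    simp only [← Finset.mul_sum, z2, mul_zero, Finset.sum_const_zero, sub_zero,
      ← real_inner_self_eq_norm_sq, sum_inner, inner_sum, real_inner_smul_left,
      real_inner_smul_right]
    simp only [Finset.mul_sum, real_inner_comm]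
  have hnn : ∀ l m, 0 ≤ -⟪z l, z m⟫ * (ξ l - ξ m) ^ 2 := fun l m => by
    rcases eq_or_ne l m with rfl | hlm
    · simp
    · exact mul_nonneg (neg_nonneg.2 (hobt l m hlm)) (sq_nonneg _)
  have hle : ∑ a, ∑ b, -⟪z (J a), z (J b)⟫ * (x a - x b) ^ 2 ≤ 2 * ‖∑ l, ξ l • z l‖ ^ 2 := by
    rw [hid]
    refine le_trans ?_ (Finset.sum_le_univ_sum_of_nonneg (s := Finset.univ.map J)
      fun l => Finset.sum_nonneg fun m _ => hnn l m)
    rw [Finset.sum_map]
    refine Finset.sum_le_sum fun a _ => le_trans ?_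
      (Finset.sum_le_univ_sum_of_nonneg (s := Finset.univ.map J) fun m => hnn _ m)
    rw [Finset.sum_map]
    simp [hξJ]
  simp only [Fin.sum_univ_four, real_inner_comm (z (J 0)) (z (J 1)),
    real_inner_comm (z (J 0)) (z (J 2)), real_inner_comm (z (J 0)) (z (J 3)),
    real_inner_comm (z (J 1)) (z (J 2)), real_inner_comm (z (J 1)) (z (J 3)),
    real_inner_comm (z (J 2)) (z (J 3))] at hle
  rw [quadFour]
  linarith

omit [FiniteDimensional ℝ E] [MeasurableSpace E] [BorelSpace E] in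
/-- A vector among four is at least as long as its three weights. -/
lemma deg_four_le (z : Fin k → E) (hsum : ∑ i, z i = 0)
    (hobt : ∀ i j, i ≠ j → ⟪z i, z j⟫ ≤ 0) (J : Fin 4 ↪ Fin k) (a : Fin 4) :
    0 ≤ ∑ b, ⟪z (J a), z (J b)⟫ := by
  have h := hsum
  rw [← Finset.sum_add_sum_compl (Finset.univ.map J), Finset.sum_map] at h
  rw [← inner_sum, eq_neg_of_add_eq_zero_left h, inner_neg_right, neg_nonneg, inner_sum]
  exact Finset.sum_nonpos fun j hj => hobt _ _ fun hh =>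
    (Finset.mem_compl.1 hj) (hh ▸ Finset.mem_map_of_mem J (Finset.mem_univ a))

/-- If a product of scaled weights is large, a short vector gains little. -/
lemma gain_four_of_products {W : Fin 4 → E} {v : E} {X p q r s Y : ℝ} (hE : 4 ≤ finrank ℝ E)
    (hW : ∑ b, W b = 0) (hv : v ≠ 0) (hn : ‖v‖ ^ 2 ≤ 55 / 10000) (X0 : 0 ≤ X) (p0 : 0 ≤ p)
    (q0 : 0 ≤ q) (r0 : 0 ≤ r) (s0 : 0 ≤ s) (Y0 : 0 ≤ Y)
    (hQ : ∀ x : Fin 4 → ℝ, ∀ t : ℝ, quadFour X p q r s Y x ≤ ‖∑ b, x b • W b + t • v‖ ^ 2)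
    (h : 17708 / 100000 ≤ 2 * π * X * (2 * π * (p + q)) ∨
      4427 / 100000 ≤ 2 * π * X * (2 * π * Y) ∨
      345 / 100000 ≤ 2 * π * X * (2 * π * (p + q)) * (2 * π * (r + s) + 2 * π * Y)) :
    gain W v ≤ 3 / 8 * ‖v‖ ^ 2 := by
  have hlo := pi_gt_d6
  have hhi := pi_lt_d6
  have hU0 : 0 < 2 * π := by positivity
  have hXp : 0 < X := by
    rcases X0.lt_or_eq with h' | h'
    · exact h'
    · rw [← h'] at h; norm_num at h
  rcases h with h | h | h
  · refine gain_four_of_pair hW hv hXp p0 q0 r0 s0 hQ ?_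
    have h1 := mul_le_mul_of_nonneg_left h hU0.le
    have h2 : 0 ≤ (2 * π) ^ 3 * (X * (r + s) + p * q) := by positivity
    nlinarith
  · have hYp : 0 < Y := by
      rcases Y0.lt_or_eq with h' | h'
      · exact h'
      · rw [← h'] at h; norm_num at h
    refine gain_four_of_pairs hE hW hv hXp hYp p0 q0 r0 s0 hQ ?_
    have h1 := mul_le_mul_of_nonneg_left h hU0.le
    nlinarith
  · have hpq : 0 < p + q := by
      rcases (add_nonneg p0 q0).lt_or_eq with h' | h'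
      · exact h'
      · rw [← h'] at h; norm_num at h
    refine gain_four_of_tetra hW hv hXp p0 q0 r0 s0 Y0 hpq hQ ?_
    have h1 := pow_le_pow_left₀ (sq_nonneg ‖v‖) hn 2
    have h2 : 0 ≤ (2 * π) ^ 3 * (p * q * (r + s) + (X * (r + s) + p * q) * Y) := by positivity
    linarith

omit [FiniteDimensional ℝ E] [MeasurableSpace E] [BorelSpace E] in
/-- The square of the norm of the sum of four. -/
lemma sq_sum_four (u : Fin 4 → E) : ‖∑ b, u b‖ ^ 2 =
    ‖u 0‖ ^ 2 + ‖u 1‖ ^ 2 + ‖u 2‖ ^ 2 + ‖u 3‖ ^ 2 + 2 * (⟪u 0, u 1⟫ + ⟪u 0, u 2⟫ + ⟪u 0, u 3⟫ +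
      ⟪u 1, u 2⟫ + ⟪u 1, u 3⟫ + ⟪u 2, u 3⟫) := by
  simp only [← real_inner_self_eq_norm_sq, Fin.sum_univ_four, inner_add_left, inner_add_right,
    real_inner_comm (u 0) (u 1), real_inner_comm (u 0) (u 2), real_inner_comm (u 0) (u 3),
    real_inner_comm (u 1) (u 2), real_inner_comm (u 1) (u 3), real_inner_comm (u 2) (u 3)]
  ring

/-- The majorants of the squares next to short vectors, and the measure left to these. -/
lemma four_six_bounds [NeZero k] {w : Fin k → EuclideanSpace ℝ (Fin (k - 1))} (hw : Crit w)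
    (J : Fin 4 ↪ Fin k) (hlong : ∀ a, 96 / 10000 ≤ ‖w (J a)‖ ^ 2)
    (hrest : ∀ i ∈ (Finset.univ.map J)ᶜ, ‖w i‖ ^ 2 < 55 / 10000) :
    let N := fun a => 2 * π * ‖w (J a)‖ ^ 2
    let P := fun a => (stdGaussian (EuclideanSpace ℝ (Fin (k - 1)))).real (cell w (J a))
    (∀ a, N a ≤ 1 ∧ N a ≤ -3607 / 50000 + 57 / 20 * P a ∧ N a ≤ 85 / 1000 + 2262 / 1000 * P a ∧
      N a ≤ 269 / 1000 + 16965 / 10000 * P a ∧ N a ≤ 342 / 1000 + 1508 / 1000 * P a) ∧
    2 * π * restSq w J ≤ 1039 / 1000 * (1 - P 0 - P 1 - P 2 - P 3) := by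
  intro N P'
  have hU : 2 * π ≤ 6283188 / 1000000 := by linarith [pi_lt_d6]
  set U := 2 * π with hU'
  have hU0 : 0 < U := by positivity
  set σ := fun j => √(2 * π) * ‖w j‖ with hσ
  set P := fun j => (stdGaussian (EuclideanSpace ℝ (Fin (k - 1)))).real (cell w j) with hP
  have hsq : ∀ j, σ j ^ 2 = U * ‖w j‖ ^ 2 := fun j => by
    simp only [hσ, mul_pow, sq_sqrt (show 0 ≤ 2 * π by positivity), hU']
  have hm : ∀ j, σ j ≤ 1 ∧ σ j ^ 2 ≤ 342 / 1000 + 1508 / 1000 * P j ∧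
      σ j ^ 2 ≤ 85 / 1000 + 2262 / 1000 * P j ∧ σ j ^ 2 ≤ 269 / 1000 + 16965 / 10000 * P j :=
    fun j => by
      have h := iso_majorants ((cell_isPart w).meas j)
      have h' := iso_majorant_mid ((cell_isPart w).meas j)
      rw [← hw.self j] at h h'
      exact ⟨h.1, h.2.2.1, h.2.2.2, h'⟩
  have ha : ∀ a, σ (J a) ^ 2 ≤ -3607 / 50000 + 57 / 20 * P (J a) := fun a => by
    have h := level_le hw.self lines10 (fun S _ hS => lines10_valid hS) (α := -3607 / 50000)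
      (β := 57 / 20) (x := 23433 / 500000) (τ := 24559 / 100000)
      (l := (4529 / 100000, 427381 / 100000)) (C := chain10_4) (by decide +kernel)
      (by decide +kernel) (θ := 96 / 10000) (by push_cast; linarith [pi_gt_d6]) (hlong a)
    rw [hsq]
    push_cast at h
    exact h
  have hd : ∀ j ∈ (Finset.univ.map J)ᶜ, U * ‖w j‖ ^ 2 ≤ 1039 / 1000 * P j := fun j hj => by
    have h2 : σ j ^ 2 ≤ (1859 / 10000) ^ 2 := by rw [hsq]; nlinarith [hrest j hj, sq_nonneg ‖w j‖]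
    have h := dust_measure_short ((cell_isPart w).meas j)
    rw [← hw.self j] at h
    rw [← hsq]
    exact h (le_of_pow_le_pow_left₀ two_ne_zero (by norm_num) h2)
  have hQ' : U * restSq w J ≤
      1039 / 1000 * (1 - P (J 0) - P (J 1) - P (J 2) - P (J 3)) := by
    have e : ∑ j ∈ (Finset.univ.map J)ᶜ, P j = 1 - P (J 0) - P (J 1) - P (J 2) - P (J 3) := by
      have h := (cell_isPart w).sum_measure
      rw [← Finset.sum_add_sum_compl (Finset.univ.map J), Finset.sum_map, Fin.sum_univ_four] at h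
      simp only [hP]
      linarith
    rw [← e, restSq, Finset.mul_sum, Finset.mul_sum]
    exact Finset.sum_le_sum hd
  refine ⟨fun a => ?_, hQ'⟩
  have h := hm (J a)
  rw [show N a = σ (J a) ^ 2 from (hsq _).symm]
  exact ⟨pow_le_one₀ (by positivity) h.1, ha a, h.2.2.1, h.2.2.2, h.2.1⟩

/-- The gain bound when the labels put the largest weight first and the larger cross sum third. -/
lemma gain_four_sorted [NeZero k] {w : Fin k → EuclideanSpace ℝ (Fin (k - 1))} (hw : Crit w)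
    (hk : 6 ≤ k) (J : Fin 4 ↪ Fin k) (hlong : ∀ a, 96 / 10000 ≤ ‖w (J a)‖ ^ 2)
    (hrest : ∀ i ∈ (Finset.univ.map J)ᶜ, ‖w i‖ ^ 2 < 55 / 10000)
    (hmax : ∀ a b, a ≠ b → -⟪w (J a), w (J b)⟫ ≤ -⟪w (J 0), w (J 1)⟫)
    (hcross : -⟪w (J 0), w (J 3)⟫ + -⟪w (J 1), w (J 3)⟫ ≤
      -⟪w (J 0), w (J 2)⟫ + -⟪w (J 1), w (J 2)⟫)
    {i : Fin k} (hi : i ∈ (Finset.univ.map J)ᶜ) :
    gain (centred w J) (w i) ≤ 3 / 8 * ‖w i‖ ^ 2 := by
  by_contra hgain
  have hc : ∀ a b : Fin 4, a ≠ b → 0 ≤ -⟪w (J a), w (J b)⟫ := fun a b h =>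
    neg_nonneg.2 (hw.obtuse _ _ (J.injective.ne h))
  have X0 := hc 0 1 (by decide); have p0 := hc 0 2 (by decide); have q0 := hc 1 2 (by decide)
  have r0 := hc 0 3 (by decide); have s0 := hc 1 3 (by decide); have Y0 := hc 2 3 (by decide)
  have hU0 : 0 < 2 * π := by positivity
  have hprod := fun h => hgain (gain_four_of_products
    (by rw [finrank_euclideanSpace_fin]; omega) (sum_centred w J) (hw.ne i) (hrest i hi).le
    X0 p0 q0 r0 s0 Y0 (quadFour_le w hw.sum hw.obtuse J hi) h)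
  simp only [not_or, not_le, imp_false] at hprod
  obtain ⟨hA, hB, hC⟩ := hprod
  obtain ⟨hN, hQ⟩ := four_six_bounds hw J hlong hrest
  have hF : 9 / 4 ≤ 2 * π * (‖w (J 0)‖ ^ 2 + ‖w (J 1)‖ ^ 2 + ‖w (J 2)‖ ^ 2 + ‖w (J 3)‖ ^ 2) +
      2 * π * restSq w J := by
    have h := hw.big
    rw [← Finset.sum_add_sum_compl (Finset.univ.map J), Finset.sum_map, Fin.sum_univ_four,
      div_lt_iff₀ (by positivity)] at h
    rw [restSq]
    linarith
  have hE := (sq_sum_four fun b => w (J b)).ge.trans (sq_common_le w hw.sum hw.obtuse J)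
  have hsc := fun {u : ℝ} (h : 0 ≤ u) => mul_nonneg hU0.le h
  have hle := fun {u u' : ℝ} (h : u ≤ u') => mul_le_mul_of_nonneg_left h hU0.le
  have d := fun a => hsc (deg_four_le w hw.sum hw.obtuse J a)
  have d0 := d 0; have d1 := d 1; have d2 := d 2; have d3 := d 3
  simp only [Fin.sum_univ_four, real_inner_self_eq_norm_sq, real_inner_comm (w (J 0)) (w (J 1)),
    real_inner_comm (w (J 0)) (w (J 2)), real_inner_comm (w (J 0)) (w (J 3)),
    real_inner_comm (w (J 1)) (w (J 2)), real_inner_comm (w (J 1)) (w (J 3)),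
    real_inner_comm (w (J 2)) (w (J 3))] at d0 d1 d2 d3
  have hp := hle (hmax 0 2 (by decide)); have hq := hle (hmax 1 2 (by decide))
  have hY := hle (hmax 2 3 (by decide))
  have hcr := hle hcross
  have hE' := hle hE
  have X1 := hsc X0; have Y1 := hsc Y0; have r1 := hsc r0; have s1 := hsc s0
  have p1 := hsc p0; have q1 := hsc q0
  refine four_six_absurd ?_ ?_ ?_ hcr hY ?_ ?_ ?_ ?_ ?_ ?_ (hN 0).1 (hN 1).1 hA hB hC ?_ ?_ hQ
    (hN 0).2.1 (hN 1).2.1 (hN 2).2.1 (hN 3).2.1 (hN 0).2.2.1 (hN 1).2.2.1 (hN 0).2.2.2.1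
    (hN 1).2.2.2.1 (hN 0).2.2.2.2 (hN 1).2.2.2.2
  all_goals linarith

/-- The labels of the four can be chosen with the largest weight first and the larger cross sum
third. -/
lemma gain_four_wlog [NeZero k] (w : Fin k → E) (J : Fin 4 ↪ Fin k) (v : E) {b : ℝ}
    (h : ∀ J' : Fin 4 ↪ Fin k, Finset.univ.map J' = Finset.univ.map J →
      (∀ a, ∃ a', J' a = J a') →
      (∀ a b, a ≠ b → -⟪w (J' a), w (J' b)⟫ ≤ -⟪w (J' 0), w (J' 1)⟫) →
      -⟪w (J' 0), w (J' 3)⟫ + -⟪w (J' 1), w (J' 3)⟫ ≤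
        -⟪w (J' 0), w (J' 2)⟫ + -⟪w (J' 1), w (J' 2)⟫ → gain (centred w J') v ≤ b) :
    gain (centred w J) v ≤ b := by
  set c := fun a b : Fin 4 => -⟪w (J a), w (J b)⟫ with hc
  obtain ⟨σ, hσ⟩ := Finite.exists_max fun τ : Equiv.Perm (Fin 4) => c (τ 0) (τ 1)
  obtain ⟨τ, hτ, hcross⟩ : ∃ τ : Equiv.Perm (Fin 4), (∀ a b, a ≠ b → c a b ≤ c (τ 0) (τ 1)) ∧
      c (τ 0) (τ 3) + c (τ 1) (τ 3) ≤ c (τ 0) (τ 2) + c (τ 1) (τ 2) := by
    have hmax : ∀ a b, a ≠ b → c a b ≤ c (σ 0) (σ 1) := fun a b hab => by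
      obtain ⟨ρ, rfl, rfl⟩ : ∃ ρ : Equiv.Perm (Fin 4), ρ 0 = a ∧ ρ 1 = b := by
        revert a b; decide
      exact hσ ρ
    rcases le_total (c (σ 0) (σ 3) + c (σ 1) (σ 3)) (c (σ 0) (σ 2) + c (σ 1) (σ 2)) with h | h
    · exact ⟨σ, hmax, h⟩
    · refine ⟨(Equiv.swap 2 3).trans σ, ?_, ?_⟩
      · simpa [Equiv.swap_apply_of_ne_of_ne] using hmax
      · simpa [Equiv.swap_apply_of_ne_of_ne] using h
  set J' := τ.toEmbedding.trans J with hJ'
  have hmap : Finset.univ.map J' = Finset.univ.map J := by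
    rw [hJ', ← Finset.map_map, Finset.map_univ_equiv]
  have hW : centred w J' = centred w J ∘ τ := by
    funext b
    simp only [centred, hJ', Function.Embedding.trans_apply, Equiv.coe_toEmbedding,
      Function.comp_apply, Equiv.sum_comp τ fun b => w (J b)]
  have h' := h J' hmap (fun a => ⟨τ a, rfl⟩) (fun a b hab => hτ _ _ (τ.injective.ne hab)) hcross
  rw [hW] at h'
  simpa only [gain, supInner_comp] using h'

/-- Each short vector gains at most three eighths of its squared length over the four longest. -/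
theorem gain_rest_four_six [NeZero k] {w : Fin k → EuclideanSpace ℝ (Fin (k - 1))} (hw : Crit w)
    (hk : 6 ≤ k) (J : Fin 4 ↪ Fin k) (hJ : IsTop w J) (hL : Long (theta k) w 4)
    (hrest : ∀ i ∈ (Finset.univ.map J)ᶜ, ‖w i‖ ^ 2 < theta k 5) :
    ∀ i ∈ (Finset.univ.map J)ᶜ,
      gain (centred w J) (w i) ≤ (1 - ((4 : ℕ) : ℝ)⁻¹) / 2 * ‖w i‖ ^ 2 := by
  intro i hi
  rw [show (1 - ((4 : ℕ) : ℝ)⁻¹) / 2 = 3 / 8 by norm_num]
  rw [theta_five hk] at hrest
  refine gain_four_wlog w J _ fun J' hmap hmem hmax hcross =>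
    gain_four_sorted hw hk J' (fun a => ?_) (by rwa [hmap]) hmax hcross (by rwa [hmap])
  obtain ⟨a', ha'⟩ := hmem a
  have h4 := hJ.le_of_lt_card (θ := theta k 4) (hL 4 le_rfl le_rfl) a'
  rwa [theta_low (by omega) le_rfl, ← ha'] at h4

end Vale.Agent.P226
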