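import Vale.Agent.P226.PairQuad
import Vale.Agent.P226.GainFour

/-!
# A short vector gains little over merged blocks of centred vectors

The bounds of the dust lemma and of the pairing lemma hold when single vectors are replaced by sums
over disjoint blocks.
-/

namespace Vale.Agent.P226

open MeasureTheory ProbabilityTheory Real Set Finset Module
open scoped RealInnerProductSpace

variable {E : Type*} [NormedAddCommGroup E] [InnerProductSpace ℝ E] [FiniteDimensional ℝ E]
  [MeasurableSpace E] [BorelSpace E] {m : ℕ} [NeZero m]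

omit [NeZero m] in
/-- A sum over all indices splits into a pair and two blocks. -/
lemma sum_pair_blocks {M : Type*} [AddCommGroup M] {a b : Fin m} (hab : a ≠ b)
    {C D : Finset (Fin m)} (hCD : Disjoint C D) (huniv : C ∪ D = Finset.univ \ {a, b})
    (g : Fin m → M) : g a + g b + ((∑ i ∈ C, g i) + ∑ i ∈ D, g i) = ∑ i, g i := by
  classical
  rw [← Finset.sum_union hCD, huniv, ← Finset.sum_pair hab, add_comm,
    Finset.sum_sdiff (Finset.subset_univ _)]

/-- The dust lemma for three disjoint blocks. -/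
theorem gain_le_block (W : Fin m → E) (hW : ∑ a, W a = 0) (B : Fin 3 → Finset (Fin m))
    (hB : Pairwise fun r s => Disjoint (B r) (B s)) (v : E) (hv : v ≠ 0) {a b c d f g D : ℝ}
    (ha : 0 < a) (hac : 0 < a * c - b ^ 2) (hD : 0 < D)
    (hdet : D ≤ a * c * g - a * f ^ 2 - b ^ 2 * g + 2 * b * d * f - d ^ 2 * c)
    (h : ∀ t x y z : ℝ,
      a * x ^ 2 + 2 * b * x * y + c * y ^ 2 + 2 * d * x * z + 2 * f * y * z + g * z ^ 2 ≤
        ‖t • v + x • (∑ i ∈ B 0, W i) + y • (∑ i ∈ B 1, W i) + z • (∑ i ∈ B 2, W i)‖ ^ 2) :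
    gain W v ≤ dustK 3 * (m : ℝ) ^ 3 * ‖v‖ ^ 4 / √D := by
  classical
  set U : Fin 3 → E := fun r => ∑ i ∈ B r, W i with hU
  have hg : (Fin.cons v U : Fin 4 → E) =
      ![v, ∑ i ∈ B 0, W i, ∑ i ∈ B 1, W i, ∑ i ∈ B 2, W i] := by
    funext i
    fin_cases i <;> rfl
  have hv0 : 0 < ‖v‖ := norm_pos_iff.2 hv
  have hge : ‖v‖ ^ 2 * D ≤ (Matrix.gram ℝ (Fin.cons v U : Fin 4 → E)).det := by
    rw [hg]
    exact (mul_le_mul_of_nonneg_left hdet (sq_nonneg _)).trans
      (det_gram_four_ge' hv ha hac (hD.le.trans hdet) h)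
  have hpos : 0 < (Matrix.gram ℝ (Fin.cons v U : Fin 4 → E)).det :=
    lt_of_lt_of_le (mul_pos (pow_pos hv0 2) hD) hge
  have hslice : ∀ x : E, ∀ s : ℝ, (∀ j, ⟪W j, x⟫ ≤ s) →
      (∀ r, ⟪U r, x⟫ ≤ ((B r).card : ℝ) * s) ∧
        ∑ r, (((B r).card : ℝ) * s - ⟪U r, x⟫) ≤ (m : ℝ) * s := by
    intro x s hle
    refine ⟨fun r => ?_, ?_⟩
    · have := Finset.sum_le_card_nsmul (B r) (fun j => ⟪W j, x⟫) s fun j _ => hle j
      rw [nsmul_eq_mul] at this
      rw [hU, sum_inner]
      exact this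
    · have hsum : ∑ j, ⟪W j, x⟫ = 0 := by rw [← sum_inner, hW, inner_zero_left]
      calc ∑ r, (((B r).card : ℝ) * s - ⟪U r, x⟫) = ∑ r, ∑ j ∈ B r, (s - ⟪W j, x⟫) := by
            refine Finset.sum_congr rfl fun r _ => ?_
            rw [Finset.sum_sub_distrib, Finset.sum_const, nsmul_eq_mul, hU, sum_inner]
        _ = ∑ j ∈ Finset.univ.biUnion B, (s - ⟪W j, x⟫) :=
            (Finset.sum_biUnion fun r _ r' _ hne => hB hne).symm
        _ ≤ ∑ j, (s - ⟪W j, x⟫) :=
            Finset.sum_le_sum_of_subset_of_nonneg (Finset.subset_univ _) fun j _ _ => by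
              linarith [hle j]
        _ = _ := by simp [Finset.sum_sub_distrib, hsum]
  refine (gain_le_dust_forms W hW U _ hslice v hpos.ne').trans ?_
  rw [div_le_div_iff₀ (sqrt_pos.2 hpos) (sqrt_pos.2 hD)]
  have hK : 0 ≤ dustK 3 := by rw [dustK_three]; positivity
  calc dustK 3 * (m : ℝ) ^ 3 * ‖v‖ ^ (3 + 2) * √D
      = dustK 3 * (m : ℝ) ^ 3 * ‖v‖ ^ 4 * √(‖v‖ ^ 2 * D) := by
        rw [sqrt_mul (sq_nonneg _), sqrt_sq hv0.le]; ring
    _ ≤ _ := by gcongr

/-- The pairing bound for a pair and two blocks made of all the other vectors. -/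
theorem gain_le_pair_block (hE : 4 ≤ finrank ℝ E) (W : Fin m → E) (hW : ∑ a, W a = 0)
    {a b : Fin m} (hab : a ≠ b) (C D : Finset (Fin m)) (hCD : Disjoint C D)
    (huniv : C ∪ D = Finset.univ \ {a, b}) (v : E) (hv : v ≠ 0) {A B : ℝ} (hA : 0 < A)
    (hB : 0 < B)
    (hq : ∀ x z p t : ℝ, A * x ^ 2 + B * z ^ 2 ≤
      ‖x • W a + z • (∑ i ∈ C, W i) + p • (W a + W b) + t • v‖ ^ 2) :
    gain W v ≤ (m : ℝ) ^ 2 / 2 * dustK 2 * ‖v‖ ^ 3 / √(A * B) := by
  classical
  have hcard : (C.card : ℝ) + D.card = (m : ℝ) - 2 := by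
    have h1 : C.card + D.card + 2 = m := by
      rw [← Finset.card_union_of_disjoint hCD, huniv,
        ← Finset.card_pair hab, Finset.card_sdiff_add_card, Finset.union_eq_left.2
          (Finset.subset_univ _), Finset.card_univ, Fintype.card_fin]
    have h2 : (C.card : ℝ) + D.card + 2 = m := by exact_mod_cast h1
    linarith
  have hK : 0 ≤ dustK 2 := by rw [dustK_two]; positivity
  set Vof : (Fin m → E) → E := fun Z => (∑ i ∈ C, Z i) + (2 : ℝ)⁻¹ • (Z a + Z b) with hVof
  have key : ∀ Z : Fin m → E, ∑ i, Z i = 0 → LinearIndependent ℝ ![v, Z a + Z b] →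
      (∀ x y p t : ℝ, A * x ^ 2 + B * y ^ 2 ≤
        ‖x • (2 : ℝ)⁻¹ • (Z a - Z b) + y • Vof Z + p • (Z a + Z b) + t • v‖ ^ 2) →
      gain Z v ≤ (m : ℝ) ^ 2 / 2 * dustK 2 * ‖v‖ ^ 3 / √(A * B) := by
    intro Z hZ hli hZq
    obtain ⟨h2, h4⟩ := det_gram_four_ge hli hA.le hB.le hZq
    have h4' := lt_of_lt_of_le (mul_pos h2 (mul_pos hA hB)) h4
    refine (gain_le_pair_forms Z hZ a b (Vof Z) (((C.card : ℝ) - D.card) / 2)
      (fun x s hle => ?_) v h4'.ne').trans ?_
    · have hs := sum_pair_blocks hab hCD huniv fun i => ⟪Z i, x⟫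
      rw [show ∑ i, ⟪Z i, x⟫ = 0 by rw [← sum_inner, hZ, inner_zero_left]] at hs
      have hC := Finset.sum_le_card_nsmul C (fun i => ⟪Z i, x⟫) s fun i _ => hle i
      have hD := Finset.sum_le_card_nsmul D (fun i => ⟪Z i, x⟫) s fun i _ => hle i
      rw [nsmul_eq_mul] at hC hD
      simp only [hVof, inner_add_left, real_inner_smul_left, sum_inner, abs_le]
      rw [← hcard]
      constructor <;> linarith
    rw [div_le_div_iff₀ (sqrt_pos.2 h4') (sqrt_pos.2 (mul_pos hA hB))]
    calc _ = (m : ℝ) ^ 2 / 2 * dustK 2 * ‖v‖ ^ 3 *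
          √((Matrix.gram ℝ ![v, Z a + Z b]).det * (A * B)) := by
          rw [sqrt_mul h2.le]; ring
      _ ≤ _ := by gcongr
  have hq' : ∀ x y p t : ℝ, A * x ^ 2 + B * y ^ 2 ≤
      ‖x • (2 : ℝ)⁻¹ • (W a - W b) + y • Vof W + p • (W a + W b) + t • v‖ ^ 2 := by
    intro x y p t
    refine (hq x y (p - x / 2 + y / 2) t).trans (le_of_eq ?_)
    congr 2
    simp only [hVof]
    module
  set P := W a + W b with hP
  by_cases hli : LinearIndependent ℝ ![v, P]
  · exact key W hW hli hq'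
  obtain ⟨c, hc⟩ : ∃ c : ℝ, P = c • v := by
    simp only [LinearIndependent.pair_iff' hv, not_forall, not_not] at hli
    obtain ⟨c, hc⟩ := hli
    exact ⟨c, hc.symm⟩
  obtain ⟨i₁, hi₁⟩ : C.Nonempty := by
    by_contra hne
    have := hq 0 1 0 0
    rw [Finset.not_nonempty_iff_eq_empty.1 hne] at this
    simp at this
    linarith
  obtain ⟨i₂, hi₂⟩ : D.Nonempty := by
    by_contra hne
    have hs := sum_pair_blocks hab hCD huniv W
    rw [Finset.not_nonempty_iff_eq_empty.1 hne, Finset.sum_empty, add_zero, hW] at hs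
    have := hq 0 1 1 0
    rw [show (0 : ℝ) • W a + (1 : ℝ) • (∑ i ∈ C, W i) + (1 : ℝ) • (W a + W b) + (0 : ℝ) • v =
      W a + W b + ∑ i ∈ C, W i by module, hs] at this
    simp at this
    linarith
  set U := (2 : ℝ)⁻¹ • (W a - W b) with hU
  set V := Vof W with hV
  set T := Submodule.span ℝ (Set.range ![v, U, V]) with hT
  have hTlt : finrank ℝ T < finrank ℝ E := by
    have h3 : finrank ℝ T ≤ 3 := (finrank_range_le_card ![v, U, V]).trans_eq (by simp)
    omega
  obtain ⟨u, huT, hu0⟩ : ∃ u ∈ Tᗮ, u ≠ (0 : E) := by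
    refine Submodule.exists_mem_ne_zero_of_ne_bot fun h => ?_
    have := T.finrank_add_finrank_orthogonal
    rw [h, finrank_bot] at this
    omega
  have horth : ∀ i, ⟪![v, U, V] i, u⟫ = 0 := fun i =>
    huT _ (Submodule.subset_span ⟨i, rfl⟩)
  refine le_of_forall_pos_le_add fun e he => ?_
  set K := (4 * ‖u‖) * ∫ x, ‖x‖ ∂stdGaussian E with hKdef
  have hK0 : 0 ≤ K := mul_nonneg (by positivity) (integral_nonneg fun x => norm_nonneg x)
  obtain ⟨δ, hδ, hδK⟩ : ∃ δ : ℝ, 0 < δ ∧ δ * K ≤ e :=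
    ⟨e / (K + 1), by positivity, by
      rw [div_mul_eq_mul_div, div_le_iff₀ (by linarith)]; nlinarith⟩
  have hni : i₁ ∉ ({a, b} : Finset (Fin m)) ∧ i₂ ∉ ({a, b} : Finset (Fin m)) := by
    have h1 : i₁ ∈ C ∪ D := Finset.mem_union_left _ hi₁
    have h2 : i₂ ∈ C ∪ D := Finset.mem_union_right _ hi₂
    rw [huniv] at h1 h2
    exact ⟨(Finset.mem_sdiff.1 h1).2, (Finset.mem_sdiff.1 h2).2⟩
  simp only [Finset.mem_insert, Finset.mem_singleton, not_or] at hni
  obtain ⟨⟨h1a, h1b⟩, h2a, h2b⟩ := hni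
  have h12 : i₁ ≠ i₂ := fun h => Finset.disjoint_left.1 hCD hi₁ (h ▸ hi₂)
  set W' : Fin m → E := fun i => W i + ((if i = a then δ else 0) + (if i = b then δ else 0) -
    (if i = i₁ then δ else 0) - (if i = i₂ then δ else 0)) • u with hW'
  have hsum : ∑ i, W' i = 0 := by
    simp [hW', Finset.sum_add_distrib, hW, ← Finset.sum_smul, Finset.sum_sub_distrib]
  have hWa : W' a = W a + δ • u := by simp [hW', hab, Ne.symm h1a, Ne.symm h2a]
  have hWb : W' b = W b + δ • u := by simp [hW', hab.symm, Ne.symm h1b, Ne.symm h2b]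
  have hWC : ∑ i ∈ C, W' i = (∑ i ∈ C, W i) + (-δ) • u := by
    have haC : a ∉ C := fun h => by
      have := Finset.mem_union_left D h
      rw [huniv] at this
      simp at this
    have hbC : b ∉ C := fun h => by
      have := Finset.mem_union_left D h
      rw [huniv] at this
      simp at this
    have h2C : i₂ ∉ C := fun h => Finset.disjoint_left.1 hCD h hi₂
    simp [hW', Finset.sum_add_distrib, ← Finset.sum_smul, Finset.sum_sub_distrib,
      Finset.sum_ite_eq', haC, hbC, h2C, hi₁]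
  have hP' : W' a + W' b = P + (2 * δ) • u := by rw [hWa, hWb, hP]; module
  have hU' : (2 : ℝ)⁻¹ • (W' a - W' b) = U := by rw [hWa, hWb, hU]; module
  have hV' : Vof W' = V := by
    simp only [hV, hVof, hWC, hWa, hWb]
    module
  have hli' : LinearIndependent ℝ ![v, W' a + W' b] := by
    rw [LinearIndependent.pair_iff' hv]
    intro s hs
    rw [hP', hc] at hs
    have := congrArg (fun z => ⟪u, z⟫) hs
    simp only [inner_add_right, real_inner_smul_right, real_inner_comm v u] at this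
    rw [show ⟪v, u⟫ = 0 from horth 0] at this
    have hu2 : 0 < ⟪u, u⟫ := real_inner_self_pos.2 hu0
    nlinarith
  have hq2 : ∀ x y p t : ℝ, A * x ^ 2 + B * y ^ 2 ≤
      ‖x • (2 : ℝ)⁻¹ • (W' a - W' b) + y • Vof W' + p • (W' a + W' b) + t • v‖ ^ 2 := by
    intro x y p t
    rw [hU', hV', hP']
    set Z := x • U + y • V + p • P + t • v with hZ
    rw [show x • U + y • V + p • (P + (2 * δ) • u) + t • v = Z + (p * (2 * δ)) • u by
      rw [hZ]; module, norm_add_sq_real]
    have : ⟪Z, u⟫ = 0 := by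
      rw [hZ, hc]
      simp [inner_add_left, real_inner_smul_left, show ⟪v, u⟫ = 0 from horth 0,
        show ⟪U, u⟫ = 0 from horth 1, show ⟪V, u⟫ = 0 from horth 2]
    rw [real_inner_smul_right, this, mul_zero, mul_zero, add_zero]
    exact (hq' x y p t).trans (le_add_of_nonneg_right (sq_nonneg _))
  refine (gain_le_gain_add W W' v).trans (add_le_add (key W' hsum hli' hq2) ?_)
  calc (∑ i, ‖W i - W' i‖) * ∫ x, ‖x‖ ∂stdGaussian E
      ≤ (4 * (δ * ‖u‖)) * ∫ x, ‖x‖ ∂stdGaussian E := by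
        refine mul_le_mul_of_nonneg_right ?_ (integral_nonneg fun x => norm_nonneg x)
        calc ∑ i, ‖W i - W' i‖ ≤ ∑ i, ((if i = a then δ * ‖u‖ else 0) +
              (if i = b then δ * ‖u‖ else 0) + (if i = i₁ then δ * ‖u‖ else 0) +
              (if i = i₂ then δ * ‖u‖ else 0)) := Finset.sum_le_sum fun i _ => by
                simp only [hW', sub_add_cancel_left, norm_neg, norm_smul, Real.norm_eq_abs]
                calc _ ≤ ((if i = a then δ else 0) + (if i = b then δ else 0) +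
                      (if i = i₁ then δ else 0) + (if i = i₂ then δ else 0)) * ‖u‖ := by
                      refine mul_le_mul_of_nonneg_right ?_ (norm_nonneg u)
                      rw [abs_le]
                      constructor <;> split_ifs <;> linarith
                  _ = _ := by simp only [add_mul, ite_mul, zero_mul]
          _ = _ := by simp [Finset.sum_add_distrib]; ring
    _ = δ * K := by rw [hKdef]; ring
    _ ≤ e := hδK

end Vale.Agent.P226
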