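import Vale.Agent.P226.Cap

/-!
# The measure of caps in every dimension

In dimension `n + 1`, `n ≥ 2`, the mean norm is `2 n φ₀ ∫₀¹ f` and the cap of height `s` has
measure `∫ₛ¹ f / (2 ∫₀¹ f)` with `f r = √(1-r²)^(n-2)`.
-/

namespace Vale.Agent.P226

open MeasureTheory ProbabilityTheory Real Set Filter Topology
open scoped RealInnerProductSpace

/-- The density of the height of a uniform point of the sphere, up to a constant. -/
noncomputable def capDensity (n : ℕ) (r : ℝ) : ℝ := √(1 - r ^ 2) ^ (n - 2)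

@[fun_prop]
lemma continuous_capDensity (n : ℕ) : Continuous (capDensity n) := by
  unfold capDensity; fun_prop

lemma capDensity_bound (n : ℕ) (r : ℝ) : 0 ≤ capDensity n r ∧ capDensity n r ≤ 1 :=
  ⟨by unfold capDensity; positivity,
    pow_le_one₀ (sqrt_nonneg _) (sqrt_le_one.2 (by nlinarith [sq_nonneg r]))⟩

variable {E : Type*} [NormedAddCommGroup E] [InnerProductSpace ℝ E] [FiniteDimensional ℝ E]
  [MeasurableSpace E] [BorelSpace E] {n : ℕ}

lemma hasDerivAt_capMass (hn : Module.finrank ℝ E = n + 1) (hn2 : 2 ≤ n) {s : ℝ} (hs : 0 < s)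
    (hs1 : s < 1) :
    HasDerivAt (fun r => meanNorm E * capMass n r)
      (-(n * (√(2 * π))⁻¹ * capDensity n s)) s := by
  set φ := (√(2 * π))⁻¹ with hφ'
  set M := fun r : ℝ => φ * √(1 - r ^ 2) ^ n with hM
  have hs2 : 0 < 1 - s ^ 2 := by nlinarith
  have hMd : HasDerivAt M (-(n * φ * (capDensity n s * s))) s := by
    have h := ((((hasDerivAt_id s).pow 2).const_sub 1).sqrt hs2.ne').pow n |>.const_mul φ
    refine h.congr_deriv ?_
    obtain ⟨j, rfl⟩ : ∃ j, n = j + 2 := ⟨n - 2, by omega⟩
    simp only [capDensity, Nat.add_sub_cancel, id, Pi.pow_apply, Nat.cast_ofNat,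
      Nat.add_one_sub_one, mul_one, show j + 2 - 1 = j + 1 from rfl, pow_succ]
    have := (sqrt_pos.2 hs2).ne'
    field_simp
  rw [hasDerivAt_iff_tendsto_slope] at hMd ⊢
  have hlim : ∀ c : ℝ → ℝ, Tendsto c (𝓝[≠] s) (𝓝 s) →
      Tendsto (fun y => slope M s y / c y) (𝓝[≠] s) (𝓝 (-(n * φ * capDensity n s))) := fun c hc => by
    have := hMd.div hc hs.ne'
    rwa [show -(n * φ * (capDensity n s * s)) / s = -(n * φ * capDensity n s) by field_simp] at this
  have hy : ∀ᶠ y in 𝓝[≠] s, y ∈ Ioo (0 : ℝ) 1 ∧ y ≠ s :=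
    (eventually_nhdsWithin_of_eventually_nhds (Ioo_mem_nhds hs hs1)).and
      (eventually_mem_nhdsWithin)
  refine tendsto_of_tendsto_of_tendsto_of_le_of_le'
    ((hlim _ tendsto_const_nhds).min (hlim _ (tendsto_id.mono_left nhdsWithin_le_nhds)) |>.trans
      (le_of_eq (by rw [min_self])))
    ((hlim _ tendsto_const_nhds).max (hlim _ (tendsto_id.mono_left nhdsWithin_le_nhds)) |>.trans
      (le_of_eq (by rw [max_self]))) ?_ ?_ <;>
  refine hy.mono fun y hy => ?_ <;>
  obtain ⟨⟨hy0, hy1⟩, hne⟩ := hy <;>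
  have h1 := capMass_sandwich hn hs.le hs1 hy0.le hy1 <;>
  have h2 := capMass_sandwich hn hy0.le hy1 hs.le hs1 <;>
  rw [← hφ'] at h1 h2 <;>
  simp only [slope_def_field, hM, id]
  · rcases lt_or_gt_of_ne hne with h | h
    · refine (min_le_right _ _).trans ?_
      rw [div_div, div_le_iff_of_neg (mul_neg_of_neg_of_pos (by linarith) hy0)]
      rw [show (meanNorm E * capMass n y - meanNorm E * capMass n s) / (y - s) * ((y - s) * y) =
        y * (meanNorm E * capMass n y - meanNorm E * capMass n s) by
          field_simp [sub_ne_zero.2 hne]]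
      linarith
    · refine (min_le_left _ _).trans ?_
      rw [div_div, div_le_iff₀ (mul_pos (by linarith) hs)]
      rw [show (meanNorm E * capMass n y - meanNorm E * capMass n s) / (y - s) * ((y - s) * s) =
        s * (meanNorm E * capMass n y - meanNorm E * capMass n s) by
          field_simp [sub_ne_zero.2 hne]]
      linarith
  · rcases lt_or_gt_of_ne hne with h | h
    · refine le_trans ?_ (le_max_left _ _)
      rw [div_div, le_div_iff_of_neg (mul_neg_of_neg_of_pos (by linarith) hs)]
      rw [show (meanNorm E * capMass n y - meanNorm E * capMass n s) / (y - s) * ((y - s) * s) =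
        s * (meanNorm E * capMass n y - meanNorm E * capMass n s) by
          field_simp [sub_ne_zero.2 hne]]
      linarith
    · refine le_trans ?_ (le_max_right _ _)
      rw [div_div, le_div_iff₀ (mul_pos (by linarith) hy0)]
      rw [show (meanNorm E * capMass n y - meanNorm E * capMass n s) / (y - s) * ((y - s) * y) =
        y * (meanNorm E * capMass n y - meanNorm E * capMass n s) by
          field_simp [sub_ne_zero.2 hne]]
      linarith

/-- The measure of caps and the mean norm. -/
theorem cap_all (hn : Module.finrank ℝ E = n + 1) (hn2 : 2 ≤ n) :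
    meanNorm E = 2 * n * (√(2 * π))⁻¹ * ∫ r in (0)..1, capDensity n r ∧
      ∀ s : ℝ, 0 ≤ s → s < 1 → meanNorm E * capMass n s =
        n * (√(2 * π))⁻¹ * ∫ r in s..1, capDensity n r := by
  set φ := (√(2 * π))⁻¹
  have hφ : 0 < φ := by positivity
  set I := fun s : ℝ => n * φ * ∫ r in s..1, capDensity n r with hI
  set g := fun r => meanNorm E * capMass n r with hg
  have hc := (continuous_capDensity n)
  have hint : ∀ a b : ℝ, IntervalIntegrable (capDensity n) volume a b :=
    fun a b => hc.intervalIntegrable a b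
  have hIcont : Continuous I := by
    have h : Continuous fun s => ∫ r in (1 : ℝ)..s, capDensity n r :=
      intervalIntegral.continuous_primitive hint 1
    simp only [hI]
    exact (h.neg.const_mul ((n : ℝ) * φ)).congr fun s => by
      rw [Pi.neg_apply, intervalIntegral.integral_symm s 1, neg_neg]
  have hconst : ∀ s t, 0 < s → s ≤ t → t < 1 → g s - I s = g t - I t := by
    intro s t hs hst ht
    have h := intervalIntegral.integral_eq_sub_of_hasDerivAt
      (f := g) (f' := fun r => -(n * φ * capDensity n r)) (a := s) (b := t) (fun r hr => by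
        rw [Set.uIcc_of_le hst] at hr
        exact hasDerivAt_capMass hn hn2 (hs.trans_le hr.1) (hr.2.trans_lt ht))
      ((hc.const_mul _).neg.intervalIntegrable _ _)
    rw [intervalIntegral.integral_neg, intervalIntegral.integral_const_mul] at h
    simp only [hI]
    rw [← intervalIntegral.integral_add_adjacent_intervals (hint s t) (hint t 1)]
    linarith
  have hright : ∀ s, 0 < s → s < 1 → g s = I s := by
    intro s hs hs1
    have hT : Tendsto (fun t => g t - I t) (𝓝[<] (1 : ℝ)) (𝓝 0) := by
      have hI1 : Tendsto I (𝓝[<] (1 : ℝ)) (𝓝 0) := by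
        have := (hIcont.tendsto 1).mono_left (nhdsWithin_le_nhds (s := Iio 1))
        simpa [hI] using this
      have hup : Tendsto (fun t : ℝ => φ * √(1 - t ^ 2) ^ n / t) (𝓝[<] (1 : ℝ)) (𝓝 0) := by
        have h : ContinuousAt (fun t : ℝ => φ * √(1 - t ^ 2) ^ n / t) 1 :=
          ContinuousAt.div (by fun_prop) continuousAt_id one_ne_zero
        have h0 := h.tendsto.mono_left (nhdsWithin_le_nhds (s := Iio 1))
        simpa [zero_pow (show n ≠ 0 by omega)] using h0
      have hg0 : Tendsto g (𝓝[<] (1 : ℝ)) (𝓝 0) := by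
        refine tendsto_of_tendsto_of_tendsto_of_le_of_le' tendsto_const_nhds hup ?_ ?_ <;>
          refine (Eventually.and (Ioo_mem_nhdsLT (show (0 : ℝ) < 1 from one_pos))
            (Eventually.of_forall fun _ => trivial)).mono fun t ht => ?_
        · exact (mul_capMass_le hn ht.1.1.le ht.1.2).1
        · rw [le_div_iff₀ ht.1.1, mul_comm]
          exact (mul_capMass_le hn ht.1.1.le ht.1.2).2
      simpa using hg0.sub hI1
    have hev : (fun t => g t - I t) =ᶠ[𝓝[<] (1 : ℝ)] fun _ => g s - I s :=
      Eventually.mono (Ioo_mem_nhdsLT hs1) fun t ht => (hconst s t hs ht.1.le ht.2).symm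
    exact sub_eq_zero.1 (tendsto_nhds_unique (tendsto_const_nhds.congr' hev.symm) hT)
  obtain ⟨h0, hnear⟩ := capMass_zero_near (E := E) hn
  have hK0 : 0 ≤ meanNorm E := integral_nonneg fun x => norm_nonneg x
  have hzero : g 0 = I 0 := by
    have hgl : Tendsto g (𝓝[>] (0 : ℝ)) (𝓝 (g 0)) := by
      refine tendsto_of_tendsto_of_tendsto_of_le_of_le'
        (g := fun t => g 0 - meanNorm E * (√t * (1 + meanNorm E))) (h := fun _ => g 0)
        ?_ tendsto_const_nhds ?_ ?_
      · have h : Continuous fun t => g 0 - meanNorm E * (√t * (1 + meanNorm E)) := by fun_prop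
        simpa using (h.tendsto 0).mono_left (nhdsWithin_le_nhds (s := Ioi 0))
      all_goals refine Eventually.mono (Ioo_mem_nhdsGT (show (0 : ℝ) < 1 from one_pos)) fun t ht => ?_
      · have := mul_le_mul_of_nonneg_left (hnear t ht.1 ht.2) hK0
        simp only [hg, h0]
        linarith
      · have h2 := capMass_sandwich (E := E) hn ht.1.le ht.2 le_rfl one_pos
        have hpow : √(1 - t ^ 2) ^ n ≤ √(1 - 0 ^ 2) ^ n :=
          pow_le_pow_left₀ (sqrt_nonneg _) (sqrt_le_sqrt (by nlinarith [ht.1])) n
        have : t * (meanNorm E * (capMass n t - capMass n 0)) ≤ 0 :=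
          h2.trans (mul_nonpos_of_nonneg_of_nonpos (by positivity) (by linarith))
        simp only [hg]
        nlinarith [ht.1]
    have hIl : Tendsto I (𝓝[>] (0 : ℝ)) (𝓝 (I 0)) :=
      (hIcont.tendsto 0).mono_left nhdsWithin_le_nhds
    exact tendsto_nhds_unique hgl (hIl.congr'
      (Eventually.mono (Ioo_mem_nhdsGT one_pos) fun t ht => (hright t ht.1 ht.2).symm))
  refine ⟨?_, fun s hs hs1 => ?_⟩
  · simp only [hg, hI, h0] at hzero
    linarith
  · rcases hs.eq_or_lt with rfl | hs'
    · exact hzero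
    · exact hright s hs' hs1

/-- The cap bound with the measure of the cap written out. -/
theorem norm_mom_le_cap_all (hn : Module.finrank ℝ E = n + 1) (hn2 : 2 ≤ n) {A : Set E}
    (hA : IsCone A) (hm : MeasurableSet A) {s : ℝ} (hs0 : 0 ≤ s) (hs1 : s < 1) :
    ‖mom A‖ ≤ (√(2 * π))⁻¹ * √(1 - s ^ 2) ^ n +
      s * (n * (√(2 * π))⁻¹) * (2 * (stdGaussian E).real A * (∫ r in (0)..1, capDensity n r) -
        ∫ r in s..1, capDensity n r) := by
  obtain ⟨hK, hg⟩ := cap_all (E := E) hn hn2
  refine (norm_mom_le_cap hn hA hm hs0 hs1).trans_eq ?_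
  rw [mul_sub, mul_assoc s (meanNorm E) (capMass n s), hg s hs0 hs1, hK]
  ring

end Vale.Agent.P226
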