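import Vale.Agent.P226.Induction
import Vale.Agent.P226.CapAll

/-!
# Caps of the centred group in its own dimension

The cells of a critical family at a group of `m` vectors lie inside the cells of the centred group,
which are cones in dimension `m - 1`. Their moments bound the centred group from below and its
expected maximum from above.
-/

namespace Vale.Agent.P226

open MeasureTheory ProbabilityTheory Real Set Finset
open scoped RealInnerProductSpace NNReal

variable {E : Type*} [NormedAddCommGroup E] [InnerProductSpace ℝ E] [FiniteDimensional ℝ E]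
  [MeasurableSpace E] [BorelSpace E]

/-- A nonzero form vanishes on a null set. -/
lemma measure_form_eq_zero {u : E} (hu : u ≠ 0) : stdGaussian E {x | ⟪u, x⟫ = 0} = 0 := by
  have hn : ‖u‖ ≠ 0 := norm_ne_zero_iff.2 hu
  have he : ‖‖u‖⁻¹ • u‖ = 1 := by rw [norm_smul, norm_inv, norm_norm, inv_mul_cancel₀ hn]
  have hm : Measurable fun x : E => ⟪‖u‖⁻¹ • u, x⟫ := by fun_prop
  have hs : {x : E | ⟪u, x⟫ = 0} = (fun x : E => ⟪‖u‖⁻¹ • u, x⟫) ⁻¹' {0} := by
    ext x
    simp [real_inner_smul_left, hn]
  rw [hs, ← Measure.map_apply hm (measurableSet_singleton 0), map_inner_unit _ he]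
  have := nullSingletonClass_gaussianReal (μ := (0 : ℝ)) (one_ne_zero : (1 : ℝ≥0) ≠ 0)
  exact measure_singleton 0

omit [FiniteDimensional ℝ E] [BorelSpace E] [MeasurableSpace E] in
/-- Forms with the same Gram norms have the same norms of combinations. -/
lemma exists_copy {m : ℕ} [NeZero m] (W : Fin m → E) (hW : ∑ a, W a = 0) :
    ∃ u : Fin m → EuclideanSpace ℝ (Fin (m - 1)),
      ∀ c : Fin m → ℝ, ‖∑ i, c i • W i‖ = ‖∑ i, c i • u i‖ := by
  obtain ⟨n, rfl⟩ : ∃ n, m = n + 1 := ⟨m - 1, by have := NeZero.ne m; omega⟩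
  set V : Submodule ℝ E := Submodule.span ℝ (Set.range W) with hV
  have : FiniteDimensional ℝ V := FiniteDimensional.span_of_finite ℝ (Set.finite_range W)
  have hfin : Module.finrank ℝ V ≤ n := by
    have hle : V ≤ Submodule.span ℝ (Set.range fun l : Fin n => W l.succ) := by
      rw [hV, Submodule.span_le]
      rintro _ ⟨i, rfl⟩
      refine Fin.cases ?_ (fun l => Submodule.subset_span ⟨l, rfl⟩) i
      rw [Fin.sum_univ_succ] at hW
      rw [eq_neg_of_add_eq_zero_left hW]
      exact neg_mem (Submodule.sum_mem _ fun l _ => Submodule.subset_span ⟨l, rfl⟩)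
    have : FiniteDimensional ℝ (Submodule.span ℝ (Set.range fun l : Fin n => W l.succ)) :=
      FiniteDimensional.span_of_finite ℝ (Set.finite_range _)
    exact (Submodule.finrank_mono hle).trans
      ((finrank_range_le_card _).trans (Fintype.card_fin n).le)
  let b := stdOrthonormalBasis ℝ V
  let f : Fin (Module.finrank ℝ V) → EuclideanSpace ℝ (Fin (n + 1 - 1)) :=
    fun j => EuclideanSpace.basisFun (Fin (n + 1 - 1)) ℝ (Fin.castLE (by omega) j)
  have hf : Orthonormal ℝ f :=
    (EuclideanSpace.basisFun _ ℝ).orthonormal.comp _ (Fin.castLE_injective _)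
  let T : V →ₗᵢ[ℝ] EuclideanSpace ℝ (Fin (n + 1 - 1)) :=
    (b.toBasis.constr ℝ f).isometryOfOrthonormal (v := b.toBasis) b.orthonormal (by
      simpa [Function.comp_def, Module.Basis.constr_basis] using hf)
  refine ⟨fun i => T ⟨W i, Submodule.subset_span ⟨i, rfl⟩⟩, fun c => ?_⟩
  simp only [← map_smul, ← map_sum]
  rw [T.norm_map, Submodule.coe_norm]
  simp

/-- The integral of a function of the forms depends only on the Gram norms. -/
lemma integral_forms_eq {m : ℕ} {E' : Type*} [NormedAddCommGroup E'] [InnerProductSpace ℝ E']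
    [FiniteDimensional ℝ E'] [MeasurableSpace E'] [BorelSpace E'] (u : Fin m → E) (u' : Fin m → E')
    (h : ∀ c : Fin m → ℝ, ‖∑ i, c i • u i‖ = ‖∑ i, c i • u' i‖) {Φ : (Fin m → ℝ) → ℝ}
    (hΦ : Measurable Φ) :
    ∫ x, Φ (fun i => ⟪u i, x⟫) ∂stdGaussian E = ∫ x, Φ (fun i => ⟪u' i, x⟫) ∂stdGaussian E' := by
  have hlaw : (stdGaussian E).map (ContinuousLinearMap.pi fun i => innerSL ℝ (u i)) =
      (stdGaussian E').map (ContinuousLinearMap.pi fun i => innerSL ℝ (u' i)) := by
    apply Measure.ext_of_charFunDual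
    ext L
    rw [charFunDual_map, charFunDual_map, charFunDual_stdGaussian, charFunDual_stdGaussian]
    have hL : ∀ y : Fin m → ℝ, L y = ∑ i, y i * L (Pi.single i 1) := by
      intro y
      conv_lhs => rw [pi_eq_sum_univ y]
      rw [map_sum]
      refine Finset.sum_congr rfl fun i _ => ?_
      rw [map_smul, smul_eq_mul]
      congr 2
      funext j
      simp [Pi.single_apply, eq_comm]
    have e1 : L.comp (ContinuousLinearMap.pi fun i => innerSL ℝ (u i)) =
        innerSL ℝ (∑ i, L (Pi.single i 1) • u i) := by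
      ext x
      simp [hL (fun i => ⟪u i, x⟫), mul_comm]
    have e2 : L.comp (ContinuousLinearMap.pi fun i => innerSL ℝ (u' i)) =
        innerSL ℝ (∑ i, L (Pi.single i 1) • u' i) := by
      ext x
      simp [hL (fun i => ⟪u' i, x⟫), mul_comm]
    rw [e1, e2, innerSL_apply_norm, innerSL_apply_norm, h]
  calc ∫ x, Φ (fun i => ⟪u i, x⟫) ∂stdGaussian E
      = ∫ y, Φ y ∂(stdGaussian E).map (ContinuousLinearMap.pi fun i => innerSL ℝ (u i)) :=
        (integral_map (by fun_prop) hΦ.aestronglyMeasurable).symm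
    _ = _ := by
        rw [hlaw, integral_map (by fun_prop) hΦ.aestronglyMeasurable]
        rfl

/-- The forms of a centred group against the whole maximal set of one of them. -/
lemma setIntegral_max_eq {m : ℕ} [NeZero m] (u : Fin m → E) (hu : Function.Injective u)
    (b : Fin m) :
    ∫ x, ({y : E | ∀ c, ⟪u c, y⟫ ≤ ⟪u b, y⟫}).indicator (fun y => ⟪u b, y⟫) x ∂stdGaussian E =
      ⟪u b, mom (cell u b)⟫ := by
  rw [← inner_mom, ← integral_indicator ((cell_isPart u).meas b)]
  refine integral_congr_ae ?_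
  have hnull : ∀ᵐ x ∂stdGaussian E, ∀ c, c ≠ b → ⟪u c - u b, x⟫ ≠ 0 := by
    rw [ae_all_iff]
    intro c
    rcases eq_or_ne c b with rfl | hc
    · exact ae_of_all _ fun x h => absurd rfl h
    · have h0 := measure_form_eq_zero (sub_ne_zero.2 (hu.ne hc))
      have : ∀ᵐ x ∂stdGaussian E, ⟪u c - u b, x⟫ ≠ 0 := by
        rw [ae_iff]
        simpa using h0
      exact this.mono fun x hx _ => hx
  filter_upwards [hnull] with x hx
  by_cases h : ∀ c, ⟪u c, x⟫ ≤ ⟪u b, x⟫
  · rw [Set.indicator_of_mem (show x ∈ {y : E | ∀ c, ⟪u c, y⟫ ≤ ⟪u b, y⟫} from h),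
      Set.indicator_of_mem (show x ∈ cell u b from ⟨h, fun j hj hall => hx j hj.ne (by
        rw [inner_sub_left]; linarith [h j, hall b])⟩)]
  · rw [Set.indicator_of_notMem (show x ∉ {y : E | ∀ c, ⟪u c, y⟫ ≤ ⟪u b, y⟫} from h),
      Set.indicator_of_notMem (show x ∉ cell u b from fun hh => h hh.1)]

/-- The centred group of a critical family has caps in dimension `m - 1` that dominate it. -/
theorem exists_restricted_caps {k m : ℕ} [NeZero k] [NeZero m]
    {w : Fin k → EuclideanSpace ℝ (Fin (k - 1))} (hw : Crit w) (J : Fin m ↪ Fin k) (hm : 2 ≤ m) :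
    ∃ f p : Fin m → ℝ, ∑ b, p b = 1 ∧ (∀ b, 0 ≤ f b ∧ 0 ≤ p b ∧ p b ≤ 1) ∧
      (∀ b, 2 * π * (‖w (J b)‖ ^ 2 - restSq w J / (m : ℝ) ^ 2) ≤ f b ^ 2) ∧
      (∀ L : List (ℚ × ℚ),
        (∀ X : Set (EuclideanSpace ℝ (Fin (m - 1))), IsCone X → MeasurableSet X → ∀ l ∈ L,
          √(2 * π) * ‖mom X‖ ≤ (l.1 : ℝ) + (l.2 : ℝ) * (stdGaussian _).real X) →
        ∀ b, ∀ l ∈ L, f b ≤ (l.1 : ℝ) + (l.2 : ℝ) * p b) ∧
      2 * π * meanMax (centred w J) ≤ ∑ b, √(2 * π) * ‖centred w J b‖ * f b := by
  classical
  set W := centred w J with hWdef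
  obtain ⟨u, hu⟩ := exists_copy W (sum_centred w J)
  have hm0 : (0 : ℝ) < m := by
    have : 0 < m := by omega
    exact_mod_cast this
  set σ := √(2 * π) with hσ
  have hσ2 : σ * σ = 2 * π := Real.mul_self_sqrt (by positivity)
  have hσ0 : 0 ≤ σ := Real.sqrt_nonneg _
  have hP := cell_isPart u
  refine ⟨fun b => σ * ‖mom (cell u b)‖, fun b => (stdGaussian _).real (cell u b),
    hP.sum_measure, fun b => ⟨by positivity, measureReal_nonneg, measureReal_le_one⟩, fun b => ?_,
    fun L hL b l hl => hL _ (isCone_cell u b) (hP.meas b) l hl, ?_⟩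
  · -- distinct forms
    have hinj : Function.Injective u := by
      intro c c' h
      by_contra hne
      have h2 : ‖W c - W c'‖ = 0 := by
        have := hu (fun i => (if i = c then (1 : ℝ) else 0) - (if i = c' then 1 else 0))
        simp only [sub_smul, ite_smul, one_smul, zero_smul, Finset.sum_sub_distrib,
          Finset.sum_ite_eq', Finset.mem_univ, if_true, h, sub_self, norm_zero] at this
        exact this
      have h3 : w (J c) = w (J c') := by
        rw [norm_eq_zero, sub_eq_zero, hWdef] at h2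
        simpa [centred] using h2
      have := hw.obtuse (J c) (J c') (J.injective.ne hne)
      rw [h3, real_inner_self_eq_norm_sq] at this
      nlinarith [norm_pos_iff.2 (hw.ne (J c'))]
    set e := ∑ c, w (J c) with he
    set n := ‖w (J b)‖ ^ 2 with hn
    set r := ⟪e, w (J b)⟫ with hr
    set S := {x : EuclideanSpace ℝ (Fin (k - 1)) | ∀ c, ⟪W c, x⟫ ≤ ⟪W b, x⟫} with hS
    have hSm : MeasurableSet S := by
      rw [hS, Set.ofPred_forall]
      exact MeasurableSet.iInter fun c => measurableSet_le (by fun_prop) (by fun_prop)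
    have hsub : cell w (J b) ⊆ S := fun x hx c => by
      simp only [hWdef, centred, inner_sub_left]
      linarith [hx.1 (J c)]
    have hnn : ∀ x ∈ S, 0 ≤ ⟪W b, x⟫ := fun x hx => by
      refine (mul_nonneg_iff_of_pos_left hm0).1 ?_
      have h := Finset.sum_le_card_nsmul Finset.univ (fun c => ⟪W c, x⟫) _ fun c _ => hx c
      rwa [← sum_inner, sum_centred, inner_zero_left, Finset.card_univ, Fintype.card_fin,
        nsmul_eq_mul] at h
    have hkey : ⟪W b, w (J b)⟫ ≤ ⟪u b, mom (cell u b)⟫ := by
      have hΦ : Measurable ({y : Fin m → ℝ | ∀ c, y c ≤ y b}.indicator fun y => y b) := by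
        refine Measurable.indicator (measurable_pi_apply b) ?_
        rw [Set.ofPred_forall]
        exact MeasurableSet.iInter fun c => measurableSet_le (by fun_prop) (by fun_prop)
      have htr := integral_forms_eq W u hu hΦ
      rw [← setIntegral_max_eq u hinj b]
      calc ⟪W b, w (J b)⟫ = ∫ x in cell w (J b), ⟪W b, x⟫ ∂stdGaussian _ := by
            rw [inner_mom, ← hw.self]
        _ ≤ ∫ x in S, ⟪W b, x⟫ ∂stdGaussian _ :=
            setIntegral_mono_set (integrable_inner _).integrableOn
              ((ae_restrict_mem hSm).mono hnn) hsub.eventuallyLE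
        _ = _ := by
            rw [← integral_indicator hSm]
            refine Eq.trans ?_ (htr.trans ?_) <;> refine integral_congr_ae (ae_of_all _ fun x => ?_)
            · simp [hS, Set.indicator_apply]
            · simp [Set.indicator_apply]
    have hr1 : r ≤ n := by
      rw [hr, he, sum_inner, ← Finset.add_sum_erase _ _ (Finset.mem_univ b),
        real_inner_self_eq_norm_sq]
      exact add_le_of_nonpos_right (Finset.sum_nonpos fun c hc =>
        hw.obtuse _ _ (J.injective.ne (Finset.ne_of_mem_erase hc)))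
    have hWb : ⟪W b, w (J b)⟫ = n - r / m := by
      rw [hWdef, centred, inner_sub_left, real_inner_smul_left, real_inner_self_eq_norm_sq, ← he,
        ← hr, ← hn]
      ring
    have hn0 : 0 ≤ n := sq_nonneg _
    have hlow : 0 ≤ n - r / m := by
      rw [sub_nonneg, div_le_iff₀ hm0]
      have : (1 : ℝ) ≤ m := by exact_mod_cast (show 1 ≤ m by omega)
      nlinarith
    set E₀ := ‖e‖ ^ 2 / (m : ℝ) ^ 2 with hE₀
    have hE : E₀ ≤ restSq w J / (m : ℝ) ^ 2 :=
      div_le_div_of_nonneg_right (sq_common_le w hw.sum hw.obtuse J) (sq_nonneg _)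
    have hW2 : ‖W b‖ ^ 2 = n - 2 * (r / m) + E₀ := by
      rw [hWdef, centred, ← he, norm_sub_sq_real, real_inner_smul_right, norm_smul, mul_pow,
        Real.norm_eq_abs, sq_abs, real_inner_comm, ← hr, ← hn, hE₀]
      ring
    have hnorm : ‖u b‖ = ‖W b‖ := by
      simpa [Pi.single_apply, ite_smul] using (hu (Pi.single b 1)).symm
    have hcs : n - r / m ≤ ‖W b‖ * ‖mom (cell u b)‖ := by
      rw [← hWb, ← hnorm]
      exact hkey.trans (real_inner_le_norm _ _)
    have hmain : n - E₀ ≤ ‖mom (cell u b)‖ ^ 2 := by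
      rcases eq_or_ne (W b) 0 with h0 | h0
      · rw [h0, norm_zero] at hW2
        rw [h0, inner_zero_left] at hWb
        nlinarith [sq_nonneg ‖mom (cell u b)‖]
      · have hp : 0 < ‖W b‖ ^ 2 := by positivity
        refine le_of_mul_le_mul_left ?_ hp
        have := pow_le_pow_left₀ hlow hcs 2
        rw [mul_pow] at this
        rw [hW2] at this ⊢
        nlinarith [sq_nonneg (r / m - E₀)]
    calc 2 * π * (n - restSq w J / (m : ℝ) ^ 2) ≤ 2 * π * ‖mom (cell u b)‖ ^ 2 := by
          gcongr
          linarith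
      _ = _ := by rw [mul_pow, ← hσ2]; ring
  · have hmm : meanMax W = meanMax u := by
      have hΦ : Measurable fun y : Fin m → ℝ => Finset.univ.sup' univ_nonempty fun i => y i :=
        (Continuous.finset_sup'_apply univ_nonempty fun j _ => continuous_apply j).measurable
      exact integral_forms_eq W u hu hΦ
    have hsum : meanMax u = ∑ a, ⟪u a, mom (cell u a)⟫ := by
      rw [meanMax, ← hP.integral_eq (integrable_supInner u)]
      refine Finset.sum_congr rfl fun a _ => ?_
      rw [← inner_mom]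
      exact setIntegral_congr_fun (hP.meas a) fun x hx =>
        le_antisymm (Finset.sup'_le _ _ fun b _ => hx.1 b) (le_supInner u a x)
    have hnorm : ∀ a, ‖u a‖ = ‖W a‖ := fun a => by
      simpa [Pi.single_apply, ite_smul] using (hu (Pi.single a 1)).symm
    rw [hmm, hsum, Finset.mul_sum]
    refine Finset.sum_le_sum fun a _ => ?_
    calc 2 * π * ⟪u a, mom (cell u a)⟫ ≤ 2 * π * (‖u a‖ * ‖mom (cell u a)‖) :=
          mul_le_mul_of_nonneg_left (real_inner_le_norm _ _) (by positivity)
      _ = _ := by rw [hnorm a, ← hσ2]; ring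

end Vale.Agent.P226
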