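import Vale.Agent.P226.CapTable
import Vale.Agent.P226.RestrictedCaps

/-!
# The budget of a group of long vectors

The vectors outside the group have little energy left, and the moment bound of the group in its own
dimension leaves too little for the propeller bound once those vectors gain little.
-/

namespace Vale.Agent.P226

open MeasureTheory ProbabilityTheory Real Set Finset
open scoped RealInnerProductSpace

variable {k : ℕ} [NeZero k] {w : Fin k → EuclideanSpace ℝ (Fin (k - 1))}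

/-- Little energy is left outside a certified group. -/
lemma restSq_le_of_tab (hw : Crit w) {m : ℕ} (J : Fin m ↪ Fin k) {β : ℚ} (lv : Fin m → Lev)
    (hok : ∀ j, (lv j).okT capGridIso β = true)
    (hb : (∀ j, ((lv j).θ : ℝ) ≤ ‖w (J j)‖ ^ 2) ∧ ∀ j, ‖w (J j)‖ ^ 2 ≤ ((lv j).cut : ℝ))
    {γ R : ℚ} (hγ0 : 0 < γ) (hγ : γ < β)
    (hrest : ∀ i ∈ (Finset.univ.map J)ᶜ, 2 * π * ‖w i‖ ^ 2 ≤
      γ * (stdGaussian (EuclideanSpace ℝ (Fin (k - 1)))).real (cell w i))
    (htot : (∑ j, (lv j).α) + β - 9 / 4 ≤ (β / γ - 1) * (785398 / 125000) * R ∧ 0 ≤ R) :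
    restSq w J ≤ R := by
  have h1 := sum_le_levs hw J capGridIso_all lv hok hb.1 hb.2
  have h2 := Finset.sum_le_sum hrest
  rw [← Finset.mul_sum, ← Finset.mul_sum, ← restSq] at h2
  have hp := (cell_isPart w).sum_measure
  rw [← Finset.sum_add_sum_compl (Finset.univ.map J), Finset.sum_map] at hp
  have hbig := hw.big
  rw [← Finset.sum_add_sum_compl (Finset.univ.map J), Finset.sum_map, ← restSq,
    div_lt_iff₀ (by positivity)] at hbig
  have h3 := (Rat.cast_le (K := ℝ)).2 htot.1
  push_cast at h3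
  have hR0 : (0 : ℝ) ≤ R := by exact_mod_cast htot.2
  have hγ0' : (0 : ℝ) < γ := by exact_mod_cast hγ0
  have hβγ : (0 : ℝ) < (β : ℝ) / γ - 1 := by
    rw [sub_pos, one_lt_div hγ0']
    exact_mod_cast hγ
  set PJ := ∑ j, (stdGaussian (EuclideanSpace ℝ (Fin (k - 1)))).real (cell w (J j))
  set PR := ∑ i ∈ (Finset.univ.map J)ᶜ,
    (stdGaussian (EuclideanSpace ℝ (Fin (k - 1)))).real (cell w i)
  have h5 : (β : ℝ) / γ * (2 * π * restSq w J) ≤ β * PR := by
    refine (mul_le_mul_of_nonneg_left h2 (by linarith)).trans_eq ?_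
    field_simp
  have h6 : (β : ℝ) * PJ + β * PR = β := by rw [← mul_add, hp, mul_one]
  have h7 : ((β : ℝ) / γ - 1) * (2 * π * restSq w J) ≤
      ((β : ℝ) / γ - 1) * (785398 / 125000 * R) := by linarith
  have h8 := le_of_mul_le_mul_left h7 hβγ
  have hπ : (785398 / 125000 : ℝ) * R ≤ 2 * π * R :=
    mul_le_mul_of_nonneg_right (by linarith [pi_gt_d6]) hR0
  exact le_of_mul_le_mul_left (h8.trans hπ) (by positivity)

omit [NeZero k] in
/-- The largest form does not see a permutation. -/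
private lemma supInner_comp {m : ℕ} [NeZero m] (W : Fin m → EuclideanSpace ℝ (Fin (k - 1)))
    (σ : Equiv.Perm (Fin m)) (x : EuclideanSpace ℝ (Fin (k - 1))) :
    supInner (W ∘ σ) x = supInner W x :=
  le_antisymm (Finset.sup'_le _ _ fun a _ => le_supInner W (σ a) x)
    (Finset.sup'_le _ _ fun a _ => le_of_eq_of_le (by simp)
      (le_supInner (W ∘ σ) (σ.symm a) x))

omit [NeZero k] in
/-- Reordering a group permutes its centred vectors. -/
lemma centred_comp {m : ℕ} (J : Fin m ↪ Fin k) (σ : Equiv.Perm (Fin m)) :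
    centred w (σ.toEmbedding.trans J) = centred w J ∘ σ := by
  funext a
  simp only [centred, Function.comp_apply, Function.Embedding.trans_apply, Equiv.coe_toEmbedding]
  rw [Equiv.sum_comp σ fun b => w (J b)]

/-- A certified group with little gain leaves too little for the propeller bound. -/
lemma false_of_budget (hw : Crit w) {m : ℕ} [NeZero m] (J : Fin m ↪ Fin k) (hm : 2 ≤ m)
    {ε R : ℚ} (hx : ∑ a, ‖centred w J a‖ ^ 2 + (1 - ε) * restSq w J ≤ meanMax (centred w J))
    (hR : restSq w J ≤ R) {L : List (ℚ × ℚ)} {β : ℚ}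
    (hv : ∀ X : Set (EuclideanSpace ℝ (Fin (m - 1))), IsCone X → MeasurableSet X → ∀ l ∈ L,
      √(2 * π) * ‖mom X‖ ≤ (l.1 : ℝ) + (l.2 : ℝ) * (stdGaussian _).real X)
    (lv : Fin m → Lev) (hok : ∀ j, (lv j).ok L β = true)
    (hb : (∀ j, ((lv j).θ : ℝ) + R / (m : ℝ) ^ 2 ≤ ‖w (J j)‖ ^ 2) ∧
      ∀ j, ‖w (J j)‖ ^ 2 + R / (m : ℝ) ^ 2 ≤ ((lv j).cut : ℝ))
    (htot : 0 ≤ 2 * ε - 1 + 1 / m ∧
      (∑ j, (lv j).α) + β + (2 * ε - 1 + 1 / m) * (785399 / 125000) * R ≤ 9 / 4) : False := by
  classical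
  obtain ⟨f, p, hp, hfp, hlow, hL, hMM⟩ := exists_restricted_caps hw J hm
  have hm0 : (0 : ℝ) < m := by exact_mod_cast (show 0 < m by omega)
  set W := centred w J with hW
  set e := ∑ b, w (J b) with he
  have hr : ∀ a, 0 ≤ ⟪w (J a), e⟫ := fun a => by
    have h := hw.sum
    rw [← Finset.sum_add_sum_compl (Finset.univ.map J), Finset.sum_map] at h
    rw [he, eq_neg_of_add_eq_zero_left h, inner_neg_right, neg_nonneg, inner_sum]
    exact Finset.sum_nonpos fun j hj => hw.obtuse _ _ fun hh =>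
      (Finset.mem_compl.1 hj) (hh ▸ Finset.mem_map_of_mem J (Finset.mem_univ a))
  have hee : ‖e‖ ^ 2 ≤ restSq w J := sq_common_le w hw.sum hw.obtuse J
  have hY : ∀ a, ‖W a‖ ^ 2 ≤ ‖w (J a)‖ ^ 2 + R / (m : ℝ) ^ 2 := fun a => by
    rw [hW, centred, ← he, norm_sub_sq_real, real_inner_smul_right, norm_smul, mul_pow,
      Real.norm_eq_abs, sq_abs, inv_pow]
    have h1 := mul_le_mul_of_nonneg_left (hee.trans hR) (inv_nonneg.2 (sq_nonneg (m : ℝ)))
    have h2 := mul_nonneg (inv_nonneg.2 hm0.le) (hr a)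
    rw [div_eq_inv_mul]
    linarith
  have h2π : (0 : ℝ) ≤ 2 * π := by positivity
  have hterm : ∀ a, 2 * (√(2 * π) * ‖W a‖ * f a) ≤
      2 * π * ‖W a‖ ^ 2 + ((lv a).α + β * p a) := fun a => by
    have e2 : (√(2 * π) * ‖W a‖) ^ 2 = 2 * π * ‖W a‖ ^ 2 := by
      rw [mul_pow, sq_sqrt (by positivity)]
    have hf : 2 * π * ((lv a).θ : ℝ) ≤ f a ^ 2 := by
      refine le_trans ?_ (hlow a)
      refine mul_le_mul_of_nonneg_left ?_ h2π
      have := hb.1 a
      have := div_le_div_of_nonneg_right hR (sq_nonneg (m : ℝ))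
      linarith
    have h := Lev.le (hok a) (Y := √(2 * π) * ‖W a‖) (by positivity)
      (by rw [e2]; exact mul_le_mul_of_nonneg_left ((hY a).trans (hb.2 a)) h2π)
      (hfp a).1 hf (hfp a).2.2 (hL L hv a)
    rw [e2] at h
    linarith
  have hsum := Finset.sum_le_sum (s := Finset.univ) fun a _ => hterm a
  rw [← Finset.mul_sum, Finset.sum_add_distrib, Finset.sum_add_distrib, ← Finset.mul_sum,
    ← Finset.mul_sum, hp, mul_one] at hsum
  have hbig := hw.big
  rw [sum_sq_eq w J, ← he, div_lt_iff₀ (by positivity)] at hbig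
  have he2 : ‖e‖ ^ 2 / m ≤ (m : ℝ)⁻¹ * restSq w J := by
    rw [div_eq_inv_mul]
    exact mul_le_mul_of_nonneg_left hee (inv_nonneg.2 hm0.le)
  have h3 := (Rat.cast_le (K := ℝ)).2 htot.2
  push_cast at h3
  have hc := (Rat.cast_le (K := ℝ)).2 htot.1
  push_cast at hc
  rw [one_div] at hc h3
  have hQ : 0 ≤ restSq w J := Finset.sum_nonneg fun _ _ => sq_nonneg _
  have hπR : (2 * π) * restSq w J ≤ 785399 / 125000 * R :=
    (mul_le_mul_of_nonneg_left hR h2π).trans
      (mul_le_mul_of_nonneg_right (by linarith [pi_lt_d6]) (hQ.trans hR))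
  have h4 := mul_le_mul_of_nonneg_left hπR hc
  have h5 := mul_le_mul_of_nonneg_left hx h2π
  have h6 := mul_le_mul_of_nonneg_left he2 h2π
  linarith

/-- A squared moment is at most one fifth. -/
lemma norm_mom_sq_le_fifth (hw : Crit w) (i : Fin k) : ‖w i‖ ^ 2 ≤ 1 / 5 := by
  have h := capGridIso_all (k := k) _ (isCone_cell w i) ((cell_isPart w).meas i) (1, 0)
    (by decide +kernel)
  rw [← hw.self i] at h
  push_cast at h
  have h' := pow_le_pow_left₀ (by positivity) h 2
  rw [sq_scaled] at h'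
  nlinarith [pi_gt_three, sq_nonneg ‖w i‖]

/-- The bounds of a bin on the sorted slots. -/
def InBin {m : ℕ} (J : Fin m ↪ Fin k) (a : ℕ) (c₁ : ℚ) (b : ℕ) (c₁' : ℚ) (c₂ : ℚ)
    (w : Fin k → EuclideanSpace ℝ (Fin (k - 1))) : Prop :=
  ∀ j : Fin m, ((max (thQ (max 4 ((j : ℕ) + 1))) (max (if (j : ℕ) < a then c₁ else 0)
      (if (j : ℕ) < b then c₁' else 0)) : ℚ) : ℝ) ≤ ‖w (J j)‖ ^ 2 ∧
    ‖w (J j)‖ ^ 2 ≤ (((if 3 ≤ (j : ℕ) then c₂ else 1 / 5) : ℚ) : ℝ)

/-- Sorted vectors lie in the bin of their fourth and fifth slots. -/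
lemma inBin_of_slots (hw : Crit w) {m : ℕ} {J : Fin m ↪ Fin k}
    (hth : ∀ j : Fin m, (thQ (max 4 ((j : ℕ) + 1)) : ℝ) ≤ ‖w (J j)‖ ^ 2) {a : ℕ} {c₁ : ℚ}
    {b : ℕ} {c₁' c₂ : ℚ} (hlo : ∀ j : Fin m, (j : ℕ) < a → (c₁ : ℝ) ≤ ‖w (J j)‖ ^ 2)
    (hlo' : ∀ j : Fin m, (j : ℕ) < b → (c₁' : ℝ) ≤ ‖w (J j)‖ ^ 2)
    (hhi : ∀ j : Fin m, 3 ≤ (j : ℕ) → ‖w (J j)‖ ^ 2 ≤ (c₂ : ℝ)) :
    InBin J a c₁ b c₁' c₂ w := fun j => by
  refine ⟨?_, ?_⟩
  · rw [Rat.cast_max, Rat.cast_max]
    refine max_le (hth j) (max_le ?_ ?_)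
    · split_ifs with h
      · exact hlo j h
      · push_cast; exact sq_nonneg _
    · split_ifs with h
      · exact hlo' j h
      · push_cast; exact sq_nonneg _
  · split_ifs with h
    · exact hhi j h
    · have := norm_mom_sq_le_fifth hw (J j)
      push_cast
      linarith

/-- The thresholds of a table hold inside its bin. -/
lemma bin_bounds {m : ℕ} {J : Fin m ↪ Fin k} {a : ℕ} {c₁ : ℚ} {b : ℕ} {c₁' c₂ : ℚ}
    (h : InBin J a c₁ b c₁' c₂ w) (lv : Fin m → Lev) (R : ℚ)
    (hθ : ∀ j : Fin m, (lv j).θ + R / (m : ℚ) ^ 2 ≤ max (thQ (max 4 ((j : ℕ) + 1)))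
      (max (if (j : ℕ) < a then c₁ else 0) (if (j : ℕ) < b then c₁' else 0)) ∧
      (if 3 ≤ (j : ℕ) then c₂ else 1 / 5) + R / (m : ℚ) ^ 2 ≤ (lv j).cut) :
    (∀ j, ((lv j).θ : ℝ) + R / (m : ℝ) ^ 2 ≤ ‖w (J j)‖ ^ 2) ∧
      ∀ j, ‖w (J j)‖ ^ 2 + R / (m : ℝ) ^ 2 ≤ ((lv j).cut : ℝ) := by
  refine ⟨fun j => le_trans ?_ (h j).1, fun j => ?_⟩
  · have h' := (Rat.cast_le (K := ℝ)).2 (hθ j).1
    rw [Rat.cast_add, Rat.cast_div, Rat.cast_pow, Rat.cast_natCast] at h'
    exact h'
  · have h' := (Rat.cast_le (K := ℝ)).2 (hθ j).2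
    rw [Rat.cast_add, Rat.cast_div, Rat.cast_pow, Rat.cast_natCast] at h'
    linarith [(h j).2]

/-- The thresholds of an energy table hold inside its bin. -/
lemma bin_bounds_zero {m : ℕ} {J : Fin m ↪ Fin k} {a : ℕ} {c₁ : ℚ} {b : ℕ} {c₁' c₂ : ℚ}
    (h : InBin J a c₁ b c₁' c₂ w) (lv : Fin m → Lev)
    (hθ : ∀ j : Fin m, (lv j).θ + 0 / (m : ℚ) ^ 2 ≤ max (thQ (max 4 ((j : ℕ) + 1)))
      (max (if (j : ℕ) < a then c₁ else 0) (if (j : ℕ) < b then c₁' else 0)) ∧
      (if 3 ≤ (j : ℕ) then c₂ else 1 / 5) + 0 / (m : ℚ) ^ 2 ≤ (lv j).cut) :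
    (∀ j, ((lv j).θ : ℝ) ≤ ‖w (J j)‖ ^ 2) ∧ ∀ j, ‖w (J j)‖ ^ 2 ≤ ((lv j).cut : ℝ) := by
  simpa using bin_bounds h lv 0 hθ

/-- The rest of a family costs at most `6903/10000` times its measure. -/
lemma rest_cost_six (hw : Crit w) {m : ℕ} (J : Fin m ↪ Fin k) (hk : m < k) (hm : 6 ≤ m)
    (hrest : ∀ i ∈ (Finset.univ.map J)ᶜ, ‖w i‖ ^ 2 < theta k (m + 1)) :
    ∀ i ∈ (Finset.univ.map J)ᶜ, 2 * π * ‖w i‖ ^ 2 ≤
      ((6903 / 10000 : ℚ) : ℝ) * (stdGaussian (EuclideanSpace ℝ (Fin (k - 1)))).real (cell w i) :=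
  fun i hi => by
    have h := hrest i hi
    rw [theta_high (by omega) (by omega), hw.self i] at h
    have h' := short_sq_le_six ((cell_isPart w).meas i) (h.le.trans (by norm_num))
    rw [← hw.self i] at h'
    push_cast
    linarith

/-- Gains below a constant move the budget inequality to the reordered group. -/
lemma budget_start (hw : Crit w) {m : ℕ} [NeZero m] (J : Fin m ↪ Fin k)
    (σ : Equiv.Perm (Fin m)) {ε : ℝ}
    (hgain : ∀ i ∈ (Finset.univ.map J)ᶜ, gain (centred w J) (w i) ≤ ε * ‖w i‖ ^ 2) :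
    ∑ a, ‖centred w (σ.toEmbedding.trans J) a‖ ^ 2 +
        (1 - ε) * restSq w (σ.toEmbedding.trans J) ≤
      meanMax (centred w (σ.toEmbedding.trans J)) := by
  have h := cells_le (cell_isPart w) J 1
  simp only [← hw.self, one_mul, one_smul] at h
  have hg := Finset.sum_le_sum hgain
  rw [← Finset.mul_sum, ← restSq] at hg
  rw [centred_comp]
  simp only [meanMax, supInner_comp, Function.comp_apply]
  rw [Equiv.sum_comp σ fun a => ‖centred w J a‖ ^ 2, restSq, ← Finset.map_map,
    Finset.map_univ_equiv, ← restSq, ← meanMax]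
  linarith

/-- Without a gain bound the group still carries its own energy. -/
lemma budget_start_one (hw : Crit w) {m : ℕ} [NeZero m] (J : Fin m ↪ Fin k) :
    ∑ a, ‖centred w J a‖ ^ 2 + (1 - ((1 : ℚ) : ℝ)) * restSq w J ≤ meanMax (centred w J) := by
  have h := cells_le (cell_isPart w) J 0
  simp only [← hw.self, zero_mul, zero_smul, add_zero] at h
  have h0 : gain (centred w J) (0 : EuclideanSpace ℝ (Fin (k - 1))) = 0 := by
    have : ∀ x, 0 ≤ supInner (centred w J) x := fun x => by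
      by_contra! hlt
      have hs : ∑ a, ⟪centred w J a, x⟫ = 0 := by rw [← sum_inner, sum_centred, inner_zero_left]
      have : ∑ a, ⟪centred w J a, x⟫ < 0 := Finset.sum_neg
        (fun a _ => (le_supInner _ a x).trans_lt hlt) Finset.univ_nonempty
      linarith
    simp [gain, this]
  simp only [h0, Finset.sum_const_zero, add_zero] at h
  push_cast
  linarith

/-- Little energy outside the five longest. -/
theorem rest_le_five (hw : Crit w) (J : Fin 5 ↪ Fin k) (hJ : IsTop w J)
    (hL : Long (theta k) w 5) (hk : 5 < k)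
    (hrest : ∀ i ∈ (Finset.univ.map J)ᶜ, ‖w i‖ ^ 2 < theta k (5 + 1)) :
    restSq w J ≤ 130 / 10000 := by
  obtain ⟨J', σ, hJ', hmap, hmono, hth⟩ := exists_sorted (by omega) J hJ hL (by norm_num)
  have hr' : ∀ i ∈ (Finset.univ.map J')ᶜ, ‖w i‖ ^ 2 < theta k (5 + 1) := fun i hi =>
    hrest i (hmap ▸ hi)
  have hbin := inBin_of_slots hw hth (a := 0) (c₁ := 0) (b := 0) (c₁' := 0) (c₂ := 1 / 5)
      (fun j hj => absurd hj (Nat.not_lt_zero _))
      (fun j hj => absurd hj (Nat.not_lt_zero _))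
      (fun j _ => by push_cast; exact norm_mom_sq_le_fifth hw _)
  have h := restSq_le_of_tab hw J' tab_r5 tab_r5_ok
      (bin_bounds_zero hbin _ (by decide +kernel))
      (γ := 718 / 1000) (R := 6383 / 500000) (by norm_num) (by norm_num) (fun i hi => by
        have h := hr' i hi
        rw [theta_six (by omega), hw.self i] at h
        have h' := short_sq_le_five ((cell_isPart w).meas i) h.le
        rw [← hw.self i] at h'
        push_cast
        linarith) (by decide +kernel)
  rw [restSq, hmap, ← restSq] at h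
  push_cast at h
  linarith

/-- Little energy outside the six longest. -/
theorem rest_le_six (hw : Crit w) (J : Fin 6 ↪ Fin k) (hJ : IsTop w J)
    (hL : Long (theta k) w 6) (hk : 6 < k)
    (hrest : ∀ i ∈ (Finset.univ.map J)ᶜ, ‖w i‖ ^ 2 < theta k (6 + 1)) :
    restSq w J ≤ 102 / 10000 := by
  obtain ⟨J', σ, hJ', hmap, hmono, hth⟩ := exists_sorted (by omega) J hJ hL (by norm_num)
  have hr' : ∀ i ∈ (Finset.univ.map J')ᶜ, ‖w i‖ ^ 2 < theta k (6 + 1) := fun i hi =>
    hrest i (hmap ▸ hi)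
  have hbin := inBin_of_slots hw hth (a := 0) (c₁ := 0) (b := 0) (c₁' := 0) (c₂ := 1 / 5)
      (fun j hj => absurd hj (Nat.not_lt_zero _))
      (fun j hj => absurd hj (Nat.not_lt_zero _))
      (fun j _ => by push_cast; exact norm_mom_sq_le_fifth hw _)
  have h := restSq_le_of_tab hw J' tab_r6 tab_r6_ok
      (bin_bounds_zero hbin _ (by decide +kernel))
      (γ := 6903 / 10000) (R := 401 / 40000) (by norm_num) (by norm_num) (rest_cost_six hw J' hk (by norm_num) hr') (by decide +kernel)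
  rw [restSq, hmap, ← restSq] at h
  push_cast at h
  linarith

/-- Little energy outside the seven longest. -/
theorem rest_le_seven (hw : Crit w) (J : Fin 7 ↪ Fin k) (hJ : IsTop w J)
    (hL : Long (theta k) w 7) (hk : 7 < k)
    (hrest : ∀ i ∈ (Finset.univ.map J)ᶜ, ‖w i‖ ^ 2 < theta k (7 + 1)) :
    restSq w J ≤ 81 / 10000 := by
  obtain ⟨J', σ, hJ', hmap, hmono, hth⟩ := exists_sorted (by omega) J hJ hL (by norm_num)
  have hr' : ∀ i ∈ (Finset.univ.map J')ᶜ, ‖w i‖ ^ 2 < theta k (7 + 1) := fun i hi =>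
    hrest i (hmap ▸ hi)
  have hbin := inBin_of_slots hw hth (a := 0) (c₁ := 0) (b := 0) (c₁' := 0) (c₂ := 1 / 5)
      (fun j hj => absurd hj (Nat.not_lt_zero _))
      (fun j hj => absurd hj (Nat.not_lt_zero _))
      (fun j _ => by push_cast; exact norm_mom_sq_le_fifth hw _)
  have h := restSq_le_of_tab hw J' tab_r7 tab_r7_ok
      (bin_bounds_zero hbin _ (by decide +kernel))
      (γ := 6903 / 10000) (R := 8029 / 1000000) (by norm_num) (by norm_num) (rest_cost_six hw J' hk (by norm_num) hr') (by decide +kernel)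
  rw [restSq, hmap, ← restSq] at h
  push_cast at h
  linarith

/-- Little energy outside the eight longest. -/
theorem rest_le_eight (hw : Crit w) (J : Fin 8 ↪ Fin k) (hJ : IsTop w J)
    (hL : Long (theta k) w 8) (hk : 8 < k)
    (hrest : ∀ i ∈ (Finset.univ.map J)ᶜ, ‖w i‖ ^ 2 < theta k (8 + 1)) :
    restSq w J ≤ 62 / 10000 := by
  obtain ⟨J', σ, hJ', hmap, hmono, hth⟩ := exists_sorted (by omega) J hJ hL (by norm_num)
  have hr' : ∀ i ∈ (Finset.univ.map J')ᶜ, ‖w i‖ ^ 2 < theta k (8 + 1) := fun i hi =>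
    hrest i (hmap ▸ hi)
  have hbin := inBin_of_slots hw hth (a := 0) (c₁ := 0) (b := 0) (c₁' := 0) (c₂ := 1 / 5)
      (fun j hj => absurd hj (Nat.not_lt_zero _))
      (fun j hj => absurd hj (Nat.not_lt_zero _))
      (fun j _ => by push_cast; exact norm_mom_sq_le_fifth hw _)
  have h := restSq_le_of_tab hw J' tab_r8 tab_r8_ok
      (bin_bounds_zero hbin _ (by decide +kernel))
      (γ := 6903 / 10000) (R := 3017 / 500000) (by norm_num) (by norm_num) (rest_cost_six hw J' hk (by norm_num) hr') (by decide +kernel)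
  rw [restSq, hmap, ← restSq] at h
  push_cast at h
  linarith

/-- Less energy outside seven with at most three very long ones. -/
theorem rest_le_seven_low (hw : Crit w) (J : Fin 7 ↪ Fin k) (hJ : IsTop w J)
    (hL : Long (theta k) w 7) (hk : 7 < k)
    (hrest : ∀ i ∈ (Finset.univ.map J)ᶜ, ‖w i‖ ^ 2 < theta k (7 + 1)) 
    (hlow : (Finset.univ.filter fun a => 6 / 100 ≤ ‖w (J a)‖ ^ 2).card < 4) :
    restSq w J ≤ 76 / 10000 := by
  obtain ⟨J', σ, hJ', hmap, hmono, hth⟩ := exists_sorted (by omega) J hJ hL (by norm_num)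
  have hr' : ∀ i ∈ (Finset.univ.map J')ᶜ, ‖w i‖ ^ 2 < theta k (7 + 1) := fun i hi =>
    hrest i (hmap ▸ hi)
  have hlow' : ‖w (J' 3)‖ ^ 2 < 600 / 10000 := by
    refine slot_lt_of_card hmono 3 (lt_of_eq_of_lt ?_ hlow)
    rw [hJ']
    refine Finset.card_equiv σ fun a => ?_
    norm_num
  have hbin := inBin_of_slots hw hth (a := 0) (c₁ := 0) (b := 0) (c₁' := 0) (c₂ := 600 / 10000)
      (fun j hj => absurd hj (Nat.not_lt_zero _))
      (fun j hj => absurd hj (Nat.not_lt_zero _))
      (fun j hj => by push_cast; linarith [hmono 3 j (Fin.le_def.2 (by simpa using hj))])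
  have h := restSq_le_of_tab hw J' tab_r7lo6 tab_r7lo6_ok
      (bin_bounds_zero hbin _ (by decide +kernel))
      (γ := 6903 / 10000) (R := 753 / 100000) (by norm_num) (by norm_num) (rest_cost_six hw J' hk (by norm_num) hr') (by decide +kernel)
  rw [restSq, hmap, ← restSq] at h
  push_cast at h
  linarith

/-- Seven long vectors, at most three very long: the others cannot all gain little. -/
theorem seven_false_low (hw : Crit w) (J : Fin 7 ↪ Fin k) (hJ : IsTop w J)
    (hL : Long (theta k) w 7) (hk : 7 < k)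
    (hrest : ∀ i ∈ (Finset.univ.map J)ᶜ, ‖w i‖ ^ 2 < theta k (7 + 1)) 
    (hlow : (Finset.univ.filter fun a => 6 / 100 ≤ ‖w (J a)‖ ^ 2).card < 4)
    (hgain : ∀ i ∈ (Finset.univ.map J)ᶜ, gain (centred w J) (w i) ≤ 58 / 100 * ‖w i‖ ^ 2) :
    False := by
  obtain ⟨J', σ, hJ', hmap, hmono, hth⟩ := exists_sorted (by omega) J hJ hL (by norm_num)
  have hr' : ∀ i ∈ (Finset.univ.map J')ᶜ, ‖w i‖ ^ 2 < theta k (7 + 1) := fun i hi =>
    hrest i (hmap ▸ hi)
  have hlow' : ‖w (J' 3)‖ ^ 2 < 600 / 10000 := by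
    refine slot_lt_of_card hmono 3 (lt_of_eq_of_lt ?_ hlow)
    rw [hJ']
    refine Finset.card_equiv σ fun a => ?_
    norm_num
  have hx := budget_start hw J σ (ε := ((29 / 50 : ℚ) : ℝ)) fun i hi =>
    (hgain i hi).trans_eq (by norm_num)
  rw [← hJ'] at hx
  rcases lt_or_ge (‖w (J' 3)‖ ^ 2) (300 / 10000) with h3 | h3
  · have hbin := inBin_of_slots hw hth (a := 0) (c₁ := 0) (b := 0) (c₁' := 0) (c₂ := 300 / 10000)
      (fun j hj => absurd hj (Nat.not_lt_zero _))
      (fun j hj => absurd hj (Nat.not_lt_zero _))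
      (fun j hj => by push_cast; linarith [hmono 3 j (Fin.le_def.2 (by simpa using hj))])
    have hR := restSq_le_of_tab hw J' tab_r7low tab_r7low_ok
      (bin_bounds_zero hbin _ (by decide +kernel))
      (γ := 6903 / 10000) (R := 6929 / 1000000) (by norm_num) (by norm_num) (rest_cost_six hw J' hk (by norm_num) hr') (by decide +kernel)
    exact false_of_budget hw J' (by norm_num) (ε := 29 / 50) (R := 6929 / 1000000) hx hR
      (fun X hX => capGrid5_valid finrank_euclideanSpace_fin hX) tab_s7low tab_s7low_ok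
      (bin_bounds hbin _ _ (by decide +kernel)) (by decide +kernel)
  · have hbin := inBin_of_slots hw hth (a := 4) (c₁ := 300 / 10000) (b := 0) (c₁' := 0) (c₂ := 600 / 10000)
      (fun j hj => by
        push_cast
        have e : ((3 : Fin 7) : ℕ) = 3 := rfl
        have := hmono j 3 (Fin.le_def.2 (by omega))
        linarith)
      (fun j hj => absurd hj (Nat.not_lt_zero _))
      (fun j hj => by push_cast; linarith [hmono 3 j (Fin.le_def.2 (by simpa using hj))])
    have hR := restSq_le_of_tab hw J' tab_r7mid tab_r7mid_ok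
      (bin_bounds_zero hbin _ (by decide +kernel))
      (γ := 6903 / 10000) (R := 7509 / 1000000) (by norm_num) (by norm_num) (rest_cost_six hw J' hk (by norm_num) hr') (by decide +kernel)
    exact false_of_budget hw J' (by norm_num) (ε := 29 / 50) (R := 7509 / 1000000) hx hR
      (fun X hX => capGrid5_valid finrank_euclideanSpace_fin hX) tab_s7mid tab_s7mid_ok
      (bin_bounds hbin _ _ (by decide +kernel)) (by decide +kernel)

/-- Seven long vectors: the others cannot all gain little. -/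
theorem seven_false (hw : Crit w) (J : Fin 7 ↪ Fin k) (hJ : IsTop w J)
    (hL : Long (theta k) w 7) (hk : 7 < k)
    (hrest : ∀ i ∈ (Finset.univ.map J)ᶜ, ‖w i‖ ^ 2 < theta k (7 + 1))
    (hgain : ∀ i ∈ (Finset.univ.map J)ᶜ, gain (centred w J) (w i) ≤ 548 / 1000 * ‖w i‖ ^ 2) :
    False := by
  rcases lt_or_ge (Finset.univ.filter fun a => 6 / 100 ≤ ‖w (J a)‖ ^ 2).card 4 with hlow | hc
  · exact seven_false_low hw J hJ hL hk hrest hlow fun i hi =>
      (hgain i hi).trans (mul_le_mul_of_nonneg_right (by norm_num) (sq_nonneg _))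
  obtain ⟨J', σ, hJ', hmap, hmono, hth⟩ := exists_sorted (by omega) J hJ hL (by norm_num)
  have hr' : ∀ i ∈ (Finset.univ.map J')ᶜ, ‖w i‖ ^ 2 < theta k (7 + 1) := fun i hi =>
    hrest i (hmap ▸ hi)
  have hx := budget_start hw J σ (ε := ((137 / 250 : ℚ) : ℝ)) fun i hi =>
    (hgain i hi).trans_eq (by norm_num)
  rw [← hJ'] at hx
  have h6 : 600 / 10000 ≤ ‖w (J' 3)‖ ^ 2 := by
    refine slot_ge_of_card hmono 3 (hc.trans_eq ?_)
    rw [hJ']
    refine (Finset.card_equiv σ fun a => ?_).symm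
    norm_num
  · have hbin := inBin_of_slots hw hth (a := 4) (c₁ := 600 / 10000) (b := 0) (c₁' := 0) (c₂ := 1 / 5)
      (fun j hj => by
        push_cast
        have e : ((3 : Fin 7) : ℕ) = 3 := rfl
        have := hmono j 3 (Fin.le_def.2 (by omega))
        linarith)
      (fun j hj => absurd hj (Nat.not_lt_zero _))
      (fun j _ => by push_cast; exact norm_mom_sq_le_fifth hw _)
    have hR := restSq_le_of_tab hw J' tab_r7high tab_r7high_ok
      (bin_bounds_zero hbin _ (by decide +kernel))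
      (γ := 6903 / 10000) (R := 7877 / 1000000) (by norm_num) (by norm_num) (rest_cost_six hw J' hk (by norm_num) hr') (by decide +kernel)
    exact false_of_budget hw J' (by norm_num) (ε := 137 / 250) (R := 7877 / 1000000) hx hR
      (fun X hX => capGrid5_valid finrank_euclideanSpace_fin hX) tab_s7high tab_s7high_ok
      (bin_bounds hbin _ _ (by decide +kernel)) (by decide +kernel)

/-- At most four of seven vectors are fairly long. -/
theorem seven_fifth (hw : Crit w) (J : Fin 7 ↪ Fin k) (hJ : IsTop w J)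
    (hL : Long (theta k) w 7) (hk : 7 < k)
    (hrest : ∀ i ∈ (Finset.univ.map J)ᶜ, ‖w i‖ ^ 2 < theta k (7 + 1)) 
    (h5 : 5 ≤ (Finset.univ.filter fun a => 16 / 1000 ≤ ‖w (J a)‖ ^ 2).card) :
    False := by
  obtain ⟨J', σ, hJ', hmap, hmono, hth⟩ := exists_sorted (by omega) J hJ hL (by norm_num)
  have hr' : ∀ i ∈ (Finset.univ.map J')ᶜ, ‖w i‖ ^ 2 < theta k (7 + 1) := fun i hi =>
    hrest i (hmap ▸ hi)
  have h5' : 16 / 1000 ≤ ‖w (J' 4)‖ ^ 2 := by
    refine slot_ge_of_card hmono 4 (h5.trans_eq ?_)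
    rw [hJ']
    refine (Finset.card_equiv σ fun a => ?_).symm
    norm_num
  have hx := budget_start_one hw J'
  rcases lt_or_ge (‖w (J' 3)‖ ^ 2) (300 / 10000) with h3 | h3
  · have hbin := inBin_of_slots hw hth (a := 0) (c₁ := 0) (b := 5) (c₁' := 160 / 10000) (c₂ := 300 / 10000)
      (fun j hj => absurd hj (Nat.not_lt_zero _))
      (fun j hj => by
        push_cast
        have e : ((4 : Fin 7) : ℕ) = 4 := rfl
        have := hmono j 4 (Fin.le_def.2 (by omega))
        linarith)
      (fun j hj => by push_cast; linarith [hmono 3 j (Fin.le_def.2 (by simpa using hj))])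
    have hR := restSq_le_of_tab hw J' tab_r7flow tab_r7flow_ok
      (bin_bounds_zero hbin _ (by decide +kernel))
      (γ := 6903 / 10000) (R := 357 / 62500) (by norm_num) (by norm_num) (rest_cost_six hw J' hk (by norm_num) hr') (by decide +kernel)
    exact false_of_budget hw J' (by norm_num) (ε := 1) (R := 357 / 62500) hx hR
      (fun X hX => capGrid5_valid finrank_euclideanSpace_fin hX) tab_s7flow tab_s7flow_ok
      (bin_bounds hbin _ _ (by decide +kernel)) (by decide +kernel)
  · rcases lt_or_ge (‖w (J' 3)‖ ^ 2) (600 / 10000) with h6 | h6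
    · have hbin := inBin_of_slots hw hth (a := 4) (c₁ := 300 / 10000) (b := 5) (c₁' := 160 / 10000) (c₂ := 600 / 10000)
        (fun j hj => by
          push_cast
          have e : ((3 : Fin 7) : ℕ) = 3 := rfl
          have := hmono j 3 (Fin.le_def.2 (by omega))
          linarith)
        (fun j hj => by
          push_cast
          have e : ((4 : Fin 7) : ℕ) = 4 := rfl
          have := hmono j 4 (Fin.le_def.2 (by omega))
          linarith)
        (fun j hj => by push_cast; linarith [hmono 3 j (Fin.le_def.2 (by simpa using hj))])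
      have hR := restSq_le_of_tab hw J' tab_r7fmid tab_r7fmid_ok
        (bin_bounds_zero hbin _ (by decide +kernel))
        (γ := 6903 / 10000) (R := 1581 / 250000) (by norm_num) (by norm_num) (rest_cost_six hw J' hk (by norm_num) hr') (by decide +kernel)
      exact false_of_budget hw J' (by norm_num) (ε := 1) (R := 1581 / 250000) hx hR
        (fun X hX => capGrid5_valid finrank_euclideanSpace_fin hX) tab_s7fmid tab_s7fmid_ok
        (bin_bounds hbin _ _ (by decide +kernel)) (by decide +kernel)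
    · have hbin := inBin_of_slots hw hth (a := 4) (c₁ := 600 / 10000) (b := 5) (c₁' := 160 / 10000) (c₂ := 1 / 5)
        (fun j hj => by
          push_cast
          have e : ((3 : Fin 7) : ℕ) = 3 := rfl
          have := hmono j 3 (Fin.le_def.2 (by omega))
          linarith)
        (fun j hj => by
          push_cast
          have e : ((4 : Fin 7) : ℕ) = 4 := rfl
          have := hmono j 4 (Fin.le_def.2 (by omega))
          linarith)
        (fun j _ => by push_cast; exact norm_mom_sq_le_fifth hw _)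
      have hR := restSq_le_of_tab hw J' tab_r7fhigh tab_r7fhigh_ok
        (bin_bounds_zero hbin _ (by decide +kernel))
        (γ := 6903 / 10000) (R := 1321 / 200000) (by norm_num) (by norm_num) (rest_cost_six hw J' hk (by norm_num) hr') (by decide +kernel)
      exact false_of_budget hw J' (by norm_num) (ε := 1) (R := 1321 / 200000) hx hR
        (fun X hX => capGrid5_valid finrank_euclideanSpace_fin hX) tab_s7fhigh tab_s7fhigh_ok
        (bin_bounds hbin _ _ (by decide +kernel)) (by decide +kernel)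

/-- Eight long vectors: the others cannot all gain little. -/
theorem eight_false (hw : Crit w) (J : Fin 8 ↪ Fin k) (hJ : IsTop w J)
    (hL : Long (theta k) w 8) (hk : 8 < k)
    (hrest : ∀ i ∈ (Finset.univ.map J)ᶜ, ‖w i‖ ^ 2 < theta k (8 + 1))
    (hgain : ∀ i ∈ (Finset.univ.map J)ᶜ, gain (centred w J) (w i) ≤ 88 / 100 * ‖w i‖ ^ 2) :
    False := by
  obtain ⟨J', σ, hJ', hmap, hmono, hth⟩ := exists_sorted (by omega) J hJ hL (by norm_num)
  have hr' : ∀ i ∈ (Finset.univ.map J')ᶜ, ‖w i‖ ^ 2 < theta k (8 + 1) := fun i hi =>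
    hrest i (hmap ▸ hi)
  have hx := budget_start hw J σ (ε := ((22 / 25 : ℚ) : ℝ)) fun i hi =>
    (hgain i hi).trans_eq (by norm_num)
  rw [← hJ'] at hx
  rcases lt_or_ge (‖w (J' 3)‖ ^ 2) (600 / 10000) with h6 | h6
  · have hbin := inBin_of_slots hw hth (a := 0) (c₁ := 0) (b := 0) (c₁' := 0) (c₂ := 600 / 10000)
      (fun j hj => absurd hj (Nat.not_lt_zero _))
      (fun j hj => absurd hj (Nat.not_lt_zero _))
      (fun j hj => by push_cast; linarith [hmono 3 j (Fin.le_def.2 (by simpa using hj))])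
    have hR := restSq_le_of_tab hw J' tab_r8lo6 tab_r8lo6_ok
      (bin_bounds_zero hbin _ (by decide +kernel))
      (γ := 6903 / 10000) (R := 2767 / 500000) (by norm_num) (by norm_num) (rest_cost_six hw J' hk (by norm_num) hr') (by decide +kernel)
    exact false_of_budget hw J' (by norm_num) (ε := 22 / 25) (R := 2767 / 500000) hx hR
      (fun X hX => capGrid6_valid finrank_euclideanSpace_fin hX) tab_s8lo6 tab_s8lo6_ok
      (bin_bounds hbin _ _ (by decide +kernel)) (by decide +kernel)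
  · have hbin := inBin_of_slots hw hth (a := 4) (c₁ := 600 / 10000) (b := 0) (c₁' := 0) (c₂ := 1 / 5)
      (fun j hj => by
        push_cast
        have e : ((3 : Fin 8) : ℕ) = 3 := rfl
        have := hmono j 3 (Fin.le_def.2 (by omega))
        linarith)
      (fun j hj => absurd hj (Nat.not_lt_zero _))
      (fun j _ => by push_cast; exact norm_mom_sq_le_fifth hw _)
    have hR := restSq_le_of_tab hw J' tab_r8high tab_r8high_ok
      (bin_bounds_zero hbin _ (by decide +kernel))
      (γ := 6903 / 10000) (R := 147 / 25000) (by norm_num) (by norm_num) (rest_cost_six hw J' hk (by norm_num) hr') (by decide +kernel)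
    exact false_of_budget hw J' (by norm_num) (ε := 22 / 25) (R := 147 / 25000) hx hR
      (fun X hX => capGrid6_valid finrank_euclideanSpace_fin hX) tab_s8high tab_s8high_ok
      (bin_bounds hbin _ _ (by decide +kernel)) (by decide +kernel)

/-- At most four of eight vectors are fairly long. -/
theorem eight_fifth (hw : Crit w) (J : Fin 8 ↪ Fin k) (hJ : IsTop w J)
    (hL : Long (theta k) w 8) (hk : 8 < k)
    (hrest : ∀ i ∈ (Finset.univ.map J)ᶜ, ‖w i‖ ^ 2 < theta k (8 + 1)) 
    (h5 : 5 ≤ (Finset.univ.filter fun a => 12 / 1000 ≤ ‖w (J a)‖ ^ 2).card) :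
    False := by
  obtain ⟨J', σ, hJ', hmap, hmono, hth⟩ := exists_sorted (by omega) J hJ hL (by norm_num)
  have hr' : ∀ i ∈ (Finset.univ.map J')ᶜ, ‖w i‖ ^ 2 < theta k (8 + 1) := fun i hi =>
    hrest i (hmap ▸ hi)
  have h5' : 12 / 1000 ≤ ‖w (J' 4)‖ ^ 2 := by
    refine slot_ge_of_card hmono 4 (h5.trans_eq ?_)
    rw [hJ']
    refine (Finset.card_equiv σ fun a => ?_).symm
    norm_num
  have hx := budget_start_one hw J'
  · have hbin := inBin_of_slots hw hth (a := 0) (c₁ := 0) (b := 5) (c₁' := 120 / 10000) (c₂ := 1 / 5)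
      (fun j hj => absurd hj (Nat.not_lt_zero _))
      (fun j hj => by
        push_cast
        have e : ((4 : Fin 8) : ℕ) = 4 := rfl
        have := hmono j 4 (Fin.le_def.2 (by omega))
        linarith)
      (fun j _ => by push_cast; exact norm_mom_sq_le_fifth hw _)
    have hR := restSq_le_of_tab hw J' tab_r8f tab_r8f_ok
      (bin_bounds_zero hbin _ (by decide +kernel))
      (γ := 6903 / 10000) (R := 5021 / 1000000) (by norm_num) (by norm_num) (rest_cost_six hw J' hk (by norm_num) hr') (by decide +kernel)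
    exact false_of_budget hw J' (by norm_num) (ε := 1) (R := 5021 / 1000000) hx hR
      (fun X hX => capGrid6_valid finrank_euclideanSpace_fin hX) tab_s8f tab_s8f_ok
      (bin_bounds hbin _ _ (by decide +kernel)) (by decide +kernel)

/-- Nine or more long vectors are impossible. -/
theorem nine_false {m : ℕ} (hw : Crit w) (J : Fin m ↪ Fin k) (hJ : IsTop w J)
    (hL : Long (theta k) w m) (hm : 9 ≤ m) (hk : m < k)
    (hrest : ∀ i ∈ (Finset.univ.map J)ᶜ, ‖w i‖ ^ 2 < theta k (m + 1)) : False := by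
  have := long_le_ten hw hL
  interval_cases m
  · obtain ⟨J', σ, hJ', hmap, hmono, hth⟩ := exists_sorted (by omega) J hJ hL (by norm_num)
    have hr' : ∀ i ∈ (Finset.univ.map J')ᶜ, ‖w i‖ ^ 2 < theta k (9 + 1) := fun i hi =>
      hrest i (hmap ▸ hi)
    have hx := budget_start_one hw J'
    have hbin := inBin_of_slots hw hth (a := 0) (c₁ := 0) (b := 0) (c₁' := 0) (c₂ := 1 / 5)
        (fun j hj => absurd hj (Nat.not_lt_zero _))
        (fun j hj => absurd hj (Nat.not_lt_zero _))
        (fun j _ => by push_cast; exact norm_mom_sq_le_fifth hw _)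
    have hR := restSq_le_of_tab hw J' tab_r9 tab_r9_ok
        (bin_bounds_zero hbin _ (by decide +kernel))
        (γ := 6903 / 10000) (R := 2019 / 500000) (by norm_num) (by norm_num) (rest_cost_six hw J' hk (by norm_num) hr') (by decide +kernel)
    exact false_of_budget hw J' (by norm_num) (ε := 1) (R := 2019 / 500000) hx hR
        (fun X hX => capGrid7_valid finrank_euclideanSpace_fin hX) tab_s9 tab_s9_ok
        (bin_bounds hbin _ _ (by decide +kernel)) (by decide +kernel)
  · obtain ⟨J', σ, hJ', hmap, hmono, hth⟩ := exists_sorted (by omega) J hJ hL (by norm_num)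
    have hr' : ∀ i ∈ (Finset.univ.map J')ᶜ, ‖w i‖ ^ 2 < theta k (10 + 1) := fun i hi =>
      hrest i (hmap ▸ hi)
    have hx := budget_start_one hw J'
    have hbin := inBin_of_slots hw hth (a := 0) (c₁ := 0) (b := 0) (c₁' := 0) (c₂ := 1 / 5)
        (fun j hj => absurd hj (Nat.not_lt_zero _))
        (fun j hj => absurd hj (Nat.not_lt_zero _))
        (fun j _ => by push_cast; exact norm_mom_sq_le_fifth hw _)
    have hR := restSq_le_of_tab hw J' tab_r10 tab_r10_ok
        (bin_bounds_zero hbin _ (by decide +kernel))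
        (γ := 6903 / 10000) (R := 1021 / 500000) (by norm_num) (by norm_num) (rest_cost_six hw J' hk (by norm_num) hr') (by decide +kernel)
    exact false_of_budget hw J' (by norm_num) (ε := 1) (R := 1021 / 500000) hx hR
        (fun X hX => capGrid8_valid finrank_euclideanSpace_fin hX) tab_s10 tab_s10_ok
        (bin_bounds hbin _ _ (by decide +kernel)) (by decide +kernel)

end Vale.Agent.P226
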