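import Vale.Agent.P226.Facts

/-!
# Self-consistent maximisers of the partition functional
-/

namespace Vale.Agent.P226

open MeasureTheory ProbabilityTheory Real Set Finset
open scoped RealInnerProductSpace

variable {E : Type*} [NormedAddCommGroup E] [InnerProductSpace ℝ E] [FiniteDimensional ℝ E]
  [MeasurableSpace E] [BorelSpace E] {k : ℕ}

/-- A measurable partition indexed by `Fin k`. -/
structure IsPart (A : Fin k → Set E) : Prop where
  meas : ∀ i, MeasurableSet (A i)
  disj : Pairwise fun i j => Disjoint (A i) (A j)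
  cover : ⋃ i, A i = Set.univ

/-- The functional of the propeller problem. -/
noncomputable def val (A : Fin k → Set E) : ℝ := ∑ i, ‖mom (A i)‖ ^ 2

/-- The largest of the linear forms. -/
noncomputable def supInner [NeZero k] (w : Fin k → E) (x : E) : ℝ :=
  Finset.univ.sup' univ_nonempty fun i => ⟪w i, x⟫

/-- The dual functional. -/
noncomputable def dual [NeZero k] (w : Fin k → E) : ℝ :=
  2 * ∫ x, supInner w x ∂stdGaussian E - ∑ i, ‖w i‖ ^ 2

variable [NeZero k]

lemma le_supInner (w : Fin k → E) (i : Fin k) (x : E) : ⟪w i, x⟫ ≤ supInner w x :=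
  Finset.le_sup' (fun i => ⟪w i, x⟫) (Finset.mem_univ i)

lemma continuous_supInner (w : Fin k → E) : Continuous (supInner w) :=
  Continuous.finset_sup'_apply univ_nonempty fun i _ => continuous_const.inner continuous_id

lemma abs_supInner_sub_le (w v : Fin k → E) (x : E) :
    |supInner w x - supInner v x| ≤ (∑ i, ‖w i - v i‖) * ‖x‖ := by
  have key : ∀ a b : Fin k → E, supInner a x ≤ supInner b x + (∑ i, ‖a i - b i‖) * ‖x‖ := by
    intro a b
    refine Finset.sup'_le _ _ fun i _ => ?_
    have h1 := le_supInner b i x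
    have h2 : ⟪a i - b i, x⟫ ≤ ‖a i - b i‖ * ‖x‖ := real_inner_le_norm _ _
    have h3 : ‖a i - b i‖ ≤ ∑ j, ‖a j - b j‖ :=
      Finset.single_le_sum (f := fun j => ‖a j - b j‖) (fun j _ => norm_nonneg _)
        (Finset.mem_univ i)
    rw [inner_sub_left] at h2
    nlinarith [norm_nonneg x]
  rw [abs_sub_le_iff]
  constructor
  · linarith [key w v]
  · have := key v w
    simp_rw [norm_sub_rev (v _) (w _)] at this
    linarith

lemma integrable_supInner (w : Fin k → E) : Integrable (supInner w) (stdGaussian E) := by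
  refine Integrable.mono' ((IsGaussian.integrable_id (μ := stdGaussian E)).norm.const_mul
    (∑ i, ‖w i‖)) (continuous_supInner w).aestronglyMeasurable (ae_of_all _ fun x => ?_)
  have h := abs_supInner_sub_le w (fun _ => 0) x
  simpa [supInner, Real.norm_eq_abs] using h

lemma dual_continuous : Continuous (dual : (Fin k → E) → ℝ) := by
  have h : Continuous fun w : Fin k → E => ∫ x, supInner w x ∂stdGaussian E := by
    refine (LipschitzWith.of_dist_le_mul
      (K := ((k : ℝ) * ∫ x, ‖x‖ ∂stdGaussian E).toNNReal) fun w v => ?_).continuous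
    rw [dist_eq_norm, dist_eq_norm, ← integral_sub (integrable_supInner w) (integrable_supInner v)]
    refine (norm_integral_le_integral_norm _).trans ?_
    have hsum : ∑ i, ‖w i - v i‖ ≤ (k : ℝ) * ‖w - v‖ := by
      calc ∑ i, ‖w i - v i‖ ≤ ∑ _i : Fin k, ‖w - v‖ :=
            Finset.sum_le_sum fun i _ => norm_le_pi_norm (w - v) i
        _ = (k : ℝ) * ‖w - v‖ := by simp
    calc ∫ x, ‖supInner w x - supInner v x‖ ∂stdGaussian E
        ≤ ∫ x, ((k : ℝ) * ‖w - v‖) * ‖x‖ ∂stdGaussian E :=
          integral_mono ((integrable_supInner w).sub (integrable_supInner v)).norm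
            (IsGaussian.integrable_id.norm.const_mul _) fun x =>
              (abs_supInner_sub_le w v x).trans (mul_le_mul_of_nonneg_right hsum (norm_nonneg x))
      _ = _ := by rw [integral_const_mul]; rw [Real.coe_toNNReal _ (by positivity)]; ring
  exact (h.const_mul 2).sub (continuous_finsetSum _ fun i _ => (continuous_apply i).norm.pow 2)

lemma IsPart.integral_eq {A : Fin k → Set E} (hA : IsPart A) {f : E → ℝ}
    (hf : Integrable f (stdGaussian E)) :
    ∑ i, ∫ x in A i, f x ∂stdGaussian E = ∫ x, f x ∂stdGaussian E := by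
  rw [← integral_iUnion_fintype hA.meas hA.disj fun i => hf.integrableOn, hA.cover,
    setIntegral_univ]

lemma IsPart.sum_measure {A : Fin k → Set E} (hA : IsPart A) :
    ∑ i, (stdGaussian E).real (A i) = 1 := by
  have h := hA.integral_eq (integrable_const (1 : ℝ))
  simpa using h

lemma IsPart.sum_mom {A : Fin k → Set E} (hA : IsPart A) : ∑ i, mom (A i) = 0 := by
  refine ext_inner_left ℝ fun u => ?_
  rw [inner_sum, inner_zero_right]
  calc ∑ i, ⟪u, mom (A i)⟫ = ∑ i, ∫ x in A i, ⟪u, x⟫ ∂stdGaussian E :=
        Finset.sum_congr rfl fun i _ => (inner_mom u _).symm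
    _ = ∫ x, ⟪u, x⟫ ∂stdGaussian E := hA.integral_eq (integrable_inner u)
    _ = 0 := integral_strongDual_stdGaussian (innerSL ℝ u)

/-- The dual functional dominates every partition. -/
lemma val_le_dual {A : Fin k → Set E} (hA : IsPart A) :
    val A ≤ dual fun i => mom (A i) := by
  have h : ∑ i, ‖mom (A i)‖ ^ 2 ≤ ∫ x, supInner (fun i => mom (A i)) x ∂stdGaussian E := by
    rw [← hA.integral_eq (integrable_supInner _)]
    refine Finset.sum_le_sum fun i _ => ?_
    rw [← real_inner_self_eq_norm_sq, ← inner_mom]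
    exact setIntegral_mono_on (integrable_inner _).integrableOn
      (integrable_supInner _).integrableOn (hA.meas i) fun x _ => le_supInner (fun i => mom (A i)) i x
  unfold val dual
  linarith

/-- The cell of the `i`th linear form, ties going to the smaller index. -/
def cell (w : Fin k → E) (i : Fin k) : Set E :=
  {x | (∀ j, ⟪w j, x⟫ ≤ ⟪w i, x⟫) ∧ ∀ j, j < i → ¬ ∀ l, ⟪w l, x⟫ ≤ ⟪w j, x⟫}

lemma cell_isPart (w : Fin k → E) : IsPart (cell w) where
  meas i := by
    have hc : ∀ j, MeasurableSet {x : E | ∀ l, ⟪w l, x⟫ ≤ ⟪w j, x⟫} := fun j => by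
      rw [Set.ofPred_forall]
      exact MeasurableSet.iInter fun l =>
        (isClosed_le (continuous_const.inner continuous_id)
          (continuous_const.inner continuous_id)).measurableSet
    have : cell w i = {x : E | ∀ l, ⟪w l, x⟫ ≤ ⟪w i, x⟫} ∩
        ⋂ j, ⋂ (_ : j < i), {x : E | ∀ l, ⟪w l, x⟫ ≤ ⟪w j, x⟫}ᶜ := by
      ext x; simp [cell]
    rw [this]
    exact (hc i).inter (MeasurableSet.iInter fun j => MeasurableSet.iInter fun _ => (hc j).compl)
  disj i j hij := by
    dsimp only
    rw [Set.disjoint_left]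
    intro x hi hj
    rcases lt_or_gt_of_ne hij with h | h
    · exact hj.2 i h hi.1
    · exact hi.2 j h hj.1
  cover := by
    rw [Set.eq_univ_iff_forall]
    intro x
    classical
    set S := Finset.univ.filter fun i : Fin k => ∀ l, ⟪w l, x⟫ ≤ ⟪w i, x⟫ with hS
    have hne : S.Nonempty := by
      obtain ⟨i, -, hi⟩ := Finset.exists_max_image Finset.univ (fun i => ⟪w i, x⟫) univ_nonempty
      exact ⟨i, Finset.mem_filter.mpr ⟨Finset.mem_univ i, fun l => hi l (Finset.mem_univ l)⟩⟩
    refine Set.mem_iUnion.mpr ⟨S.min' hne, (Finset.mem_filter.mp (S.min'_mem hne)).2,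
      fun j hj hmax => ?_⟩
    exact (S.min'_le j (Finset.mem_filter.mpr ⟨Finset.mem_univ j, hmax⟩)).not_gt hj

lemma dual_eq (w : Fin k → E) :
    dual w = val (cell w) - ∑ i, ‖w i - mom (cell w i)‖ ^ 2 := by
  have h : ∫ x, supInner w x ∂stdGaussian E = ∑ i, ⟪w i, mom (cell w i)⟫ := by
    rw [← (cell_isPart w).integral_eq (integrable_supInner w)]
    refine Finset.sum_congr rfl fun i _ => ?_
    rw [← inner_mom]
    refine setIntegral_congr_fun ((cell_isPart w).meas i) fun x hx => ?_
    exact le_antisymm (Finset.sup'_le _ _ fun j _ => hx.1 j) (le_supInner w i x)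
  rw [dual, h, val, ← Finset.sum_sub_distrib, Finset.mul_sum, ← Finset.sum_sub_distrib]
  refine Finset.sum_congr rfl fun i _ => ?_
  rw [norm_sub_sq_real]
  ring

/-- There is a family of vectors equal to the moments of its own cells and dominating every
partition into `k` cells. -/
lemma exists_extremal :
    ∃ w : Fin k → E, (∀ i, w i = mom (cell w i)) ∧
      ∀ A : Fin k → Set E, IsPart A → val A ≤ ∑ i, ‖w i‖ ^ 2 := by
  set R := momC with hR
  have hR0 : 0 ≤ R := by have := qmom_nonneg; rw [hR, momC]; linarith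
  set B : Set (Fin k → E) := Metric.closedBall 0 R with hB
  have hmem : ∀ A : Fin k → Set E, IsPart A → (fun i => mom (A i)) ∈ B := by
    intro A hA
    rw [hB, mem_closedBall_zero_iff, pi_norm_le_iff_of_nonneg hR0]
    intro i
    refine (norm_mom_le (hA.meas i)).trans ?_
    calc momC * (stdGaussian E).real (A i) ^ bexp ≤ momC * 1 :=
          mul_le_mul_of_nonneg_left
            (Real.rpow_le_one measureReal_nonneg measureReal_le_one (by unfold bexp; norm_num)) hR0
      _ = R := mul_one _
  obtain ⟨w, hwB, hw⟩ := (isCompact_closedBall (0 : Fin k → E) R).exists_isMaxOn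
    (Metric.nonempty_closedBall.mpr hR0) dual_continuous.continuousOn
  have hdom : ∀ A : Fin k → Set E, IsPart A → val A ≤ dual w := fun A hA =>
    (val_le_dual hA).trans (hw (hmem A hA))
  have h0 : ∀ i, w i = mom (cell w i) := by
    have h1 := hdom _ (cell_isPart w)
    rw [dual_eq] at h1
    have h2 : ∑ i, ‖w i - mom (cell w i)‖ ^ 2 = 0 :=
      le_antisymm (by linarith) (Finset.sum_nonneg fun i _ => sq_nonneg _)
    intro i
    have h3 := (Finset.sum_eq_zero_iff_of_nonneg fun i _ => sq_nonneg _).mp h2 i (Finset.mem_univ i)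
    rwa [sq_eq_zero_iff, norm_eq_zero, sub_eq_zero] at h3
  refine ⟨w, h0, fun A hA => (hdom A hA).trans (le_of_eq ?_)⟩
  rw [dual_eq, val]
  simp [← h0]

/-- Merging cells cannot help an extremal family. -/
lemma merge_le (w : Fin k → E) (h0 : ∀ i, w i = mom (cell w i))
    (hmax : ∀ A : Fin k → Set E, IsPart A → val A ≤ ∑ i, ‖w i‖ ^ 2) (S : Finset (Fin k)) :
    ‖∑ i ∈ S, w i‖ ^ 2 ≤ ∑ i ∈ S, ‖w i‖ ^ 2 := by
  classical
  rcases S.eq_empty_or_nonempty with rfl | hS
  · simp
  obtain ⟨s, hs⟩ := hS
  set A : Fin k → Set E := fun i =>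
    if i = s then ⋃ j ∈ S, cell w j else if i ∈ S then ∅ else cell w i with hAdef
  have hp := cell_isPart w
  have hA : IsPart A := by
    constructor
    · intro i
      simp only [hAdef]
      split_ifs
      · exact S.measurableSet_biUnion fun j _ => hp.meas j
      · exact MeasurableSet.empty
      · exact hp.meas i
    · have hout : ∀ j, j ∉ S → Disjoint (⋃ l ∈ S, cell w l) (cell w j) := by
        intro j hj
        simp only [Set.disjoint_iUnion_left]
        exact fun l hl => hp.disj (fun h : l = j => hj (h ▸ hl))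
      intro i j hij
      simp only [hAdef]
      split_ifs with h1 h2 h3 h4 h5 h6 h7
      all_goals first
        | exact absurd (h1.trans h2.symm) hij
        | exact Set.empty_disjoint _
        | exact Set.disjoint_empty _
        | exact hout _ (by assumption)
        | exact (hout _ (by assumption)).symm
        | exact hp.disj hij
    · rw [Set.eq_univ_iff_forall]
      intro x
      obtain ⟨i, hi⟩ := Set.mem_iUnion.mp (hp.cover.symm ▸ Set.mem_univ x : x ∈ ⋃ i, cell w i)
      by_cases hiS : i ∈ S
      · exact Set.mem_iUnion.mpr ⟨s, by simp only [hAdef, if_pos]; exact Set.mem_biUnion hiS hi⟩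
      · have his : i ≠ s := fun h => hiS (h ▸ hs)
        exact Set.mem_iUnion.mpr ⟨i, by simp [hAdef, his, hiS, hi]⟩
  have hmom : mom (⋃ j ∈ S, cell w j) = ∑ j ∈ S, w j := by
    unfold mom
    rw [integral_biUnion_finset (μ := stdGaussian E) (f := fun x : E => x) S
      (fun j _ => hp.meas j) (fun i _ j _ hij => hp.disj hij)
      fun j _ => (IsGaussian.integrable_id (μ := stdGaussian E)).integrableOn]
    exact Finset.sum_congr rfl fun j _ => (h0 j).symm
  have hval : val A = ‖∑ j ∈ S, w j‖ ^ 2 + ∑ i ∈ Sᶜ, ‖w i‖ ^ 2 := by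
    unfold val
    rw [← Finset.sum_add_sum_compl S]
    congr 1
    · rw [Finset.sum_eq_single_of_mem s hs]
      · simp only [hAdef, if_pos]; rw [hmom]
      · intro i hi his
        simp [hAdef, his, hi, mom]
    · refine Finset.sum_congr rfl fun i hi => ?_
      rw [Finset.mem_compl] at hi
      have his : i ≠ s := fun h => hi (h ▸ hs)
      simp only [hAdef, if_neg his, if_neg hi, ← h0]
  have h := hmax A hA
  rw [hval, ← Finset.sum_add_sum_compl S (fun i => ‖w i‖ ^ 2)] at h
  linarith

end Vale.Agent.P226
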