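import Vale.Agent.P226.Cone
import Vale.Agent.P226.Extremal
import Vale.Agent.P262.Tail

/-!
# The cap bound on the moment of a cone

Among cones of a given measure in dimension `n + 1` the circular cap has the largest moment; for
every height `s` this gives `‖z A‖ ≤ φ₀ √(1-s²)^n + s K (γ A - capMass n s)`.
-/

namespace Vale.Agent.P226

open MeasureTheory ProbabilityTheory Real Set Finset
open scoped RealInnerProductSpace NNReal

/-- The Gaussian measure of the circular cap cone of height `s`. -/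
noncomputable def capMass (n : ℕ) (s : ℝ) : ℝ :=
  (Measure.pi fun _ : Fin (n + 1) => gaussianReal 0 1).real {x | s * √(∑ i, x i ^ 2) < x 0}

private lemma integral_upper_id (c : ℝ) :
    ∫ y in Ioi c, y ∂gaussianReal 0 1 = gaussianPDFReal 0 1 c := by
  rw [gaussianReal_of_var_ne_zero 0 one_ne_zero, gaussianPDF_def,
    setIntegral_withDensity_eq_setIntegral_toReal_smul (by fun_prop)
      (ae_of_all _ fun x => by simp) _ measurableSet_Ioi]
  simp only [ENNReal.toReal_ofReal (gaussianPDFReal_nonneg _ _ _), smul_eq_mul]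
  have hd : ∀ s : ℝ, HasDerivAt (fun s => -gaussianPDFReal 0 1 s)
      (gaussianPDFReal 0 1 s * s) s := fun s => by
    have h : HasDerivAt (fun s : ℝ => -s ^ 2 / 2) (-s) s := by
      refine ((((hasDerivAt_id s).pow 2).neg).div_const 2).congr_deriv ?_
      simp
      ring
    simp only [gaussianPDFReal, NNReal.coe_one, mul_one, sub_zero]
    refine (h.exp.const_mul (√(2 * π))⁻¹).neg.congr_deriv ?_
    ring
  have hi : Integrable fun s : ℝ => gaussianPDFReal 0 1 s * s := by
    have h := (integrable_mul_exp_neg_mul_sq (b := 1 / 2) (by norm_num)).const_mul (√(2 * π))⁻¹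
    refine h.congr (ae_of_all _ fun s => ?_)
    simp only [gaussianPDFReal, NNReal.coe_one, mul_one, sub_zero]
    ring_nf
  have ht : Filter.Tendsto (fun s => -gaussianPDFReal 0 1 s) Filter.atTop (nhds 0) := by
    have h : Filter.Tendsto (fun s : ℝ => -s ^ 2 / 2) Filter.atTop Filter.atBot := by
      simp_rw [neg_div]
      exact Filter.tendsto_neg_atTop_atBot.comp
        ((Filter.tendsto_pow_atTop (two_ne_zero)).atTop_div_const two_pos)
    simpa [gaussianPDFReal] using ((tendsto_exp_atBot.comp h).const_mul (√(2 * π))⁻¹).neg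
  rw [integral_Ioi_of_hasDerivAt_of_tendsto' (fun s _ => hd s) hi.integrableOn ht]
  ring

private lemma coords_cap_moment (n : ℕ) {s : ℝ} (hs0 : 0 ≤ s) (hs1 : s < 1) :
    ∫ x in {x : Fin (n + 1) → ℝ | s * √(∑ i, x i ^ 2) < x 0}, x 0
      ∂Measure.pi (fun _ => gaussianReal 0 1) = (√(2 * π))⁻¹ * √(1 - s ^ 2) ^ n := by
  set μ := Measure.pi fun _ : Fin n => gaussianReal 0 1
  set a := s / √(1 - s ^ 2) with ha
  have hs2 : 0 < 1 - s ^ 2 := by nlinarith
  have hq : 0 < √(1 - s ^ 2) := sqrt_pos.2 hs2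
  have ha0 : 0 ≤ a := div_nonneg hs0 hq.le
  have ha2 : 1 + a ^ 2 = 1 / (1 - s ^ 2) := by
    rw [ha, div_pow, sq_sqrt hs2.le]; field_simp; ring
  have hmp := measurePreserving_piFinSuccAbove (fun _ : Fin (n + 1) => gaussianReal 0 1) 0
  have hset : ∀ (y : ℝ) (r : Fin n → ℝ),
      (s * √(y ^ 2 + ∑ i, r i ^ 2) < y) ↔ a * √(∑ i, r i ^ 2) < y := by
    intro y r
    have hR : 0 ≤ ∑ i, r i ^ 2 := Finset.sum_nonneg fun _ _ => sq_nonneg _
    set R := √(∑ i, r i ^ 2) with hR'
    have hRsq : R ^ 2 = ∑ i, r i ^ 2 := sq_sqrt hR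
    have hR0 : 0 ≤ R := sqrt_nonneg _
    rcases le_or_gt y 0 with hy | hy
    · constructor <;> intro h
      · nlinarith [mul_nonneg hs0 (sqrt_nonneg (y ^ 2 + ∑ i, r i ^ 2))]
      · nlinarith [mul_nonneg ha0 hR0]
    rw [← abs_of_nonneg (mul_nonneg hs0 (sqrt_nonneg _)), ← abs_of_nonneg (mul_nonneg ha0 hR0)]
    conv_lhs => rw [← abs_of_pos hy, ← sq_lt_sq, mul_pow, sq_sqrt (by positivity), sq_abs]
    conv_rhs => rw [← abs_of_pos hy, ← sq_lt_sq, mul_pow, hRsq, ha, div_pow, sq_sqrt hs2.le,
      div_mul_eq_mul_div, div_lt_iff₀ hs2]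
    constructor <;> intro h <;> linarith
  set F : ℝ × (Fin n → ℝ) → ℝ := {p | a * √(∑ i, p.2 i ^ 2) < p.1}.indicator fun p => p.1 with hF
  have hFm : MeasurableSet {p : ℝ × (Fin n → ℝ) | a * √(∑ i, p.2 i ^ 2) < p.1} :=
    measurableSet_lt (by fun_prop) (by fun_prop)
  have hm : MeasurableSet {x : Fin (n + 1) → ℝ | s * √(∑ i, x i ^ 2) < x 0} :=
    measurableSet_lt (by fun_prop) (by fun_prop)
  rw [← integral_indicator hm]
  calc ∫ x, {x : Fin (n + 1) → ℝ | s * √(∑ i, x i ^ 2) < x 0}.indicator (fun x => x 0) x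
        ∂Measure.pi (fun _ => gaussianReal 0 1)
      = ∫ p, F p ∂(gaussianReal 0 1).prod μ := by
        rw [← hmp.integral_comp' F]
        refine integral_congr_ae (ae_of_all _ fun x => ?_)
        simp only [hF, MeasurableEquiv.piFinSuccAbove_apply, Fin.insertNthEquiv_symm_apply,
          Set.indicator_apply, Set.mem_ofPred_eq, Fin.removeNth, Fin.zero_succAbove, ← hset,
          ← Fin.sum_univ_succ fun i => x i ^ 2]
    _ = ∫ r, gaussianPDFReal 0 1 (a * √(∑ i, r i ^ 2)) ∂μ := by
        have hFi : Integrable F ((gaussianReal 0 1).prod μ) :=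
          (((memLp_id_gaussianReal 1).integrable le_rfl).comp_fst μ).indicator hFm
        rw [integral_prod_symm _ hFi]
        refine integral_congr_ae (ae_of_all _ fun r => ?_)
        simp only [hF]
        rw [← integral_upper_id, ← integral_indicator measurableSet_Ioi]
        rfl
    _ = (√(2 * π))⁻¹ * ∏ _i : Fin n, √(1 / (1 - 2 * (-(a ^ 2) / 2))) := by
        rw [← Finset.prod_congr rfl fun i _ =>
          (P262.gaussianReal_exp_sq (b := -(a ^ 2) / 2) (by nlinarith [sq_nonneg a])).2,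
          ← integral_fintype_prod_eq_prod (f := fun (_ : Fin n) (t : ℝ) =>
            exp (-(a ^ 2) / 2 * t ^ 2)), ← integral_const_mul]
        refine integral_congr_ae (ae_of_all _ fun r => ?_)
        simp only [gaussianPDFReal, NNReal.coe_one, mul_one, sub_zero, ← exp_sum,
          ← Finset.mul_sum, mul_pow,
          sq_sqrt (Finset.sum_nonneg fun i _ => sq_nonneg (r i))]
        ring_nf
    _ = _ := by
        rw [Finset.prod_const, Finset.card_univ, Fintype.card_fin,
          show 1 - 2 * (-(a ^ 2) / 2) = 1 + a ^ 2 by ring, ha2, one_div_one_div]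

variable {E : Type*} [NormedAddCommGroup E] [InnerProductSpace ℝ E] [FiniteDimensional ℝ E]
  [MeasurableSpace E] [BorelSpace E]

/-- The circular cap cone. -/
def capSet (u : E) (s : ℝ) : Set E := {x | s * ‖x‖ < ⟪u, x⟫}

omit [FiniteDimensional ℝ E] in
lemma measurableSet_capSet (u : E) (s : ℝ) : MeasurableSet (capSet u s) :=
  (isOpen_lt (continuous_const.mul continuous_norm)
    (continuous_const.inner continuous_id)).measurableSet

omit [FiniteDimensional ℝ E] [MeasurableSpace E] [BorelSpace E] in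
lemma isCone_capSet (u : E) (s : ℝ) : IsCone (capSet u s) := fun c hc x => by
  simp only [capSet, Set.mem_ofPred_eq, norm_smul, Real.norm_eq_abs, abs_of_pos hc,
    real_inner_smul_right]
  rw [mul_left_comm]
  exact mul_lt_mul_iff_of_pos_left hc

omit [FiniteDimensional ℝ E] [MeasurableSpace E] [BorelSpace E] in
/-- The cells of a family are cones. -/
lemma isCone_cell {k : ℕ} [NeZero k] (w : Fin k → E) (i : Fin k) : IsCone (cell w i) :=
  fun c hc x => by
    simp only [cell, Set.mem_ofPred_eq, real_inner_smul_right, mul_le_mul_iff_of_pos_left hc]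

/-- The moment and measure of a cap in coordinates. -/
lemma cap_eq {n : ℕ} (hn : Module.finrank ℝ E = n + 1) (u : E) (hu : ‖u‖ = 1) {s : ℝ}
    (hs0 : 0 ≤ s) (hs1 : s < 1) :
    ∫ x in capSet u s, ⟪u, x⟫ ∂stdGaussian E = (√(2 * π))⁻¹ * √(1 - s ^ 2) ^ n ∧
      (stdGaussian E).real (capSet u s) = capMass n s := by
  have ho : Orthonormal ℝ (({0} : Set (Fin (n + 1))).domRestrict fun _ : Fin (n + 1) => u) :=
    ⟨fun _ => hu, fun i j hij => absurd (Subsingleton.elim i j) hij⟩
  obtain ⟨b, hb⟩ := ho.exists_orthonormalBasis_extension_of_card_eq (by rw [hn, Fintype.card_fin])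
  have hb0 : b 0 = u := hb 0 rfl
  set T : (Fin (n + 1) → ℝ) → E := fun x => ∑ i, x i • b i with hT
  have hTm : Measurable T := by fun_prop
  have hin : ∀ x, ⟪u, T x⟫ = x 0 := fun x => by
    rw [← hb0, hT]; exact b.orthonormal.inner_right_fintype x 0
  have hnorm : ∀ x, ‖T x‖ = √(∑ i, x i ^ 2) := fun x => by
    rw [← sqrt_sq (norm_nonneg _), ← real_inner_self_eq_norm_sq, hT, b.orthonormal.inner_sum]
    simp [sq]
  have hpre : T ⁻¹' capSet u s = {x | s * √(∑ i, x i ^ 2) < x 0} := by
    ext x; simp [capSet, hin, hnorm]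
  constructor
  · rw [stdGaussian_eq_map_pi_orthonormalBasis b, ← hT, setIntegral_map (measurableSet_capSet u s)
      (by fun_prop) hTm.aemeasurable, hpre]
    simp only [hin]
    exact coords_cap_moment n hs0 hs1
  · rw [stdGaussian_eq_map_pi_orthonormalBasis b, ← hT, map_measureReal_apply hTm
      (measurableSet_capSet u s), hpre, capMass]

/-- The cap bound tested in a direction. -/
theorem inner_mom_le_cap {n : ℕ} (hn : Module.finrank ℝ E = n + 1) {A : Set E} (hA : IsCone A)
    (hm : MeasurableSet A) (u : E) (hu : ‖u‖ = 1) {s : ℝ} (hs0 : 0 ≤ s) (hs1 : s < 1) :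
    ⟪u, mom A⟫ ≤ (√(2 * π))⁻¹ * √(1 - s ^ 2) ^ n +
      s * meanNorm E * ((stdGaussian E).real A - capMass n s) := by
  have : Nontrivial E := Module.nontrivial_of_finrank_pos (R := ℝ) (by omega)
  obtain ⟨hM, hP⟩ := cap_eq hn u hu hs0 hs1
  have hN : Integrable (fun x : E => s * ‖x‖) (stdGaussian E) :=
    IsGaussian.integrable_id.norm.const_mul s
  have hi : Integrable (fun x => ⟪u, x⟫ - s * ‖x‖) (stdGaussian E) :=
    (integrable_inner u).sub hN
  have hle : ∫ x in A, (⟪u, x⟫ - s * ‖x‖) ∂stdGaussian E ≤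
      ∫ x in capSet u s, (⟪u, x⟫ - s * ‖x‖) ∂stdGaussian E := by
    rw [← integral_indicator hm, ← integral_indicator (measurableSet_capSet u s)]
    refine integral_mono (hi.indicator hm) (hi.indicator (measurableSet_capSet u s)) fun x => ?_
    by_cases hxC : x ∈ capSet u s <;> by_cases hxA : x ∈ A <;> simp [hxC, hxA] <;>
      simp only [capSet, Set.mem_ofPred_eq] at hxC <;> linarith
  rw [integral_sub (integrable_inner u).integrableOn hN.integrableOn,
    integral_sub (integrable_inner u).integrableOn hN.integrableOn, integral_const_mul,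
    integral_const_mul, inner_mom, hA.integral_norm hm, hM,
    (isCone_capSet u s).integral_norm (measurableSet_capSet u s), hP] at hle
  linarith

/-- The cap bound: a cone has at most the moment of the cap, corrected linearly in the measure. -/
theorem norm_mom_le_cap {n : ℕ} (hn : Module.finrank ℝ E = n + 1) {A : Set E} (hA : IsCone A)
    (hm : MeasurableSet A) {s : ℝ} (hs0 : 0 ≤ s) (hs1 : s < 1) :
    ‖mom A‖ ≤ (√(2 * π))⁻¹ * √(1 - s ^ 2) ^ n +
      s * meanNorm E * ((stdGaussian E).real A - capMass n s) := by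
  have : Nontrivial E := Module.nontrivial_of_finrank_pos (R := ℝ) (by omega)
  rcases eq_or_ne (mom A) 0 with h | h
  · obtain ⟨u, hu⟩ := exists_norm_eq E (zero_le_one' ℝ)
    have := inner_mom_le_cap hn hA hm u hu hs0 hs1
    rwa [h, inner_zero_right, ← norm_zero (E := E), ← h] at this
  · have := inner_mom_le_cap hn hA hm (‖mom A‖⁻¹ • mom A) (norm_smul_inv_norm (𝕜 := ℝ) h) hs0 hs1
    rwa [real_inner_smul_left, real_inner_self_eq_norm_sq, pow_two,
      inv_mul_cancel_left₀ (norm_ne_zero_iff.mpr h)] at this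

/-- The moment and measure of two caps compared. -/
lemma capMass_sandwich {n : ℕ} (hn : Module.finrank ℝ E = n + 1) {s t : ℝ} (hs0 : 0 ≤ s)
    (hs1 : s < 1) (ht0 : 0 ≤ t) (ht1 : t < 1) :
    s * (meanNorm E * (capMass n s - capMass n t)) ≤
      (√(2 * π))⁻¹ * (√(1 - s ^ 2) ^ n - √(1 - t ^ 2) ^ n) := by
  have : Nontrivial E := Module.nontrivial_of_finrank_pos (R := ℝ) (by omega)
  obtain ⟨u, hu⟩ := exists_norm_eq E (zero_le_one' ℝ)
  have h := inner_mom_le_cap hn (isCone_capSet u t) (measurableSet_capSet u t) u hu hs0 hs1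
  obtain ⟨hM, hP⟩ := cap_eq hn u hu ht0 ht1
  rw [← inner_mom, hM, hP] at h
  linarith

/-- The measure of a high cap vanishes. -/
lemma mul_capMass_le {n : ℕ} (hn : Module.finrank ℝ E = n + 1) {t : ℝ} (ht0 : 0 ≤ t)
    (ht1 : t < 1) :
    0 ≤ meanNorm E * capMass n t ∧
      t * (meanNorm E * capMass n t) ≤ (√(2 * π))⁻¹ * √(1 - t ^ 2) ^ n := by
  have : Nontrivial E := Module.nontrivial_of_finrank_pos (R := ℝ) (by omega)
  obtain ⟨u, hu⟩ := exists_norm_eq E (zero_le_one' ℝ)
  have h := inner_mom_le_cap hn (A := ∅) (fun _ _ _ => Iff.rfl) MeasurableSet.empty u hu ht0 ht1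
  refine ⟨mul_nonneg (integral_nonneg fun x => norm_nonneg x) measureReal_nonneg, ?_⟩
  rw [show mom (∅ : Set E) = 0 from setIntegral_empty, inner_zero_right, measureReal_empty] at h
  linarith

/-- Near the equator the measure of the cap is close to one half. -/
lemma capMass_zero_near {n : ℕ} (hn : Module.finrank ℝ E = n + 1) :
    capMass n 0 = 1 / 2 ∧ ∀ t, 0 < t → t < 1 →
      1 / 2 - capMass n t ≤ √t * (1 + meanNorm E) := by
  have : Nontrivial E := Module.nontrivial_of_finrank_pos (R := ℝ) (by omega)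
  obtain ⟨u, hu⟩ := exists_norm_eq E (zero_le_one' ℝ)
  have hm : Measurable fun x : E => ⟪u, x⟫ := (innerSL ℝ u).continuous.measurable
  have h0 : (stdGaussian E).real (capSet u 0) = 1 / 2 := by
    have h : capSet u (0 : ℝ) = (fun x : E => ⟪u, x⟫) ⁻¹' Ioi 0 := by ext x; simp [capSet]
    rw [h, ← map_measureReal_apply hm measurableSet_Ioi, map_inner_unit u hu]
    have hneg : (gaussianReal 0 1).real (Iio 0) = (gaussianReal 0 1).real (Ioi 0) := by
      conv_lhs => rw [← neg_zero, ← gaussianReal_map_neg, map_measureReal_apply measurable_neg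
        measurableSet_Iio]
      simp
    have : gaussianReal 0 1 {(0 : ℝ)} = 0 :=
      (gaussianReal_absolutelyContinuous 0 one_ne_zero) (measure_singleton _)
    have htot : (gaussianReal 0 1).real (Iio 0) + (gaussianReal 0 1).real (Ioi 0) = 1 := by
      rw [← measureReal_union Set.Iio_disjoint_Ioi_same measurableSet_Ioi, Set.Iio_union_Ioi,
        measureReal_compl (measurableSet_singleton _), probReal_univ]
      simp [measureReal_def, this]
    linarith
  refine ⟨by rw [← h0, (cap_eq hn u hu le_rfl one_pos).2], fun t ht0 ht1 => ?_⟩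
  rw [← h0, ← (cap_eq hn u hu ht0.le ht1).2]
  have hsub : capSet u 0 ⊆ capSet u t ∪ ((fun x : E => ⟪u, x⟫) ⁻¹' Icc (-√t) √t ∪
      {x | (√t)⁻¹ ≤ ‖x‖}) := by
    intro x hx
    rcases lt_or_ge (t * ‖x‖) ⟪u, x⟫ with h | h
    · exact Or.inl h
    refine Or.inr ?_
    rcases le_or_gt (√t)⁻¹ ‖x‖ with h' | h'
    · exact Or.inr h'
    have hs : 0 < √t := sqrt_pos.2 ht0
    simp only [capSet, Set.mem_ofPred_eq, zero_mul] at hx
    refine Or.inl ⟨by linarith, h.trans ?_⟩
    calc t * ‖x‖ ≤ t * (√t)⁻¹ := mul_le_mul_of_nonneg_left h'.le ht0.le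
      _ = √t := by rw [← div_eq_mul_inv, div_sqrt]
  have hmk : (stdGaussian E).real {x : E | (√t)⁻¹ ≤ ‖x‖} ≤ √t * meanNorm E := by
    have h := mul_meas_ge_le_integral_of_nonneg (ae_of_all (stdGaussian E) fun x => norm_nonneg x)
      IsGaussian.integrable_id.norm (√t)⁻¹
    rw [inv_mul_eq_div, div_le_iff₀ (sqrt_pos.2 ht0)] at h
    exact h.trans_eq (mul_comm _ _)
  have hint : (stdGaussian E).real ((fun x : E => ⟪u, x⟫) ⁻¹' Icc (-√t) √t) ≤ √t := by
    rw [← map_measureReal_apply hm measurableSet_Icc, map_inner_unit u hu]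
    exact gaussian_interval_le _ (sqrt_nonneg _)
  have h1 := (measureReal_mono (μ := stdGaussian E) hsub).trans
    ((measureReal_union_le _ _).trans (add_le_add le_rfl (measureReal_union_le _ _)))
  linarith

end Vale.Agent.P226
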