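import Vale.Agent.P226.CapLines

/-!
# Rational lines on a fine grid

Generated by an exact search; every line is checked against the bound here.
-/

namespace Vale.Agent.P226

open MeasureTheory ProbabilityTheory Real Set
open scoped RealInnerProductSpace

variable {E : Type*} [NormedAddCommGroup E] [InnerProductSpace ℝ E] [FiniteDimensional ℝ E]
  [MeasurableSpace E] [BorelSpace E]

private lemma capGrid4_0 (hn : Module.finrank ℝ E = 5) {X : Set E} (hX : IsCone X) (hm : MeasurableSet X) : √(2 * π) * ‖mom X‖ ≤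
    (((403 / 50000) : ℚ) : ℝ) + (((434667 / 100000) : ℚ) : ℝ) * (stdGaussian E).real X := by
  refine cap_line hn (by norm_num) hX hm (s := (163 / 200)) (q := (579461 / 1000000)) (G := capPrim 4 (163 / 200)) (by norm_num) (by norm_num)
    (by norm_num) (by norm_num) le_rfl ?_ ?_ <;> norm_num [capPrim]

private lemma capGrid4_1 (hn : Module.finrank ℝ E = 5) {X : Set E} (hX : IsCone X) (hm : MeasurableSet X) : √(2 * π) * ‖mom X‖ ≤
    (((117 / 10000) : ℚ) : ℝ) + (((210667 / 50000) : ℚ) : ℝ) * (stdGaussian E).real X := by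
  refine cap_line hn (by norm_num) hX hm (s := (79 / 100)) (q := (613107 / 1000000)) (G := capPrim 4 (79 / 100)) (by norm_num) (by norm_num)
    (by norm_num) (by norm_num) le_rfl ?_ ?_ <;> norm_num [capPrim]

private lemma capGrid4_2 (hn : Module.finrank ℝ E = 5) {X : Set E} (hX : IsCone X) (hm : MeasurableSet X) : √(2 * π) * ‖mom X‖ ≤
    (((1629 / 100000) : ℚ) : ℝ) + (((102 / 25) : ℚ) : ℝ) * (stdGaussian E).real X := by
  refine cap_line hn (by norm_num) hX hm (s := (153 / 200)) (q := (644031 / 1000000)) (G := capPrim 4 (153 / 200)) (by norm_num) (by norm_num)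
    (by norm_num) (by norm_num) le_rfl ?_ ?_ <;> norm_num [capPrim]

private lemma capGrid4_3 (hn : Module.finrank ℝ E = 5) {X : Set E} (hX : IsCone X) (hm : MeasurableSet X) : √(2 * π) * ‖mom X‖ ≤
    (((207 / 10000) : ℚ) : ℝ) + (((198667 / 50000) : ℚ) : ℝ) * (stdGaussian E).real X := by
  refine cap_line hn (by norm_num) hX hm (s := (149 / 200)) (q := (133413 / 200000)) (G := capPrim 4 (149 / 200)) (by norm_num) (by norm_num)
    (by norm_num) (by norm_num) le_rfl ?_ ?_ <;> norm_num [capPrim]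

private lemma capGrid4_4 (hn : Module.finrank ℝ E = 5) {X : Set E} (hX : IsCone X) (hm : MeasurableSet X) : √(2 * π) * ‖mom X‖ ≤
    (((2723 / 100000) : ℚ) : ℝ) + (((96 / 25) : ℚ) : ℝ) * (stdGaussian E).real X := by
  refine cap_line hn (by norm_num) hX hm (s := (18 / 25)) (q := (27759 / 40000)) (G := capPrim 4 (18 / 25)) (by norm_num) (by norm_num)
    (by norm_num) (by norm_num) le_rfl ?_ ?_ <;> norm_num [capPrim]

private lemma capGrid4_5 (hn : Module.finrank ℝ E = 5) {X : Set E} (hX : IsCone X) (hm : MeasurableSet X) : √(2 * π) * ‖mom X‖ ≤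
    (((3331 / 100000) : ℚ) : ℝ) + (((186667 / 50000) : ℚ) : ℝ) * (stdGaussian E).real X := by
  refine cap_line hn (by norm_num) hX hm (s := (7 / 10)) (q := (714143 / 1000000)) (G := capPrim 4 (7 / 10)) (by norm_num) (by norm_num)
    (by norm_num) (by norm_num) le_rfl ?_ ?_ <;> norm_num [capPrim]

private lemma capGrid4_6 (hn : Module.finrank ℝ E = 5) {X : Set E} (hX : IsCone X) (hm : MeasurableSet X) : √(2 * π) * ‖mom X‖ ≤
    (((2103 / 50000) : ℚ) : ℝ) + (((18 / 5) : ℚ) : ℝ) * (stdGaussian E).real X := by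
  refine cap_line hn (by norm_num) hX hm (s := (27 / 40)) (q := (368909 / 500000)) (G := capPrim 4 (27 / 40)) (by norm_num) (by norm_num)
    (by norm_num) (by norm_num) le_rfl ?_ ?_ <;> norm_num [capPrim]

private lemma capGrid4_7 (hn : Module.finrank ℝ E = 5) {X : Set E} (hX : IsCone X) (hm : MeasurableSet X) : √(2 * π) * ‖mom X‖ ≤
    (((5217 / 100000) : ℚ) : ℝ) + (((346667 / 100000) : ℚ) : ℝ) * (stdGaussian E).real X := by
  refine cap_line hn (by norm_num) hX hm (s := (13 / 20)) (q := (151987 / 200000)) (G := capPrim 4 (13 / 20)) (by norm_num) (by norm_num)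
    (by norm_num) (by norm_num) le_rfl ?_ ?_ <;> norm_num [capPrim]

private lemma capGrid4_8 (hn : Module.finrank ℝ E = 5) {X : Set E} (hX : IsCone X) (hm : MeasurableSet X) : √(2 * π) * ‖mom X‖ ≤
    (((613 / 10000) : ℚ) : ℝ) + (((84 / 25) : ℚ) : ℝ) * (stdGaussian E).real X := by
  refine cap_line hn (by norm_num) hX hm (s := (63 / 100)) (q := (194149 / 250000)) (G := capPrim 4 (63 / 100)) (by norm_num) (by norm_num)
    (by norm_num) (by norm_num) le_rfl ?_ ?_ <;> norm_num [capPrim]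

private lemma capGrid4_9 (hn : Module.finrank ℝ E = 5) {X : Set E} (hX : IsCone X) (hm : MeasurableSet X) : √(2 * π) * ‖mom X‖ ≤
    (((3703 / 50000) : ℚ) : ℝ) + (((322667 / 100000) : ℚ) : ℝ) * (stdGaussian E).real X := by
  refine cap_line hn (by norm_num) hX hm (s := (121 / 200)) (q := (398113 / 500000)) (G := capPrim 4 (121 / 200)) (by norm_num) (by norm_num)
    (by norm_num) (by norm_num) le_rfl ?_ ?_ <;> norm_num [capPrim]

private lemma capGrid4_10 (hn : Module.finrank ℝ E = 5) {X : Set E} (hX : IsCone X) (hm : MeasurableSet X) : √(2 * π) * ‖mom X‖ ≤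
    (((4421 / 50000) : ℚ) : ℝ) + (((154667 / 50000) : ℚ) : ℝ) * (stdGaussian E).real X := by
  refine cap_line hn (by norm_num) hX hm (s := (29 / 50)) (q := (814617 / 1000000)) (G := capPrim 4 (29 / 50)) (by norm_num) (by norm_num)
    (by norm_num) (by norm_num) le_rfl ?_ ?_ <;> norm_num [capPrim]

private lemma capGrid4_11 (hn : Module.finrank ℝ E = 5) {X : Set E} (hX : IsCone X) (hm : MeasurableSet X) : √(2 * π) * ‖mom X‖ ≤
    (((10109 / 100000) : ℚ) : ℝ) + (((298667 / 100000) : ℚ) : ℝ) * (stdGaussian E).real X := by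
  refine cap_line hn (by norm_num) hX hm (s := (14 / 25)) (q := (828493 / 1000000)) (G := capPrim 4 (14 / 25)) (by norm_num) (by norm_num)
    (by norm_num) (by norm_num) le_rfl ?_ ?_ <;> norm_num [capPrim]

private lemma capGrid4_12 (hn : Module.finrank ℝ E = 5) {X : Set E} (hX : IsCone X) (hm : MeasurableSet X) : √(2 * π) * ‖mom X‖ ≤
    (((1481 / 12500) : ℚ) : ℝ) + (((142667 / 50000) : ℚ) : ℝ) * (stdGaussian E).real X := by
  refine cap_line hn (by norm_num) hX hm (s := (107 / 200)) (q := (844853 / 1000000)) (G := capPrim 4 (107 / 200)) (by norm_num) (by norm_num)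
    (by norm_num) (by norm_num) le_rfl ?_ ?_ <;> norm_num [capPrim]

private lemma capGrid4_13 (hn : Module.finrank ℝ E = 5) {X : Set E} (hX : IsCone X) (hm : MeasurableSet X) : √(2 * π) * ‖mom X‖ ≤
    (((6883 / 50000) : ℚ) : ℝ) + (((68 / 25) : ℚ) : ℝ) * (stdGaussian E).real X := by
  refine cap_line hn (by norm_num) hX hm (s := (51 / 100)) (q := (34407 / 40000)) (G := capPrim 4 (51 / 100)) (by norm_num) (by norm_num)
    (by norm_num) (by norm_num) le_rfl ?_ ?_ <;> norm_num [capPrim]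

private lemma capGrid4_14 (hn : Module.finrank ℝ E = 5) {X : Set E} (hX : IsCone X) (hm : MeasurableSet X) : √(2 * π) * ‖mom X‖ ≤
    (((1929 / 12500) : ℚ) : ℝ) + (((130667 / 50000) : ℚ) : ℝ) * (stdGaussian E).real X := by
  refine cap_line hn (by norm_num) hX hm (s := (49 / 100)) (q := (871723 / 1000000)) (G := capPrim 4 (49 / 100)) (by norm_num) (by norm_num)
    (by norm_num) (by norm_num) le_rfl ?_ ?_ <;> norm_num [capPrim]

private lemma capGrid4_15 (hn : Module.finrank ℝ E = 5) {X : Set E} (hX : IsCone X) (hm : MeasurableSet X) : √(2 * π) * ‖mom X‖ ≤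
    (((17687 / 100000) : ℚ) : ℝ) + (((62 / 25) : ℚ) : ℝ) * (stdGaussian E).real X := by
  refine cap_line hn (by norm_num) hX hm (s := (93 / 200)) (q := (885311 / 1000000)) (G := capPrim 4 (93 / 200)) (by norm_num) (by norm_num)
    (by norm_num) (by norm_num) le_rfl ?_ ?_ <;> norm_num [capPrim]

private lemma capGrid4_16 (hn : Module.finrank ℝ E = 5) {X : Set E} (hX : IsCone X) (hm : MeasurableSet X) : √(2 * π) * ‖mom X‖ ≤
    (((10069 / 50000) : ℚ) : ℝ) + (((234667 / 100000) : ℚ) : ℝ) * (stdGaussian E).real X := by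
  refine cap_line hn (by norm_num) hX hm (s := (11 / 25)) (q := (448999 / 500000)) (G := capPrim 4 (11 / 25)) (by norm_num) (by norm_num)
    (by norm_num) (by norm_num) le_rfl ?_ ?_ <;> norm_num [capPrim]

private lemma capGrid4_17 (hn : Module.finrank ℝ E = 5) {X : Set E} (hX : IsCone X) (hm : MeasurableSet X) : √(2 * π) * ‖mom X‖ ≤
    (((5561 / 25000) : ℚ) : ℝ) + (((56 / 25) : ℚ) : ℝ) * (stdGaussian E).real X := by
  refine cap_line hn (by norm_num) hX hm (s := (21 / 50)) (q := (36301 / 40000)) (G := capPrim 4 (21 / 50)) (by norm_num) (by norm_num)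
    (by norm_num) (by norm_num) le_rfl ?_ ?_ <;> norm_num [capPrim]

private lemma capGrid4_18 (hn : Module.finrank ℝ E = 5) {X : Set E} (hX : IsCone X) (hm : MeasurableSet X) : √(2 * π) * ‖mom X‖ ≤
    (((25061 / 100000) : ℚ) : ℝ) + (((210667 / 100000) : ℚ) : ℝ) * (stdGaussian E).real X := by
  refine cap_line hn (by norm_num) hX hm (s := (79 / 200)) (q := (459341 / 500000)) (G := capPrim 4 (79 / 200)) (by norm_num) (by norm_num)
    (by norm_num) (by norm_num) le_rfl ?_ ?_ <;> norm_num [capPrim]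

private lemma capGrid4_19 (hn : Module.finrank ℝ E = 5) {X : Set E} (hX : IsCone X) (hm : MeasurableSet X) : √(2 * π) * ‖mom X‖ ≤
    (((28089 / 100000) : ℚ) : ℝ) + (((98667 / 50000) : ℚ) : ℝ) * (stdGaussian E).real X := by
  refine cap_line hn (by norm_num) hX hm (s := (37 / 100)) (q := (116129 / 125000)) (G := capPrim 4 (37 / 100)) (by norm_num) (by norm_num)
    (by norm_num) (by norm_num) le_rfl ?_ ?_ <;> norm_num [capPrim]

private lemma capGrid4_20 (hn : Module.finrank ℝ E = 5) {X : Set E} (hX : IsCone X) (hm : MeasurableSet X) : √(2 * π) * ‖mom X‖ ≤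
    (((30667 / 100000) : ℚ) : ℝ) + (((186667 / 100000) : ℚ) : ℝ) * (stdGaussian E).real X := by
  refine cap_line hn (by norm_num) hX hm (s := (7 / 20)) (q := (3747 / 4000)) (G := capPrim 4 (7 / 20)) (by norm_num) (by norm_num)
    (by norm_num) (by norm_num) le_rfl ?_ ?_ <;> norm_num [capPrim]

private lemma capGrid4_21 (hn : Module.finrank ℝ E = 5) {X : Set E} (hX : IsCone X) (hm : MeasurableSet X) : √(2 * π) * ‖mom X‖ ≤
    (((34087 / 100000) : ℚ) : ℝ) + (((86667 / 50000) : ℚ) : ℝ) * (stdGaussian E).real X := by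
  refine cap_line hn (by norm_num) hX hm (s := (13 / 40)) (q := (189143 / 200000)) (G := capPrim 4 (13 / 40)) (by norm_num) (by norm_num)
    (by norm_num) (by norm_num) le_rfl ?_ ?_ <;> norm_num [capPrim]

private lemma capGrid4_22 (hn : Module.finrank ℝ E = 5) {X : Set E} (hX : IsCone X) (hm : MeasurableSet X) : √(2 * π) * ‖mom X‖ ≤
    (((37731 / 100000) : ℚ) : ℝ) + (((8 / 5) : ℚ) : ℝ) * (stdGaussian E).real X := by
  refine cap_line hn (by norm_num) hX hm (s := (3 / 10)) (q := (47697 / 50000)) (G := capPrim 4 (3 / 10)) (by norm_num) (by norm_num)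
    (by norm_num) (by norm_num) le_rfl ?_ ?_ <;> norm_num [capPrim]

private lemma capGrid4_23 (hn : Module.finrank ℝ E = 5) {X : Set E} (hX : IsCone X) (hm : MeasurableSet X) : √(2 * π) * ‖mom X‖ ≤
    (((40809 / 100000) : ℚ) : ℝ) + (((74667 / 50000) : ℚ) : ℝ) * (stdGaussian E).real X := by
  refine cap_line hn (by norm_num) hX hm (s := (7 / 25)) (q := (24 / 25)) (G := capPrim 4 (7 / 25)) (by norm_num) (by norm_num)
    (by norm_num) (by norm_num) le_rfl ?_ ?_ <;> norm_num [capPrim]

private lemma capGrid4_24 (hn : Module.finrank ℝ E = 5) {X : Set E} (hX : IsCone X) (hm : MeasurableSet X) : √(2 * π) * ‖mom X‖ ≤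
    (((8973 / 20000) : ℚ) : ℝ) + (((34 / 25) : ℚ) : ℝ) * (stdGaussian E).real X := by
  refine cap_line hn (by norm_num) hX hm (s := (51 / 200)) (q := (483471 / 500000)) (G := capPrim 4 (51 / 200)) (by norm_num) (by norm_num)
    (by norm_num) (by norm_num) le_rfl ?_ ?_ <;> norm_num [capPrim]

private lemma capGrid4_25 (hn : Module.finrank ℝ E = 5) {X : Set E} (hX : IsCone X) (hm : MeasurableSet X) : √(2 * π) * ‖mom X‖ ≤
    (((24577 / 50000) : ℚ) : ℝ) + (((122667 / 100000) : ℚ) : ℝ) * (stdGaussian E).real X := by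
  refine cap_line hn (by norm_num) hX hm (s := (23 / 100)) (q := (973191 / 1000000)) (G := capPrim 4 (23 / 100)) (by norm_num) (by norm_num)
    (by norm_num) (by norm_num) le_rfl ?_ ?_ <;> norm_num [capPrim]

private lemma capGrid4_26 (hn : Module.finrank ℝ E = 5) {X : Set E} (hX : IsCone X) (hm : MeasurableSet X) : √(2 * π) * ‖mom X‖ ≤
    (((13189 / 25000) : ℚ) : ℝ) + (((28 / 25) : ℚ) : ℝ) * (stdGaussian E).real X := by
  refine cap_line hn (by norm_num) hX hm (s := (21 / 100)) (q := (488851 / 500000)) (G := capPrim 4 (21 / 100)) (by norm_num) (by norm_num)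
    (by norm_num) (by norm_num) le_rfl ?_ ?_ <;> norm_num [capPrim]

private lemma capGrid4_27 (hn : Module.finrank ℝ E = 5) {X : Set E} (hX : IsCone X) (hm : MeasurableSet X) : √(2 * π) * ‖mom X‖ ≤
    (((57473 / 100000) : ℚ) : ℝ) + (((98667 / 100000) : ℚ) : ℝ) * (stdGaussian E).real X := by
  refine cap_line hn (by norm_num) hX hm (s := (37 / 200)) (q := (982739 / 1000000)) (G := capPrim 4 (37 / 200)) (by norm_num) (by norm_num)
    (by norm_num) (by norm_num) le_rfl ?_ ?_ <;> norm_num [capPrim]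

private lemma capGrid4_28 (hn : Module.finrank ℝ E = 5) {X : Set E} (hX : IsCone X) (hm : MeasurableSet X) : √(2 * π) * ‖mom X‖ ≤
    (((61421 / 100000) : ℚ) : ℝ) + (((22 / 25) : ℚ) : ℝ) * (stdGaussian E).real X := by
  refine cap_line hn (by norm_num) hX hm (s := (33 / 200)) (q := (493147 / 500000)) (G := capPrim 4 (33 / 200)) (by norm_num) (by norm_num)
    (by norm_num) (by norm_num) le_rfl ?_ ?_ <;> norm_num [capPrim]

private lemma capGrid4_29 (hn : Module.finrank ℝ E = 5) {X : Set E} (hX : IsCone X) (hm : MeasurableSet X) : √(2 * π) * ‖mom X‖ ≤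
    (((2663 / 4000) : ℚ) : ℝ) + (((74667 / 100000) : ℚ) : ℝ) * (stdGaussian E).real X := by
  refine cap_line hn (by norm_num) hX hm (s := (7 / 50)) (q := (123769 / 125000)) (G := capPrim 4 (7 / 50)) (by norm_num) (by norm_num)
    (by norm_num) (by norm_num) le_rfl ?_ ?_ <;> norm_num [capPrim]

private lemma capGrid4_30 (hn : Module.finrank ℝ E = 5) {X : Set E} (hX : IsCone X) (hm : MeasurableSet X) : √(2 * π) * ‖mom X‖ ≤
    (((71973 / 100000) : ℚ) : ℝ) + (((30667 / 50000) : ℚ) : ℝ) * (stdGaussian E).real X := by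
  refine cap_line hn (by norm_num) hX hm (s := (23 / 200)) (q := (496683 / 500000)) (G := capPrim 4 (23 / 200)) (by norm_num) (by norm_num)
    (by norm_num) (by norm_num) le_rfl ?_ ?_ <;> norm_num [capPrim]

private lemma capGrid4_31 (hn : Module.finrank ℝ E = 5) {X : Set E} (hX : IsCone X) (hm : MeasurableSet X) : √(2 * π) * ‖mom X‖ ≤
    (((7647 / 10000) : ℚ) : ℝ) + (((50667 / 100000) : ℚ) : ℝ) * (stdGaussian E).real X := by
  refine cap_line hn (by norm_num) hX hm (s := (19 / 200)) (q := (497739 / 500000)) (G := capPrim 4 (19 / 200)) (by norm_num) (by norm_num)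
    (by norm_num) (by norm_num) le_rfl ?_ ?_ <;> norm_num [capPrim]

private lemma capGrid4_32 (hn : Module.finrank ℝ E = 5) {X : Set E} (hX : IsCone X) (hm : MeasurableSet X) : √(2 * π) * ‖mom X‖ ≤
    (((82313 / 100000) : ℚ) : ℝ) + (((18667 / 50000) : ℚ) : ℝ) * (stdGaussian E).real X := by
  refine cap_line hn (by norm_num) hX hm (s := (7 / 100)) (q := (997547 / 1000000)) (G := capPrim 4 (7 / 100)) (by norm_num) (by norm_num)
    (by norm_num) (by norm_num) le_rfl ?_ ?_ <;> norm_num [capPrim]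

private lemma capGrid4_33 (hn : Module.finrank ℝ E = 5) {X : Set E} (hX : IsCone X) (hm : MeasurableSet X) : √(2 * π) * ‖mom X‖ ≤
    (((17681 / 20000) : ℚ) : ℝ) + (((6 / 25) : ℚ) : ℝ) * (stdGaussian E).real X := by
  refine cap_line hn (by norm_num) hX hm (s := (9 / 200)) (q := (998987 / 1000000)) (G := capPrim 4 (9 / 200)) (by norm_num) (by norm_num)
    (by norm_num) (by norm_num) le_rfl ?_ ?_ <;> norm_num [capPrim]

private lemma capGrid4_34 (hn : Module.finrank ℝ E = 5) {X : Set E} (hX : IsCone X) (hm : MeasurableSet X) : √(2 * π) * ‖mom X‖ ≤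
    (((93459 / 100000) : ℚ) : ℝ) + (((6667 / 50000) : ℚ) : ℝ) * (stdGaussian E).real X := by
  refine cap_line hn (by norm_num) hX hm (s := (1 / 40)) (q := (124961 / 125000)) (G := capPrim 4 (1 / 40)) (by norm_num) (by norm_num)
    (by norm_num) (by norm_num) le_rfl ?_ ?_ <;> norm_num [capPrim]

private lemma capGrid4_35 (hn : Module.finrank ℝ E = 5) {X : Set E} (hX : IsCone X) (hm : MeasurableSet X) : √(2 * π) * ‖mom X‖ ≤
    (((1) : ℚ) : ℝ) + (((0) : ℚ) : ℝ) * (stdGaussian E).real X := by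
  refine cap_line hn (by norm_num) hX hm (s := (0)) (q := (1)) (G := capPrim 4 (0)) (by norm_num) (by norm_num)
    (by norm_num) (by norm_num) le_rfl ?_ ?_ <;> norm_num [capPrim]

/-- The lines of dimension 5. -/
def capGrid4 : List (ℚ × ℚ) :=
  [((403 / 50000), (434667 / 100000)),
   ((117 / 10000), (210667 / 50000)),
   ((1629 / 100000), (102 / 25)),
   ((207 / 10000), (198667 / 50000)),
   ((2723 / 100000), (96 / 25)),
   ((3331 / 100000), (186667 / 50000)),
   ((2103 / 50000), (18 / 5)),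
   ((5217 / 100000), (346667 / 100000)),
   ((613 / 10000), (84 / 25)),
   ((3703 / 50000), (322667 / 100000)),
   ((4421 / 50000), (154667 / 50000)),
   ((10109 / 100000), (298667 / 100000)),
   ((1481 / 12500), (142667 / 50000)),
   ((6883 / 50000), (68 / 25)),
   ((1929 / 12500), (130667 / 50000)),
   ((17687 / 100000), (62 / 25)),
   ((10069 / 50000), (234667 / 100000)),
   ((5561 / 25000), (56 / 25)),
   ((25061 / 100000), (210667 / 100000)),
   ((28089 / 100000), (98667 / 50000)),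
   ((30667 / 100000), (186667 / 100000)),
   ((34087 / 100000), (86667 / 50000)),
   ((37731 / 100000), (8 / 5)),
   ((40809 / 100000), (74667 / 50000)),
   ((8973 / 20000), (34 / 25)),
   ((24577 / 50000), (122667 / 100000)),
   ((13189 / 25000), (28 / 25)),
   ((57473 / 100000), (98667 / 100000)),
   ((61421 / 100000), (22 / 25)),
   ((2663 / 4000), (74667 / 100000)),
   ((71973 / 100000), (30667 / 50000)),
   ((7647 / 10000), (50667 / 100000)),
   ((82313 / 100000), (18667 / 50000)),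
   ((17681 / 20000), (6 / 25)),
   ((93459 / 100000), (6667 / 50000)),
   ((1), (0))]

theorem capGrid4_valid (hn : Module.finrank ℝ E = 5) {X : Set E} (hX : IsCone X) (hm : MeasurableSet X) :
    ∀ l ∈ capGrid4, √(2 * π) * ‖mom X‖ ≤ (l.1 : ℝ) + (l.2 : ℝ) * (stdGaussian E).real X := by
  simp only [capGrid4, List.forall_mem_cons, List.not_mem_nil, false_implies, implies_true, and_true]
  exact ⟨capGrid4_0 hn hX hm,
    capGrid4_1 hn hX hm,
    capGrid4_2 hn hX hm,
    capGrid4_3 hn hX hm,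
    capGrid4_4 hn hX hm,
    capGrid4_5 hn hX hm,
    capGrid4_6 hn hX hm,
    capGrid4_7 hn hX hm,
    capGrid4_8 hn hX hm,
    capGrid4_9 hn hX hm,
    capGrid4_10 hn hX hm,
    capGrid4_11 hn hX hm,
    capGrid4_12 hn hX hm,
    capGrid4_13 hn hX hm,
    capGrid4_14 hn hX hm,
    capGrid4_15 hn hX hm,
    capGrid4_16 hn hX hm,
    capGrid4_17 hn hX hm,
    capGrid4_18 hn hX hm,
    capGrid4_19 hn hX hm,
    capGrid4_20 hn hX hm,
    capGrid4_21 hn hX hm,
    capGrid4_22 hn hX hm,
    capGrid4_23 hn hX hm,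
    capGrid4_24 hn hX hm,
    capGrid4_25 hn hX hm,
    capGrid4_26 hn hX hm,
    capGrid4_27 hn hX hm,
    capGrid4_28 hn hX hm,
    capGrid4_29 hn hX hm,
    capGrid4_30 hn hX hm,
    capGrid4_31 hn hX hm,
    capGrid4_32 hn hX hm,
    capGrid4_33 hn hX hm,
    capGrid4_34 hn hX hm,
    capGrid4_35 hn hX hm⟩

private lemma capGrid6_0 (hn : Module.finrank ℝ E = 7) {X : Set E} (hX : IsCone X) (hm : MeasurableSet X) : √(2 * π) * ‖mom X‖ ≤
    (((241 / 25000) : ℚ) : ℝ) + (((116 / 25) : ℚ) : ℝ) * (stdGaussian E).real X := by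
  refine cap_line hn (by norm_num) hX hm (s := (29 / 40)) (q := (688749 / 1000000)) (G := capPrim 6 (29 / 40)) (by norm_num) (by norm_num)
    (by norm_num) (by norm_num) le_rfl ?_ ?_ <;> norm_num [capPrim]

private lemma capGrid6_1 (hn : Module.finrank ℝ E = 7) {X : Set E} (hX : IsCone X) (hm : MeasurableSet X) : √(2 * π) * ‖mom X‖ ≤
    (((1343 / 100000) : ℚ) : ℝ) + (((112 / 25) : ℚ) : ℝ) * (stdGaussian E).real X := by
  refine cap_line hn (by norm_num) hX hm (s := (7 / 10)) (q := (714143 / 1000000)) (G := capPrim 6 (7 / 10)) (by norm_num) (by norm_num)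
    (by norm_num) (by norm_num) le_rfl ?_ ?_ <;> norm_num [capPrim]

private lemma capGrid6_2 (hn : Module.finrank ℝ E = 7) {X : Set E} (hX : IsCone X) (hm : MeasurableSet X) : √(2 * π) * ‖mom X‖ ≤
    (((1929 / 100000) : ℚ) : ℝ) + (((536 / 125) : ℚ) : ℝ) * (stdGaussian E).real X := by
  refine cap_line hn (by norm_num) hX hm (s := (67 / 100)) (q := (371181 / 500000)) (G := capPrim 6 (67 / 100)) (by norm_num) (by norm_num)
    (by norm_num) (by norm_num) le_rfl ?_ ?_ <;> norm_num [capPrim]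

private lemma capGrid6_3 (hn : Module.finrank ℝ E = 7) {X : Set E} (hX : IsCone X) (hm : MeasurableSet X) : √(2 * π) * ‖mom X‖ ≤
    (((127 / 5000) : ℚ) : ℝ) + (((516 / 125) : ℚ) : ℝ) * (stdGaussian E).real X := by
  refine cap_line hn (by norm_num) hX hm (s := (129 / 200)) (q := (764183 / 1000000)) (G := capPrim 6 (129 / 200)) (by norm_num) (by norm_num)
    (by norm_num) (by norm_num) le_rfl ?_ ?_ <;> norm_num [capPrim]

private lemma capGrid6_4 (hn : Module.finrank ℝ E = 7) {X : Set E} (hX : IsCone X) (hm : MeasurableSet X) : √(2 * π) * ‖mom X‖ ≤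
    (((41 / 1250) : ℚ) : ℝ) + (((496 / 125) : ℚ) : ℝ) * (stdGaussian E).real X := by
  refine cap_line hn (by norm_num) hX hm (s := (31 / 50)) (q := (392301 / 500000)) (G := capPrim 6 (31 / 50)) (by norm_num) (by norm_num)
    (by norm_num) (by norm_num) le_rfl ?_ ?_ <;> norm_num [capPrim]

private lemma capGrid6_5 (hn : Module.finrank ℝ E = 7) {X : Set E} (hX : IsCone X) (hm : MeasurableSet X) : √(2 * π) * ‖mom X‖ ≤
    (((2081 / 50000) : ℚ) : ℝ) + (((476 / 125) : ℚ) : ℝ) * (stdGaussian E).real X := by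
  refine cap_line hn (by norm_num) hX hm (s := (119 / 200)) (q := (401863 / 500000)) (G := capPrim 6 (119 / 200)) (by norm_num) (by norm_num)
    (by norm_num) (by norm_num) le_rfl ?_ ?_ <;> norm_num [capPrim]

private lemma capGrid6_6 (hn : Module.finrank ℝ E = 7) {X : Set E} (hX : IsCone X) (hm : MeasurableSet X) : √(2 * π) * ‖mom X‖ ≤
    (((13 / 250) : ℚ) : ℝ) + (((456 / 125) : ℚ) : ℝ) * (stdGaussian E).real X := by
  refine cap_line hn (by norm_num) hX hm (s := (57 / 100)) (q := (164329 / 200000)) (G := capPrim 6 (57 / 100)) (by norm_num) (by norm_num)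
    (by norm_num) (by norm_num) le_rfl ?_ ?_ <;> norm_num [capPrim]

private lemma capGrid6_7 (hn : Module.finrank ℝ E = 7) {X : Set E} (hX : IsCone X) (hm : MeasurableSet X) : √(2 * π) * ‖mom X‖ ≤
    (((3337 / 50000) : ℚ) : ℝ) + (((432 / 125) : ℚ) : ℝ) * (stdGaussian E).real X := by
  refine cap_line hn (by norm_num) hX hm (s := (27 / 50)) (q := (420833 / 500000)) (G := capPrim 6 (27 / 50)) (by norm_num) (by norm_num)
    (by norm_num) (by norm_num) le_rfl ?_ ?_ <;> norm_num [capPrim]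

private lemma capGrid6_8 (hn : Module.finrank ℝ E = 7) {X : Set E} (hX : IsCone X) (hm : MeasurableSet X) : √(2 * π) * ‖mom X‖ ≤
    (((8107 / 100000) : ℚ) : ℝ) + (((412 / 125) : ℚ) : ℝ) * (stdGaussian E).real X := by
  refine cap_line hn (by norm_num) hX hm (s := (103 / 200)) (q := (857191 / 1000000)) (G := capPrim 6 (103 / 200)) (by norm_num) (by norm_num)
    (by norm_num) (by norm_num) le_rfl ?_ ?_ <;> norm_num [capPrim]

private lemma capGrid6_9 (hn : Module.finrank ℝ E = 7) {X : Set E} (hX : IsCone X) (hm : MeasurableSet X) : √(2 * π) * ‖mom X‖ ≤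
    (((9743 / 100000) : ℚ) : ℝ) + (((392 / 125) : ℚ) : ℝ) * (stdGaussian E).real X := by
  refine cap_line hn (by norm_num) hX hm (s := (49 / 100)) (q := (871723 / 1000000)) (G := capPrim 6 (49 / 100)) (by norm_num) (by norm_num)
    (by norm_num) (by norm_num) le_rfl ?_ ?_ <;> norm_num [capPrim]

private lemma capGrid6_10 (hn : Module.finrank ℝ E = 7) {X : Set E} (hX : IsCone X) (hm : MeasurableSet X) : √(2 * π) * ‖mom X‖ ≤
    (((2319 / 20000) : ℚ) : ℝ) + (((372 / 125) : ℚ) : ℝ) * (stdGaussian E).real X := by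
  refine cap_line hn (by norm_num) hX hm (s := (93 / 200)) (q := (885311 / 1000000)) (G := capPrim 6 (93 / 200)) (by norm_num) (by norm_num)
    (by norm_num) (by norm_num) le_rfl ?_ ?_ <;> norm_num [capPrim]

private lemma capGrid6_11 (hn : Module.finrank ℝ E = 7) {X : Set E} (hX : IsCone X) (hm : MeasurableSet X) : √(2 * π) * ‖mom X‖ ≤
    (((6839 / 50000) : ℚ) : ℝ) + (((352 / 125) : ℚ) : ℝ) * (stdGaussian E).real X := by
  refine cap_line hn (by norm_num) hX hm (s := (11 / 25)) (q := (448999 / 500000)) (G := capPrim 6 (11 / 25)) (by norm_num) (by norm_num)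
    (by norm_num) (by norm_num) le_rfl ?_ ?_ <;> norm_num [capPrim]

private lemma capGrid6_12 (hn : Module.finrank ℝ E = 7) {X : Set E} (hX : IsCone X) (hm : MeasurableSet X) : √(2 * π) * ‖mom X‖ ≤
    (((4001 / 25000) : ℚ) : ℝ) + (((332 / 125) : ℚ) : ℝ) * (stdGaussian E).real X := by
  refine cap_line hn (by norm_num) hX hm (s := (83 / 200)) (q := (454911 / 500000)) (G := capPrim 6 (83 / 200)) (by norm_num) (by norm_num)
    (by norm_num) (by norm_num) le_rfl ?_ ?_ <;> norm_num [capPrim]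

private lemma capGrid6_13 (hn : Module.finrank ℝ E = 7) {X : Set E} (hX : IsCone X) (hm : MeasurableSet X) : √(2 * π) * ‖mom X‖ ≤
    (((18587 / 100000) : ℚ) : ℝ) + (((312 / 125) : ℚ) : ℝ) * (stdGaussian E).real X := by
  refine cap_line hn (by norm_num) hX hm (s := (39 / 100)) (q := (184163 / 200000)) (G := capPrim 6 (39 / 100)) (by norm_num) (by norm_num)
    (by norm_num) (by norm_num) le_rfl ?_ ?_ <;> norm_num [capPrim]

private lemma capGrid6_14 (hn : Module.finrank ℝ E = 7) {X : Set E} (hX : IsCone X) (hm : MeasurableSet X) : √(2 * π) * ‖mom X‖ ≤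
    (((4409 / 20000) : ℚ) : ℝ) + (((288 / 125) : ℚ) : ℝ) * (stdGaussian E).real X := by
  refine cap_line hn (by norm_num) hX hm (s := (9 / 25)) (q := (932953 / 1000000)) (G := capPrim 6 (9 / 25)) (by norm_num) (by norm_num)
    (by norm_num) (by norm_num) le_rfl ?_ ?_ <;> norm_num [capPrim]

private lemma capGrid6_15 (hn : Module.finrank ℝ E = 7) {X : Set E} (hX : IsCone X) (hm : MeasurableSet X) : √(2 * π) * ‖mom X‖ ≤
    (((25237 / 100000) : ℚ) : ℝ) + (((268 / 125) : ℚ) : ℝ) * (stdGaussian E).real X := by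
  refine cap_line hn (by norm_num) hX hm (s := (67 / 200)) (q := (942219 / 1000000)) (G := capPrim 6 (67 / 200)) (by norm_num) (by norm_num)
    (by norm_num) (by norm_num) le_rfl ?_ ?_ <;> norm_num [capPrim]

private lemma capGrid6_16 (hn : Module.finrank ℝ E = 7) {X : Set E} (hX : IsCone X) (hm : MeasurableSet X) : √(2 * π) * ‖mom X‖ ≤
    (((1149 / 4000) : ℚ) : ℝ) + (((248 / 125) : ℚ) : ℝ) * (stdGaussian E).real X := by
  refine cap_line hn (by norm_num) hX hm (s := (31 / 100)) (q := (950737 / 1000000)) (G := capPrim 6 (31 / 100)) (by norm_num) (by norm_num)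
    (by norm_num) (by norm_num) le_rfl ?_ ?_ <;> norm_num [capPrim]

private lemma capGrid6_17 (hn : Module.finrank ℝ E = 7) {X : Set E} (hX : IsCone X) (hm : MeasurableSet X) : √(2 * π) * ‖mom X‖ ≤
    (((32519 / 100000) : ℚ) : ℝ) + (((228 / 125) : ℚ) : ℝ) * (stdGaussian E).real X := by
  refine cap_line hn (by norm_num) hX hm (s := (57 / 200)) (q := (14977 / 15625)) (G := capPrim 6 (57 / 200)) (by norm_num) (by norm_num)
    (by norm_num) (by norm_num) le_rfl ?_ ?_ <;> norm_num [capPrim]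

private lemma capGrid6_18 (hn : Module.finrank ℝ E = 7) {X : Set E} (hX : IsCone X) (hm : MeasurableSet X) : √(2 * π) * ‖mom X‖ ≤
    (((3663 / 10000) : ℚ) : ℝ) + (((208 / 125) : ℚ) : ℝ) * (stdGaussian E).real X := by
  refine cap_line hn (by norm_num) hX hm (s := (13 / 50)) (q := (965609 / 1000000)) (G := capPrim 6 (13 / 50)) (by norm_num) (by norm_num)
    (by norm_num) (by norm_num) le_rfl ?_ ?_ <;> norm_num [capPrim]

private lemma capGrid6_19 (hn : Module.finrank ℝ E = 7) {X : Set E} (hX : IsCone X) (hm : MeasurableSet X) : √(2 * π) * ‖mom X‖ ≤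
    (((41067 / 100000) : ℚ) : ℝ) + (((188 / 125) : ℚ) : ℝ) * (stdGaussian E).real X := by
  refine cap_line hn (by norm_num) hX hm (s := (47 / 200)) (q := (242999 / 250000)) (G := capPrim 6 (47 / 200)) (by norm_num) (by norm_num)
    (by norm_num) (by norm_num) le_rfl ?_ ?_ <;> norm_num [capPrim]

private lemma capGrid6_20 (hn : Module.finrank ℝ E = 7) {X : Set E} (hX : IsCone X) (hm : MeasurableSet X) : √(2 * π) * ‖mom X‖ ≤
    (((46833 / 100000) : ℚ) : ℝ) + (((164 / 125) : ℚ) : ℝ) * (stdGaussian E).real X := by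
  refine cap_line hn (by norm_num) hX hm (s := (41 / 200)) (q := (489381 / 500000)) (G := capPrim 6 (41 / 200)) (by norm_num) (by norm_num)
    (by norm_num) (by norm_num) le_rfl ?_ ?_ <;> norm_num [capPrim]

private lemma capGrid6_21 (hn : Module.finrank ℝ E = 7) {X : Set E} (hX : IsCone X) (hm : MeasurableSet X) : √(2 * π) * ‖mom X‖ ≤
    (((3251 / 6250) : ℚ) : ℝ) + (((144 / 125) : ℚ) : ℝ) * (stdGaussian E).real X := by
  refine cap_line hn (by norm_num) hX hm (s := (9 / 50)) (q := (983667 / 1000000)) (G := capPrim 6 (9 / 50)) (by norm_num) (by norm_num)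
    (by norm_num) (by norm_num) le_rfl ?_ ?_ <;> norm_num [capPrim]

private lemma capGrid6_22 (hn : Module.finrank ℝ E = 7) {X : Set E} (hX : IsCone X) (hm : MeasurableSet X) : √(2 * π) * ‖mom X‖ ≤
    (((57551 / 100000) : ℚ) : ℝ) + (((124 / 125) : ℚ) : ℝ) * (stdGaussian E).real X := by
  refine cap_line hn (by norm_num) hX hm (s := (31 / 200)) (q := (197583 / 200000)) (G := capPrim 6 (31 / 200)) (by norm_num) (by norm_num)
    (by norm_num) (by norm_num) le_rfl ?_ ?_ <;> norm_num [capPrim]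

private lemma capGrid6_23 (hn : Module.finrank ℝ E = 7) {X : Set E} (hX : IsCone X) (hm : MeasurableSet X) : √(2 * π) * ‖mom X‖ ≤
    (((31721 / 50000) : ℚ) : ℝ) + (((104 / 125) : ℚ) : ℝ) * (stdGaussian E).real X := by
  refine cap_line hn (by norm_num) hX hm (s := (13 / 100)) (q := (495757 / 500000)) (G := capPrim 6 (13 / 100)) (by norm_num) (by norm_num)
    (by norm_num) (by norm_num) le_rfl ?_ ?_ <;> norm_num [capPrim]

private lemma capGrid6_24 (hn : Module.finrank ℝ E = 7) {X : Set E} (hX : IsCone X) (hm : MeasurableSet X) : √(2 * π) * ‖mom X‖ ≤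
    (((2178 / 3125) : ℚ) : ℝ) + (((84 / 125) : ℚ) : ℝ) * (stdGaussian E).real X := by
  refine cap_line hn (by norm_num) hX hm (s := (21 / 200)) (q := (994473 / 1000000)) (G := capPrim 6 (21 / 200)) (by norm_num) (by norm_num)
    (by norm_num) (by norm_num) le_rfl ?_ ?_ <;> norm_num [capPrim]

private lemma capGrid6_25 (hn : Module.finrank ℝ E = 7) {X : Set E} (hX : IsCone X) (hm : MeasurableSet X) : √(2 * π) * ‖mom X‖ ≤
    (((19079 / 25000) : ℚ) : ℝ) + (((64 / 125) : ℚ) : ℝ) * (stdGaussian E).real X := by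
  refine cap_line hn (by norm_num) hX hm (s := (2 / 25)) (q := (199359 / 200000)) (G := capPrim 6 (2 / 25)) (by norm_num) (by norm_num)
    (by norm_num) (by norm_num) le_rfl ?_ ?_ <;> norm_num [capPrim]

private lemma capGrid6_26 (hn : Module.finrank ℝ E = 7) {X : Set E} (hX : IsCone X) (hm : MeasurableSet X) : √(2 * π) * ‖mom X‖ ≤
    (((339 / 400) : ℚ) : ℝ) + (((8 / 25) : ℚ) : ℝ) * (stdGaussian E).real X := by
  refine cap_line hn (by norm_num) hX hm (s := (1 / 20)) (q := (799 / 800)) (G := capPrim 6 (1 / 20)) (by norm_num) (by norm_num)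
    (by norm_num) (by norm_num) le_rfl ?_ ?_ <;> norm_num [capPrim]

private lemma capGrid6_27 (hn : Module.finrank ℝ E = 7) {X : Set E} (hX : IsCone X) (hm : MeasurableSet X) : √(2 * π) * ‖mom X‖ ≤
    (((23047 / 25000) : ℚ) : ℝ) + (((4 / 25) : ℚ) : ℝ) * (stdGaussian E).real X := by
  refine cap_line hn (by norm_num) hX hm (s := (1 / 40)) (q := (124961 / 125000)) (G := capPrim 6 (1 / 40)) (by norm_num) (by norm_num)
    (by norm_num) (by norm_num) le_rfl ?_ ?_ <;> norm_num [capPrim]

private lemma capGrid6_28 (hn : Module.finrank ℝ E = 7) {X : Set E} (hX : IsCone X) (hm : MeasurableSet X) : √(2 * π) * ‖mom X‖ ≤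
    (((1) : ℚ) : ℝ) + (((0) : ℚ) : ℝ) * (stdGaussian E).real X := by
  refine cap_line hn (by norm_num) hX hm (s := (0)) (q := (1)) (G := capPrim 6 (0)) (by norm_num) (by norm_num)
    (by norm_num) (by norm_num) le_rfl ?_ ?_ <;> norm_num [capPrim]

/-- The lines of dimension 7. -/
def capGrid6 : List (ℚ × ℚ) :=
  [((241 / 25000), (116 / 25)),
   ((1343 / 100000), (112 / 25)),
   ((1929 / 100000), (536 / 125)),
   ((127 / 5000), (516 / 125)),
   ((41 / 1250), (496 / 125)),
   ((2081 / 50000), (476 / 125)),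
   ((13 / 250), (456 / 125)),
   ((3337 / 50000), (432 / 125)),
   ((8107 / 100000), (412 / 125)),
   ((9743 / 100000), (392 / 125)),
   ((2319 / 20000), (372 / 125)),
   ((6839 / 50000), (352 / 125)),
   ((4001 / 25000), (332 / 125)),
   ((18587 / 100000), (312 / 125)),
   ((4409 / 20000), (288 / 125)),
   ((25237 / 100000), (268 / 125)),
   ((1149 / 4000), (248 / 125)),
   ((32519 / 100000), (228 / 125)),
   ((3663 / 10000), (208 / 125)),
   ((41067 / 100000), (188 / 125)),
   ((46833 / 100000), (164 / 125)),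
   ((3251 / 6250), (144 / 125)),
   ((57551 / 100000), (124 / 125)),
   ((31721 / 50000), (104 / 125)),
   ((2178 / 3125), (84 / 125)),
   ((19079 / 25000), (64 / 125)),
   ((339 / 400), (8 / 25)),
   ((23047 / 25000), (4 / 25)),
   ((1), (0))]

theorem capGrid6_valid (hn : Module.finrank ℝ E = 7) {X : Set E} (hX : IsCone X) (hm : MeasurableSet X) :
    ∀ l ∈ capGrid6, √(2 * π) * ‖mom X‖ ≤ (l.1 : ℝ) + (l.2 : ℝ) * (stdGaussian E).real X := by
  simp only [capGrid6, List.forall_mem_cons, List.not_mem_nil, false_implies, implies_true, and_true]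
  exact ⟨capGrid6_0 hn hX hm,
    capGrid6_1 hn hX hm,
    capGrid6_2 hn hX hm,
    capGrid6_3 hn hX hm,
    capGrid6_4 hn hX hm,
    capGrid6_5 hn hX hm,
    capGrid6_6 hn hX hm,
    capGrid6_7 hn hX hm,
    capGrid6_8 hn hX hm,
    capGrid6_9 hn hX hm,
    capGrid6_10 hn hX hm,
    capGrid6_11 hn hX hm,
    capGrid6_12 hn hX hm,
    capGrid6_13 hn hX hm,
    capGrid6_14 hn hX hm,
    capGrid6_15 hn hX hm,
    capGrid6_16 hn hX hm,
    capGrid6_17 hn hX hm,
    capGrid6_18 hn hX hm,
    capGrid6_19 hn hX hm,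
    capGrid6_20 hn hX hm,
    capGrid6_21 hn hX hm,
    capGrid6_22 hn hX hm,
    capGrid6_23 hn hX hm,
    capGrid6_24 hn hX hm,
    capGrid6_25 hn hX hm,
    capGrid6_26 hn hX hm,
    capGrid6_27 hn hX hm,
    capGrid6_28 hn hX hm⟩

private lemma capGrid8_0 (hn : Module.finrank ℝ E = 9) {X : Set E} (hX : IsCone X) (hm : MeasurableSet X) : √(2 * π) * ‖mom X‖ ≤
    (((1163 / 100000) : ℚ) : ℝ) + (((475429 / 100000) : ℚ) : ℝ) * (stdGaussian E).real X := by
  refine cap_line hn (by norm_num) hX hm (s := (13 / 20)) (q := (151987 / 200000)) (G := capPrim 8 (13 / 20)) (by norm_num) (by norm_num)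
    (by norm_num) (by norm_num) le_rfl ?_ ?_ <;> norm_num [capPrim]

private lemma capGrid8_1 (hn : Module.finrank ℝ E = 9) {X : Set E} (hX : IsCone X) (hm : MeasurableSet X) : √(2 * π) * ‖mom X‖ ≤
    (((81 / 4000) : ℚ) : ℝ) + (((88503 / 20000) : ℚ) : ℝ) * (stdGaussian E).real X := by
  refine cap_line hn (by norm_num) hX hm (s := (121 / 200)) (q := (398113 / 500000)) (G := capPrim 8 (121 / 200)) (by norm_num) (by norm_num)
    (by norm_num) (by norm_num) le_rfl ?_ ?_ <;> norm_num [capPrim]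

private lemma capGrid8_2 (hn : Module.finrank ℝ E = 9) {X : Set E} (hX : IsCone X) (hm : MeasurableSet X) : √(2 * π) * ‖mom X‖ ≤
    (((3301 / 100000) : ℚ) : ℝ) + (((512 / 125) : ℚ) : ℝ) * (stdGaussian E).real X := by
  refine cap_line hn (by norm_num) hX hm (s := (14 / 25)) (q := (828493 / 1000000)) (G := capPrim 8 (14 / 25)) (by norm_num) (by norm_num)
    (by norm_num) (by norm_num) le_rfl ?_ ?_ <;> norm_num [capPrim]

private lemma capGrid8_3 (hn : Module.finrank ℝ E = 9) {X : Set E} (hX : IsCone X) (hm : MeasurableSet X) : √(2 * π) * ‖mom X‖ ≤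
    (((2669 / 50000) : ℚ) : ℝ) + (((373029 / 100000) : ℚ) : ℝ) * (stdGaussian E).real X := by
  refine cap_line hn (by norm_num) hX hm (s := (51 / 100)) (q := (34407 / 40000)) (G := capPrim 8 (51 / 100)) (by norm_num) (by norm_num)
    (by norm_num) (by norm_num) le_rfl ?_ ?_ <;> norm_num [capPrim]

private lemma capGrid8_4 (hn : Module.finrank ℝ E = 9) {X : Set E} (hX : IsCone X) (hm : MeasurableSet X) : √(2 * π) * ‖mom X‖ ≤
    (((393 / 5000) : ℚ) : ℝ) + (((68023 / 20000) : ℚ) : ℝ) * (stdGaussian E).real X := by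
  refine cap_line hn (by norm_num) hX hm (s := (93 / 200)) (q := (885311 / 1000000)) (G := capPrim 8 (93 / 200)) (by norm_num) (by norm_num)
    (by norm_num) (by norm_num) le_rfl ?_ ?_ <;> norm_num [capPrim]

private lemma capGrid8_5 (hn : Module.finrank ℝ E = 9) {X : Set E} (hX : IsCone X) (hm : MeasurableSet X) : √(2 * π) * ‖mom X‖ ≤
    (((11163 / 100000) : ℚ) : ℝ) + (((384 / 125) : ℚ) : ℝ) * (stdGaussian E).real X := by
  refine cap_line hn (by norm_num) hX hm (s := (21 / 50)) (q := (36301 / 40000)) (G := capPrim 8 (21 / 50)) (by norm_num) (by norm_num)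
    (by norm_num) (by norm_num) le_rfl ?_ ?_ <;> norm_num [capPrim]

private lemma capGrid8_6 (hn : Module.finrank ℝ E = 9) {X : Set E} (hX : IsCone X) (hm : MeasurableSet X) : √(2 * π) * ‖mom X‖ ≤
    (((7949 / 50000) : ℚ) : ℝ) + (((270629 / 100000) : ℚ) : ℝ) * (stdGaussian E).real X := by
  refine cap_line hn (by norm_num) hX hm (s := (37 / 100)) (q := (116129 / 125000)) (G := capPrim 8 (37 / 100)) (by norm_num) (by norm_num)
    (by norm_num) (by norm_num) le_rfl ?_ ?_ <;> norm_num [capPrim]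

private lemma capGrid8_7 (hn : Module.finrank ℝ E = 9) {X : Set E} (hX : IsCone X) (hm : MeasurableSet X) : √(2 * π) * ‖mom X‖ ≤
    (((4251 / 20000) : ℚ) : ℝ) + (((47543 / 20000) : ℚ) : ℝ) * (stdGaussian E).real X := by
  refine cap_line hn (by norm_num) hX hm (s := (13 / 40)) (q := (189143 / 200000)) (G := capPrim 8 (13 / 40)) (by norm_num) (by norm_num)
    (by norm_num) (by norm_num) le_rfl ?_ ?_ <;> norm_num [capPrim]

private lemma capGrid8_8 (hn : Module.finrank ℝ E = 9) {X : Set E} (hX : IsCone X) (hm : MeasurableSet X) : √(2 * π) * ‖mom X‖ ≤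
    (((27769 / 100000) : ℚ) : ℝ) + (((256 / 125) : ℚ) : ℝ) * (stdGaussian E).real X := by
  refine cap_line hn (by norm_num) hX hm (s := (7 / 25)) (q := (24 / 25)) (G := capPrim 8 (7 / 25)) (by norm_num) (by norm_num)
    (by norm_num) (by norm_num) le_rfl ?_ ?_ <;> norm_num [capPrim]

private lemma capGrid8_9 (hn : Module.finrank ℝ E = 9) {X : Set E} (hX : IsCone X) (hm : MeasurableSet X) : √(2 * π) * ‖mom X‖ ≤
    (((36499 / 100000) : ℚ) : ℝ) + (((168229 / 100000) : ℚ) : ℝ) * (stdGaussian E).real X := by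
  refine cap_line hn (by norm_num) hX hm (s := (23 / 100)) (q := (973191 / 1000000)) (G := capPrim 8 (23 / 100)) (by norm_num) (by norm_num)
    (by norm_num) (by norm_num) le_rfl ?_ ?_ <;> norm_num [capPrim]

private lemma capGrid8_10 (hn : Module.finrank ℝ E = 9) {X : Set E} (hX : IsCone X) (hm : MeasurableSet X) : √(2 * π) * ‖mom X‖ ≤
    (((45803 / 100000) : ℚ) : ℝ) + (((27063 / 20000) : ℚ) : ℝ) * (stdGaussian E).real X := by
  refine cap_line hn (by norm_num) hX hm (s := (37 / 200)) (q := (982739 / 1000000)) (G := capPrim 8 (37 / 200)) (by norm_num) (by norm_num)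
    (by norm_num) (by norm_num) le_rfl ?_ ?_ <;> norm_num [capPrim]

private lemma capGrid8_11 (hn : Module.finrank ℝ E = 9) {X : Set E} (hX : IsCone X) (hm : MeasurableSet X) : √(2 * π) * ‖mom X‖ ≤
    (((11313 / 20000) : ℚ) : ℝ) + (((128 / 125) : ℚ) : ℝ) * (stdGaussian E).real X := by
  refine cap_line hn (by norm_num) hX hm (s := (7 / 50)) (q := (123769 / 125000)) (G := capPrim 8 (7 / 50)) (by norm_num) (by norm_num)
    (by norm_num) (by norm_num) le_rfl ?_ ?_ <;> norm_num [capPrim]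

private lemma capGrid8_12 (hn : Module.finrank ℝ E = 9) {X : Set E} (hX : IsCone X) (hm : MeasurableSet X) : √(2 * π) * ‖mom X‖ ≤
    (((17213 / 25000) : ℚ) : ℝ) + (((34743 / 50000) : ℚ) : ℝ) * (stdGaussian E).real X := by
  refine cap_line hn (by norm_num) hX hm (s := (19 / 200)) (q := (497739 / 500000)) (G := capPrim 8 (19 / 200)) (by norm_num) (by norm_num)
    (by norm_num) (by norm_num) le_rfl ?_ ?_ <;> norm_num [capPrim]

private lemma capGrid8_13 (hn : Module.finrank ℝ E = 9) {X : Set E} (hX : IsCone X) (hm : MeasurableSet X) : √(2 * π) * ‖mom X‖ ≤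
    (((84353 / 100000) : ℚ) : ℝ) + (((6583 / 20000) : ℚ) : ℝ) * (stdGaussian E).real X := by
  refine cap_line hn (by norm_num) hX hm (s := (9 / 200)) (q := (998987 / 1000000)) (G := capPrim 8 (9 / 200)) (by norm_num) (by norm_num)
    (by norm_num) (by norm_num) le_rfl ?_ ?_ <;> norm_num [capPrim]

private lemma capGrid8_14 (hn : Module.finrank ℝ E = 9) {X : Set E} (hX : IsCone X) (hm : MeasurableSet X) : √(2 * π) * ‖mom X‖ ≤
    (((1) : ℚ) : ℝ) + (((0) : ℚ) : ℝ) * (stdGaussian E).real X := by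
  refine cap_line hn (by norm_num) hX hm (s := (0)) (q := (1)) (G := capPrim 8 (0)) (by norm_num) (by norm_num)
    (by norm_num) (by norm_num) le_rfl ?_ ?_ <;> norm_num [capPrim]

/-- The lines of dimension 9. -/
def capGrid8 : List (ℚ × ℚ) :=
  [((1163 / 100000), (475429 / 100000)),
   ((81 / 4000), (88503 / 20000)),
   ((3301 / 100000), (512 / 125)),
   ((2669 / 50000), (373029 / 100000)),
   ((393 / 5000), (68023 / 20000)),
   ((11163 / 100000), (384 / 125)),
   ((7949 / 50000), (270629 / 100000)),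
   ((4251 / 20000), (47543 / 20000)),
   ((27769 / 100000), (256 / 125)),
   ((36499 / 100000), (168229 / 100000)),
   ((45803 / 100000), (27063 / 20000)),
   ((11313 / 20000), (128 / 125)),
   ((17213 / 25000), (34743 / 50000)),
   ((84353 / 100000), (6583 / 20000)),
   ((1), (0))]

theorem capGrid8_valid (hn : Module.finrank ℝ E = 9) {X : Set E} (hX : IsCone X) (hm : MeasurableSet X) :
    ∀ l ∈ capGrid8, √(2 * π) * ‖mom X‖ ≤ (l.1 : ℝ) + (l.2 : ℝ) * (stdGaussian E).real X := by
  simp only [capGrid8, List.forall_mem_cons, List.not_mem_nil, false_implies, implies_true, and_true]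
  exact ⟨capGrid8_0 hn hX hm,
    capGrid8_1 hn hX hm,
    capGrid8_2 hn hX hm,
    capGrid8_3 hn hX hm,
    capGrid8_4 hn hX hm,
    capGrid8_5 hn hX hm,
    capGrid8_6 hn hX hm,
    capGrid8_7 hn hX hm,
    capGrid8_8 hn hX hm,
    capGrid8_9 hn hX hm,
    capGrid8_10 hn hX hm,
    capGrid8_11 hn hX hm,
    capGrid8_12 hn hX hm,
    capGrid8_13 hn hX hm,
    capGrid8_14 hn hX hm⟩

end Vale.Agent.P226
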