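import Vale.Agent.P226.CapLines

/-!
# Rational lines on a fine grid

Generated by an exact search; every line is checked against the bound here.
-/

namespace Vale.Agent.P226

open MeasureTheory ProbabilityTheory Real Set
open scoped RealInnerProductSpace

variable {E : Type*} [NormedAddCommGroup E] [InnerProductSpace ℝ E] [FiniteDimensional ℝ E]
  [MeasurableSpace E] [BorelSpace E]

private lemma capGrid5_0 (hn : Module.finrank ℝ E = 6) {X : Set E} (hX : IsCone X) (hm : MeasurableSet X) : √(2 * π) * ‖mom X‖ ≤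
    (((989 / 100000) : ℚ) : ℝ) + (((223839 / 50000) : ℚ) : ℝ) * (stdGaussian E).real X := by
  have hlo := pi_gt_d6
  have hhi := pi_lt_d6
  refine cap_line hn (by norm_num) hX hm (s := (19 / 25)) (q := (162481 / 250000)) (G := (17535426267 / 31250000000)) (by norm_num) (by norm_num)
    (by norm_num) (by norm_num) ?_ ?_ ?_
  · have h1 : arcsin (19 / 25) ≤ (21583 / 25000) := arcsin_le_seven (by norm_num) (by norm_num) (by norm_num)
    have h2 : √(1 - (19 / 25) ^ 2) ≤ (162481 / 250000) := sqrt_le_iff.2 ⟨by norm_num, by norm_num⟩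
    norm_num [capPrim] at h1 h2 ⊢ <;> linarith
  · norm_num [capPrim, arcsin_one] <;> linarith
  · norm_num [capPrim, arcsin_one] <;> linarith

private lemma capGrid5_1 (hn : Module.finrank ℝ E = 6) {X : Set E} (hX : IsCone X) (hm : MeasurableSet X) : √(2 * π) * ‖mom X‖ ≤
    (((1297 / 100000) : ℚ) : ℝ) + (((435897 / 100000) : ℚ) : ℝ) * (stdGaussian E).real X := by
  have hlo := pi_gt_d6
  have hhi := pi_lt_d6
  refine cap_line hn (by norm_num) hX hm (s := (37 / 50)) (q := (672607 / 1000000)) (G := (277673306379 / 500000000000)) (by norm_num) (by norm_num)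
    (by norm_num) (by norm_num) ?_ ?_ ?_
  · have h1 : arcsin (37 / 50) ≤ (20827 / 25000) := arcsin_le_seven (by norm_num) (by norm_num) (by norm_num)
    have h2 : √(1 - (37 / 50) ^ 2) ≤ (672607 / 1000000) := sqrt_le_iff.2 ⟨by norm_num, by norm_num⟩
    norm_num [capPrim] at h1 h2 ⊢ <;> linarith
  · norm_num [capPrim, arcsin_one] <;> linarith
  · norm_num [capPrim, arcsin_one] <;> linarith

private lemma capGrid5_2 (hn : Module.finrank ℝ E = 6) {X : Set E} (hX : IsCone X) (hm : MeasurableSet X) : √(2 * π) * ‖mom X‖ ≤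
    (((333 / 20000) : ℚ) : ℝ) + (((106029 / 25000) : ℚ) : ℝ) * (stdGaussian E).real X := by
  have hlo := pi_gt_d6
  have hhi := pi_lt_d6
  refine cap_line hn (by norm_num) hX hm (s := (18 / 25)) (q := (27759 / 40000)) (G := (686201631 / 1250000000)) (by norm_num) (by norm_num)
    (by norm_num) (by norm_num) ?_ ?_ ?_
  · have h1 : arcsin (18 / 25) ≤ (80381 / 100000) := arcsin_le_seven (by norm_num) (by norm_num) (by norm_num)
    have h2 : √(1 - (18 / 25) ^ 2) ≤ (27759 / 40000) := sqrt_le_iff.2 ⟨by norm_num, by norm_num⟩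
    norm_num [capPrim] at h1 h2 ⊢ <;> linarith
  · norm_num [capPrim, arcsin_one] <;> linarith
  · norm_num [capPrim, arcsin_one] <;> linarith

private lemma capGrid5_3 (hn : Module.finrank ℝ E = 6) {X : Set E} (hX : IsCone X) (hm : MeasurableSet X) : √(2 * π) * ‖mom X‖ ≤
    (((21 / 1000) : ℚ) : ℝ) + (((82467 / 20000) : ℚ) : ℝ) * (stdGaussian E).real X := by
  have hlo := pi_gt_d6
  have hhi := pi_lt_d6
  refine cap_line hn (by norm_num) hX hm (s := (7 / 10)) (q := (714143 / 1000000)) (G := (2167899201 / 4000000000)) (by norm_num) (by norm_num)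
    (by norm_num) (by norm_num) ?_ ?_ ?_
  · have h1 : arcsin (7 / 10) ≤ (3877 / 5000) := arcsin_le_seven (by norm_num) (by norm_num) (by norm_num)
    have h2 : √(1 - (7 / 10) ^ 2) ≤ (714143 / 1000000) := sqrt_le_iff.2 ⟨by norm_num, by norm_num⟩
    norm_num [capPrim] at h1 h2 ⊢ <;> linarith
  · norm_num [capPrim, arcsin_one] <;> linarith
  · norm_num [capPrim, arcsin_one] <;> linarith

private lemma capGrid5_4 (hn : Module.finrank ℝ E = 6) {X : Set E} (hX : IsCone X) (hm : MeasurableSet X) : √(2 * π) * ‖mom X‖ ≤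
    (((2747 / 100000) : ℚ) : ℝ) + (((49701 / 12500) : ℚ) : ℝ) * (stdGaussian E).real X := by
  have hlo := pi_gt_d6
  have hhi := pi_lt_d6
  refine cap_line hn (by norm_num) hX hm (s := (27 / 40)) (q := (368909 / 500000)) (G := (68147496153 / 128000000000)) (by norm_num) (by norm_num)
    (by norm_num) (by norm_num) ?_ ?_ ?_
  · have h1 : arcsin (27 / 40) ≤ (74097 / 100000) := arcsin_le_seven (by norm_num) (by norm_num) (by norm_num)
    have h2 : √(1 - (27 / 40) ^ 2) ≤ (368909 / 500000) := sqrt_le_iff.2 ⟨by norm_num, by norm_num⟩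
    norm_num [capPrim] at h1 h2 ⊢ <;> linarith
  · norm_num [capPrim, arcsin_one] <;> linarith
  · norm_num [capPrim, arcsin_one] <;> linarith

private lemma capGrid5_5 (hn : Module.finrank ℝ E = 6) {X : Set E} (hX : IsCone X) (hm : MeasurableSet X) : √(2 * π) * ‖mom X‖ ≤
    (((671 / 20000) : ℚ) : ℝ) + (((385827 / 100000) : ℚ) : ℝ) * (stdGaussian E).real X := by
  have hlo := pi_gt_d6
  have hhi := pi_lt_d6
  refine cap_line hn (by norm_num) hX hm (s := (131 / 200)) (q := (755629 / 1000000)) (G := (16770297145761 / 32000000000000)) (by norm_num) (by norm_num)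
    (by norm_num) (by norm_num) ?_ ?_ ?_
  · have h1 : arcsin (131 / 200) ≤ (71419 / 100000) := arcsin_le_seven (by norm_num) (by norm_num) (by norm_num)
    have h2 : √(1 - (131 / 200) ^ 2) ≤ (755629 / 1000000) := sqrt_le_iff.2 ⟨by norm_num, by norm_num⟩
    norm_num [capPrim] at h1 h2 ⊢ <;> linarith
  · norm_num [capPrim, arcsin_one] <;> linarith
  · norm_num [capPrim, arcsin_one] <;> linarith

private lemma capGrid5_6 (hn : Module.finrank ℝ E = 6) {X : Set E} (hX : IsCone X) (hm : MeasurableSet X) : √(2 * π) * ‖mom X‖ ≤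
    (((253 / 6250) : ℚ) : ℝ) + (((187023 / 50000) : ℚ) : ℝ) * (stdGaussian E).real X := by
  have hlo := pi_gt_d6
  have hhi := pi_lt_d6
  refine cap_line hn (by norm_num) hX hm (s := (127 / 200)) (q := (772513 / 1000000)) (G := (16484632603521 / 32000000000000)) (by norm_num) (by norm_num)
    (by norm_num) (by norm_num) ?_ ?_ ?_
  · have h1 : arcsin (127 / 200) ≤ (68801 / 100000) := arcsin_le_seven (by norm_num) (by norm_num) (by norm_num)
    have h2 : √(1 - (127 / 200) ^ 2) ≤ (772513 / 1000000) := sqrt_le_iff.2 ⟨by norm_num, by norm_num⟩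
    norm_num [capPrim] at h1 h2 ⊢ <;> linarith
  · norm_num [capPrim, arcsin_one] <;> linarith
  · norm_num [capPrim, arcsin_one] <;> linarith

private lemma capGrid5_7 (hn : Module.finrank ℝ E = 6) {X : Set E} (hX : IsCone X) (hm : MeasurableSet X) : √(2 * π) * ‖mom X‖ ≤
    (((967 / 20000) : ℚ) : ℝ) + (((72453 / 20000) : ℚ) : ℝ) * (stdGaussian E).real X := by
  have hlo := pi_gt_d6
  have hhi := pi_lt_d6
  refine cap_line hn (by norm_num) hX hm (s := (123 / 200)) (q := (49283 / 62500)) (G := (1011264291639 / 2000000000000)) (by norm_num) (by norm_num)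
    (by norm_num) (by norm_num) ?_ ?_ ?_
  · have h1 : arcsin (123 / 200) ≤ (66239 / 100000) := arcsin_le_seven (by norm_num) (by norm_num) (by norm_num)
    have h2 : √(1 - (123 / 200) ^ 2) ≤ (49283 / 62500) := sqrt_le_iff.2 ⟨by norm_num, by norm_num⟩
    norm_num [capPrim] at h1 h2 ⊢ <;> linarith
  · norm_num [capPrim, arcsin_one] <;> linarith
  · norm_num [capPrim, arcsin_one] <;> linarith

private lemma capGrid5_8 (hn : Module.finrank ℝ E = 6) {X : Set E} (hX : IsCone X) (hm : MeasurableSet X) : √(2 * π) * ‖mom X‖ ≤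
    (((1489 / 25000) : ℚ) : ℝ) + (((347539 / 100000) : ℚ) : ℝ) * (stdGaussian E).real X := by
  have hlo := pi_gt_d6
  have hhi := pi_lt_d6
  refine cap_line hn (by norm_num) hX hm (s := (59 / 100)) (q := (201851 / 250000)) (G := (492921768471 / 1000000000000)) (by norm_num) (by norm_num)
    (by norm_num) (by norm_num) ?_ ?_ ?_
  · have h1 : arcsin (59 / 100) ≤ (31553 / 50000) := arcsin_le_seven (by norm_num) (by norm_num) (by norm_num)
    have h2 : √(1 - (59 / 100) ^ 2) ≤ (201851 / 250000) := sqrt_le_iff.2 ⟨by norm_num, by norm_num⟩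
    norm_num [capPrim] at h1 h2 ⊢ <;> linarith
  · norm_num [capPrim, arcsin_one] <;> linarith
  · norm_num [capPrim, arcsin_one] <;> linarith

private lemma capGrid5_9 (hn : Module.finrank ℝ E = 6) {X : Set E} (hX : IsCone X) (hm : MeasurableSet X) : √(2 * π) * ‖mom X‖ ≤
    (((6971 / 100000) : ℚ) : ℝ) + (((167879 / 50000) : ℚ) : ℝ) * (stdGaussian E).real X := by
  have hlo := pi_gt_d6
  have hhi := pi_lt_d6
  refine cap_line hn (by norm_num) hX hm (s := (57 / 100)) (q := (164329 / 200000)) (G := (385689244503 / 800000000000)) (by norm_num) (by norm_num)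
    (by norm_num) (by norm_num) ?_ ?_ ?_
  · have h1 : arcsin (57 / 100) ≤ (60651 / 100000) := arcsin_le_seven (by norm_num) (by norm_num) (by norm_num)
    have h2 : √(1 - (57 / 100) ^ 2) ≤ (164329 / 200000) := sqrt_le_iff.2 ⟨by norm_num, by norm_num⟩
    norm_num [capPrim] at h1 h2 ⊢ <;> linarith
  · norm_num [capPrim, arcsin_one] <;> linarith
  · norm_num [capPrim, arcsin_one] <;> linarith

private lemma capGrid5_10 (hn : Module.finrank ℝ E = 6) {X : Set E} (hX : IsCone X) (hm : MeasurableSet X) : √(2 * π) * ‖mom X‖ ≤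
    (((8097 / 100000) : ℚ) : ℝ) + (((323977 / 100000) : ℚ) : ℝ) * (stdGaussian E).real X := by
  have hlo := pi_gt_d6
  have hhi := pi_lt_d6
  refine cap_line hn (by norm_num) hX hm (s := (11 / 20)) (q := (167033 / 200000)) (G := (3012730077 / 6400000000)) (by norm_num) (by norm_num)
    (by norm_num) (by norm_num) ?_ ?_ ?_
  · have h1 : arcsin (11 / 20) ≤ (58237 / 100000) := arcsin_le_seven (by norm_num) (by norm_num) (by norm_num)
    have h2 : √(1 - (11 / 20) ^ 2) ≤ (167033 / 200000) := sqrt_le_iff.2 ⟨by norm_num, by norm_num⟩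
    norm_num [capPrim] at h1 h2 ⊢ <;> linarith
  · norm_num [capPrim, arcsin_one] <;> linarith
  · norm_num [capPrim, arcsin_one] <;> linarith

private lemma capGrid5_11 (hn : Module.finrank ℝ E = 6) {X : Set E} (hX : IsCone X) (hm : MeasurableSet X) : √(2 * π) * ‖mom X‖ ≤
    (((9339 / 100000) : ℚ) : ℝ) + (((78049 / 25000) : ℚ) : ℝ) * (stdGaussian E).real X := by
  have hlo := pi_gt_d6
  have hhi := pi_lt_d6
  refine cap_line hn (by norm_num) hX hm (s := (53 / 100)) (q := (423999 / 500000)) (G := (917632475877 / 2000000000000)) (by norm_num) (by norm_num)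
    (by norm_num) (by norm_num) ?_ ?_ ?_
  · have h1 : arcsin (53 / 100) ≤ (55861 / 100000) := arcsin_le_seven (by norm_num) (by norm_num) (by norm_num)
    have h2 : √(1 - (53 / 100) ^ 2) ≤ (423999 / 500000) := sqrt_le_iff.2 ⟨by norm_num, by norm_num⟩
    norm_num [capPrim] at h1 h2 ⊢ <;> linarith
  · norm_num [capPrim, arcsin_one] <;> linarith
  · norm_num [capPrim, arcsin_one] <;> linarith

private lemma capGrid5_12 (hn : Module.finrank ℝ E = 6) {X : Set E} (hX : IsCone X) (hm : MeasurableSet X) : √(2 * π) * ‖mom X‖ ≤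
    (((1383 / 12500) : ℚ) : ℝ) + (((29747 / 10000) : ℚ) : ℝ) * (stdGaussian E).real X := by
  have hlo := pi_gt_d6
  have hhi := pi_lt_d6
  refine cap_line hn (by norm_num) hX hm (s := (101 / 200)) (q := (10789 / 12500)) (G := (177261482511 / 400000000000)) (by norm_num) (by norm_num)
    (by norm_num) (by norm_num) ?_ ?_ ?_
  · have h1 : arcsin (101 / 200) ≤ (52939 / 100000) := arcsin_le_seven (by norm_num) (by norm_num) (by norm_num)
    have h2 : √(1 - (101 / 200) ^ 2) ≤ (10789 / 12500) := sqrt_le_iff.2 ⟨by norm_num, by norm_num⟩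
    norm_num [capPrim] at h1 h2 ⊢ <;> linarith
  · norm_num [capPrim, arcsin_one] <;> linarith
  · norm_num [capPrim, arcsin_one] <;> linarith

private lemma capGrid5_13 (hn : Module.finrank ℝ E = 6) {X : Set E} (hX : IsCone X) (hm : MeasurableSet X) : √(2 * π) * ‖mom X‖ ≤
    (((3147 / 25000) : ℚ) : ℝ) + (((285689 / 100000) : ℚ) : ℝ) * (stdGaussian E).real X := by
  have hlo := pi_gt_d6
  have hhi := pi_lt_d6
  refine cap_line hn (by norm_num) hX hm (s := (97 / 200)) (q := (174903 / 200000)) (G := (2752217854281 / 6400000000000)) (by norm_num) (by norm_num)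
    (by norm_num) (by norm_num) ?_ ?_ ?_
  · have h1 : arcsin (97 / 200) ≤ (50637 / 100000) := arcsin_le_seven (by norm_num) (by norm_num) (by norm_num)
    have h2 : √(1 - (97 / 200) ^ 2) ≤ (174903 / 200000) := sqrt_le_iff.2 ⟨by norm_num, by norm_num⟩
    norm_num [capPrim] at h1 h2 ⊢ <;> linarith
  · norm_num [capPrim, arcsin_one] <;> linarith
  · norm_num [capPrim, arcsin_one] <;> linarith

private lemma capGrid5_14 (hn : Module.finrank ℝ E = 6) {X : Set E} (hX : IsCone X) (hm : MeasurableSet X) : √(2 * π) * ‖mom X‖ ≤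
    (((7123 / 50000) : ℚ) : ℝ) + (((68477 / 25000) : ℚ) : ℝ) * (stdGaussian E).real X := by
  have hlo := pi_gt_d6
  have hhi := pi_lt_d6
  refine cap_line hn (by norm_num) hX hm (s := (93 / 200)) (q := (885311 / 1000000)) (G := (13324966199973 / 32000000000000)) (by norm_num) (by norm_num)
    (by norm_num) (by norm_num) ?_ ?_ ?_
  · have h1 : arcsin (93 / 200) ≤ (12091 / 25000) := arcsin_le_seven (by norm_num) (by norm_num) (by norm_num)
    have h2 : √(1 - (93 / 200) ^ 2) ≤ (885311 / 1000000) := sqrt_le_iff.2 ⟨by norm_num, by norm_num⟩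
    norm_num [capPrim] at h1 h2 ⊢ <;> linarith
  · norm_num [capPrim, arcsin_one] <;> linarith
  · norm_num [capPrim, arcsin_one] <;> linarith

private lemma capGrid5_15 (hn : Module.finrank ℝ E = 6) {X : Set E} (hX : IsCone X) (hm : MeasurableSet X) : √(2 * π) * ‖mom X‖ ≤
    (((16043 / 100000) : ℚ) : ℝ) + (((262127 / 100000) : ℚ) : ℝ) * (stdGaussian E).real X := by
  have hlo := pi_gt_d6
  have hhi := pi_lt_d6
  refine cap_line hn (by norm_num) hX hm (s := (89 / 200)) (q := (895531 / 1000000)) (G := (12873064306461 / 32000000000000)) (by norm_num) (by norm_num)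
    (by norm_num) (by norm_num) ?_ ?_ ?_
  · have h1 : arcsin (89 / 200) ≤ (23059 / 50000) := arcsin_le_seven (by norm_num) (by norm_num) (by norm_num)
    have h2 : √(1 - (89 / 200) ^ 2) ≤ (895531 / 1000000) := sqrt_le_iff.2 ⟨by norm_num, by norm_num⟩
    norm_num [capPrim] at h1 h2 ⊢ <;> linarith
  · norm_num [capPrim, arcsin_one] <;> linarith
  · norm_num [capPrim, arcsin_one] <;> linarith

private lemma capGrid5_16 (hn : Module.finrank ℝ E = 6) {X : Set E} (hX : IsCone X) (hm : MeasurableSet X) : √(2 * π) * ‖mom X‖ ≤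
    (((17983 / 100000) : ℚ) : ℝ) + (((125173 / 50000) : ℚ) : ℝ) * (stdGaussian E).real X := by
  have hlo := pi_gt_d6
  have hhi := pi_lt_d6
  refine cap_line hn (by norm_num) hX hm (s := (17 / 40)) (q := (452597 / 500000)) (G := (49623546939 / 128000000000)) (by norm_num) (by norm_num)
    (by norm_num) (by norm_num) ?_ ?_ ?_
  · have h1 : arcsin (17 / 40) ≤ (43897 / 100000) := arcsin_le_seven (by norm_num) (by norm_num) (by norm_num)
    have h2 : √(1 - (17 / 40) ^ 2) ≤ (452597 / 500000) := sqrt_le_iff.2 ⟨by norm_num, by norm_num⟩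
    norm_num [capPrim] at h1 h2 ⊢ <;> linarith
  · norm_num [capPrim, arcsin_one] <;> linarith
  · norm_num [capPrim, arcsin_one] <;> linarith

private lemma capGrid5_17 (hn : Module.finrank ℝ E = 6) {X : Set E} (hX : IsCone X) (hm : MeasurableSet X) : √(2 * π) * ‖mom X‖ ≤
    (((20617 / 100000) : ℚ) : ℝ) + (((11781 / 5000) : ℚ) : ℝ) * (stdGaussian E).real X := by
  have hlo := pi_gt_d6
  have hhi := pi_lt_d6
  refine cap_line hn (by norm_num) hX hm (s := (2 / 5)) (q := (229129 / 250000)) (G := (46098093 / 125000000)) (by norm_num) (by norm_num)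
    (by norm_num) (by norm_num) ?_ ?_ ?_
  · have h1 : arcsin (2 / 5) ≤ (1286 / 3125) := arcsin_le_seven (by norm_num) (by norm_num) (by norm_num)
    have h2 : √(1 - (2 / 5) ^ 2) ≤ (229129 / 250000) := sqrt_le_iff.2 ⟨by norm_num, by norm_num⟩
    norm_num [capPrim] at h1 h2 ⊢ <;> linarith
  · norm_num [capPrim, arcsin_one] <;> linarith
  · norm_num [capPrim, arcsin_one] <;> linarith

private lemma capGrid5_18 (hn : Module.finrank ℝ E = 6) {X : Set E} (hX : IsCone X) (hm : MeasurableSet X) : √(2 * π) * ‖mom X‖ ≤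
    (((11449 / 50000) : ℚ) : ℝ) + (((223839 / 100000) : ℚ) : ℝ) * (stdGaussian E).real X := by
  have hlo := pi_gt_d6
  have hhi := pi_lt_d6
  refine cap_line hn (by norm_num) hX hm (s := (19 / 50)) (q := (924987 / 1000000)) (G := (176585220417 / 500000000000)) (by norm_num) (by norm_num)
    (by norm_num) (by norm_num) ?_ ?_ ?_
  · have h1 : arcsin (19 / 50) ≤ (1949 / 5000) := arcsin_le_seven (by norm_num) (by norm_num) (by norm_num)
    have h2 : √(1 - (19 / 50) ^ 2) ≤ (924987 / 1000000) := sqrt_le_iff.2 ⟨by norm_num, by norm_num⟩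
    norm_num [capPrim] at h1 h2 ⊢ <;> linarith
  · norm_num [capPrim, arcsin_one] <;> linarith
  · norm_num [capPrim, arcsin_one] <;> linarith

private lemma capGrid5_19 (hn : Module.finrank ℝ E = 6) {X : Set E} (hX : IsCone X) (hm : MeasurableSet X) : √(2 * π) * ‖mom X‖ ≤
    (((3167 / 12500) : ℚ) : ℝ) + (((106029 / 50000) : ℚ) : ℝ) * (stdGaussian E).real X := by
  have hlo := pi_gt_d6
  have hhi := pi_lt_d6
  refine cap_line hn (by norm_num) hX hm (s := (9 / 25)) (q := (932953 / 1000000)) (G := (42141713901 / 125000000000)) (by norm_num) (by norm_num)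
    (by norm_num) (by norm_num) ?_ ?_ ?_
  · have h1 : arcsin (9 / 25) ≤ (36827 / 100000) := arcsin_le_seven (by norm_num) (by norm_num) (by norm_num)
    have h2 : √(1 - (9 / 25) ^ 2) ≤ (932953 / 1000000) := sqrt_le_iff.2 ⟨by norm_num, by norm_num⟩
    norm_num [capPrim] at h1 h2 ⊢ <;> linarith
  · norm_num [capPrim, arcsin_one] <;> linarith
  · norm_num [capPrim, arcsin_one] <;> linarith

private lemma capGrid5_20 (hn : Module.finrank ℝ E = 6) {X : Set E} (hX : IsCone X) (hm : MeasurableSet X) : √(2 * π) * ‖mom X‖ ≤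
    (((27937 / 100000) : ℚ) : ℝ) + (((200277 / 100000) : ℚ) : ℝ) * (stdGaussian E).real X := by
  have hlo := pi_gt_d6
  have hhi := pi_lt_d6
  refine cap_line hn (by norm_num) hX hm (s := (17 / 50)) (q := (470213 / 500000)) (G := (80173724781 / 250000000000)) (by norm_num) (by norm_num)
    (by norm_num) (by norm_num) ?_ ?_ ?_
  · have h1 : arcsin (17 / 50) ≤ (8673 / 25000) := arcsin_le_seven (by norm_num) (by norm_num) (by norm_num)
    have h2 : √(1 - (17 / 50) ^ 2) ≤ (470213 / 500000) := sqrt_le_iff.2 ⟨by norm_num, by norm_num⟩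
    norm_num [capPrim] at h1 h2 ⊢ <;> linarith
  · norm_num [capPrim, arcsin_one] <;> linarith
  · norm_num [capPrim, arcsin_one] <;> linarith

private lemma capGrid5_21 (hn : Module.finrank ℝ E = 6) {X : Set E} (hX : IsCone X) (hm : MeasurableSet X) : √(2 * π) * ‖mom X‖ ≤
    (((31423 / 100000) : ℚ) : ℝ) + (((185551 / 100000) : ℚ) : ℝ) * (stdGaussian E).real X := by
  have hlo := pi_gt_d6
  have hhi := pi_lt_d6
  refine cap_line hn (by norm_num) hX hm (s := (63 / 200)) (q := (237273 / 250000)) (G := (2396870498169 / 8000000000000)) (by norm_num) (by norm_num)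
    (by norm_num) (by norm_num) ?_ ?_ ?_
  · have h1 : arcsin (63 / 200) ≤ (16023 / 50000) := arcsin_le_seven (by norm_num) (by norm_num) (by norm_num)
    have h2 : √(1 - (63 / 200) ^ 2) ≤ (237273 / 250000) := sqrt_le_iff.2 ⟨by norm_num, by norm_num⟩
    norm_num [capPrim] at h1 h2 ⊢ <;> linarith
  · norm_num [capPrim, arcsin_one] <;> linarith
  · norm_num [capPrim, arcsin_one] <;> linarith

private lemma capGrid5_22 (hn : Module.finrank ℝ E = 6) {X : Set E} (hX : IsCone X) (hm : MeasurableSet X) : √(2 * π) * ‖mom X‖ ≤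
    (((34403 / 100000) : ℚ) : ℝ) + (((17377 / 10000) : ℚ) : ℝ) * (stdGaussian E).real X := by
  have hlo := pi_gt_d6
  have hhi := pi_lt_d6
  refine cap_line hn (by norm_num) hX hm (s := (59 / 200)) (q := (477749 / 500000)) (G := (4517359488129 / 16000000000000)) (by norm_num) (by norm_num)
    (by norm_num) (by norm_num) ?_ ?_ ?_
  · have h1 : arcsin (59 / 200) ≤ (14973 / 50000) := arcsin_le_seven (by norm_num) (by norm_num) (by norm_num)
    have h2 : √(1 - (59 / 200) ^ 2) ≤ (477749 / 500000) := sqrt_le_iff.2 ⟨by norm_num, by norm_num⟩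
    norm_num [capPrim] at h1 h2 ⊢ <;> linarith
  · norm_num [capPrim, arcsin_one] <;> linarith
  · norm_num [capPrim, arcsin_one] <;> linarith

private lemma capGrid5_23 (hn : Module.finrank ℝ E = 6) {X : Set E} (hX : IsCone X) (hm : MeasurableSet X) : √(2 * π) * ‖mom X‖ ≤
    (((18779 / 50000) : ℚ) : ℝ) + (((161989 / 100000) : ℚ) : ℝ) * (stdGaussian E).real X := by
  have hlo := pi_gt_d6
  have hhi := pi_lt_d6
  refine cap_line hn (by norm_num) hX hm (s := (11 / 40)) (q := (192289 / 200000)) (G := (13553707341 / 51200000000)) (by norm_num) (by norm_num)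
    (by norm_num) (by norm_num) ?_ ?_ ?_
  · have h1 : arcsin (11 / 40) ≤ (27859 / 100000) := arcsin_le_seven (by norm_num) (by norm_num) (by norm_num)
    have h2 : √(1 - (11 / 40) ^ 2) ≤ (192289 / 200000) := sqrt_le_iff.2 ⟨by norm_num, by norm_num⟩
    norm_num [capPrim] at h1 h2 ⊢ <;> linarith
  · norm_num [capPrim, arcsin_one] <;> linarith
  · norm_num [capPrim, arcsin_one] <;> linarith

private lemma capGrid5_24 (hn : Module.finrank ℝ E = 6) {X : Set E} (hX : IsCone X) (hm : MeasurableSet X) : √(2 * π) * ‖mom X‖ ≤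
    (((40891 / 100000) : ℚ) : ℝ) + (((4694 / 3125) : ℚ) : ℝ) * (stdGaussian E).real X := by
  have hlo := pi_gt_d6
  have hhi := pi_lt_d6
  refine cap_line hn (by norm_num) hX hm (s := (51 / 200)) (q := (483471 / 500000)) (G := (3948669188379 / 16000000000000)) (by norm_num) (by norm_num)
    (by norm_num) (by norm_num) ?_ ?_ ?_
  · have h1 : arcsin (51 / 200) ≤ (5157 / 20000) := arcsin_le_seven (by norm_num) (by norm_num) (by norm_num)
    have h2 : √(1 - (51 / 200) ^ 2) ≤ (483471 / 500000) := sqrt_le_iff.2 ⟨by norm_num, by norm_num⟩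
    norm_num [capPrim] at h1 h2 ⊢ <;> linarith
  · norm_num [capPrim, arcsin_one] <;> linarith
  · norm_num [capPrim, arcsin_one] <;> linarith

private lemma capGrid5_25 (hn : Module.finrank ℝ E = 6) {X : Set E} (hX : IsCone X) (hm : MeasurableSet X) : √(2 * π) * ‖mom X‖ ≤
    (((45311 / 100000) : ℚ) : ℝ) + (((67741 / 50000) : ℚ) : ℝ) * (stdGaussian E).real X := by
  have hlo := pi_gt_d6
  have hhi := pi_lt_d6
  refine cap_line hn (by norm_num) hX hm (s := (23 / 100)) (q := (973191 / 1000000)) (G := (895864010103 / 4000000000000)) (by norm_num) (by norm_num)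
    (by norm_num) (by norm_num) ?_ ?_ ?_
  · have h1 : arcsin (23 / 100) ≤ (2901 / 12500) := arcsin_le_seven (by norm_num) (by norm_num) (by norm_num)
    have h2 : √(1 - (23 / 100) ^ 2) ≤ (973191 / 1000000) := sqrt_le_iff.2 ⟨by norm_num, by norm_num⟩
    norm_num [capPrim] at h1 h2 ⊢ <;> linarith
  · norm_num [capPrim, arcsin_one] <;> linarith
  · norm_num [capPrim, arcsin_one] <;> linarith

private lemma capGrid5_26 (hn : Module.finrank ℝ E = 6) {X : Set E} (hX : IsCone X) (hm : MeasurableSet X) : √(2 * π) * ‖mom X‖ ≤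
    (((9811 / 20000) : ℚ) : ℝ) + (((123701 / 100000) : ℚ) : ℝ) * (stdGaussian E).real X := by
  have hlo := pi_gt_d6
  have hhi := pi_lt_d6
  refine cap_line hn (by norm_num) hX hm (s := (21 / 100)) (q := (488851 / 500000)) (G := (410804525889 / 2000000000000)) (by norm_num) (by norm_num)
    (by norm_num) (by norm_num) ?_ ?_ ?_
  · have h1 : arcsin (21 / 100) ≤ (10579 / 50000) := arcsin_le_seven (by norm_num) (by norm_num) (by norm_num)
    have h2 : √(1 - (21 / 100) ^ 2) ≤ (488851 / 500000) := sqrt_le_iff.2 ⟨by norm_num, by norm_num⟩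
    norm_num [capPrim] at h1 h2 ⊢ <;> linarith
  · norm_num [capPrim, arcsin_one] <;> linarith
  · norm_num [capPrim, arcsin_one] <;> linarith

private lemma capGrid5_27 (hn : Module.finrank ℝ E = 6) {X : Set E} (hX : IsCone X) (hm : MeasurableSet X) : √(2 * π) * ‖mom X‖ ≤
    (((10597 / 20000) : ℚ) : ℝ) + (((1399 / 1250) : ℚ) : ℝ) * (stdGaussian E).real X := by
  have hlo := pi_gt_d6
  have hhi := pi_lt_d6
  refine cap_line hn (by norm_num) hX hm (s := (19 / 100)) (q := (196357 / 200000)) (G := (149273762337 / 800000000000)) (by norm_num) (by norm_num)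
    (by norm_num) (by norm_num) ?_ ?_ ?_
  · have h1 : arcsin (19 / 100) ≤ (19117 / 100000) := arcsin_le_seven (by norm_num) (by norm_num) (by norm_num)
    have h2 : √(1 - (19 / 100) ^ 2) ≤ (196357 / 200000) := sqrt_le_iff.2 ⟨by norm_num, by norm_num⟩
    norm_num [capPrim] at h1 h2 ⊢ <;> linarith
  · norm_num [capPrim, arcsin_one] <;> linarith
  · norm_num [capPrim, arcsin_one] <;> linarith

private lemma capGrid5_28 (hn : Module.finrank ℝ E = 6) {X : Set E} (hX : IsCone X) (hm : MeasurableSet X) : √(2 * π) * ‖mom X‖ ≤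
    (((11421 / 20000) : ℚ) : ℝ) + (((100139 / 100000) : ℚ) : ℝ) * (stdGaussian E).real X := by
  have hlo := pi_gt_d6
  have hhi := pi_lt_d6
  refine cap_line hn (by norm_num) hX hm (s := (17 / 100)) (q := (197089 / 200000)) (G := (134043526743 / 800000000000)) (by norm_num) (by norm_num)
    (by norm_num) (by norm_num) ?_ ?_ ?_
  · have h1 : arcsin (17 / 100) ≤ (17083 / 100000) := arcsin_le_seven (by norm_num) (by norm_num) (by norm_num)
    have h2 : √(1 - (17 / 100) ^ 2) ≤ (197089 / 200000) := sqrt_le_iff.2 ⟨by norm_num, by norm_num⟩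
    norm_num [capPrim] at h1 h2 ⊢ <;> linarith
  · norm_num [capPrim, arcsin_one] <;> linarith
  · norm_num [capPrim, arcsin_one] <;> linarith

private lemma capGrid5_29 (hn : Module.finrank ℝ E = 6) {X : Set E} (hX : IsCone X) (hm : MeasurableSet X) : √(2 * π) * ‖mom X‖ ≤
    (((12283 / 20000) : ℚ) : ℝ) + (((44179 / 50000) : ℚ) : ℝ) * (stdGaussian E).real X := by
  have hlo := pi_gt_d6
  have hhi := pi_lt_d6
  refine cap_line hn (by norm_num) hX hm (s := (3 / 20)) (q := (494343 / 500000)) (G := (2373101739 / 16000000000)) (by norm_num) (by norm_num)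
    (by norm_num) (by norm_num) ?_ ?_ ?_
  · have h1 : arcsin (3 / 20) ≤ (15057 / 100000) := arcsin_le_seven (by norm_num) (by norm_num) (by norm_num)
    have h2 : √(1 - (3 / 20) ^ 2) ≤ (494343 / 500000) := sqrt_le_iff.2 ⟨by norm_num, by norm_num⟩
    norm_num [capPrim] at h1 h2 ⊢ <;> linarith
  · norm_num [capPrim, arcsin_one] <;> linarith
  · norm_num [capPrim, arcsin_one] <;> linarith

private lemma capGrid5_30 (hn : Module.finrank ℝ E = 6) {X : Set E} (hX : IsCone X) (hm : MeasurableSet X) : √(2 * π) * ‖mom X‖ ≤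
    (((16769 / 25000) : ℚ) : ℝ) + (((2301 / 3125) : ℚ) : ℝ) * (stdGaussian E).real X := by
  have hlo := pi_gt_d6
  have hhi := pi_lt_d6
  refine cap_line hn (by norm_num) hX hm (s := (1 / 8)) (q := (992157 / 1000000)) (G := (254006403 / 2048000000)) (by norm_num) (by norm_num)
    (by norm_num) (by norm_num) ?_ ?_ ?_
  · have h1 : arcsin (1 / 8) ≤ (12533 / 100000) := arcsin_le_seven (by norm_num) (by norm_num) (by norm_num)
    have h2 : √(1 - (1 / 8) ^ 2) ≤ (992157 / 1000000) := sqrt_le_iff.2 ⟨by norm_num, by norm_num⟩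
    norm_num [capPrim] at h1 h2 ⊢ <;> linarith
  · norm_num [capPrim, arcsin_one] <;> linarith
  · norm_num [capPrim, arcsin_one] <;> linarith

private lemma capGrid5_31 (hn : Module.finrank ℝ E = 6) {X : Set E} (hX : IsCone X) (hm : MeasurableSet X) : √(2 * π) * ‖mom X‖ ≤
    (((2873 / 4000) : ℚ) : ℝ) + (((61851 / 100000) : ℚ) : ℝ) * (stdGaussian E).real X := by
  have hlo := pi_gt_d6
  have hhi := pi_lt_d6
  refine cap_line hn (by norm_num) hX hm (s := (21 / 200)) (q := (994473 / 1000000)) (G := (3341583485547 / 32000000000000)) (by norm_num) (by norm_num)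
    (by norm_num) (by norm_num) ?_ ?_ ?_
  · have h1 : arcsin (21 / 200) ≤ (263 / 2500) := arcsin_le_seven (by norm_num) (by norm_num) (by norm_num)
    have h2 : √(1 - (21 / 200) ^ 2) ≤ (994473 / 1000000) := sqrt_le_iff.2 ⟨by norm_num, by norm_num⟩
    norm_num [capPrim] at h1 h2 ⊢ <;> linarith
  · norm_num [capPrim, arcsin_one] <;> linarith
  · norm_num [capPrim, arcsin_one] <;> linarith

private lemma capGrid5_32 (hn : Module.finrank ℝ E = 6) {X : Set E} (hX : IsCone X) (hm : MeasurableSet X) : √(2 * π) * ‖mom X‖ ≤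
    (((76769 / 100000) : ℚ) : ℝ) + (((5007 / 10000) : ℚ) : ℝ) * (stdGaussian E).real X := by
  have hlo := pi_gt_d6
  have hhi := pi_lt_d6
  refine cap_line hn (by norm_num) hX hm (s := (17 / 200)) (q := (996381 / 1000000)) (G := (2710272480147 / 32000000000000)) (by norm_num) (by norm_num)
    (by norm_num) (by norm_num) ?_ ?_ ?_
  · have h1 : arcsin (17 / 200) ≤ (8511 / 100000) := arcsin_le_seven (by norm_num) (by norm_num) (by norm_num)
    have h2 : √(1 - (17 / 200) ^ 2) ≤ (996381 / 1000000) := sqrt_le_iff.2 ⟨by norm_num, by norm_num⟩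
    norm_num [capPrim] at h1 h2 ⊢ <;> linarith
  · norm_num [capPrim, arcsin_one] <;> linarith
  · norm_num [capPrim, arcsin_one] <;> linarith

private lemma capGrid5_33 (hn : Module.finrank ℝ E = 6) {X : Set E} (hX : IsCone X) (hm : MeasurableSet X) : √(2 * π) * ‖mom X‖ ≤
    (((10239 / 12500) : ℚ) : ℝ) + (((38289 / 100000) : ℚ) : ℝ) * (stdGaussian E).real X := by
  have hlo := pi_gt_d6
  have hhi := pi_lt_d6
  refine cap_line hn (by norm_num) hX hm (s := (13 / 200)) (q := (498943 / 500000)) (G := (1037829722229 / 16000000000000)) (by norm_num) (by norm_num)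
    (by norm_num) (by norm_num) ?_ ?_ ?_
  · have h1 : arcsin (13 / 200) ≤ (1301 / 20000) := arcsin_le_seven (by norm_num) (by norm_num) (by norm_num)
    have h2 : √(1 - (13 / 200) ^ 2) ≤ (498943 / 500000) := sqrt_le_iff.2 ⟨by norm_num, by norm_num⟩
    norm_num [capPrim] at h1 h2 ⊢ <;> linarith
  · norm_num [capPrim, arcsin_one] <;> linarith
  · norm_num [capPrim, arcsin_one] <;> linarith

private lemma capGrid5_34 (hn : Module.finrank ℝ E = 6) {X : Set E} (hX : IsCone X) (hm : MeasurableSet X) : √(2 * π) * ‖mom X‖ ≤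
    (((4431 / 5000) : ℚ) : ℝ) + (((11781 / 50000) : ℚ) : ℝ) * (stdGaussian E).real X := by
  have hlo := pi_gt_d6
  have hhi := pi_lt_d6
  refine cap_line hn (by norm_num) hX hm (s := (1 / 25)) (q := (1249 / 1250)) (G := (49964391 / 1250000000)) (by norm_num) (by norm_num)
    (by norm_num) (by norm_num) ?_ ?_ ?_
  · have h1 : arcsin (1 / 25) ≤ (2001 / 50000) := arcsin_le_seven (by norm_num) (by norm_num) (by norm_num)
    have h2 : √(1 - (1 / 25) ^ 2) ≤ (1249 / 1250) := sqrt_le_iff.2 ⟨by norm_num, by norm_num⟩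
    norm_num [capPrim] at h1 h2 ⊢ <;> linarith
  · norm_num [capPrim, arcsin_one] <;> linarith
  · norm_num [capPrim, arcsin_one] <;> linarith

private lemma capGrid5_35 (hn : Module.finrank ℝ E = 6) {X : Set E} (hX : IsCone X) (hm : MeasurableSet X) : √(2 * π) * ‖mom X‖ ≤
    (((9421 / 10000) : ℚ) : ℝ) + (((11781 / 100000) : ℚ) : ℝ) * (stdGaussian E).real X := by
  have hlo := pi_gt_d6
  have hhi := pi_lt_d6
  refine cap_line hn (by norm_num) hX hm (s := (1 / 50)) (q := (4999 / 5000)) (G := (24999063 / 1250000000)) (by norm_num) (by norm_num)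
    (by norm_num) (by norm_num) ?_ ?_ ?_
  · have h1 : arcsin (1 / 50) ≤ (2001 / 100000) := arcsin_le_seven (by norm_num) (by norm_num) (by norm_num)
    have h2 : √(1 - (1 / 50) ^ 2) ≤ (4999 / 5000) := sqrt_le_iff.2 ⟨by norm_num, by norm_num⟩
    norm_num [capPrim] at h1 h2 ⊢ <;> linarith
  · norm_num [capPrim, arcsin_one] <;> linarith
  · norm_num [capPrim, arcsin_one] <;> linarith

private lemma capGrid5_36 (hn : Module.finrank ℝ E = 6) {X : Set E} (hX : IsCone X) (hm : MeasurableSet X) : √(2 * π) * ‖mom X‖ ≤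
    (((1) : ℚ) : ℝ) + (((0) : ℚ) : ℝ) * (stdGaussian E).real X := by
  have hlo := pi_gt_d6
  have hhi := pi_lt_d6
  refine cap_line hn (by norm_num) hX hm (s := (0)) (q := (1)) (G := (0)) (by norm_num) (by norm_num)
    (by norm_num) (by norm_num) ?_ ?_ ?_
  · have h1 : arcsin (0) ≤ (0) := arcsin_le_seven (by norm_num) (by norm_num) (by norm_num)
    have h2 : √(1 - (0) ^ 2) ≤ (1) := sqrt_le_iff.2 ⟨by norm_num, by norm_num⟩
    norm_num [capPrim] at h1 h2 ⊢ <;> linarith
  · norm_num [capPrim, arcsin_one] <;> linarith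
  · norm_num [capPrim, arcsin_one] <;> linarith

/-- The lines of dimension 6. -/
def capGrid5 : List (ℚ × ℚ) :=
  [((989 / 100000), (223839 / 50000)),
   ((1297 / 100000), (435897 / 100000)),
   ((333 / 20000), (106029 / 25000)),
   ((21 / 1000), (82467 / 20000)),
   ((2747 / 100000), (49701 / 12500)),
   ((671 / 20000), (385827 / 100000)),
   ((253 / 6250), (187023 / 50000)),
   ((967 / 20000), (72453 / 20000)),
   ((1489 / 25000), (347539 / 100000)),
   ((6971 / 100000), (167879 / 50000)),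
   ((8097 / 100000), (323977 / 100000)),
   ((9339 / 100000), (78049 / 25000)),
   ((1383 / 12500), (29747 / 10000)),
   ((3147 / 25000), (285689 / 100000)),
   ((7123 / 50000), (68477 / 25000)),
   ((16043 / 100000), (262127 / 100000)),
   ((17983 / 100000), (125173 / 50000)),
   ((20617 / 100000), (11781 / 5000)),
   ((11449 / 50000), (223839 / 100000)),
   ((3167 / 12500), (106029 / 50000)),
   ((27937 / 100000), (200277 / 100000)),
   ((31423 / 100000), (185551 / 100000)),
   ((34403 / 100000), (17377 / 10000)),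
   ((18779 / 50000), (161989 / 100000)),
   ((40891 / 100000), (4694 / 3125)),
   ((45311 / 100000), (67741 / 50000)),
   ((9811 / 20000), (123701 / 100000)),
   ((10597 / 20000), (1399 / 1250)),
   ((11421 / 20000), (100139 / 100000)),
   ((12283 / 20000), (44179 / 50000)),
   ((16769 / 25000), (2301 / 3125)),
   ((2873 / 4000), (61851 / 100000)),
   ((76769 / 100000), (5007 / 10000)),
   ((10239 / 12500), (38289 / 100000)),
   ((4431 / 5000), (11781 / 50000)),
   ((9421 / 10000), (11781 / 100000)),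
   ((1), (0))]

theorem capGrid5_valid (hn : Module.finrank ℝ E = 6) {X : Set E} (hX : IsCone X) (hm : MeasurableSet X) :
    ∀ l ∈ capGrid5, √(2 * π) * ‖mom X‖ ≤ (l.1 : ℝ) + (l.2 : ℝ) * (stdGaussian E).real X := by
  simp only [capGrid5, List.forall_mem_cons, List.not_mem_nil, false_implies, implies_true, and_true]
  exact ⟨capGrid5_0 hn hX hm,
    capGrid5_1 hn hX hm,
    capGrid5_2 hn hX hm,
    capGrid5_3 hn hX hm,
    capGrid5_4 hn hX hm,
    capGrid5_5 hn hX hm,
    capGrid5_6 hn hX hm,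
    capGrid5_7 hn hX hm,
    capGrid5_8 hn hX hm,
    capGrid5_9 hn hX hm,
    capGrid5_10 hn hX hm,
    capGrid5_11 hn hX hm,
    capGrid5_12 hn hX hm,
    capGrid5_13 hn hX hm,
    capGrid5_14 hn hX hm,
    capGrid5_15 hn hX hm,
    capGrid5_16 hn hX hm,
    capGrid5_17 hn hX hm,
    capGrid5_18 hn hX hm,
    capGrid5_19 hn hX hm,
    capGrid5_20 hn hX hm,
    capGrid5_21 hn hX hm,
    capGrid5_22 hn hX hm,
    capGrid5_23 hn hX hm,
    capGrid5_24 hn hX hm,
    capGrid5_25 hn hX hm,
    capGrid5_26 hn hX hm,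
    capGrid5_27 hn hX hm,
    capGrid5_28 hn hX hm,
    capGrid5_29 hn hX hm,
    capGrid5_30 hn hX hm,
    capGrid5_31 hn hX hm,
    capGrid5_32 hn hX hm,
    capGrid5_33 hn hX hm,
    capGrid5_34 hn hX hm,
    capGrid5_35 hn hX hm,
    capGrid5_36 hn hX hm⟩

end Vale.Agent.P226
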