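import Vale.Agent.P226.CapLines

/-!
# Rational lines on a fine grid

Generated by an exact search; every line is checked against the bound here.
-/

namespace Vale.Agent.P226

open MeasureTheory ProbabilityTheory Real Set
open scoped RealInnerProductSpace

variable {E : Type*} [NormedAddCommGroup E] [InnerProductSpace ℝ E] [FiniteDimensional ℝ E]
  [MeasurableSpace E] [BorelSpace E]

private lemma capGridIso_0 {X : Set E} (hm : MeasurableSet X) : √(2 * π) * ‖mom X‖ ≤
    (((789 / 50000) : ℚ) : ℝ) + (((528899 / 100000) : ℚ) : ℝ) * (stdGaussian E).real X := by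
  have hlo := pi_gt_d6
  have hhi := pi_lt_d6
  refine iso_line hm (t := (211 / 100)) (e := (107959 / 1000000)) (L := (626657 / 250000)) (U := (2506629 / 1000000))
    (by norm_num) ?_ (le_sqrt_of_sq_le (by linarith)) (sqrt_le_iff.2 ⟨by norm_num, by linarith⟩) ?_ ?_ <;>
    norm_num [expTay, gaussPrim, Finset.sum_range_succ, Nat.factorial]

private lemma capGridIso_1 {X : Set E} (hm : MeasurableSet X) : √(2 * π) * ‖mom X‖ ≤
    (((893 / 50000) : ℚ) : ℝ) + (((517619 / 100000) : ℚ) : ℝ) * (stdGaussian E).real X := by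
  have hlo := pi_gt_d6
  have hhi := pi_lt_d6
  refine iso_line hm (t := (413 / 200)) (e := (11859 / 100000)) (L := (626657 / 250000)) (U := (2506629 / 1000000))
    (by norm_num) ?_ (le_sqrt_of_sq_le (by linarith)) (sqrt_le_iff.2 ⟨by norm_num, by linarith⟩) ?_ ?_ <;>
    norm_num [expTay, gaussPrim, Finset.sum_range_succ, Nat.factorial]

private lemma capGridIso_2 {X : Set E} (hm : MeasurableSet X) : √(2 * π) * ‖mom X‖ ≤
    (((1991 / 100000) : ℚ) : ℝ) + (((507593 / 100000) : ℚ) : ℝ) * (stdGaussian E).real X := by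
  have hlo := pi_gt_d6
  have hhi := pi_lt_d6
  refine iso_line hm (t := (81 / 40)) (e := (128697 / 1000000)) (L := (626657 / 250000)) (U := (2506629 / 1000000))
    (by norm_num) ?_ (le_sqrt_of_sq_le (by linarith)) (sqrt_le_iff.2 ⟨by norm_num, by linarith⟩) ?_ ?_ <;>
    norm_num [expTay, gaussPrim, Finset.sum_range_succ, Nat.factorial]

private lemma capGridIso_3 {X : Set E} (hm : MeasurableSet X) : √(2 * π) * ‖mom X‖ ≤
    (((277 / 12500) : ℚ) : ℝ) + (((248783 / 50000) : ℚ) : ℝ) * (stdGaussian E).real X := by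
  have hlo := pi_gt_d6
  have hhi := pi_lt_d6
  refine iso_line hm (t := (397 / 200)) (e := (139443 / 1000000)) (L := (626657 / 250000)) (U := (2506629 / 1000000))
    (by norm_num) ?_ (le_sqrt_of_sq_le (by linarith)) (sqrt_le_iff.2 ⟨by norm_num, by linarith⟩) ?_ ?_ <;>
    norm_num [expTay, gaussPrim, Finset.sum_range_succ, Nat.factorial]

private lemma capGridIso_4 {X : Set E} (hm : MeasurableSet X) : √(2 * π) * ‖mom X‖ ≤
    (((78 / 3125) : ℚ) : ℝ) + (((486287 / 100000) : ℚ) : ℝ) * (stdGaussian E).real X := by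
  have hlo := pi_gt_d6
  have hhi := pi_lt_d6
  refine iso_line hm (t := (97 / 50)) (e := (152317 / 1000000)) (L := (626657 / 250000)) (U := (2506629 / 1000000))
    (by norm_num) ?_ (le_sqrt_of_sq_le (by linarith)) (sqrt_le_iff.2 ⟨by norm_num, by linarith⟩) ?_ ?_ <;>
    norm_num [expTay, gaussPrim, Finset.sum_range_succ, Nat.factorial]

private lemma capGridIso_5 {X : Set E} (hm : MeasurableSet X) : √(2 * π) * ‖mom X‖ ≤
    (((2771 / 100000) : ℚ) : ℝ) + (((23813 / 5000) : ℚ) : ℝ) * (stdGaussian E).real X := by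
  have hlo := pi_gt_d6
  have hhi := pi_lt_d6
  refine iso_line hm (t := (19 / 10)) (e := (6579 / 40000)) (L := (626657 / 250000)) (U := (2506629 / 1000000))
    (by norm_num) ?_ (le_sqrt_of_sq_le (by linarith)) (sqrt_le_iff.2 ⟨by norm_num, by linarith⟩) ?_ ?_ <;>
    norm_num [expTay, gaussPrim, Finset.sum_range_succ, Nat.factorial]

private lemma capGridIso_6 {X : Set E} (hm : MeasurableSet X) : √(2 * π) * ‖mom X‖ ≤
    (((3113 / 100000) : ℚ) : ℝ) + (((23249 / 5000) : ℚ) : ℝ) * (stdGaussian E).real X := by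
  have hlo := pi_gt_d6
  have hhi := pi_lt_d6
  refine iso_line hm (t := (371 / 200)) (e := (7159 / 40000)) (L := (626657 / 250000)) (U := (2506629 / 1000000))
    (by norm_num) ?_ (le_sqrt_of_sq_le (by linarith)) (sqrt_le_iff.2 ⟨by norm_num, by linarith⟩) ?_ ?_ <;>
    norm_num [expTay, gaussPrim, Finset.sum_range_succ, Nat.factorial]

private lemma capGridIso_7 {X : Set E} (hm : MeasurableSet X) : √(2 * π) * ‖mom X‖ ≤
    (((1723 / 50000) : ℚ) : ℝ) + (((227477 / 50000) : ℚ) : ℝ) * (stdGaussian E).real X := by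
  have hlo := pi_gt_d6
  have hhi := pi_lt_d6
  refine iso_line hm (t := (363 / 200)) (e := (96303 / 500000)) (L := (626657 / 250000)) (U := (2506629 / 1000000))
    (by norm_num) ?_ (le_sqrt_of_sq_le (by linarith)) (sqrt_le_iff.2 ⟨by norm_num, by linarith⟩) ?_ ?_ <;>
    norm_num [expTay, gaussPrim, Finset.sum_range_succ, Nat.factorial]

private lemma capGridIso_8 {X : Set E} (hm : MeasurableSet X) : √(2 * π) * ‖mom X‖ ≤
    (((1929 / 50000) : ℚ) : ℝ) + (((221837 / 50000) : ℚ) : ℝ) * (stdGaussian E).real X := by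
  have hlo := pi_gt_d6
  have hhi := pi_lt_d6
  refine iso_line hm (t := (177 / 100)) (e := (104393 / 500000)) (L := (626657 / 250000)) (U := (2506629 / 1000000))
    (by norm_num) ?_ (le_sqrt_of_sq_le (by linarith)) (sqrt_le_iff.2 ⟨by norm_num, by linarith⟩) ?_ ?_ <;>
    norm_num [expTay, gaussPrim, Finset.sum_range_succ, Nat.factorial]

private lemma capGridIso_9 {X : Set E} (hm : MeasurableSet X) : √(2 * π) * ‖mom X‖ ≤
    (((213 / 5000) : ℚ) : ℝ) + (((433647 / 100000) : ℚ) : ℝ) * (stdGaussian E).real X := by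
  have hlo := pi_gt_d6
  have hhi := pi_lt_d6
  refine iso_line hm (t := (173 / 100)) (e := (55981 / 250000)) (L := (626657 / 250000)) (U := (2506629 / 1000000))
    (by norm_num) ?_ (le_sqrt_of_sq_le (by linarith)) (sqrt_le_iff.2 ⟨by norm_num, by linarith⟩) ?_ ?_ <;>
    norm_num [expTay, gaussPrim, Finset.sum_range_succ, Nat.factorial]

private lemma capGridIso_10 {X : Set E} (hm : MeasurableSet X) : √(2 * π) * ‖mom X‖ ≤
    (((2349 / 50000) : ℚ) : ℝ) + (((423621 / 100000) : ℚ) : ℝ) * (stdGaussian E).real X := by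
  have hlo := pi_gt_d6
  have hhi := pi_lt_d6
  refine iso_line hm (t := (169 / 100)) (e := (239777 / 1000000)) (L := (626657 / 250000)) (U := (2506629 / 1000000))
    (by norm_num) ?_ (le_sqrt_of_sq_le (by linarith)) (sqrt_le_iff.2 ⟨by norm_num, by linarith⟩) ?_ ?_ <;>
    norm_num [expTay, gaussPrim, Finset.sum_range_succ, Nat.factorial]

private lemma capGridIso_11 {X : Set E} (hm : MeasurableSet X) : √(2 * π) * ‖mom X‖ ≤
    (((1309 / 25000) : ℚ) : ℝ) + (((412341 / 100000) : ℚ) : ℝ) * (stdGaussian E).real X := by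
  have hlo := pi_gt_d6
  have hhi := pi_lt_d6
  refine iso_line hm (t := (329 / 200)) (e := (258461 / 1000000)) (L := (626657 / 250000)) (U := (2506629 / 1000000))
    (by norm_num) ?_ (le_sqrt_of_sq_le (by linarith)) (sqrt_le_iff.2 ⟨by norm_num, by linarith⟩) ?_ ?_ <;>
    norm_num [expTay, gaussPrim, Finset.sum_range_succ, Nat.factorial]

private lemma capGridIso_12 {X : Set E} (hm : MeasurableSet X) : √(2 * π) * ‖mom X‖ ≤
    (((2879 / 50000) : ℚ) : ℝ) + (((201157 / 50000) : ℚ) : ℝ) * (stdGaussian E).real X := by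
  have hlo := pi_gt_d6
  have hhi := pi_lt_d6
  refine iso_line hm (t := (321 / 200)) (e := (275819 / 1000000)) (L := (626657 / 250000)) (U := (2506629 / 1000000))
    (by norm_num) ?_ (le_sqrt_of_sq_le (by linarith)) (sqrt_le_iff.2 ⟨by norm_num, by linarith⟩) ?_ ?_ <;>
    norm_num [expTay, gaussPrim, Finset.sum_range_succ, Nat.factorial]

private lemma capGridIso_13 {X : Set E} (hm : MeasurableSet X) : √(2 * π) * ‖mom X‖ ≤
    (((6399 / 100000) : ℚ) : ℝ) + (((78207 / 20000) : ℚ) : ℝ) * (stdGaussian E).real X := by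
  have hlo := pi_gt_d6
  have hhi := pi_lt_d6
  refine iso_line hm (t := (39 / 25)) (e := (296177 / 1000000)) (L := (626657 / 250000)) (U := (2506629 / 1000000))
    (by norm_num) ?_ (le_sqrt_of_sq_le (by linarith)) (sqrt_le_iff.2 ⟨by norm_num, by linarith⟩) ?_ ?_ <;>
    norm_num [expTay, gaussPrim, Finset.sum_range_succ, Nat.factorial]

private lemma capGridIso_14 {X : Set E} (hm : MeasurableSet X) : √(2 * π) * ‖mom X‖ ≤
    (((3509 / 50000) : ℚ) : ℝ) + (((23813 / 6250) : ℚ) : ℝ) * (stdGaussian E).real X := by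
  have hlo := pi_gt_d6
  have hhi := pi_lt_d6
  refine iso_line hm (t := (38 / 25)) (e := (62999 / 200000)) (L := (626657 / 250000)) (U := (2506629 / 1000000))
    (by norm_num) ?_ (le_sqrt_of_sq_le (by linarith)) (sqrt_le_iff.2 ⟨by norm_num, by linarith⟩) ?_ ?_ <;>
    norm_num [expTay, gaussPrim, Finset.sum_range_succ, Nat.factorial]

private lemma capGridIso_15 {X : Set E} (hm : MeasurableSet X) : √(2 * π) * ‖mom X‖ ≤
    (((243 / 3125) : ℚ) : ℝ) + (((11554 / 3125) : ℚ) : ℝ) * (stdGaussian E).real X := by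
  have hlo := pi_gt_d6
  have hhi := pi_lt_d6
  refine iso_line hm (t := (59 / 40)) (e := (336953 / 1000000)) (L := (626657 / 250000)) (U := (2506629 / 1000000))
    (by norm_num) ?_ (le_sqrt_of_sq_le (by linarith)) (sqrt_le_iff.2 ⟨by norm_num, by linarith⟩) ?_ ?_ <;>
    norm_num [expTay, gaussPrim, Finset.sum_range_succ, Nat.factorial]

private lemma capGridIso_16 {X : Set E} (hm : MeasurableSet X) : √(2 * π) * ‖mom X‖ ≤
    (((4253 / 50000) : ℚ) : ℝ) + (((179851 / 50000) : ℚ) : ℝ) * (stdGaussian E).real X := by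
  have hlo := pi_gt_d6
  have hhi := pi_lt_d6
  refine iso_line hm (t := (287 / 200)) (e := (178573 / 500000)) (L := (626657 / 250000)) (U := (2506629 / 1000000))
    (by norm_num) ?_ (le_sqrt_of_sq_le (by linarith)) (sqrt_le_iff.2 ⟨by norm_num, by linarith⟩) ?_ ?_ <;>
    norm_num [expTay, gaussPrim, Finset.sum_range_succ, Nat.factorial]

private lemma capGridIso_17 {X : Set E} (hm : MeasurableSet X) : √(2 * π) * ‖mom X‖ ≤
    (((2349 / 25000) : ℚ) : ℝ) + (((174211 / 50000) : ℚ) : ℝ) * (stdGaussian E).real X := by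
  have hlo := pi_gt_d6
  have hhi := pi_lt_d6
  refine iso_line hm (t := (139 / 100)) (e := (47573 / 125000)) (L := (626657 / 250000)) (U := (2506629 / 1000000))
    (by norm_num) ?_ (le_sqrt_of_sq_le (by linarith)) (sqrt_le_iff.2 ⟨by norm_num, by linarith⟩) ?_ ?_ <;>
    norm_num [expTay, gaussPrim, Finset.sum_range_succ, Nat.factorial]

private lemma capGridIso_18 {X : Set E} (hm : MeasurableSet X) : √(2 * π) * ‖mom X‖ ≤
    (((2563 / 25000) : ℚ) : ℝ) + (((67679 / 20000) : ℚ) : ℝ) * (stdGaussian E).real X := by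
  have hlo := pi_gt_d6
  have hhi := pi_lt_d6
  refine iso_line hm (t := (27 / 20)) (e := (201011 / 500000)) (L := (626657 / 250000)) (U := (2506629 / 1000000))
    (by norm_num) ?_ (le_sqrt_of_sq_le (by linarith)) (sqrt_le_iff.2 ⟨by norm_num, by linarith⟩) ?_ ?_ <;>
    norm_num [expTay, gaussPrim, Finset.sum_range_succ, Nat.factorial]

private lemma capGridIso_19 {X : Set E} (hm : MeasurableSet X) : √(2 * π) * ‖mom X‖ ≤
    (((2793 / 25000) : ℚ) : ℝ) + (((328369 / 100000) : ℚ) : ℝ) * (stdGaussian E).real X := by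
  have hlo := pi_gt_d6
  have hhi := pi_lt_d6
  refine iso_line hm (t := (131 / 100)) (e := (423989 / 1000000)) (L := (626657 / 250000)) (U := (2506629 / 1000000))
    (by norm_num) ?_ (le_sqrt_of_sq_le (by linarith)) (sqrt_le_iff.2 ⟨by norm_num, by linarith⟩) ?_ ?_ <;>
    norm_num [expTay, gaussPrim, Finset.sum_range_succ, Nat.factorial]

private lemma capGridIso_20 {X : Set E} (hm : MeasurableSet X) : √(2 * π) * ‖mom X‖ ≤
    (((12289 / 100000) : ℚ) : ℝ) + (((317089 / 100000) : ℚ) : ℝ) * (stdGaussian E).real X := by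
  have hlo := pi_gt_d6
  have hhi := pi_lt_d6
  refine iso_line hm (t := (253 / 200)) (e := (449279 / 1000000)) (L := (626657 / 250000)) (U := (2506629 / 1000000))
    (by norm_num) ?_ (le_sqrt_of_sq_le (by linarith)) (sqrt_le_iff.2 ⟨by norm_num, by linarith⟩) ?_ ?_ <;>
    norm_num [expTay, gaussPrim, Finset.sum_range_succ, Nat.factorial]

private lemma capGridIso_21 {X : Set E} (hm : MeasurableSet X) : √(2 * π) * ‖mom X‖ ≤
    (((13357 / 100000) : ℚ) : ℝ) + (((307063 / 100000) : ℚ) : ℝ) * (stdGaussian E).real X := by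
  have hlo := pi_gt_d6
  have hhi := pi_lt_d6
  refine iso_line hm (t := (49 / 40)) (e := (472219 / 1000000)) (L := (626657 / 250000)) (U := (2506629 / 1000000))
    (by norm_num) ?_ (le_sqrt_of_sq_le (by linarith)) (sqrt_le_iff.2 ⟨by norm_num, by linarith⟩) ?_ ?_ <;>
    norm_num [expTay, gaussPrim, Finset.sum_range_succ, Nat.factorial]

private lemma capGridIso_22 {X : Set E} (hm : MeasurableSet X) : √(2 * π) * ‖mom X‖ ≤
    (((293 / 2000) : ℚ) : ℝ) + (((295783 / 100000) : ℚ) : ℝ) * (stdGaussian E).real X := by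
  have hlo := pi_gt_d6
  have hhi := pi_lt_d6
  refine iso_line hm (t := (59 / 50)) (e := (124619 / 250000)) (L := (626657 / 250000)) (U := (2506629 / 1000000))
    (by norm_num) ?_ (le_sqrt_of_sq_le (by linarith)) (sqrt_le_iff.2 ⟨by norm_num, by linarith⟩) ?_ ?_ <;>
    norm_num [expTay, gaussPrim, Finset.sum_range_succ, Nat.factorial]

private lemma capGridIso_23 {X : Set E} (hm : MeasurableSet X) : √(2 * π) * ‖mom X‖ ≤
    (((3971 / 25000) : ℚ) : ℝ) + (((71439 / 25000) : ℚ) : ℝ) * (stdGaussian E).real X := by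
  have hlo := pi_gt_d6
  have hhi := pi_lt_d6
  refine iso_line hm (t := (57 / 50)) (e := (522151 / 1000000)) (L := (626657 / 250000)) (U := (2506629 / 1000000))
    (by norm_num) ?_ (le_sqrt_of_sq_le (by linarith)) (sqrt_le_iff.2 ⟨by norm_num, by linarith⟩) ?_ ?_ <;>
    norm_num [expTay, gaussPrim, Finset.sum_range_succ, Nat.factorial]

private lemma capGridIso_24 {X : Set E} (hm : MeasurableSet X) : √(2 * π) * ‖mom X‖ ≤
    (((4343 / 25000) : ℚ) : ℝ) + (((68619 / 25000) : ℚ) : ℝ) * (stdGaussian E).real X := by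
  have hlo := pi_gt_d6
  have hhi := pi_lt_d6
  refine iso_line hm (t := (219 / 200)) (e := (13727 / 25000)) (L := (626657 / 250000)) (U := (2506629 / 1000000))
    (by norm_num) ?_ (le_sqrt_of_sq_le (by linarith)) (sqrt_le_iff.2 ⟨by norm_num, by linarith⟩) ?_ ?_ <;>
    norm_num [expTay, gaussPrim, Finset.sum_range_succ, Nat.factorial]

private lemma capGridIso_25 {X : Set E} (hm : MeasurableSet X) : √(2 * π) * ‖mom X‖ ≤
    (((18787 / 100000) : ℚ) : ℝ) + (((5289 / 2000) : ℚ) : ℝ) * (stdGaussian E).real X := by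
  have hlo := pi_gt_d6
  have hhi := pi_lt_d6
  refine iso_line hm (t := (211 / 200)) (e := (114641 / 200000)) (L := (626657 / 250000)) (U := (2506629 / 1000000))
    (by norm_num) ?_ (le_sqrt_of_sq_le (by linarith)) (sqrt_le_iff.2 ⟨by norm_num, by linarith⟩) ?_ ?_ <;>
    norm_num [expTay, gaussPrim, Finset.sum_range_succ, Nat.factorial]

private lemma capGridIso_26 {X : Set E} (hm : MeasurableSet X) : √(2 * π) * ‖mom X‖ ≤
    (((4059 / 20000) : ℚ) : ℝ) + (((254423 / 100000) : ℚ) : ℝ) * (stdGaussian E).real X := by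
  have hlo := pi_gt_d6
  have hhi := pi_lt_d6
  refine iso_line hm (t := (203 / 200)) (e := (298717 / 500000)) (L := (626657 / 250000)) (U := (2506629 / 1000000))
    (by norm_num) ?_ (le_sqrt_of_sq_le (by linarith)) (sqrt_le_iff.2 ⟨by norm_num, by linarith⟩) ?_ ?_ <;>
    norm_num [expTay, gaussPrim, Finset.sum_range_succ, Nat.factorial]

private lemma capGridIso_27 {X : Set E} (hm : MeasurableSet X) : √(2 * π) * ‖mom X‖ ≤
    (((4421 / 20000) : ℚ) : ℝ) + (((30393 / 12500) : ℚ) : ℝ) * (stdGaussian E).real X := by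
  have hlo := pi_gt_d6
  have hhi := pi_lt_d6
  refine iso_line hm (t := (97 / 100)) (e := (312361 / 500000)) (L := (626657 / 250000)) (U := (2506629 / 1000000))
    (by norm_num) ?_ (le_sqrt_of_sq_le (by linarith)) (sqrt_le_iff.2 ⟨by norm_num, by linarith⟩) ?_ ?_ <;>
    norm_num [expTay, gaussPrim, Finset.sum_range_succ, Nat.factorial]

private lemma capGridIso_28 {X : Set E} (hm : MeasurableSet X) : √(2 * π) * ‖mom X‖ ≤
    (((23821 / 100000) : ℚ) : ℝ) + (((233117 / 100000) : ℚ) : ℝ) * (stdGaussian E).real X := by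
  have hlo := pi_gt_d6
  have hhi := pi_lt_d6
  refine iso_line hm (t := (93 / 100)) (e := (324459 / 500000)) (L := (626657 / 250000)) (U := (2506629 / 1000000))
    (by norm_num) ?_ (le_sqrt_of_sq_le (by linarith)) (sqrt_le_iff.2 ⟨by norm_num, by linarith⟩) ?_ ?_ <;>
    norm_num [expTay, gaussPrim, Finset.sum_range_succ, Nat.factorial]

private lemma capGridIso_29 {X : Set E} (hm : MeasurableSet X) : √(2 * π) * ‖mom X‖ ≤
    (((207 / 800) : ℚ) : ℝ) + (((221837 / 100000) : ℚ) : ℝ) * (stdGaussian E).real X := by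
  have hlo := pi_gt_d6
  have hhi := pi_lt_d6
  refine iso_line hm (t := (177 / 200)) (e := (675967 / 1000000)) (L := (626657 / 250000)) (U := (2506629 / 1000000))
    (by norm_num) ?_ (le_sqrt_of_sq_le (by linarith)) (sqrt_le_iff.2 ⟨by norm_num, by linarith⟩) ?_ ?_ <;>
    norm_num [expTay, gaussPrim, Finset.sum_range_succ, Nat.factorial]

private lemma capGridIso_30 {X : Set E} (hm : MeasurableSet X) : √(2 * π) * ‖mom X‖ ≤
    (((5563 / 20000) : ℚ) : ℝ) + (((211811 / 100000) : ℚ) : ℝ) * (stdGaussian E).real X := by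
  have hlo := pi_gt_d6
  have hhi := pi_lt_d6
  refine iso_line hm (t := (169 / 200)) (e := (174941 / 250000)) (L := (626657 / 250000)) (U := (2506629 / 1000000))
    (by norm_num) ?_ (le_sqrt_of_sq_le (by linarith)) (sqrt_le_iff.2 ⟨by norm_num, by linarith⟩) ?_ ?_ <;>
    norm_num [expTay, gaussPrim, Finset.sum_range_succ, Nat.factorial]

private lemma capGridIso_31 {X : Set E} (hm : MeasurableSet X) : √(2 * π) * ‖mom X‖ ≤
    (((7533 / 25000) : ℚ) : ℝ) + (((200531 / 100000) : ℚ) : ℝ) * (stdGaussian E).real X := by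
  have hlo := pi_gt_d6
  have hhi := pi_lt_d6
  refine iso_line hm (t := (4 / 5)) (e := (14523 / 20000)) (L := (626657 / 250000)) (U := (2506629 / 1000000))
    (by norm_num) ?_ (le_sqrt_of_sq_le (by linarith)) (sqrt_le_iff.2 ⟨by norm_num, by linarith⟩) ?_ ?_ <;>
    norm_num [expTay, gaussPrim, Finset.sum_range_succ, Nat.factorial]

private lemma capGridIso_32 {X : Set E} (hm : MeasurableSet X) : √(2 * π) * ‖mom X‖ ≤
    (((6463 / 20000) : ℚ) : ℝ) + (((23813 / 12500) : ℚ) : ℝ) * (stdGaussian E).real X := by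
  have hlo := pi_gt_d6
  have hhi := pi_lt_d6
  refine iso_line hm (t := (19 / 25)) (e := (749163 / 1000000)) (L := (626657 / 250000)) (U := (2506629 / 1000000))
    (by norm_num) ?_ (le_sqrt_of_sq_le (by linarith)) (sqrt_le_iff.2 ⟨by norm_num, by linarith⟩) ?_ ?_ <;>
    norm_num [expTay, gaussPrim, Finset.sum_range_succ, Nat.factorial]

private lemma capGridIso_33 {X : Set E} (hm : MeasurableSet X) : √(2 * π) * ‖mom X‖ ≤
    (((17457 / 50000) : ℚ) : ℝ) + (((22403 / 12500) : ℚ) : ℝ) * (stdGaussian E).real X := by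
  have hlo := pi_gt_d6
  have hhi := pi_lt_d6
  refine iso_line hm (t := (143 / 200)) (e := (774443 / 1000000)) (L := (626657 / 250000)) (U := (2506629 / 1000000))
    (by norm_num) ?_ (le_sqrt_of_sq_le (by linarith)) (sqrt_le_iff.2 ⟨by norm_num, by linarith⟩) ?_ ?_ <;>
    norm_num [expTay, gaussPrim, Finset.sum_range_succ, Nat.factorial]

private lemma capGridIso_34 {X : Set E} (hm : MeasurableSet X) : √(2 * π) * ‖mom X‖ ≤
    (((9339 / 25000) : ℚ) : ℝ) + (((84599 / 50000) : ℚ) : ℝ) * (stdGaussian E).real X := by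
  have hlo := pi_gt_d6
  have hhi := pi_lt_d6
  refine iso_line hm (t := (27 / 40)) (e := (398137 / 500000)) (L := (626657 / 250000)) (U := (2506629 / 1000000))
    (by norm_num) ?_ (le_sqrt_of_sq_le (by linarith)) (sqrt_le_iff.2 ⟨by norm_num, by linarith⟩) ?_ ?_ <;>
    norm_num [expTay, gaussPrim, Finset.sum_range_succ, Nat.factorial]

private lemma capGridIso_35 {X : Set E} (hm : MeasurableSet X) : √(2 * π) * ‖mom X‖ ≤
    (((1597 / 4000) : ℚ) : ℝ) + (((159171 / 100000) : ℚ) : ℝ) * (stdGaussian E).real X := by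
  have hlo := pi_gt_d6
  have hhi := pi_lt_d6
  refine iso_line hm (t := (127 / 200)) (e := (204353 / 250000)) (L := (626657 / 250000)) (U := (2506629 / 1000000))
    (by norm_num) ?_ (le_sqrt_of_sq_le (by linarith)) (sqrt_le_iff.2 ⟨by norm_num, by linarith⟩) ?_ ?_ <;>
    norm_num [expTay, gaussPrim, Finset.sum_range_succ, Nat.factorial]

private lemma capGridIso_36 {X : Set E} (hm : MeasurableSet X) : √(2 * π) * ‖mom X‖ ≤
    (((10743 / 25000) : ℚ) : ℝ) + (((36973 / 25000) : ℚ) : ℝ) * (stdGaussian E).real X := by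
  have hlo := pi_gt_d6
  have hhi := pi_lt_d6
  refine iso_line hm (t := (59 / 100)) (e := (168051 / 200000)) (L := (626657 / 250000)) (U := (2506629 / 1000000))
    (by norm_num) ?_ (le_sqrt_of_sq_le (by linarith)) (sqrt_le_iff.2 ⟨by norm_num, by linarith⟩) ?_ ?_ <;>
    norm_num [expTay, gaussPrim, Finset.sum_range_succ, Nat.factorial]

private lemma capGridIso_37 {X : Set E} (hm : MeasurableSet X) : √(2 * π) * ‖mom X‖ ≤
    (((45823 / 100000) : ℚ) : ℝ) + (((27573 / 20000) : ℚ) : ℝ) * (stdGaussian E).real X := by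
  have hlo := pi_gt_d6
  have hhi := pi_lt_d6
  refine iso_line hm (t := (11 / 20)) (e := (859633 / 1000000)) (L := (626657 / 250000)) (U := (2506629 / 1000000))
    (by norm_num) ?_ (le_sqrt_of_sq_le (by linarith)) (sqrt_le_iff.2 ⟨by norm_num, by linarith⟩) ?_ ?_ <;>
    norm_num [expTay, gaussPrim, Finset.sum_range_succ, Nat.factorial]

private lemma capGridIso_38 {X : Set E} (hm : MeasurableSet X) : √(2 * π) * ‖mom X‖ ≤
    (((9839 / 20000) : ℚ) : ℝ) + (((25317 / 20000) : ℚ) : ℝ) * (stdGaussian E).real X := by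
  have hlo := pi_gt_d6
  have hhi := pi_lt_d6
  refine iso_line hm (t := (101 / 200)) (e := (880283 / 1000000)) (L := (626657 / 250000)) (U := (2506629 / 1000000))
    (by norm_num) ?_ (le_sqrt_of_sq_le (by linarith)) (sqrt_le_iff.2 ⟨by norm_num, by linarith⟩) ?_ ?_ <;>
    norm_num [expTay, gaussPrim, Finset.sum_range_succ, Nat.factorial]

private lemma capGridIso_39 {X : Set E} (hm : MeasurableSet X) : √(2 * π) * ‖mom X‖ ≤
    (((26171 / 50000) : ℚ) : ℝ) + (((116559 / 100000) : ℚ) : ℝ) * (stdGaussian E).real X := by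
  have hlo := pi_gt_d6
  have hhi := pi_lt_d6
  refine iso_line hm (t := (93 / 200)) (e := (897527 / 1000000)) (L := (626657 / 250000)) (U := (2506629 / 1000000))
    (by norm_num) ?_ (le_sqrt_of_sq_le (by linarith)) (sqrt_le_iff.2 ⟨by norm_num, by linarith⟩) ?_ ?_ <;>
    norm_num [expTay, gaussPrim, Finset.sum_range_succ, Nat.factorial]

private lemma capGridIso_40 {X : Set E} (hm : MeasurableSet X) : √(2 * π) * ‖mom X‖ ≤
    (((28027 / 50000) : ℚ) : ℝ) + (((105279 / 100000) : ℚ) : ℝ) * (stdGaussian E).real X := by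
  have hlo := pi_gt_d6
  have hhi := pi_lt_d6
  refine iso_line hm (t := (21 / 50)) (e := (457789 / 500000)) (L := (626657 / 250000)) (U := (2506629 / 1000000))
    (by norm_num) ?_ (le_sqrt_of_sq_le (by linarith)) (sqrt_le_iff.2 ⟨by norm_num, by linarith⟩) ?_ ?_ <;>
    norm_num [expTay, gaussPrim, Finset.sum_range_succ, Nat.factorial]

private lemma capGridIso_41 {X : Set E} (hm : MeasurableSet X) : √(2 * π) * ‖mom X‖ ≤
    (((59509 / 100000) : ℚ) : ℝ) + (((23813 / 25000) : ℚ) : ℝ) * (stdGaussian E).real X := by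
  have hlo := pi_gt_d6
  have hhi := pi_lt_d6
  refine iso_line hm (t := (19 / 50)) (e := (186069 / 200000)) (L := (626657 / 250000)) (U := (2506629 / 1000000))
    (by norm_num) ?_ (le_sqrt_of_sq_le (by linarith)) (sqrt_le_iff.2 ⟨by norm_num, by linarith⟩) ?_ ?_ <;>
    norm_num [expTay, gaussPrim, Finset.sum_range_succ, Nat.factorial]

private lemma capGridIso_42 {X : Set E} (hm : MeasurableSet X) : √(2 * π) * ‖mom X‖ ≤
    (((63113 / 100000) : ℚ) : ℝ) + (((42613 / 50000) : ℚ) : ℝ) * (stdGaussian E).real X := by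
  have hlo := pi_gt_d6
  have hhi := pi_lt_d6
  refine iso_line hm (t := (17 / 50)) (e := (943839 / 1000000)) (L := (626657 / 250000)) (U := (2506629 / 1000000))
    (by norm_num) ?_ (le_sqrt_of_sq_le (by linarith)) (sqrt_le_iff.2 ⟨by norm_num, by linarith⟩) ?_ ?_ <;>
    norm_num [expTay, gaussPrim, Finset.sum_range_succ, Nat.factorial]

private lemma capGridIso_43 {X : Set E} (hm : MeasurableSet X) : √(2 * π) * ‖mom X‖ ≤
    (((16837 / 25000) : ℚ) : ℝ) + (((36973 / 50000) : ℚ) : ℝ) * (stdGaussian E).real X := by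
  have hlo := pi_gt_d6
  have hhi := pi_lt_d6
  refine iso_line hm (t := (59 / 200)) (e := (957421 / 1000000)) (L := (626657 / 250000)) (U := (2506629 / 1000000))
    (by norm_num) ?_ (le_sqrt_of_sq_le (by linarith)) (sqrt_le_iff.2 ⟨by norm_num, by linarith⟩) ?_ ?_ <;>
    norm_num [expTay, gaussPrim, Finset.sum_range_succ, Nat.factorial]

private lemma capGridIso_44 {X : Set E} (hm : MeasurableSet X) : √(2 * π) * ‖mom X‖ ≤
    (((2851 / 4000) : ℚ) : ℝ) + (((799 / 1250) : ℚ) : ℝ) * (stdGaussian E).real X := by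
  have hlo := pi_gt_d6
  have hhi := pi_lt_d6
  refine iso_line hm (t := (51 / 200)) (e := (968011 / 1000000)) (L := (626657 / 250000)) (U := (2506629 / 1000000))
    (by norm_num) ?_ (le_sqrt_of_sq_le (by linarith)) (sqrt_le_iff.2 ⟨by norm_num, by linarith⟩) ?_ ?_ <;>
    norm_num [expTay, gaussPrim, Finset.sum_range_succ, Nat.factorial]

private lemma capGridIso_45 {X : Set E} (hm : MeasurableSet X) : √(2 * π) * ‖mom X‖ ≤
    (((37939 / 50000) : ℚ) : ℝ) + (((329 / 625) : ℚ) : ℝ) * (stdGaussian E).real X := by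
  have hlo := pi_gt_d6
  have hhi := pi_lt_d6
  refine iso_line hm (t := (21 / 100)) (e := (61137 / 62500)) (L := (626657 / 250000)) (U := (2506629 / 1000000))
    (by norm_num) ?_ (le_sqrt_of_sq_le (by linarith)) (sqrt_le_iff.2 ⟨by norm_num, by linarith⟩) ?_ ?_ <;>
    norm_num [expTay, gaussPrim, Finset.sum_range_succ, Nat.factorial]

private lemma capGridIso_46 {X : Set E} (hm : MeasurableSet X) : √(2 * π) * ‖mom X‖ ≤
    (((10017 / 12500) : ℚ) : ℝ) + (((42613 / 100000) : ℚ) : ℝ) * (stdGaussian E).real X := by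
  have hlo := pi_gt_d6
  have hhi := pi_lt_d6
  refine iso_line hm (t := (17 / 100)) (e := (492827 / 500000)) (L := (626657 / 250000)) (U := (2506629 / 1000000))
    (by norm_num) ?_ (le_sqrt_of_sq_le (by linarith)) (sqrt_le_iff.2 ⟨by norm_num, by linarith⟩) ?_ ?_ <;>
    norm_num [expTay, gaussPrim, Finset.sum_range_succ, Nat.factorial]

private lemma capGridIso_47 {X : Set E} (hm : MeasurableSet X) : √(2 * π) * ‖mom X‖ ≤
    (((42557 / 50000) : ℚ) : ℝ) + (((31333 / 100000) : ℚ) : ℝ) * (stdGaussian E).real X := by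
  have hlo := pi_gt_d6
  have hhi := pi_lt_d6
  refine iso_line hm (t := (1 / 8)) (e := (496109 / 500000)) (L := (626657 / 250000)) (U := (2506629 / 1000000))
    (by norm_num) ?_ (le_sqrt_of_sq_le (by linarith)) (sqrt_le_iff.2 ⟨by norm_num, by linarith⟩) ?_ ?_ <;>
    norm_num [expTay, gaussPrim, Finset.sum_range_succ, Nat.factorial]

private lemma capGridIso_48 {X : Set E} (hm : MeasurableSet X) : √(2 * π) * ‖mom X‖ ≤
    (((22427 / 25000) : ℚ) : ℝ) + (((21307 / 100000) : ℚ) : ℝ) * (stdGaussian E).real X := by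
  have hlo := pi_gt_d6
  have hhi := pi_lt_d6
  refine iso_line hm (t := (17 / 200)) (e := (199279 / 200000)) (L := (626657 / 250000)) (U := (2506629 / 1000000))
    (by norm_num) ?_ (le_sqrt_of_sq_le (by linarith)) (sqrt_le_iff.2 ⟨by norm_num, by linarith⟩) ?_ ?_ <;>
    norm_num [expTay, gaussPrim, Finset.sum_range_succ, Nat.factorial]

private lemma capGridIso_49 {X : Set E} (hm : MeasurableSet X) : √(2 * π) * ‖mom X‖ ≤
    (((95067 / 100000) : ℚ) : ℝ) + (((10027 / 100000) : ℚ) : ℝ) * (stdGaussian E).real X := by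
  have hlo := pi_gt_d6
  have hhi := pi_lt_d6
  refine iso_line hm (t := (1 / 25)) (e := (999201 / 1000000)) (L := (626657 / 250000)) (U := (2506629 / 1000000))
    (by norm_num) ?_ (le_sqrt_of_sq_le (by linarith)) (sqrt_le_iff.2 ⟨by norm_num, by linarith⟩) ?_ ?_ <;>
    norm_num [expTay, gaussPrim, Finset.sum_range_succ, Nat.factorial]

private lemma capGridIso_50 {X : Set E} (hm : MeasurableSet X) : √(2 * π) * ‖mom X‖ ≤
    (((1) : ℚ) : ℝ) + (((0) : ℚ) : ℝ) * (stdGaussian E).real X := by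
  have hlo := pi_gt_d6
  have hhi := pi_lt_d6
  refine iso_line hm (t := (0)) (e := (1)) (L := (626657 / 250000)) (U := (2506629 / 1000000))
    (by norm_num) ?_ (le_sqrt_of_sq_le (by linarith)) (sqrt_le_iff.2 ⟨by norm_num, by linarith⟩) ?_ ?_ <;>
    norm_num [expTay, gaussPrim, Finset.sum_range_succ, Nat.factorial]

/-- The lines of the dimension-free bound. -/
def capGridIso : List (ℚ × ℚ) :=
  [((789 / 50000), (528899 / 100000)),
   ((893 / 50000), (517619 / 100000)),
   ((1991 / 100000), (507593 / 100000)),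
   ((277 / 12500), (248783 / 50000)),
   ((78 / 3125), (486287 / 100000)),
   ((2771 / 100000), (23813 / 5000)),
   ((3113 / 100000), (23249 / 5000)),
   ((1723 / 50000), (227477 / 50000)),
   ((1929 / 50000), (221837 / 50000)),
   ((213 / 5000), (433647 / 100000)),
   ((2349 / 50000), (423621 / 100000)),
   ((1309 / 25000), (412341 / 100000)),
   ((2879 / 50000), (201157 / 50000)),
   ((6399 / 100000), (78207 / 20000)),
   ((3509 / 50000), (23813 / 6250)),
   ((243 / 3125), (11554 / 3125)),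
   ((4253 / 50000), (179851 / 50000)),
   ((2349 / 25000), (174211 / 50000)),
   ((2563 / 25000), (67679 / 20000)),
   ((2793 / 25000), (328369 / 100000)),
   ((12289 / 100000), (317089 / 100000)),
   ((13357 / 100000), (307063 / 100000)),
   ((293 / 2000), (295783 / 100000)),
   ((3971 / 25000), (71439 / 25000)),
   ((4343 / 25000), (68619 / 25000)),
   ((18787 / 100000), (5289 / 2000)),
   ((4059 / 20000), (254423 / 100000)),
   ((4421 / 20000), (30393 / 12500)),
   ((23821 / 100000), (233117 / 100000)),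
   ((207 / 800), (221837 / 100000)),
   ((5563 / 20000), (211811 / 100000)),
   ((7533 / 25000), (200531 / 100000)),
   ((6463 / 20000), (23813 / 12500)),
   ((17457 / 50000), (22403 / 12500)),
   ((9339 / 25000), (84599 / 50000)),
   ((1597 / 4000), (159171 / 100000)),
   ((10743 / 25000), (36973 / 25000)),
   ((45823 / 100000), (27573 / 20000)),
   ((9839 / 20000), (25317 / 20000)),
   ((26171 / 50000), (116559 / 100000)),
   ((28027 / 50000), (105279 / 100000)),
   ((59509 / 100000), (23813 / 25000)),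
   ((63113 / 100000), (42613 / 50000)),
   ((16837 / 25000), (36973 / 50000)),
   ((2851 / 4000), (799 / 1250)),
   ((37939 / 50000), (329 / 625)),
   ((10017 / 12500), (42613 / 100000)),
   ((42557 / 50000), (31333 / 100000)),
   ((22427 / 25000), (21307 / 100000)),
   ((95067 / 100000), (10027 / 100000)),
   ((1), (0))]

theorem capGridIso_valid {X : Set E} (hm : MeasurableSet X) :
    ∀ l ∈ capGridIso, √(2 * π) * ‖mom X‖ ≤ (l.1 : ℝ) + (l.2 : ℝ) * (stdGaussian E).real X := by
  simp only [capGridIso, List.forall_mem_cons, List.not_mem_nil, false_implies, implies_true, and_true]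
  exact ⟨capGridIso_0 hm,
    capGridIso_1 hm,
    capGridIso_2 hm,
    capGridIso_3 hm,
    capGridIso_4 hm,
    capGridIso_5 hm,
    capGridIso_6 hm,
    capGridIso_7 hm,
    capGridIso_8 hm,
    capGridIso_9 hm,
    capGridIso_10 hm,
    capGridIso_11 hm,
    capGridIso_12 hm,
    capGridIso_13 hm,
    capGridIso_14 hm,
    capGridIso_15 hm,
    capGridIso_16 hm,
    capGridIso_17 hm,
    capGridIso_18 hm,
    capGridIso_19 hm,
    capGridIso_20 hm,
    capGridIso_21 hm,
    capGridIso_22 hm,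
    capGridIso_23 hm,
    capGridIso_24 hm,
    capGridIso_25 hm,
    capGridIso_26 hm,
    capGridIso_27 hm,
    capGridIso_28 hm,
    capGridIso_29 hm,
    capGridIso_30 hm,
    capGridIso_31 hm,
    capGridIso_32 hm,
    capGridIso_33 hm,
    capGridIso_34 hm,
    capGridIso_35 hm,
    capGridIso_36 hm,
    capGridIso_37 hm,
    capGridIso_38 hm,
    capGridIso_39 hm,
    capGridIso_40 hm,
    capGridIso_41 hm,
    capGridIso_42 hm,
    capGridIso_43 hm,
    capGridIso_44 hm,
    capGridIso_45 hm,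
    capGridIso_46 hm,
    capGridIso_47 hm,
    capGridIso_48 hm,
    capGridIso_49 hm,
    capGridIso_50 hm⟩

end Vale.Agent.P226
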