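import Vale.Agent.P226.CapLines

/-!
# Rational lines on a fine grid

Generated by an exact search; every line is checked against the bound here.
-/

namespace Vale.Agent.P226

open MeasureTheory ProbabilityTheory Real Set
open scoped RealInnerProductSpace

variable {E : Type*} [NormedAddCommGroup E] [InnerProductSpace ℝ E] [FiniteDimensional ℝ E]
  [MeasurableSpace E] [BorelSpace E]

private lemma capGrid7_0 (hn : Module.finrank ℝ E = 8) {X : Set E} (hX : IsCone X) (hm : MeasurableSet X) : √(2 * π) * ‖mom X‖ ≤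
    (((1221 / 100000) : ℚ) : ℝ) + (((115969 / 25000) : ℚ) : ℝ) * (stdGaussian E).real X := by
  have hlo := pi_gt_d6
  have hhi := pi_lt_d6
  refine cap_line hn (by norm_num) hX hm (s := (27 / 40)) (q := (368909 / 500000)) (G := (47950489536021 / 102400000000000)) (by norm_num) (by norm_num)
    (by norm_num) (by norm_num) ?_ ?_ ?_
  · have h1 : arcsin (27 / 40) ≤ (74097 / 100000) := arcsin_le_seven (by norm_num) (by norm_num) (by norm_num)
    have h2 : √(1 - (27 / 40) ^ 2) ≤ (368909 / 500000) := sqrt_le_iff.2 ⟨by norm_num, by norm_num⟩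
    norm_num [capPrim] at h1 h2 ⊢ <;> linarith
  · norm_num [capPrim, arcsin_one] <;> linarith
  · norm_num [capPrim, arcsin_one] <;> linarith

private lemma capGrid7_1 (hn : Module.finrank ℝ E = 8) {X : Set E} (hX : IsCone X) (hm : MeasurableSet X) : √(2 * π) * ‖mom X‖ ≤
    (((1987 / 100000) : ℚ) : ℝ) + (((436387 / 100000) : ℚ) : ℝ) * (stdGaussian E).real X := by
  have hlo := pi_gt_d6
  have hhi := pi_lt_d6
  refine cap_line hn (by norm_num) hX hm (s := (127 / 200)) (q := (772513 / 1000000)) (G := (293378880641146597 / 640000000000000000)) (by norm_num) (by norm_num)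
    (by norm_num) (by norm_num) ?_ ?_ ?_
  · have h1 : arcsin (127 / 200) ≤ (68801 / 100000) := arcsin_le_seven (by norm_num) (by norm_num) (by norm_num)
    have h2 : √(1 - (127 / 200) ^ 2) ≤ (772513 / 1000000) := sqrt_le_iff.2 ⟨by norm_num, by norm_num⟩
    norm_num [capPrim] at h1 h2 ⊢ <;> linarith
  · norm_num [capPrim, arcsin_one] <;> linarith
  · norm_num [capPrim, arcsin_one] <;> linarith

private lemma capGrid7_2 (hn : Module.finrank ℝ E = 8) {X : Set E} (hX : IsCone X) (hm : MeasurableSet X) : √(2 * π) * ‖mom X‖ ≤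
    (((161 / 5000) : ℚ) : ℝ) + (((202731 / 50000) : ℚ) : ℝ) * (stdGaussian E).real X := by
  have hlo := pi_gt_d6
  have hhi := pi_lt_d6
  refine cap_line hn (by norm_num) hX hm (s := (59 / 100)) (q := (201851 / 250000)) (G := (2222544019994983 / 5000000000000000)) (by norm_num) (by norm_num)
    (by norm_num) (by norm_num) ?_ ?_ ?_
  · have h1 : arcsin (59 / 100) ≤ (31553 / 50000) := arcsin_le_seven (by norm_num) (by norm_num) (by norm_num)
    have h2 : √(1 - (59 / 100) ^ 2) ≤ (201851 / 250000) := sqrt_le_iff.2 ⟨by norm_num, by norm_num⟩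
    norm_num [capPrim] at h1 h2 ⊢ <;> linarith
  · norm_num [capPrim, arcsin_one] <;> linarith
  · norm_num [capPrim, arcsin_one] <;> linarith

private lemma capGrid7_3 (hn : Module.finrank ℝ E = 8) {X : Set E} (hX : IsCone X) (hm : MeasurableSet X) : √(2 * π) * ‖mom X‖ ≤
    (((4723 / 100000) : ℚ) : ℝ) + (((377973 / 100000) : ℚ) : ℝ) * (stdGaussian E).real X := by
  have hlo := pi_gt_d6
  have hhi := pi_lt_d6
  refine cap_line hn (by norm_num) hX hm (s := (11 / 20)) (q := (167033 / 200000)) (G := (549795737261 / 1280000000000)) (by norm_num) (by norm_num)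
    (by norm_num) (by norm_num) ?_ ?_ ?_
  · have h1 : arcsin (11 / 20) ≤ (58237 / 100000) := arcsin_le_seven (by norm_num) (by norm_num) (by norm_num)
    have h2 : √(1 - (11 / 20) ^ 2) ≤ (167033 / 200000) := sqrt_le_iff.2 ⟨by norm_num, by norm_num⟩
    norm_num [capPrim] at h1 h2 ⊢ <;> linarith
  · norm_num [capPrim, arcsin_one] <;> linarith
  · norm_num [capPrim, arcsin_one] <;> linarith

private lemma capGrid7_4 (hn : Module.finrank ℝ E = 8) {X : Set E} (hX : IsCone X) (hm : MeasurableSet X) : √(2 * π) * ‖mom X‖ ≤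
    (((6961 / 100000) : ℚ) : ℝ) + (((43381 / 12500) : ℚ) : ℝ) * (stdGaussian E).real X := by
  have hlo := pi_gt_d6
  have hhi := pi_lt_d6
  refine cap_line hn (by norm_num) hX hm (s := (101 / 200)) (q := (10789 / 12500)) (G := (3276898866911763 / 8000000000000000)) (by norm_num) (by norm_num)
    (by norm_num) (by norm_num) ?_ ?_ ?_
  · have h1 : arcsin (101 / 200) ≤ (52939 / 100000) := arcsin_le_seven (by norm_num) (by norm_num) (by norm_num)
    have h2 : √(1 - (101 / 200) ^ 2) ≤ (10789 / 12500) := sqrt_le_iff.2 ⟨by norm_num, by norm_num⟩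
    norm_num [capPrim] at h1 h2 ⊢ <;> linarith
  · norm_num [capPrim, arcsin_one] <;> linarith
  · norm_num [capPrim, arcsin_one] <;> linarith

private lemma capGrid7_5 (hn : Module.finrank ℝ E = 8) {X : Set E} (hX : IsCone X) (hm : MeasurableSet X) : √(2 * π) * ‖mom X‖ ≤
    (((2379 / 25000) : ℚ) : ℝ) + (((319559 / 100000) : ℚ) : ℝ) * (stdGaussian E).real X := by
  have hlo := pi_gt_d6
  have hhi := pi_lt_d6
  refine cap_line hn (by norm_num) hX hm (s := (93 / 200)) (q := (885311 / 1000000)) (G := (249057701485207841 / 640000000000000000)) (by norm_num) (by norm_num)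
    (by norm_num) (by norm_num) ?_ ?_ ?_
  · have h1 : arcsin (93 / 200) ≤ (12091 / 25000) := arcsin_le_seven (by norm_num) (by norm_num) (by norm_num)
    have h2 : √(1 - (93 / 200) ^ 2) ≤ (885311 / 1000000) := sqrt_le_iff.2 ⟨by norm_num, by norm_num⟩
    norm_num [capPrim] at h1 h2 ⊢ <;> linarith
  · norm_num [capPrim, arcsin_one] <;> linarith
  · norm_num [capPrim, arcsin_one] <;> linarith

private lemma capGrid7_6 (hn : Module.finrank ℝ E = 8) {X : Set E} (hX : IsCone X) (hm : MeasurableSet X) : √(2 * π) * ‖mom X‖ ≤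
    (((12681 / 100000) : ℚ) : ℝ) + (((29207 / 10000) : ℚ) : ℝ) * (stdGaussian E).real X := by
  have hlo := pi_gt_d6
  have hhi := pi_lt_d6
  refine cap_line hn (by norm_num) hX hm (s := (17 / 40)) (q := (452597 / 500000)) (G := (37490396447143 / 102400000000000)) (by norm_num) (by norm_num)
    (by norm_num) (by norm_num) ?_ ?_ ?_
  · have h1 : arcsin (17 / 40) ≤ (43897 / 100000) := arcsin_le_seven (by norm_num) (by norm_num) (by norm_num)
    have h2 : √(1 - (17 / 40) ^ 2) ≤ (452597 / 500000) := sqrt_le_iff.2 ⟨by norm_num, by norm_num⟩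
    norm_num [capPrim] at h1 h2 ⊢ <;> linarith
  · norm_num [capPrim, arcsin_one] <;> linarith
  · norm_num [capPrim, arcsin_one] <;> linarith

private lemma capGrid7_7 (hn : Module.finrank ℝ E = 8) {X : Set E} (hX : IsCone X) (hm : MeasurableSet X) : √(2 * π) * ‖mom X‖ ≤
    (((8529 / 50000) : ℚ) : ℝ) + (((52229 / 20000) : ℚ) : ℝ) * (stdGaussian E).real X := by
  have hlo := pi_gt_d6
  have hhi := pi_lt_d6
  refine cap_line hn (by norm_num) hX hm (s := (19 / 50)) (q := (924987 / 1000000)) (G := (105373158378973 / 312500000000000)) (by norm_num) (by norm_num)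
    (by norm_num) (by norm_num) ?_ ?_ ?_
  · have h1 : arcsin (19 / 50) ≤ (1949 / 5000) := arcsin_le_seven (by norm_num) (by norm_num) (by norm_num)
    have h2 : √(1 - (19 / 50) ^ 2) ≤ (924987 / 1000000) := sqrt_le_iff.2 ⟨by norm_num, by norm_num⟩
    norm_num [capPrim] at h1 h2 ⊢ <;> linarith
  · norm_num [capPrim, arcsin_one] <;> linarith
  · norm_num [capPrim, arcsin_one] <;> linarith

private lemma capGrid7_8 (hn : Module.finrank ℝ E = 8) {X : Set E} (hX : IsCone X) (hm : MeasurableSet X) : √(2 * π) * ‖mom X‖ ≤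
    (((21751 / 100000) : ℚ) : ℝ) + (((29207 / 12500) : ℚ) : ℝ) * (stdGaussian E).real X := by
  have hlo := pi_gt_d6
  have hhi := pi_lt_d6
  refine cap_line hn (by norm_num) hX hm (s := (17 / 50)) (q := (470213 / 500000)) (G := (48269979010861 / 156250000000000)) (by norm_num) (by norm_num)
    (by norm_num) (by norm_num) ?_ ?_ ?_
  · have h1 : arcsin (17 / 50) ≤ (8673 / 25000) := arcsin_le_seven (by norm_num) (by norm_num) (by norm_num)
    have h2 : √(1 - (17 / 50) ^ 2) ≤ (470213 / 500000) := sqrt_le_iff.2 ⟨by norm_num, by norm_num⟩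
    norm_num [capPrim] at h1 h2 ⊢ <;> linarith
  · norm_num [capPrim, arcsin_one] <;> linarith
  · norm_num [capPrim, arcsin_one] <;> linarith

private lemma capGrid7_9 (hn : Module.finrank ℝ E = 8) {X : Set E} (hX : IsCone X) (hm : MeasurableSet X) : √(2 * π) * ‖mom X‖ ≤
    (((28019 / 100000) : ℚ) : ℝ) + (((202731 / 100000) : ℚ) : ℝ) * (stdGaussian E).real X := by
  have hlo := pi_gt_d6
  have hhi := pi_lt_d6
  refine cap_line hn (by norm_num) hX hm (s := (59 / 200)) (q := (477749 / 500000)) (G := (87819821808564317 / 320000000000000000)) (by norm_num) (by norm_num)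
    (by norm_num) (by norm_num) ?_ ?_ ?_
  · have h1 : arcsin (59 / 200) ≤ (14973 / 50000) := arcsin_le_seven (by norm_num) (by norm_num) (by norm_num)
    have h2 : √(1 - (59 / 200) ^ 2) ≤ (477749 / 500000) := sqrt_le_iff.2 ⟨by norm_num, by norm_num⟩
    norm_num [capPrim] at h1 h2 ⊢ <;> linarith
  · norm_num [capPrim, arcsin_one] <;> linarith
  · norm_num [capPrim, arcsin_one] <;> linarith

private lemma capGrid7_10 (hn : Module.finrank ℝ E = 8) {X : Set E} (hX : IsCone X) (hm : MeasurableSet X) : √(2 * π) * ‖mom X‖ ≤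
    (((17267 / 50000) : ℚ) : ℝ) + (((87621 / 50000) : ℚ) : ℝ) * (stdGaussian E).real X := by
  have hlo := pi_gt_d6
  have hhi := pi_lt_d6
  refine cap_line hn (by norm_num) hX hm (s := (51 / 200)) (q := (483471 / 500000)) (G := (77306956597465407 / 320000000000000000)) (by norm_num) (by norm_num)
    (by norm_num) (by norm_num) ?_ ?_ ?_
  · have h1 : arcsin (51 / 200) ≤ (5157 / 20000) := arcsin_le_seven (by norm_num) (by norm_num) (by norm_num)
    have h2 : √(1 - (51 / 200) ^ 2) ≤ (483471 / 500000) := sqrt_le_iff.2 ⟨by norm_num, by norm_num⟩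
    norm_num [capPrim] at h1 h2 ⊢ <;> linarith
  · norm_num [capPrim, arcsin_one] <;> linarith
  · norm_num [capPrim, arcsin_one] <;> linarith

private lemma capGrid7_11 (hn : Module.finrank ℝ E = 8) {X : Set E} (hX : IsCone X) (hm : MeasurableSet X) : √(2 * π) * ‖mom X‖ ≤
    (((21499 / 50000) : ℚ) : ℝ) + (((144317 / 100000) : ℚ) : ℝ) * (stdGaussian E).real X := by
  have hlo := pi_gt_d6
  have hhi := pi_lt_d6
  refine cap_line hn (by norm_num) hX hm (s := (21 / 100)) (q := (488851 / 500000)) (G := (2024365069416817 / 10000000000000000)) (by norm_num) (by norm_num)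
    (by norm_num) (by norm_num) ?_ ?_ ?_
  · have h1 : arcsin (21 / 100) ≤ (10579 / 50000) := arcsin_le_seven (by norm_num) (by norm_num) (by norm_num)
    have h2 : √(1 - (21 / 100) ^ 2) ≤ (488851 / 500000) := sqrt_le_iff.2 ⟨by norm_num, by norm_num⟩
    norm_num [capPrim] at h1 h2 ⊢ <;> linarith
  · norm_num [capPrim, arcsin_one] <;> linarith
  · norm_num [capPrim, arcsin_one] <;> linarith

private lemma capGrid7_12 (hn : Module.finrank ℝ E = 8) {X : Set E} (hX : IsCone X) (hm : MeasurableSet X) : √(2 * π) * ‖mom X‖ ≤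
    (((51581 / 100000) : ℚ) : ℝ) + (((29207 / 25000) : ℚ) : ℝ) * (stdGaussian E).real X := by
  have hlo := pi_gt_d6
  have hhi := pi_lt_d6
  refine cap_line hn (by norm_num) hX hm (s := (17 / 100)) (q := (197089 / 200000)) (G := (663836419114591 / 4000000000000000)) (by norm_num) (by norm_num)
    (by norm_num) (by norm_num) ?_ ?_ ?_
  · have h1 : arcsin (17 / 100) ≤ (17083 / 100000) := arcsin_le_seven (by norm_num) (by norm_num) (by norm_num)
    have h2 : √(1 - (17 / 100) ^ 2) ≤ (197089 / 200000) := sqrt_le_iff.2 ⟨by norm_num, by norm_num⟩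
    norm_num [capPrim] at h1 h2 ⊢ <;> linarith
  · norm_num [capPrim, arcsin_one] <;> linarith
  · norm_num [capPrim, arcsin_one] <;> linarith

private lemma capGrid7_13 (hn : Module.finrank ℝ E = 8) {X : Set E} (hX : IsCone X) (hm : MeasurableSet X) : √(2 * π) * ‖mom X‖ ≤
    (((62483 / 100000) : ℚ) : ℝ) + (((85903 / 100000) : ℚ) : ℝ) * (stdGaussian E).real X := by
  have hlo := pi_gt_d6
  have hhi := pi_lt_d6
  refine cap_line hn (by norm_num) hX hm (s := (1 / 8)) (q := (992157 / 1000000)) (G := (8086127791 / 65536000000)) (by norm_num) (by norm_num)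
    (by norm_num) (by norm_num) ?_ ?_ ?_
  · have h1 : arcsin (1 / 8) ≤ (12533 / 100000) := arcsin_le_seven (by norm_num) (by norm_num) (by norm_num)
    have h2 : √(1 - (1 / 8) ^ 2) ≤ (992157 / 1000000) := sqrt_le_iff.2 ⟨by norm_num, by norm_num⟩
    norm_num [capPrim] at h1 h2 ⊢ <;> linarith
  · norm_num [capPrim, arcsin_one] <;> linarith
  · norm_num [capPrim, arcsin_one] <;> linarith

private lemma capGrid7_14 (hn : Module.finrank ℝ E = 8) {X : Set E} (hX : IsCone X) (hm : MeasurableSet X) : √(2 * π) * ‖mom X‖ ≤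
    (((14663 / 20000) : ℚ) : ℝ) + (((29207 / 50000) : ℚ) : ℝ) * (stdGaussian E).real X := by
  have hlo := pi_gt_d6
  have hhi := pi_lt_d6
  refine cap_line hn (by norm_num) hX hm (s := (17 / 200)) (q := (996381 / 1000000)) (G := (54074994779215839 / 640000000000000000)) (by norm_num) (by norm_num)
    (by norm_num) (by norm_num) ?_ ?_ ?_
  · have h1 : arcsin (17 / 200) ≤ (8511 / 100000) := arcsin_le_seven (by norm_num) (by norm_num) (by norm_num)
    have h2 : √(1 - (17 / 200) ^ 2) ≤ (996381 / 1000000) := sqrt_le_iff.2 ⟨by norm_num, by norm_num⟩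
    norm_num [capPrim] at h1 h2 ⊢ <;> linarith
  · norm_num [capPrim, arcsin_one] <;> linarith
  · norm_num [capPrim, arcsin_one] <;> linarith

private lemma capGrid7_15 (hn : Module.finrank ℝ E = 8) {X : Set E} (hX : IsCone X) (hm : MeasurableSet X) : √(2 * π) * ‖mom X‖ ≤
    (((2713 / 3125) : ℚ) : ℝ) + (((27489 / 100000) : ℚ) : ℝ) * (stdGaussian E).real X := by
  have hlo := pi_gt_d6
  have hhi := pi_lt_d6
  refine cap_line hn (by norm_num) hX hm (s := (1 / 25)) (q := (1249 / 1250)) (G := (62421293937 / 1562500000000)) (by norm_num) (by norm_num)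
    (by norm_num) (by norm_num) ?_ ?_ ?_
  · have h1 : arcsin (1 / 25) ≤ (2001 / 50000) := arcsin_le_seven (by norm_num) (by norm_num) (by norm_num)
    have h2 : √(1 - (1 / 25) ^ 2) ≤ (1249 / 1250) := sqrt_le_iff.2 ⟨by norm_num, by norm_num⟩
    norm_num [capPrim] at h1 h2 ⊢ <;> linarith
  · norm_num [capPrim, arcsin_one] <;> linarith
  · norm_num [capPrim, arcsin_one] <;> linarith

private lemma capGrid7_16 (hn : Module.finrank ℝ E = 8) {X : Set E} (hX : IsCone X) (hm : MeasurableSet X) : √(2 * π) * ‖mom X‖ ≤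
    (((1) : ℚ) : ℝ) + (((0) : ℚ) : ℝ) * (stdGaussian E).real X := by
  have hlo := pi_gt_d6
  have hhi := pi_lt_d6
  refine cap_line hn (by norm_num) hX hm (s := (0)) (q := (1)) (G := (0)) (by norm_num) (by norm_num)
    (by norm_num) (by norm_num) ?_ ?_ ?_
  · have h1 : arcsin (0) ≤ (0) := arcsin_le_seven (by norm_num) (by norm_num) (by norm_num)
    have h2 : √(1 - (0) ^ 2) ≤ (1) := sqrt_le_iff.2 ⟨by norm_num, by norm_num⟩
    norm_num [capPrim] at h1 h2 ⊢ <;> linarith
  · norm_num [capPrim, arcsin_one] <;> linarith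
  · norm_num [capPrim, arcsin_one] <;> linarith

/-- The lines of dimension 8. -/
def capGrid7 : List (ℚ × ℚ) :=
  [((1221 / 100000), (115969 / 25000)),
   ((1987 / 100000), (436387 / 100000)),
   ((161 / 5000), (202731 / 50000)),
   ((4723 / 100000), (377973 / 100000)),
   ((6961 / 100000), (43381 / 12500)),
   ((2379 / 25000), (319559 / 100000)),
   ((12681 / 100000), (29207 / 10000)),
   ((8529 / 50000), (52229 / 20000)),
   ((21751 / 100000), (29207 / 12500)),
   ((28019 / 100000), (202731 / 100000)),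
   ((17267 / 50000), (87621 / 50000)),
   ((21499 / 50000), (144317 / 100000)),
   ((51581 / 100000), (29207 / 25000)),
   ((62483 / 100000), (85903 / 100000)),
   ((14663 / 20000), (29207 / 50000)),
   ((2713 / 3125), (27489 / 100000)),
   ((1), (0))]

theorem capGrid7_valid (hn : Module.finrank ℝ E = 8) {X : Set E} (hX : IsCone X) (hm : MeasurableSet X) :
    ∀ l ∈ capGrid7, √(2 * π) * ‖mom X‖ ≤ (l.1 : ℝ) + (l.2 : ℝ) * (stdGaussian E).real X := by
  simp only [capGrid7, List.forall_mem_cons, List.not_mem_nil, false_implies, implies_true, and_true]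
  exact ⟨capGrid7_0 hn hX hm,
    capGrid7_1 hn hX hm,
    capGrid7_2 hn hX hm,
    capGrid7_3 hn hX hm,
    capGrid7_4 hn hX hm,
    capGrid7_5 hn hX hm,
    capGrid7_6 hn hX hm,
    capGrid7_7 hn hX hm,
    capGrid7_8 hn hX hm,
    capGrid7_9 hn hX hm,
    capGrid7_10 hn hX hm,
    capGrid7_11 hn hX hm,
    capGrid7_12 hn hX hm,
    capGrid7_13 hn hX hm,
    capGrid7_14 hn hX hm,
    capGrid7_15 hn hX hm,
    capGrid7_16 hn hX hm⟩

end Vale.Agent.P226
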