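import Vale.Agent.P226.Facts

/-!
# The bathtub bound on a Gaussian moment

For every level `t` the moment of a set is at most `E (s - t)⁺ + t γ(A)`; the tail integral has
the closed form `φ t - t (1/2 - ∫₀ᵗ φ)`.
-/

namespace Vale.Agent.P226

open MeasureTheory ProbabilityTheory Real Set Filter Topology
open scoped RealInnerProductSpace NNReal

variable {E : Type*} [NormedAddCommGroup E] [InnerProductSpace ℝ E] [FiniteDimensional ℝ E]
  [MeasurableSpace E] [BorelSpace E]

/-- The tail integral `E (s - t)⁺` of a standard Gaussian variable. -/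
noncomputable def psiTail (t : ℝ) : ℝ := ∫ s, max (s - t) 0 ∂gaussianReal 0 1

/-- A moment is at most the tail integral plus the level times the measure. -/
lemma norm_mom_le_tail {A : Set E} (hA : MeasurableSet A) (t : ℝ) :
    ‖mom A‖ ≤ psiTail t + t * (stdGaussian E).real A := by
  rcases eq_or_ne (mom A) 0 with h | h
  · rw [h, norm_zero, psiTail]
    rcases le_or_gt 0 t with ht | ht
    · exact add_nonneg (integral_nonneg fun s => le_max_right _ _)
        (mul_nonneg ht measureReal_nonneg)
    · have hi : Integrable (fun s : ℝ => s - t) (gaussianReal 0 1) :=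
        ((memLp_id_gaussianReal 1).integrable le_rfl).sub (integrable_const t)
      have h1 : -t ≤ ∫ s, max (s - t) 0 ∂gaussianReal 0 1 := by
        refine le_of_eq_of_le ?_ (integral_mono hi hi.pos_part fun s => le_max_left _ _)
        have hid : Integrable (fun s : ℝ => s) (gaussianReal 0 1) :=
          (memLp_id_gaussianReal 1).integrable le_rfl
        rw [integral_sub hid (integrable_const t), integral_id_gaussianReal, integral_const,
          probReal_univ]
        simp
      have h2 : (stdGaussian E).real A ≤ 1 := measureReal_le_one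
      nlinarith
  · set u := ‖mom A‖⁻¹ • mom A with hu
    have hu1 : ‖u‖ = 1 := norm_smul_inv_norm (𝕜 := ℝ) h
    have hm : Measurable fun x : E => ⟪u, x⟫ := (innerSL ℝ u).continuous.measurable
    have hi : Integrable (fun x => max (⟪u, x⟫ - t) 0) (stdGaussian E) :=
      ((integrable_inner u).sub (integrable_const t)).pos_part
    have h1 : ∫ x in A, ⟪u, x⟫ ∂stdGaussian E = ‖mom A‖ := by
      rw [inner_mom, hu, real_inner_smul_left, real_inner_self_eq_norm_sq, pow_two,
        inv_mul_cancel_left₀ (norm_ne_zero_iff.mpr h)]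
    have h2 : psiTail t = ∫ x, max (⟪u, x⟫ - t) 0 ∂stdGaussian E := by
      rw [psiTail, ← map_inner_unit u hu1, integral_map hm.aemeasurable
        (by fun_prop : Measurable fun s : ℝ => max (s - t) 0).aestronglyMeasurable]
    rw [← h1, h2]
    calc ∫ x in A, ⟪u, x⟫ ∂stdGaussian E
        ≤ ∫ x in A, (max (⟪u, x⟫ - t) 0 + t) ∂stdGaussian E := by
          refine setIntegral_mono_on (integrable_inner u).integrableOn
            (hi.add (integrable_const t)).integrableOn hA fun x _ => ?_
          linarith [le_max_left (⟪u, x⟫ - t) 0]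
      _ = ∫ x in A, max (⟪u, x⟫ - t) 0 ∂stdGaussian E + t * (stdGaussian E).real A := by
          rw [integral_add hi.integrableOn (integrable_const t).integrableOn, setIntegral_const,
            smul_eq_mul, mul_comm]
      _ ≤ _ := add_le_add (setIntegral_le_integral hi (ae_of_all _ fun x => le_max_right _ _))
          le_rfl

private lemma pdf_eq : gaussianPDFReal 0 1 = fun s : ℝ => (√(2 * π))⁻¹ * exp (-s ^ 2 / 2) := by
  funext s
  simp [gaussianPDFReal]

private lemma hasDerivAt_neg_pdf (s : ℝ) :
    HasDerivAt (fun s => -gaussianPDFReal 0 1 s) (s * gaussianPDFReal 0 1 s) s := by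
  have h : HasDerivAt (fun s : ℝ => -s ^ 2 / 2) (-s) s := by
    refine ((((hasDerivAt_id s).pow 2).neg).div_const 2).congr_deriv ?_
    simp
    ring
  simp only [pdf_eq]
  refine (h.exp.const_mul (√(2 * π))⁻¹).neg.congr_deriv ?_
  ring

/-- The closed form of the tail integral. -/
lemma psiTail_eq {t : ℝ} (ht : 0 ≤ t) :
    psiTail t = gaussianPDFReal 0 1 t - t * (1 / 2 - ∫ s in (0)..t, gaussianPDFReal 0 1 s) := by
  have hp : Integrable (gaussianPDFReal 0 1) := integrable_gaussianPDFReal 0 1
  have hsp : Integrable fun s => s * gaussianPDFReal 0 1 s := by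
    have h := (integrable_mul_exp_neg_mul_sq (b := 1 / 2) (by norm_num)).const_mul (√(2 * π))⁻¹
    refine h.congr (ae_of_all _ fun s => ?_)
    simp only [pdf_eq]
    ring_nf
  have h1 : ∫ s in Ioi t, s * gaussianPDFReal 0 1 s = gaussianPDFReal 0 1 t := by
    have ht0 : Tendsto (fun s => -gaussianPDFReal 0 1 s) atTop (𝓝 0) := by
      have h : Tendsto (fun s : ℝ => -s ^ 2 / 2) atTop atBot := by
        simp_rw [neg_div]
        exact tendsto_neg_atTop_atBot.comp
          ((tendsto_pow_atTop (two_ne_zero)).atTop_div_const two_pos)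
      simpa [pdf_eq] using ((tendsto_exp_atBot.comp h).const_mul (√(2 * π))⁻¹).neg
    rw [integral_Ioi_of_hasDerivAt_of_tendsto' (fun s _ => hasDerivAt_neg_pdf s)
      hsp.integrableOn ht0]
    ring
  have h2 : ∫ s in Ioi (0 : ℝ), gaussianPDFReal 0 1 s = 1 / 2 := by
    simp only [pdf_eq]
    have h := integral_gaussian_Ioi (1 / 2)
    simp only [integral_const_mul]
    rw [show (fun s : ℝ => exp (-s ^ 2 / 2)) = fun s => exp (-(1 / 2) * s ^ 2) by
      funext s; ring_nf] at *
    rw [h, show π / (1 / 2) = 2 * π by ring]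
    field_simp
  have h3 : ∫ s in Ioi t, gaussianPDFReal 0 1 s =
      1 / 2 - ∫ s in (0)..t, gaussianPDFReal 0 1 s := by
    rw [← h2, intervalIntegral.integral_of_le ht, ← Ioc_union_Ioi_eq_Ioi ht,
      setIntegral_union (Ioc_disjoint_Ioi le_rfl) measurableSet_Ioi hp.integrableOn
        hp.integrableOn]
    ring
  rw [psiTail, integral_gaussianReal_eq_integral_smul one_ne_zero,
    ← setIntegral_eq_integral_of_forall_compl_eq_zero (s := Ioi t) fun s hs => by
      simp [max_eq_right (sub_nonpos.2 (not_lt.1 (Set.mem_Ioi.not.1 hs)))]]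
  rw [setIntegral_congr_fun measurableSet_Ioi (g := fun s =>
    s * gaussianPDFReal 0 1 s - t * gaussianPDFReal 0 1 s) fun s hs => by
      simp only [smul_eq_mul, max_eq_left (sub_nonneg.2 (le_of_lt (Set.mem_Ioi.1 hs)))]; ring,
    integral_sub hsp.integrableOn (hp.const_mul t).integrableOn, integral_const_mul, h1, h3]

end Vale.Agent.P226
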