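import Vale.Agent.P226.CapAll
import Vale.Agent.P226.Iso

/-!
# Tangent lines of the cap bound with rational data

Upper bounds `√(2π) ‖z A‖ ≤ a + b γ(A)` at rational heights, from Taylor bounds of the sine and the
exponential and the antiderivatives of `√(1-r²)^(n-2)`; and a test that finitely many such lines,
above a threshold, keep the square below a linear function.
-/

namespace Vale.Agent.P226

open MeasureTheory ProbabilityTheory Real Set
open scoped RealInnerProductSpace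

/-- A function with nonnegative derivative on the positive half line, zero at zero. -/
lemma nonneg_of_deriv {g g' : ℝ → ℝ} (hd : ∀ x, HasDerivAt g (g' x) x)
    (hp : ∀ x, 0 < x → 0 ≤ g' x) (h0 : g 0 = 0) {x : ℝ} (hx : 0 ≤ x) : 0 ≤ g x := by
  have hm : MonotoneOn g (Ici 0) := monotoneOn_of_hasDerivWithinAt_nonneg (convex_Ici 0)
    (fun y _ => (hd y).continuousAt.continuousWithinAt)
    (fun y _ => (hd y).hasDerivWithinAt) fun y hy => hp y (by simpa using hy)
  exact h0 ▸ hm self_mem_Ici hx hx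

lemma cos_le_four {x : ℝ} (hx : 0 ≤ x) : cos x ≤ 1 - x ^ 2 / 2 + x ^ 4 / 24 := by
  have h := nonneg_of_deriv (g := fun x => 1 - x ^ 2 / 2 + x ^ 4 / 24 - cos x)
    (g' := fun x => -x + x ^ 3 / 6 + sin x) (fun x => by
      refine (((((hasDerivAt_id x).pow 2).div_const 2).const_sub 1).add
        (((hasDerivAt_id x).pow 4).div_const 24)).sub (hasDerivAt_cos x) |>.congr_deriv ?_
      simp; ring)
    (fun x hx => by linarith [sin_gt_sub_cube hx]) (by simp) hx
  linarith

lemma sin_le_five {x : ℝ} (hx : 0 ≤ x) : sin x ≤ x - x ^ 3 / 6 + x ^ 5 / 120 := by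
  have h := nonneg_of_deriv (g := fun x => x - x ^ 3 / 6 + x ^ 5 / 120 - sin x)
    (g' := fun x => 1 - x ^ 2 / 2 + x ^ 4 / 24 - cos x) (fun x => by
      refine (((hasDerivAt_id x).sub (((hasDerivAt_id x).pow 3).div_const 6)).add
        (((hasDerivAt_id x).pow 5).div_const 120)).sub (hasDerivAt_sin x) |>.congr_deriv ?_
      simp; ring)
    (fun x hx => by linarith [cos_le_four hx.le]) (by simp) hx
  linarith

lemma cos_ge_six {x : ℝ} (hx : 0 ≤ x) :
    1 - x ^ 2 / 2 + x ^ 4 / 24 - x ^ 6 / 720 ≤ cos x := by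
  have h := nonneg_of_deriv (g := fun x => cos x - (1 - x ^ 2 / 2 + x ^ 4 / 24 - x ^ 6 / 720))
    (g' := fun x => x - x ^ 3 / 6 + x ^ 5 / 120 - sin x) (fun x => by
      refine (hasDerivAt_cos x).sub ((((((hasDerivAt_id x).pow 2).div_const 2).const_sub 1).add
        (((hasDerivAt_id x).pow 4).div_const 24)).sub (((hasDerivAt_id x).pow 6).div_const 720))
        |>.congr_deriv ?_
      simp; ring)
    (fun x hx => by linarith [sin_le_five hx.le]) (by simp) hx
  linarith

lemma sin_ge_seven {x : ℝ} (hx : 0 ≤ x) :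
    x - x ^ 3 / 6 + x ^ 5 / 120 - x ^ 7 / 5040 ≤ sin x := by
  have h := nonneg_of_deriv (g := fun x => sin x - (x - x ^ 3 / 6 + x ^ 5 / 120 - x ^ 7 / 5040))
    (g' := fun x => cos x - (1 - x ^ 2 / 2 + x ^ 4 / 24 - x ^ 6 / 720)) (fun x => by
      refine (hasDerivAt_sin x).sub ((((hasDerivAt_id x).sub
        (((hasDerivAt_id x).pow 3).div_const 6)).add
        (((hasDerivAt_id x).pow 5).div_const 120)).sub (((hasDerivAt_id x).pow 7).div_const 5040))
        |>.congr_deriv ?_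
      simp; ring)
    (fun x hx => by linarith [cos_ge_six hx.le]) (by simp) hx
  linarith

lemma arcsin_le_seven {s θ : ℝ} (h1 : 0 ≤ θ) (h2 : θ ≤ 3 / 2)
    (h : s ≤ θ - θ ^ 3 / 6 + θ ^ 5 / 120 - θ ^ 7 / 5040) : arcsin s ≤ θ := by
  have := pi_gt_three
  have hs := h.trans (sin_ge_seven h1)
  calc arcsin s ≤ arcsin (sin θ) := monotone_arcsin hs
    _ = θ := arcsin_sin (by linarith) (by linarith)

/-- Truncated exponential series of `-u`. -/
noncomputable def expTay (N : ℕ) (u : ℝ) : ℝ :=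
  ∑ i ∈ Finset.range N, (-1) ^ i * u ^ i / (Nat.factorial i : ℝ)

lemma hasDerivAt_expTay : ∀ (N : ℕ) (u : ℝ), HasDerivAt (expTay (N + 1)) (-expTay N u) u
  | 0, u => by
    have e : expTay 1 = fun _ => (1 : ℝ) := funext fun v => by simp [expTay]
    rw [e]
    simpa [expTay] using hasDerivAt_const u (1 : ℝ)
  | N + 1, u => by
    have h : expTay (N + 2) = fun u =>
        expTay (N + 1) u + (-1) ^ (N + 1) * u ^ (N + 1) / ((N + 1).factorial : ℝ) :=
      funext fun u => Finset.sum_range_succ _ _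
    rw [h]
    refine ((hasDerivAt_expTay N u).add
      ((((hasDerivAt_id u).pow (N + 1)).const_mul ((-1 : ℝ) ^ (N + 1))).div_const _)).congr_deriv ?_
    rw [show expTay (N + 1) u = expTay N u + (-1) ^ N * u ^ N / (N.factorial : ℝ) from
      Finset.sum_range_succ _ _, Nat.factorial_succ]
    simp only [id, Nat.add_sub_cancel, mul_one]
    push_cast
    field_simp
    ring

lemma expTay_sign : ∀ (N : ℕ) {u : ℝ}, 0 ≤ u → 0 ≤ (-1) ^ N * (exp (-u) - expTay N u)
  | 0, u, _ => by simpa [expTay] using (exp_pos (-u)).le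
  | N + 1, u, hu => nonneg_of_deriv
      (g := fun v => (-1) ^ (N + 1) * (exp (-v) - expTay (N + 1) v))
      (g' := fun v => (-1) ^ N * (exp (-v) - expTay N v))
      (fun v => by
        refine (((hasDerivAt_id v).neg.exp).sub (hasDerivAt_expTay N v)).const_mul
          ((-1 : ℝ) ^ (N + 1)) |>.congr_deriv ?_
        simp [pow_succ]; ring)
      (fun v hv => expTay_sign N hv.le)
      (by
        have : expTay (N + 1) 0 = 1 := by
          rw [expTay, Finset.sum_range_succ']; simp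
        simp [this])
      hu

lemma exp_neg_le_tay {u : ℝ} (hu : 0 ≤ u) : exp (-u) ≤ expTay 13 u := by
  have := expTay_sign 13 hu
  norm_num at this
  linarith

/-- The integral of the thirteen-term bound of `exp (-r²/2)`. -/
noncomputable def gaussPrim (t : ℝ) : ℝ :=
  ∑ i ∈ Finset.range 13, (-1) ^ i * t ^ (2 * i + 1) / ((i.factorial : ℝ) * 2 ^ i * (2 * i + 1))

lemma integral_gauss_le {t : ℝ} (ht : 0 ≤ t) :
    ∫ r in (0)..t, exp (-r ^ 2 / 2) ≤ gaussPrim t := by
  have hd : ∀ r, HasDerivAt gaussPrim (expTay 13 (r ^ 2 / 2)) r := fun r => by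
    refine (HasDerivAt.fun_sum fun i _ =>
      (((hasDerivAt_id r).pow (2 * i + 1)).const_mul ((-1 : ℝ) ^ i)).div_const _).congr_deriv ?_
    refine Finset.sum_congr rfl fun i _ => ?_
    simp only [id, Nat.add_sub_cancel, mul_one, div_pow, ← pow_mul]
    push_cast
    field_simp
  have hc : Continuous fun r : ℝ => expTay 13 (r ^ 2 / 2) := by unfold expTay; fun_prop
  calc ∫ r in (0)..t, exp (-r ^ 2 / 2) ≤ ∫ r in (0)..t, expTay 13 (r ^ 2 / 2) :=
        intervalIntegral.integral_mono_on ht (by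
          exact (by fun_prop : Continuous fun r : ℝ => exp (-r ^ 2 / 2)).intervalIntegrable _ _)
          (hc.intervalIntegrable _ _) fun r _ => by
            rw [show -r ^ 2 / 2 = -(r ^ 2 / 2) by ring]; exact exp_neg_le_tay (by positivity)
    _ = gaussPrim t - gaussPrim 0 :=
        intervalIntegral.integral_eq_sub_of_hasDerivAt (fun r _ => hd r) (hc.intervalIntegrable _ _)
    _ = gaussPrim t := by simp [gaussPrim]

lemma hasDerivAt_sqrt_circ {r : ℝ} (hr : r ∈ Ioo (-1 : ℝ) 1) :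
    HasDerivAt (fun r => √(1 - r ^ 2)) (-r / √(1 - r ^ 2)) r := by
  have h : 0 < 1 - r ^ 2 := by nlinarith [hr.1, hr.2]
  refine ((((hasDerivAt_id r).pow 2).const_sub 1).sqrt h.ne').congr_deriv ?_
  simp; field_simp

/-- The integral of `capDensity n` from a height to one, from an antiderivative. -/
lemma integral_capDensity {n : ℕ} {G : ℝ → ℝ} (hc : Continuous G)
    (hd : ∀ r ∈ Ioo (-1 : ℝ) 1, HasDerivAt G (capDensity n r) r) {s : ℝ} (hs0 : 0 ≤ s)
    (hs1 : s ≤ 1) : ∫ r in s..1, capDensity n r = G 1 - G s :=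
  intervalIntegral.integral_eq_sub_of_hasDerivAt_of_le hs1 hc.continuousOn
    (fun r hr => hd r ⟨by linarith [hr.1], hr.2⟩)
    ((continuous_capDensity n).intervalIntegrable _ _)

/-- Antiderivatives of the height densities. -/
noncomputable def capPrim : ℕ → ℝ → ℝ
  | 3, r => (r * √(1 - r ^ 2) + arcsin r) / 2
  | 4, r => r - r ^ 3 / 3
  | 5, r => r * (5 - 2 * r ^ 2) * √(1 - r ^ 2) / 8 + 3 / 8 * arcsin r
  | 6, r => r - 2 * r ^ 3 / 3 + r ^ 5 / 5
  | 7, r => r * (8 * r ^ 4 - 26 * r ^ 2 + 33) * √(1 - r ^ 2) / 48 + 5 / 16 * arcsin r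
  | 8, r => r - r ^ 3 + 3 * r ^ 5 / 5 - r ^ 7 / 7
  | _, _ => 0

lemma capPrim_spec {n : ℕ} (hn : n = 3 ∨ n = 4 ∨ n = 5 ∨ n = 6 ∨ n = 7 ∨ n = 8) :
    Continuous (capPrim n) ∧
      ∀ r ∈ Ioo (-1 : ℝ) 1, HasDerivAt (capPrim n) (capDensity n r) r := by
  have hsq : ∀ r ∈ Ioo (-1 : ℝ) 1, 0 < √(1 - r ^ 2) ∧ √(1 - r ^ 2) ^ 2 = 1 - r ^ 2 := fun r hr =>
    ⟨sqrt_pos.2 (by nlinarith [hr.1, hr.2]), sq_sqrt (by nlinarith [hr.1, hr.2])⟩
  rcases hn with rfl | rfl | rfl | rfl | rfl | rfl <;> refine ⟨by unfold capPrim; fun_prop, fun r hr => ?_⟩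
  all_goals obtain ⟨hp, hs⟩ := hsq r hr
  · refine (((hasDerivAt_id r).mul (hasDerivAt_sqrt_circ hr)).add
      (hasDerivAt_arcsin (ne_of_gt hr.1) (ne_of_lt hr.2))).div_const 2 |>.congr_deriv ?_
    simp only [capDensity, id, show (3 - 2 : ℕ) = 1 from rfl, pow_one]
    generalize √(1 - r ^ 2) = q at hp hs ⊢
    field_simp
    linear_combination (-1 : ℝ) * hs
  · refine ((hasDerivAt_id r).sub (((hasDerivAt_id r).pow 3).div_const 3)).congr_deriv ?_
    simp [capDensity, hs]
  · refine ((((hasDerivAt_id r).mul ((((hasDerivAt_id r).pow 2).const_mul 2).const_sub 5)).mul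
      (hasDerivAt_sqrt_circ hr)).div_const 8).add
      ((hasDerivAt_arcsin (ne_of_gt hr.1) (ne_of_lt hr.2)).const_mul (3 / 8)) |>.congr_deriv ?_
    simp only [capDensity, id, Pi.mul_apply, Pi.pow_apply, show (5 - 2 : ℕ) = 3 from rfl]
    generalize √(1 - r ^ 2) = q at hp hs ⊢
    have h4 : q ^ 4 = (1 - r ^ 2) ^ 2 := by rw [← hs]; ring
    field_simp
    simp only [h4, hs]
    ring
  · refine (((hasDerivAt_id r).sub ((((hasDerivAt_id r).pow 3).const_mul 2).div_const 3)).add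
      (((hasDerivAt_id r).pow 5).div_const 5)).congr_deriv ?_
    simp only [capDensity, id, show (6 - 2 : ℕ) = 2 * 2 from rfl, pow_mul, hs]
    ring
  · refine ((((hasDerivAt_id r).mul (((((hasDerivAt_id r).pow 4).const_mul 8).sub
      (((hasDerivAt_id r).pow 2).const_mul 26)).add_const 33)).mul
      (hasDerivAt_sqrt_circ hr)).div_const 48).add
      ((hasDerivAt_arcsin (ne_of_gt hr.1) (ne_of_lt hr.2)).const_mul (5 / 16)) |>.congr_deriv ?_
    simp only [capDensity, id, Pi.mul_apply, Pi.sub_apply, Pi.pow_apply, show (7 - 2 : ℕ) = 5 from rfl]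
    generalize √(1 - r ^ 2) = q at hp hs ⊢
    have h6 : q ^ 6 = (1 - r ^ 2) ^ 3 := by rw [← hs]; ring
    field_simp
    simp only [h6, hs]
    ring
  · refine ((((hasDerivAt_id r).sub ((hasDerivAt_id r).pow 3)).add
      ((((hasDerivAt_id r).pow 5).const_mul 3).div_const 5)).sub
      (((hasDerivAt_id r).pow 7).div_const 7)).congr_deriv ?_
    simp only [capDensity, id, show (8 - 2 : ℕ) = 2 * 3 from rfl, pow_mul, hs]
    ring

variable {E : Type*} [NormedAddCommGroup E] [InnerProductSpace ℝ E] [FiniteDimensional ℝ E]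
  [MeasurableSpace E] [BorelSpace E]

/-- A line of the cap bound from an upper bound of the primitive. -/
theorem cap_line {n : ℕ} (hn : Module.finrank ℝ E = n + 1)
    (hn' : n = 3 ∨ n = 4 ∨ n = 5 ∨ n = 6 ∨ n = 7 ∨ n = 8) {X : Set E} (hX : IsCone X)
    (hm : MeasurableSet X) {s q G : ℝ} {a b : ℝ} (hs0 : 0 ≤ s) (hs1 : s < 1) (hq : 0 ≤ q)
    (hq2 : 1 - s ^ 2 ≤ q ^ 2) (hG : capPrim n s ≤ G)
    (ha : q ^ n - s * n * (capPrim n 1 - G) ≤ a) (hb : 2 * s * n * capPrim n 1 ≤ b) :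
    √(2 * π) * ‖mom X‖ ≤ a + b * (stdGaussian E).real X := by
  obtain ⟨hc, hd⟩ := capPrim_spec hn'
  have h0 : capPrim n 0 = 0 := by rcases hn' with rfl | rfl | rfl | rfl | rfl | rfl <;> simp [capPrim]
  have h := norm_mom_le_cap_all hn (by omega) hX hm hs0 hs1
  rw [integral_capDensity hc hd le_rfl zero_le_one, integral_capDensity hc hd hs0 hs1.le, h0,
    sub_zero] at h
  have hp : (0 : ℝ) < √(2 * π) := by positivity
  have h' := mul_le_mul_of_nonneg_left h hp.le
  have hv : √(1 - s ^ 2) ^ n ≤ q ^ n :=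
    pow_le_pow_left₀ (sqrt_nonneg _) (sqrt_le_iff.2 ⟨hq, hq2⟩) n
  have e : √(2 * π) * ((√(2 * π))⁻¹ * √(1 - s ^ 2) ^ n + s * (n * (√(2 * π))⁻¹) *
      (2 * (stdGaussian E).real X * capPrim n 1 - (capPrim n 1 - capPrim n s))) =
      √(1 - s ^ 2) ^ n - s * n * (capPrim n 1 - capPrim n s) +
        2 * s * n * capPrim n 1 * (stdGaussian E).real X := by
    field_simp; ring
  rw [e] at h'
  have := mul_le_mul_of_nonneg_right hb (measureReal_nonneg (μ := stdGaussian E) (s := X))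
  have := mul_le_mul_of_nonneg_left hG (show 0 ≤ s * (n : ℝ) by positivity)
  linarith

/-- A line of the dimension-free bound. -/
theorem iso_line {X : Set E} (hm : MeasurableSet X) {t e L U a b : ℝ} (ht : 0 ≤ t)
    (he : expTay 13 (t ^ 2 / 2) ≤ e) (hL : L ≤ √(2 * π)) (hU : √(2 * π) ≤ U)
    (ha : e - t * (L / 2 - gaussPrim t) ≤ a) (hb : U * t ≤ b) :
    √(2 * π) * ‖mom X‖ ≤ a + b * (stdGaussian E).real X := by
  have h := norm_mom_le_tail hm t
  rw [psiTail_eq ht] at h
  have hp : (0 : ℝ) < √(2 * π) := by positivity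
  have h' := mul_le_mul_of_nonneg_left h hp.le
  have e1 : gaussianPDFReal 0 1 t = (√(2 * π))⁻¹ * exp (-t ^ 2 / 2) := by simp [gaussianPDFReal]
  have e2 : ∫ r in (0)..t, gaussianPDFReal 0 1 r =
      (√(2 * π))⁻¹ * ∫ r in (0)..t, exp (-r ^ 2 / 2) := by
    rw [← intervalIntegral.integral_const_mul]
    simp [gaussianPDFReal]
  rw [e1, e2] at h'
  have e3 : √(2 * π) * ((√(2 * π))⁻¹ * exp (-t ^ 2 / 2) -
      t * (1 / 2 - (√(2 * π))⁻¹ * ∫ r in (0)..t, exp (-r ^ 2 / 2)) +
        t * (stdGaussian E).real X) =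
      exp (-t ^ 2 / 2) - t * (√(2 * π) / 2 - ∫ r in (0)..t, exp (-r ^ 2 / 2)) +
        √(2 * π) * t * (stdGaussian E).real X := by field_simp
  rw [e3] at h'
  have := exp_neg_le_tay (show 0 ≤ t ^ 2 / 2 by positivity)
  rw [← neg_div] at this
  have := mul_le_mul_of_nonneg_left (integral_gauss_le ht) ht
  have := mul_le_mul_of_nonneg_left hL ht
  have := mul_le_mul_of_nonneg_right ((mul_le_mul_of_nonneg_right hU ht).trans hb)
    (measureReal_nonneg (μ := stdGaussian E) (s := X))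
  linarith

/-- The line `l` keeps the square under `α + β p` at both ends, then the next line goes on. -/
def chainOK (α β : ℚ) : ℚ → List ((ℚ × ℚ) × ℚ) → Bool
  | lo, [] => decide (1 ≤ lo)
  | lo, (l, hi) :: r =>
    decide ((l.1 + l.2 * lo) ^ 2 ≤ α + β * lo ∧ (l.1 + l.2 * hi) ^ 2 ≤ α + β * hi ∧ lo ≤ hi) &&
      chainOK α β hi r

/-- A chain of lines certifies a linear majorant of the square. -/
theorem sq_le_of_chain {α β : ℚ} {y p : ℝ} (hy : 0 ≤ y) (hp1 : p ≤ 1) :
    ∀ {lo : ℚ} {C : List ((ℚ × ℚ) × ℚ)}, chainOK α β lo C = true → (lo : ℝ) ≤ p →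
      C ≠ [] → (∀ c ∈ C, y ≤ c.1.1 + c.1.2 * p) → y ^ 2 ≤ α + β * p
  | _, [], _, _, hl, _ => absurd rfl hl
  | lo, (l, hi) :: r, h, hlo, _, hL => by
    simp only [chainOK, Bool.and_eq_true, decide_eq_true_eq] at h
    obtain ⟨⟨h1, h2, h3⟩, hr⟩ := h
    have hy1 := hL (l, hi) (List.mem_cons_self)
    have seg : p ≤ hi → y ^ 2 ≤ α + β * p := fun hp => by
      have e1 : ((l.1 : ℝ) + l.2 * lo) ^ 2 ≤ α + β * lo := by exact_mod_cast h1
      have e2 : ((l.1 : ℝ) + l.2 * hi) ^ 2 ≤ α + β * hi := by exact_mod_cast h2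
      refine (pow_le_pow_left₀ hy hy1 2).trans ?_
      rcases (Rat.cast_le (K := ℝ).2 h3).eq_or_lt with e | e
      · have : p = lo := le_antisymm (hp.trans_eq e.symm) hlo
        rwa [this]
      · set f := fun x : ℝ => ((l.1 : ℝ) + l.2 * x) ^ 2 - β * x - α
        have hf : f p * (hi - lo) ≤ f lo * (hi - p) + f hi * (p - lo) := by
          have := mul_nonneg (mul_nonneg (sub_nonneg.2 hlo) (sub_nonneg.2 hp))
            (mul_nonneg (sq_nonneg (l.2 : ℝ)) (sub_nonneg.2 e.le))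
          simp only [f]; linarith
        have h0 : f p ≤ 0 := by
          refine nonpos_of_mul_nonpos_left (hf.trans ?_) (sub_pos.2 e)
          nlinarith [mul_nonneg (sub_nonneg.2 hp) (sub_nonneg.2 hlo)]
        simp only [f] at h0
        linarith
    rcases le_or_gt p hi with hp | hp
    · exact seg hp
    · cases r with
      | nil =>
        simp only [chainOK, decide_eq_true_eq] at hr
        have : (1 : ℝ) ≤ hi := by exact_mod_cast hr
        linarith
      | cons c r' =>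
        exact sq_le_of_chain hy hp1 hr hp.le (List.cons_ne_nil _ _)
          fun d hd => hL d (List.mem_cons_of_mem _ hd)

/-- Majorant above a threshold: below `x` a line stays under the threshold. -/
theorem sq_le_of_level {τ α β x : ℚ} {l : ℚ × ℚ} {C : List ((ℚ × ℚ) × ℚ)} {y p : ℝ}
    (hy : 0 ≤ y) (hp1 : p ≤ 1) (hτ : (τ : ℝ) ≤ y)
    (h : (decide (0 < l.2 ∧ l.1 + l.2 * x ≤ τ ∧ C ≠ []) && chainOK α β x C) = true)
    (hl : y ≤ l.1 + l.2 * p) (hC : ∀ c ∈ C, y ≤ c.1.1 + c.1.2 * p) : y ^ 2 ≤ α + β * p := by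
  simp only [Bool.and_eq_true, decide_eq_true_eq] at h
  obtain ⟨⟨hb, hx, hne⟩, hch⟩ := h
  refine sq_le_of_chain hy hp1 hch ?_ hne hC
  · by_contra hc
    have : (l.2 : ℝ) * p < l.2 * x :=
      mul_lt_mul_of_pos_left (not_le.1 hc) (by exact_mod_cast hb)
    have : (l.1 : ℝ) + l.2 * x ≤ τ := by exact_mod_cast hx
    linarith

end Vale.Agent.P226
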