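import Vale.Agent.P226.Core
import Vale.Agent.P226.CapLines

/-!
# Levels of a cap certificate

A level asks a vector for a least squared length and allows a greatest one; a chain of valid lines
then keeps twice the product with the moment bound, less the square, under a linear function of the
measure. A table of levels for the longest vectors of a family bounds their energy.
-/

namespace Vale.Agent.P226

open MeasureTheory ProbabilityTheory Real Set Finset
open scoped RealInnerProductSpace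

/-- The largest value of `2 Y v - Y ^ 2` for `Y` at most `T`. -/
def hVal (T v : ℚ) : ℚ := if v ≤ T then v ^ 2 else 2 * T * v - T ^ 2

lemma twice_le_hVal {T v : ℚ} {Y : ℝ} (hY : Y ≤ T) : 2 * Y * v - Y ^ 2 ≤ hVal T v := by
  unfold hVal
  split_ifs with h
  · push_cast
    linarith [sq_nonneg (Y - v)]
  · have h' : (T : ℝ) ≤ v := by exact_mod_cast (not_le.1 h).le
    have := mul_nonneg (sub_nonneg.2 hY) (add_nonneg (sub_nonneg.2 h') (sub_nonneg.2 (hY.trans h')))
    push_cast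
    linarith

/-- The chain keeps the largest value under `α + β p`. -/
def chainH (T α β : ℚ) : ℚ → List ((ℚ × ℚ) × ℚ) → Bool
  | lo, [] => decide (1 ≤ lo)
  | lo, (l, hi) :: r =>
    decide (hVal T (l.1 + l.2 * lo) ≤ α + β * lo ∧ hVal T (l.1 + l.2 * hi) ≤ α + β * hi ∧ lo ≤ hi) &&
      chainH T α β hi r

/-- A chain certifies a linear majorant of twice the product less the square. -/
theorem le_of_chainH {T α β : ℚ} {Y f p : ℝ} (hY0 : 0 ≤ Y) (hY : Y ≤ T) (hp1 : p ≤ 1) :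
    ∀ {lo : ℚ} {C : List ((ℚ × ℚ) × ℚ)}, chainH T α β lo C = true → (lo : ℝ) ≤ p → C ≠ [] →
      (∀ c ∈ C, f ≤ c.1.1 + c.1.2 * p) → 2 * Y * f - Y ^ 2 ≤ α + β * p
  | _, [], _, _, hl, _ => absurd rfl hl
  | lo, (l, hi) :: r, h, hlo, _, hL => by
    simp only [chainH, Bool.and_eq_true, decide_eq_true_eq] at h
    obtain ⟨⟨h1, h2, h3⟩, hr⟩ := h
    have seg : p ≤ hi → 2 * Y * f - Y ^ 2 ≤ α + β * p := fun hp => by
      have e1 : 2 * Y * ((l.1 : ℝ) + l.2 * lo) - Y ^ 2 ≤ α + β * lo := by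
        have := (twice_le_hVal (v := l.1 + l.2 * lo) hY).trans (Rat.cast_le.2 h1)
        push_cast at this
        exact this
      have e2 : 2 * Y * ((l.1 : ℝ) + l.2 * hi) - Y ^ 2 ≤ α + β * hi := by
        have := (twice_le_hVal (v := l.1 + l.2 * hi) hY).trans (Rat.cast_le.2 h2)
        push_cast at this
        exact this
      have e3 : 2 * Y * f ≤ 2 * Y * ((l.1 : ℝ) + l.2 * p) :=
        mul_le_mul_of_nonneg_left (hL (l, hi) List.mem_cons_self) (by linarith)
      rcases (Rat.cast_le (K := ℝ).2 h3).eq_or_lt with e | e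
      · have : p = lo := le_antisymm (hp.trans_eq e.symm) hlo
        rw [this] at e3 ⊢
        linarith
      · refine le_of_mul_le_mul_right ?_ (sub_pos.2 e)
        calc (2 * Y * f - Y ^ 2) * ((hi : ℝ) - lo)
            ≤ (2 * Y * ((l.1 : ℝ) + l.2 * p) - Y ^ 2) * ((hi : ℝ) - lo) :=
              mul_le_mul_of_nonneg_right (by linarith) (sub_pos.2 e).le
          _ ≤ (α + β * p) * ((hi : ℝ) - lo) := by
              linarith [mul_le_mul_of_nonneg_left e1 (sub_nonneg.2 hp),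
                mul_le_mul_of_nonneg_left e2 (sub_nonneg.2 hlo)]
    rcases le_or_gt p hi with hp | hp
    · exact seg hp
    · cases r with
      | nil =>
        simp only [chainH, decide_eq_true_eq] at hr
        have : (1 : ℝ) ≤ hi := by exact_mod_cast hr
        linarith
      | cons c r' =>
        exact le_of_chainH hY0 hY hp1 hr hp.le (List.cons_ne_nil _ _)
          fun d hd => hL d (List.mem_cons_of_mem _ hd)

/-- A level: the threshold and the cap on squared lengths with their scaled roots, the majorant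
`α`, the least measure and the chain that certify it. -/
structure Lev where
  θ : ℚ
  τ : ℚ
  cut : ℚ
  T : ℚ
  α : ℚ
  x : ℚ
  l : ℚ × ℚ
  C : List ((ℚ × ℚ) × ℚ)

/-- The level is certified by lines of `L` at slope `β`. -/
def Lev.ok (L : List (ℚ × ℚ)) (β : ℚ) (v : Lev) : Bool :=
  decide (v.τ ^ 2 ≤ 785398 / 125000 * v.θ ∧ 0 ≤ v.θ ∧ 0 ≤ v.T ∧
    785399 / 125000 * v.cut ≤ v.T ^ 2 ∧ 0 ≤ v.cut ∧ 0 < v.l.2 ∧ v.l.1 + v.l.2 * v.x ≤ v.τ ∧
    v.C ≠ [] ∧ v.l ∈ L ∧ ∀ c ∈ v.C, c.1 ∈ L) && chainH v.T v.α β v.x v.C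

/-- A certified level bounds twice the product less the square. -/
theorem Lev.le {L : List (ℚ × ℚ)} {β : ℚ} {v : Lev} (h : v.ok L β = true) {Y f p : ℝ}
    (hY0 : 0 ≤ Y) (hY : Y ^ 2 ≤ 2 * π * v.cut) (hf0 : 0 ≤ f) (hf : 2 * π * v.θ ≤ f ^ 2)
    (hp1 : p ≤ 1) (hL : ∀ l ∈ L, f ≤ l.1 + l.2 * p) : 2 * Y * f - Y ^ 2 ≤ v.α + β * p := by
  simp only [Lev.ok, Bool.and_eq_true, decide_eq_true_eq] at h
  obtain ⟨⟨ht, hθ, hT0, hT, hc, hb, hx, hne, hl, hC⟩, hch⟩ := h
  have hpi := pi_gt_d6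
  have hpi' := pi_lt_d6
  have hYT : Y ≤ v.T := by
    refine le_of_pow_le_pow_left₀ two_ne_zero (by exact_mod_cast hT0) (hY.trans ?_)
    have h1 := (Rat.cast_le (K := ℝ)).2 hT
    push_cast at h1
    refine (mul_le_mul_of_nonneg_right ?_ (by exact_mod_cast hc)).trans h1
    linarith
  have hτ : (v.τ : ℝ) ≤ f := by
    refine le_of_pow_le_pow_left₀ two_ne_zero hf0 (le_trans ?_ hf)
    have h1 := (Rat.cast_le (K := ℝ)).2 ht
    push_cast at h1
    refine h1.trans (mul_le_mul_of_nonneg_right ?_ (by exact_mod_cast hθ))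
    linarith
  refine le_of_chainH hY0 hYT hp1 hch ?_ hne fun c hc' => hL _ (hC c hc')
  by_contra hlt
  have h1 : (v.l.2 : ℝ) * p < v.l.2 * v.x :=
    mul_lt_mul_of_pos_left (not_le.1 hlt) (by exact_mod_cast hb)
  have h2 : (v.l.1 : ℝ) + v.l.2 * v.x ≤ v.τ := by exact_mod_cast hx
  linarith [hL _ hl]

/-- The level is certified by lines of `L` and its own cap. -/
def Lev.okT (L : List (ℚ × ℚ)) (β : ℚ) (v : Lev) : Bool := v.ok ((v.T, 0) :: L) β

/-- A certified level bounds the square of a vector between threshold and cap. -/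
theorem Lev.sq_le {L : List (ℚ × ℚ)} {β : ℚ} {v : Lev} (h : v.okT L β = true) {y p : ℝ}
    (hy : 0 ≤ y) (hθ : 2 * π * v.θ ≤ y ^ 2) (hcut : y ^ 2 ≤ 2 * π * v.cut) (hp1 : p ≤ 1)
    (hL : ∀ l ∈ L, y ≤ l.1 + l.2 * p) : y ^ 2 ≤ v.α + β * p := by
  have h2 := Lev.le h hy hcut hy hθ hp1 (List.forall_mem_cons.2 ⟨?_, hL⟩)
  · linarith
  · simp only [Lev.okT, Lev.ok, Bool.and_eq_true, decide_eq_true_eq] at h
    obtain ⟨⟨-, -, hT0, hT, hc, -⟩, -⟩ := h
    push_cast
    rw [zero_mul, add_zero]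
    refine le_of_pow_le_pow_left₀ two_ne_zero (by exact_mod_cast hT0) (hcut.trans ?_)
    have h1 := (Rat.cast_le (K := ℝ)).2 hT
    push_cast at h1
    refine (mul_le_mul_of_nonneg_right ?_ (by exact_mod_cast hc)).trans h1
    have := pi_lt_d6
    linarith

section family

variable {k : ℕ} [NeZero k] {w : Fin k → EuclideanSpace ℝ (Fin (k - 1))}

/-- A table of levels bounds the energy of the chosen vectors. -/
theorem sum_le_levs (hw : Crit w) {m : ℕ} (J : Fin m ↪ Fin k) {L : List (ℚ × ℚ)} {β : ℚ}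
    (hv : ∀ X : Set (EuclideanSpace ℝ (Fin (k - 1))), IsCone X → MeasurableSet X → ∀ l ∈ L,
      √(2 * π) * ‖mom X‖ ≤ (l.1 : ℝ) + (l.2 : ℝ) * (stdGaussian _).real X)
    (lv : Fin m → Lev) (hok : ∀ j, (lv j).okT L β = true)
    (hθ : ∀ j, ((lv j).θ : ℝ) ≤ ‖w (J j)‖ ^ 2) (hcut : ∀ j, ‖w (J j)‖ ^ 2 ≤ ((lv j).cut : ℝ)) :
    2 * π * ∑ j, ‖w (J j)‖ ^ 2 ≤ (∑ j, ((lv j).α : ℝ)) +
      β * ∑ j, (stdGaussian (EuclideanSpace ℝ (Fin (k - 1)))).real (cell w (J j)) := by
  rw [Finset.mul_sum, Finset.mul_sum, ← Finset.sum_add_distrib]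
  refine Finset.sum_le_sum fun j _ => ?_
  have e : (√(2 * π) * ‖w (J j)‖) ^ 2 = 2 * π * ‖w (J j)‖ ^ 2 := by
    rw [mul_pow, sq_sqrt (by positivity)]
  rw [← e]
  refine Lev.sq_le (hok j) (by positivity) ?_ ?_ measureReal_le_one fun l hl => ?_
  · rw [e]; exact mul_le_mul_of_nonneg_left (hθ j) (by positivity)
  · rw [e]; exact mul_le_mul_of_nonneg_left (hcut j) (by positivity)
  · rw [hw.self (J j)]
    exact hv _ (isCone_cell w (J j)) ((cell_isPart w).meas _) l hl

omit [NeZero k] in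
/-- The chosen vectors in decreasing order lie above the thresholds. -/
theorem exists_slots {θ : ℕ → ℝ} {m : ℕ} (J : Fin m ↪ Fin k) (hJ : IsTop w J)
    (hL : Long θ w m) (hm : 4 ≤ m) :
    ∃ σ : Equiv.Perm (Fin m), (∀ i j, i ≤ j → ‖w (J (σ j))‖ ^ 2 ≤ ‖w (J (σ i))‖ ^ 2) ∧
      ∀ j : Fin m, θ (max 4 ((j : ℕ) + 1)) ≤ ‖w (J (σ j))‖ ^ 2 := by
  classical
  set f : Fin m → ℝ := fun a => -‖w (J a)‖ ^ 2 with hf
  refine ⟨Tuple.sort f, fun i j hij => ?_, fun j => ?_⟩
  · have := Tuple.monotone_sort f hij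
    simp only [Function.comp_apply, hf] at this
    linarith
  by_contra! hlt
  have hsub : (Finset.univ.filter fun i => θ (max 4 ((j : ℕ) + 1)) ≤ ‖w i‖ ^ 2) ⊆
      (Finset.Iio j).map ((Tuple.sort f).toEmbedding.trans J) := by
    intro i hi
    simp only [Finset.mem_filter, Finset.mem_univ, true_and] at hi
    by_cases hiJ : i ∈ Finset.univ.map J
    · obtain ⟨a, -, rfl⟩ := Finset.mem_map.1 hiJ
      refine Finset.mem_map.2 ⟨(Tuple.sort f).symm a, Finset.mem_Iio.2 ?_, by simp⟩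
      by_contra! hle
      have := Tuple.monotone_sort f hle
      simp only [Function.comp_apply, Equiv.apply_symm_apply, hf] at this
      linarith
    · linarith [hJ i (Finset.mem_compl.2 hiJ) (Tuple.sort f j)]
  have h := (hL _ (le_max_left _ _) (max_le hm j.isLt)).trans (Finset.card_le_card hsub)
  rw [Finset.card_map, Fin.card_Iio] at h
  omega

end family

end Vale.Agent.P226
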