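import Vale.Agent.P226.TopCells

/-!
# Cells outside a distinguished group that gain little

If the distinguished cells obey the propeller bound and every other cell gains at most
`(1 - 1/m) / 2` times its squared length over them, the whole family obeys the propeller bound.
-/

namespace Vale.Agent.P226

open MeasureTheory ProbabilityTheory Real Set Finset
open scoped RealInnerProductSpace

variable {E : Type*} [NormedAddCommGroup E] [InnerProductSpace ℝ E] [FiniteDimensional ℝ E]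
  [MeasurableSpace E] [BorelSpace E] {k m : ℕ} [NeZero m]

/-- A family whose cells outside `J` gain little obeys the bound that `J` obeys. -/
theorem sum_sq_le_of_dust {A : Fin k → Set E} (hA : IsPart A) (J : Fin m ↪ Fin k) {ε c : ℝ}
    (hc : 0 ≤ c) (hε : 2 * ε ≤ 1 - (m : ℝ)⁻¹) (hsum : ∑ i, mom (A i) = 0)
    (hobt : ∀ i j, i ≠ j → ⟪mom (A i), mom (A j)⟫ ≤ 0)
    (hJ : meanMax (centred (fun i => mom (A i)) J) ≤
      c * vsize (centred (fun i => mom (A i)) J))
    (hgain : ∀ i ∈ (Finset.univ.map J)ᶜ,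
      gain (centred (fun i => mom (A i)) J) (mom (A i)) ≤ ε * ‖mom (A i)‖ ^ 2) :
    ∑ i, ‖mom (A i)‖ ^ 2 ≤ c ^ 2 := by
  set z := fun i => mom (A i) with hz
  set x := vsize (centred z J) with hx
  set Q := restSq z J with hQ
  have h := cells_le hA J 1
  rw [← hz, one_mul, ← vsize_sq (centred z J), ← hx, ← hQ] at h
  simp only [one_smul] at h
  have hg : ∑ i ∈ (Finset.univ.map J)ᶜ, gain (centred z J) (mom (A i)) ≤ ε * Q := by
    rw [hQ, restSq, Finset.mul_sum]
    exact Finset.sum_le_sum hgain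
  have hF := sum_sq_eq z J
  rw [← vsize_sq (centred z J), ← hx, ← hQ] at hF
  have hm : (1 : ℝ) ≤ m := Nat.one_le_cast.2 (Nat.one_le_iff_ne_zero.2 (NeZero.ne m))
  have he : ‖∑ b, z (J b)‖ ^ 2 / m ≤ (m : ℝ)⁻¹ * Q :=
    (div_le_div_of_nonneg_right (sq_common_le z hsum hobt J) (by linarith)).trans_eq
      (by rw [← hQ]; ring)
  have hQ0 : 0 ≤ Q := Finset.sum_nonneg fun _ _ => sq_nonneg _
  have hx0 : 0 ≤ x := Real.sqrt_nonneg _
  have hε1 : 0 < 1 - ε := by linarith [inv_nonneg.2 (zero_le_one.trans hm)]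
  have hxc : x ≤ c := by
    by_contra! hlt
    have : c * x < x ^ 2 := by nlinarith
    nlinarith [mul_nonneg hε1.le hQ0]
  have hi : (m : ℝ)⁻¹ ≤ 1 := inv_le_one_of_one_le₀ hm
  have hF' : ∑ i, ‖z i‖ ^ 2 ≤ x ^ 2 + (1 + (m : ℝ)⁻¹) * Q := by linarith
  have hQle : (1 - ε) * Q ≤ x * (c - x) := by nlinarith
  have hmul : (1 + (m : ℝ)⁻¹) * (x * (c - x)) ≤ (1 - ε) * (c ^ 2 - x ^ 2) := by
    have h1 : (1 + (m : ℝ)⁻¹) * x ≤ (1 - ε) * (c + x) := by nlinarith
    calc (1 + (m : ℝ)⁻¹) * (x * (c - x)) = (1 + (m : ℝ)⁻¹) * x * (c - x) := by ring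
      _ ≤ (1 - ε) * (c + x) * (c - x) := mul_le_mul_of_nonneg_right h1 (by linarith)
      _ = _ := by ring
  have h2 : (1 + (m : ℝ)⁻¹) * Q ≤ c ^ 2 - x ^ 2 := by
    refine le_of_mul_le_mul_left ?_ hε1
    calc (1 - ε) * ((1 + (m : ℝ)⁻¹) * Q) = (1 + (m : ℝ)⁻¹) * ((1 - ε) * Q) := by ring
      _ ≤ (1 + (m : ℝ)⁻¹) * (x * (c - x)) := mul_le_mul_of_nonneg_left hQle (by linarith [inv_nonneg.2 (zero_le_one.trans hm)])
      _ ≤ _ := hmul
  linarith

omit [FiniteDimensional ℝ E] [MeasurableSpace E] [BorelSpace E] [NeZero m] in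
/-- An obtuse vector outside the group has nearly no component along the differences inside it. -/
lemma inner_centred_le (z : Fin k → E) (hsum : ∑ i, z i = 0)
    (hobt : ∀ i j, i ≠ j → ⟪z i, z j⟫ ≤ 0) (J : Fin m ↪ Fin k) {i : Fin k}
    (hi : i ∈ (Finset.univ.map J)ᶜ) (a : Fin m) :
    ⟪centred z J a, z i⟫ ≤ (m : ℝ)⁻¹ * ‖z i‖ ^ 2 := by
  have hm : (0 : ℝ) ≤ (m : ℝ)⁻¹ := by positivity
  have hne : J a ≠ i := fun h => (Finset.mem_compl.1 hi) (h ▸ Finset.mem_map_of_mem J (Finset.mem_univ a))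
  have h1 : -‖z i‖ ^ 2 ≤ ⟪∑ b, z (J b), z i⟫ := by
    rw [← Finset.sum_add_sum_compl (Finset.univ.map J), Finset.sum_map] at hsum
    rw [eq_neg_of_add_eq_zero_left hsum, inner_neg_left, neg_le_neg_iff, sum_inner,
      ← Finset.add_sum_erase _ _ hi, real_inner_self_eq_norm_sq]
    exact add_le_of_nonpos_right
      (Finset.sum_nonpos fun j hj => hobt j i (Finset.ne_of_mem_erase hj))
  rw [centred, inner_sub_left, real_inner_smul_left]
  have h2 := mul_le_mul_of_nonneg_left h1 hm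
  linarith [hobt (J a) i hne]

/-- The expected maximum is at most the propeller constant times the size. -/
lemma meanMax_le_of_val_le {c : ℝ} (hc : 0 ≤ c)
    (hb : ∀ A : Fin m → Set E, IsPart A → val A ≤ c ^ 2) (W : Fin m → E) :
    meanMax W ≤ c * vsize W := by
  have hs := integrable_supInner W
  have hA := cell_isPart W
  have h : meanMax W = ∑ a, ⟪W a, mom (cell W a)⟫ := by
    rw [meanMax, ← hA.integral_eq hs]
    refine Finset.sum_congr rfl fun a _ => ?_
    rw [← inner_mom]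
    exact setIntegral_congr_fun (hA.meas a) fun x hx =>
      le_antisymm (Finset.sup'_le _ _ fun b _ => hx.1 b) (le_supInner W a x)
  have hv : √(∑ a, ‖mom (cell W a)‖ ^ 2) ≤ c :=
    (Real.sqrt_le_sqrt (hb _ hA)).trans_eq (Real.sqrt_sq hc)
  rw [h]
  calc ∑ a, ⟪W a, mom (cell W a)⟫ ≤ ∑ a, ‖W a‖ * ‖mom (cell W a)‖ :=
        Finset.sum_le_sum fun a _ => real_inner_le_norm _ _
    _ ≤ √(∑ a, ‖W a‖ ^ 2) * √(∑ a, ‖mom (cell W a)‖ ^ 2) :=
        Real.sum_mul_le_sqrt_mul_sqrt _ _ _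
    _ ≤ vsize W * c := mul_le_mul_of_nonneg_left hv (Real.sqrt_nonneg _)
    _ = c * vsize W := mul_comm _ _

end Vale.Agent.P226
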