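import Vale.Agent.P226.MeanMax
import Vale.Agent.P226.Dust
import Vale.Agent.P226.Cap

/-!
# The reduction of the propeller conjecture to critical families

A critical family for `k` cells lives in dimension `k - 1`, is self-consistent, obtuse, has no zero
vector and beats the propeller. It splits into its longest vectors and short ones by a table of
thresholds, unless it has many long vectors.
-/

namespace Vale.Agent.P226

open MeasureTheory ProbabilityTheory Real Set Finset
open scoped RealInnerProductSpace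

/-- The propeller bound for `k` cells in every dimension. -/
def Bound (k : ℕ) : Prop :=
  ∀ (d : ℕ) (A : Fin k → Set (EuclideanSpace ℝ (Fin d))), IsPart A → val A ≤ 9 / (8 * π)

/-- A critical family. -/
structure Crit {k : ℕ} [NeZero k] (w : Fin k → EuclideanSpace ℝ (Fin (k - 1))) : Prop where
  self : ∀ i, w i = mom (cell w i)
  sum : ∑ i, w i = 0
  obtuse : ∀ i j, i ≠ j → ⟪w i, w j⟫ ≤ 0
  ne : ∀ i, w i ≠ 0
  big : 9 / (8 * π) < ∑ i, ‖w i‖ ^ 2

variable {E : Type*} [NormedAddCommGroup E]

/-- At least `j` of the vectors have squared length at least `θ j`, for every `j` from `4` to `m`. -/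
def Long (θ : ℕ → ℝ) {k : ℕ} (w : Fin k → E) (m : ℕ) : Prop :=
  ∀ j, 4 ≤ j → j ≤ m → j ≤ (Finset.univ.filter fun i => θ j ≤ ‖w i‖ ^ 2).card

lemma IsTop.le_of_lt_card {E : Type*} [NormedAddCommGroup E] [InnerProductSpace ℝ E] {k m : ℕ}
    {w : Fin k → E} {J : Fin m ↪ Fin k} (hJ : IsTop w J) {θ : ℝ}
    (hm : m ≤ (Finset.univ.filter fun i => θ ≤ ‖w i‖ ^ 2).card) (a : Fin m) :
    θ ≤ ‖w (J a)‖ ^ 2 := by
  classical
  by_contra! hlt
  have hsub : (Finset.univ.filter fun i => θ ≤ ‖w i‖ ^ 2) ⊆ (Finset.univ.map J).erase (J a) := by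
    intro i hi
    simp only [Finset.mem_filter, Finset.mem_univ, true_and] at hi
    refine Finset.mem_erase.2 ⟨fun h => by rw [h] at hi; linarith, ?_⟩
    by_contra h
    linarith [hJ i (Finset.mem_compl.2 h) a]
  have h := hm.trans (Finset.card_le_card hsub)
  rw [Finset.card_erase_of_mem (Finset.mem_map_of_mem J (Finset.mem_univ a)), Finset.card_map,
    Finset.card_univ, Fintype.card_fin] at h
  have := a.isLt
  omega

/-- Either there are many long vectors, or the longest `m` are long and the others are short. -/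
lemma exists_split {E : Type*} [NormedAddCommGroup E] [InnerProductSpace ℝ E] (θ : ℕ → ℝ)
    {k : ℕ} (w : Fin k → E) :
    Long θ w k ∨ ∃ m, 3 ≤ m ∧ m < k ∧ ∃ J : Fin m ↪ Fin k, IsTop w J ∧ Long θ w m ∧
      ∀ i ∈ (Finset.univ.map J)ᶜ, ‖w i‖ ^ 2 < θ (m + 1) := by
  classical
  set S := (Finset.Icc 4 k).filter fun j =>
    ¬ j ≤ (Finset.univ.filter fun i => θ j ≤ ‖w i‖ ^ 2).card with hS
  rcases S.eq_empty_or_nonempty with h | h
  · left
    intro j h4 hj
    by_contra hc
    exact (Finset.eq_empty_iff_forall_notMem.1 h j)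
      (Finset.mem_filter.2 ⟨Finset.mem_Icc.2 ⟨h4, hj⟩, hc⟩)
  right
  obtain ⟨h1, hc⟩ := Finset.mem_filter.1 (S.min'_mem h)
  obtain ⟨h4, hjk⟩ := Finset.mem_Icc.1 h1
  obtain ⟨J, hJ⟩ := exists_isTop w (show S.min' h - 1 ≤ k by omega)
  refine ⟨S.min' h - 1, by omega, by omega, J, hJ, fun j hj4 hjm => ?_, fun i hi => ?_⟩
  · by_contra hj
    have := S.min'_le j (Finset.mem_filter.2 ⟨Finset.mem_Icc.2 ⟨hj4, by omega⟩, hj⟩)
    omega
  · rw [show S.min' h - 1 + 1 = S.min' h by omega]
    by_contra! hge
    refine hc ?_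
    have hsub : insert i (Finset.univ.map J) ⊆
        Finset.univ.filter fun l => θ (S.min' h) ≤ ‖w l‖ ^ 2 := by
      intro l hl
      simp only [Finset.mem_filter, Finset.mem_univ, true_and]
      rcases Finset.mem_insert.1 hl with rfl | hl
      · exact hge
      · obtain ⟨a, -, rfl⟩ := Finset.mem_map.1 hl
        exact hge.trans (hJ i hi a)
    have := Finset.card_le_card hsub
    rw [Finset.card_insert_of_notMem (Finset.mem_compl.1 hi), Finset.card_map, Finset.card_univ,
      Fintype.card_fin] at this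
    omega

end Vale.Agent.P226
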