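import Mathlib

/-!
# Facts about the standard Gaussian measure used for the propeller reduction
-/

namespace Vale.Agent.P226

open MeasureTheory ProbabilityTheory Real Set
open scoped RealInnerProductSpace NNReal

variable {E : Type*} [NormedAddCommGroup E] [InnerProductSpace ℝ E] [FiniteDimensional ℝ E]
  [MeasurableSpace E] [BorelSpace E]

lemma map_inner (u : E) :
    (stdGaussian E).map (fun x => ⟪u, x⟫) = gaussianReal 0 (‖u‖ ^ 2).toNNReal := by
  have h := IsGaussian.map_eq_gaussianReal (μ := stdGaussian E) (innerSL ℝ u)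
  rw [integral_strongDual_stdGaussian, variance_dual_stdGaussian] at h
  simpa [innerSL_apply_norm] using h

lemma map_inner_unit (u : E) (hu : ‖u‖ = 1) :
    (stdGaussian E).map (fun x => ⟪u, x⟫) = gaussianReal 0 1 := by
  simpa [hu] using map_inner u

lemma integrable_inner (u : E) : Integrable (fun x => ⟪u, x⟫) (stdGaussian E) :=
  IsGaussian.integrable_dual (stdGaussian E) (innerSL ℝ u)

/-- The exponent used for the tail bounds. -/
noncomputable def bexp : ℝ := 99 / 100

/-- The `200`th moment of a standard Gaussian variable. -/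
noncomputable def qmom : ℝ := ∫ t, t ^ 200 ∂gaussianReal 0 1

lemma integrable_pow_gaussian : Integrable (fun t : ℝ => t ^ 200) (gaussianReal 0 1) := by
  have h := (memLp_id_gaussianReal (μ := 0) (v := 1) 200).integrable_norm_pow' (p := 200)
  simpa [Real.norm_eq_abs, (show Even 200 by decide).pow_abs] using h

lemma qmom_nonneg : 0 ≤ qmom := integral_nonneg fun t => (show Even 200 by decide).pow_nonneg t

/-- A uniform constant for the moment bound. -/
noncomputable def momC : ℝ := 1 + qmom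

lemma integrable_inner_pow (u : E) (hu : ‖u‖ = 1) :
    Integrable (fun x => ⟪u, x⟫ ^ 200) (stdGaussian E) ∧
      ∫ x, ⟪u, x⟫ ^ 200 ∂stdGaussian E = qmom := by
  have hm : Measurable fun x : E => ⟪u, x⟫ := (innerSL ℝ u).continuous.measurable
  have h1 : Integrable (fun t : ℝ => t ^ 200) ((stdGaussian E).map fun x => ⟪u, x⟫) := by
    rw [map_inner_unit u hu]; exact integrable_pow_gaussian
  refine ⟨(integrable_map_measure h1.1 hm.aemeasurable).mp h1, ?_⟩
  rw [qmom, ← map_inner_unit u hu, integral_map hm.aemeasurable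
    (by fun_prop : Measurable fun t : ℝ => t ^ 200).aestronglyMeasurable]

/-- The Gaussian moment vector of a set. -/
noncomputable def mom (A : Set E) : E := ∫ x in A, x ∂stdGaussian E

lemma inner_mom (u : E) (A : Set E) : ∫ x in A, ⟪u, x⟫ ∂stdGaussian E = ⟪u, mom A⟫ := by
  exact (innerSL ℝ u).integral_comp_comm (IsGaussian.integrable_id.integrableOn)

lemma setIntegral_inner_le (u : E) (hu : ‖u‖ = 1) {A : Set E} (hA : MeasurableSet A) :
    |∫ x in A, ⟪u, x⟫ ∂stdGaussian E| ≤ momC * (stdGaussian E).real A ^ bexp := by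
  set p := (stdGaussian E).real A with hp
  have hp0 : 0 ≤ p := measureReal_nonneg
  rcases hp0.eq_or_lt with h0 | h0
  · have : (stdGaussian E) A = 0 :=
      (measureReal_eq_zero_iff).mp h0.symm
    rw [setIntegral_measure_zero _ this, abs_zero]
    exact mul_nonneg (by have := qmom_nonneg; unfold momC; linarith)
      (Real.rpow_nonneg h0.le _)
  have hp1 : p ≤ 1 := measureReal_le_one
  set L := p ^ (-(1 / 200 : ℝ)) with hL
  have hL0 : 0 < L := Real.rpow_pos_of_pos h0 _
  obtain ⟨hi, he⟩ := integrable_inner_pow (E := E) u hu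
  have hpt : ∀ t : ℝ, |t| ≤ L + t ^ 200 / L ^ 199 := by
    intro t
    rcases le_or_gt |t| L with h | h
    · have : 0 ≤ t ^ 200 / L ^ 199 :=
        div_nonneg ((show Even 200 by decide).pow_nonneg t) (pow_nonneg hL0.le _)
      linarith
    · have h1 : |t| ≤ t ^ 200 / L ^ 199 := by
        rw [le_div_iff₀ (pow_pos hL0 _), ← (show Even 200 by decide).pow_abs t,
          pow_succ' |t| 199]
        exact mul_le_mul_of_nonneg_left (pow_le_pow_left₀ hL0.le h.le 199) (abs_nonneg t)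
      linarith
  have h1 : |∫ x in A, ⟪u, x⟫ ∂stdGaussian E| ≤
      ∫ x in A, (L + ⟪u, x⟫ ^ 200 / L ^ 199) ∂stdGaussian E :=
    (abs_integral_le_integral_abs).trans <| setIntegral_mono_on
      (integrable_inner u).abs.integrableOn
      ((integrable_const L).add (hi.div_const _)).integrableOn hA fun x _ => hpt _
  have h2 : ∫ x in A, (L + ⟪u, x⟫ ^ 200 / L ^ 199) ∂stdGaussian E ≤ p * L + qmom / L ^ 199 := by
    rw [integral_add (integrable_const L).integrableOn (hi.div_const _).integrableOn,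
      setIntegral_const, smul_eq_mul]
    refine add_le_add le_rfl ?_
    rw [← he, ← integral_div]
    exact setIntegral_le_integral (hi.div_const _) (ae_of_all _ fun x =>
      div_nonneg ((show Even 200 by decide).pow_nonneg _) (pow_nonneg hL0.le _))
  have h3 : p * L = p ^ (199 / 200 : ℝ) := by
    rw [hL, ← Real.rpow_one_add' h0.le (by norm_num), hp]
    norm_num
  have h4 : qmom / L ^ 199 = qmom * p ^ (199 / 200 : ℝ) := by
    rw [hL, ← Real.rpow_natCast, ← Real.rpow_mul h0.le, div_eq_mul_inv, ← Real.rpow_neg h0.le, hp]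
    norm_num
  have h5 : p ^ (199 / 200 : ℝ) ≤ p ^ bexp :=
    Real.rpow_le_rpow_of_exponent_ge h0 hp1 (by unfold bexp; norm_num)
  have h6 : momC * p ^ (199 / 200 : ℝ) ≤ momC * p ^ bexp :=
    mul_le_mul_of_nonneg_left h5 (by have := qmom_nonneg; unfold momC; linarith)
  have h7 : momC * p ^ (199 / 200 : ℝ) = p ^ (199 / 200 : ℝ) + qmom * p ^ (199 / 200 : ℝ) := by
    unfold momC; ring
  linarith

lemma norm_mom_le {A : Set E} (hA : MeasurableSet A) :
    ‖mom A‖ ≤ momC * (stdGaussian E).real A ^ bexp := by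
  rcases eq_or_ne (mom A) 0 with h | h
  · rw [h, norm_zero]
    exact mul_nonneg (by have := qmom_nonneg; unfold momC; linarith)
      (Real.rpow_nonneg measureReal_nonneg _)
  · have hu : ‖‖mom A‖⁻¹ • mom A‖ = 1 := (norm_smul_inv_norm (𝕜 := ℝ) h)
    have h1 := setIntegral_inner_le _ hu hA
    rw [inner_mom, real_inner_smul_left, real_inner_self_eq_norm_sq, pow_two,
      inv_mul_cancel_left₀ (norm_ne_zero_iff.mpr h), abs_norm] at h1
    exact h1

lemma pdf_le_half (x : ℝ) : gaussianPDFReal 0 1 x ≤ 1 / 2 := by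
  have h2 : (2 : ℝ) ≤ √(2 * π) := by
    rw [Real.le_sqrt (by norm_num) (by positivity)]
    nlinarith [Real.pi_gt_three]
  simp only [gaussianPDFReal, NNReal.coe_one, mul_one, sub_zero]
  calc (√(2 * π))⁻¹ * exp (-x ^ 2 / 2) ≤ (√(2 * π))⁻¹ * 1 :=
        mul_le_mul_of_nonneg_left (exp_le_one_iff.mpr (by nlinarith [sq_nonneg x])) (by positivity)
    _ ≤ 1 / 2 := by rw [mul_one, one_div]; exact inv_anti₀ (by norm_num) h2

lemma gaussian_interval_le (K : ℝ) (hK : 0 ≤ K) :
    (gaussianReal 0 1).real (Icc (-K) K) ≤ K := by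
  rw [measureReal_def, gaussianReal_apply_eq_integral 0 one_ne_zero, ENNReal.toReal_ofReal
    (setIntegral_nonneg measurableSet_Icc fun x _ => gaussianPDFReal_nonneg _ _ x)]
  have hfin : volume (Icc (-K) K) ≠ ⊤ := measure_Icc_lt_top.ne
  calc ∫ x in Icc (-K) K, gaussianPDFReal 0 1 x ≤ ∫ _x in Icc (-K) K, (1 / 2 : ℝ) :=
        setIntegral_mono_on (integrable_gaussianPDFReal 0 1).integrableOn
          (integrableOn_const hfin) measurableSet_Icc fun x _ => pdf_le_half x
    _ = K := by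
        rw [setIntegral_const, smul_eq_mul, Real.volume_real_Icc_of_le (by linarith)]
        ring

/-- Two orthogonal standard coordinates are both at most `K` with probability at most `K ^ 2`. -/
lemma box_le (e₁ e₂ : E) (h₁ : ‖e₁‖ = 1) (h₂ : ‖e₂‖ = 1) (h : ⟪e₁, e₂⟫ = 0) (K : ℝ)
    (hK : 0 ≤ K) :
    (stdGaussian E).real {x | |⟪e₁, x⟫| ≤ K ∧ |⟪e₂, x⟫| ≤ K} ≤ K ^ 2 := by
  set X : E → ℝ := fun x => ⟪e₁, x⟫ with hX
  set Y : E → ℝ := fun x => ⟪e₂, x⟫ with hY
  have hpair : HasGaussianLaw (fun x => (X x, Y x)) (stdGaussian E) :=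
    (IsGaussian.hasGaussianLaw_id (μ := stdGaussian E)).map_fun
      ((innerSL ℝ e₁).prod (innerSL ℝ e₂))
  have hcov : cov[X, Y; stdGaussian E] = 0 := by
    have h1 : covarianceBilin (stdGaussian E) e₁ e₂ = cov[X, Y; stdGaussian E] :=
      covarianceBilin_apply_eq_cov IsGaussian.memLp_two_id e₁ e₂
    rw [← h1, covarianceBilin_stdGaussian]
    exact h
  have hind : IndepFun X Y (stdGaussian E) := hpair.indepFun_of_covariance_eq_zero hcov
  have hset : {x : E | |⟪e₁, x⟫| ≤ K ∧ |⟪e₂, x⟫| ≤ K} = X ⁻¹' Icc (-K) K ∩ Y ⁻¹' Icc (-K) K := by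
    ext x; simp [hX, hY, abs_le]
  have hm : ∀ (u : E), ‖u‖ = 1 →
      (stdGaussian E).real ((fun x => ⟪u, x⟫) ⁻¹' Icc (-K) K) ≤ K := by
    intro u hu
    rw [← map_measureReal_apply (by fun_prop) measurableSet_Icc, map_inner_unit u hu]
    exact gaussian_interval_le K hK
  rw [hset, measureReal_def,
    hind.measure_inter_preimage_eq_mul _ _ measurableSet_Icc measurableSet_Icc, ENNReal.toReal_mul,
    pow_two]
  exact mul_le_mul (hm e₁ h₁) (hm e₂ h₂) ENNReal.toReal_nonneg hK

/-- The constant in the slab bound. -/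
noncomputable def slabC (ρ : ℝ) : ℝ := (2 / ρ ^ 2) ^ 2 + qmom + 1

/-- The event that two well separated linear forms are dominated by a short one is quadratically
unlikely. -/
lemma slab_le (ρ : ℝ) (hρ : 0 < ρ) (hρ1 : ρ ≤ 1) (a b u : E) (ha : ρ ≤ ‖a‖) (hb : ‖b‖ ≤ 1)
    (hab : ρ ≤ ‖b - (⟪‖a‖⁻¹ • a, b⟫) • (‖a‖⁻¹ • a)‖) :
    (stdGaussian E).real {x | |⟪a, x⟫| ≤ |⟪u, x⟫| ∧ |⟪b, x⟫| ≤ |⟪u, x⟫|} ≤
      slabC ρ * ‖u‖ ^ (2 * bexp) := by
  set S := {x : E | |⟪a, x⟫| ≤ |⟪u, x⟫| ∧ |⟪b, x⟫| ≤ |⟪u, x⟫|}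
  have ha0 : 0 < ‖a‖ := hρ.trans_le ha
  set e₁ : E := ‖a‖⁻¹ • a with he₁
  set b' : E := b - ⟪e₁, b⟫ • e₁ with hb'
  have hb'0 : 0 < ‖b'‖ := hρ.trans_le hab
  set e₂ : E := ‖b'‖⁻¹ • b' with he₂
  have h1 : ‖e₁‖ = 1 := norm_smul_inv_norm (𝕜 := ℝ) (norm_pos_iff.mp ha0)
  have h2 : ‖e₂‖ = 1 := norm_smul_inv_norm (𝕜 := ℝ) (norm_pos_iff.mp hb'0)
  have h12 : ⟪e₁, e₂⟫ = 0 := by
    rw [he₂, real_inner_smul_right, hb', inner_sub_right, real_inner_smul_right,
      real_inner_self_eq_norm_sq, h1]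
    ring
  set K := 2 / ρ ^ 2 with hK
  have hK0 : 0 < K := by positivity
  have hC : 1 ≤ slabC ρ := by
    have := qmom_nonneg
    unfold slabC
    nlinarith [sq_nonneg (2 / ρ ^ 2)]
  rcases eq_or_ne u 0 with hu | hu
  · have hsub : S ⊆ {x | |⟪e₁, x⟫| ≤ 0 ∧ |⟪e₂, x⟫| ≤ 0} := by
      intro x hx
      simp only [S, hu, inner_zero_left, abs_zero, Set.mem_ofPred_eq, abs_nonpos_iff] at hx
      simp [he₁, he₂, hb', real_inner_smul_left, inner_sub_left, hx.1, hx.2]
    have := (measureReal_mono hsub).trans (box_le e₁ e₂ h1 h2 h12 0 le_rfl)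
    rw [hu, norm_zero, Real.zero_rpow (by unfold bexp; norm_num), mul_zero]
    simpa using this
  set r := ‖u‖ with hr
  have hr0 : 0 < r := norm_pos_iff.mpr hu
  rcases lt_or_ge 1 r with hr1 | hr1
  · have : (1 : ℝ) ≤ r ^ (2 * bexp) := Real.one_le_rpow hr1.le (by unfold bexp; norm_num)
    have h01 : (stdGaussian E).real S ≤ 1 := measureReal_le_one
    nlinarith
  set L := r ^ (-(1 / 100 : ℝ)) with hL
  have hL0 : 0 < L := Real.rpow_pos_of_pos hr0 _
  set v : E := r⁻¹ • u with hv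
  have hv1 : ‖v‖ = 1 := norm_smul_inv_norm (𝕜 := ℝ) hu
  have hsub : S ⊆ {x | |⟪e₁, x⟫| ≤ K * (r * L) ∧ |⟪e₂, x⟫| ≤ K * (r * L)} ∪
      {x | L ≤ |⟪v, x⟫|} := by
    intro x ⟨hax, hbx⟩
    by_cases hx : L ≤ |⟪v, x⟫|
    · exact Or.inr hx
    · left
      push Not at hx
      have hux : |⟪u, x⟫| ≤ r * L := by
        rw [show u = r • v by rw [hv, smul_smul, mul_inv_cancel₀ hr0.ne', one_smul],
          real_inner_smul_left, abs_mul, abs_of_pos hr0]
        exact mul_le_mul_of_nonneg_left hx.le hr0.le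
      have hT0 : 0 ≤ r * L := by positivity
      have g1 : |⟪e₁, x⟫| ≤ (r * L) / ρ := by
        rw [he₁, real_inner_smul_left, abs_mul, abs_inv, abs_norm, ← div_eq_inv_mul]
        exact div_le_div₀ hT0 (hax.trans hux) hρ ha
      have g2 : |⟪e₂, x⟫| ≤ ((r * L) + (r * L) / ρ) / ρ := by
        rw [he₂, real_inner_smul_left, abs_mul, abs_inv, abs_norm, ← div_eq_inv_mul]
        refine div_le_div₀ (by positivity) ?_ hρ hab
        rw [hb', inner_sub_left, real_inner_smul_left]
        have hc : |⟪e₁, b⟫| ≤ 1 := by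
          have := abs_real_inner_le_norm e₁ b
          rw [h1, one_mul] at this
          linarith
        refine (abs_sub _ _).trans (add_le_add (hbx.trans hux) ?_)
        rw [abs_mul]
        calc |⟪e₁, b⟫| * |⟪e₁, x⟫| ≤ 1 * (r * L / ρ) :=
              mul_le_mul hc g1 (abs_nonneg _) zero_le_one
          _ = r * L / ρ := one_mul _
      have hb1 : (r * L) / ρ ≤ K * (r * L) := by
        rw [hK, div_le_iff₀ hρ]
        field_simp
        nlinarith
      have hb2 : ((r * L) + (r * L) / ρ) / ρ ≤ K * (r * L) := by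
        rw [hK, div_le_iff₀ hρ]
        field_simp
        nlinarith
      exact ⟨g1.trans hb1, g2.trans hb2⟩
  refine ((measureReal_mono hsub).trans (measureReal_union_le _ _)).trans ?_
  have hbox := box_le e₁ e₂ h1 h2 h12 (K * (r * L)) (by positivity)
  obtain ⟨hi, he⟩ := integrable_inner_pow (E := E) v hv1
  have htail : (stdGaussian E).real {x | L ≤ |⟪v, x⟫|} ≤ qmom / L ^ 200 := by
    rw [le_div_iff₀ (pow_pos hL0 _), mul_comm]
    have hmk := mul_meas_ge_le_integral_of_nonneg (μ := stdGaussian E)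
      (ae_of_all _ fun x => (show Even 200 by decide).pow_nonneg (⟪v, x⟫)) hi (L ^ 200)
    rw [he] at hmk
    refine le_trans ?_ hmk
    refine mul_le_mul_of_nonneg_left (measureReal_mono fun x hx => ?_) (pow_nonneg hL0.le _)
    simp only [Set.mem_ofPred_eq] at hx ⊢
    rw [← (show Even 200 by decide).pow_abs (⟪v, x⟫)]
    exact pow_le_pow_left₀ hL0.le hx 200
  have e1 : (K * (r * L)) ^ 2 = K ^ 2 * r ^ (2 * bexp) := by
    rw [mul_pow, hL, ← Real.rpow_one_add' hr0.le (by norm_num), ← Real.rpow_natCast _ 2,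
      ← Real.rpow_natCast _ 2, ← Real.rpow_mul hr0.le]
    norm_num [bexp]
  have e2 : qmom / L ^ 200 ≤ qmom * r ^ (2 * bexp) := by
    rw [hL, ← Real.rpow_natCast, ← Real.rpow_mul hr0.le, div_eq_mul_inv, ← Real.rpow_neg hr0.le]
    refine mul_le_mul_of_nonneg_left ?_ qmom_nonneg
    exact Real.rpow_le_rpow_of_exponent_ge hr0 hr1 (by norm_num [bexp])
  have e3 : 0 ≤ r ^ (2 * bexp) := Real.rpow_nonneg hr0.le _
  have e4 : slabC ρ * r ^ (2 * bexp) =
      K ^ 2 * r ^ (2 * bexp) + qmom * r ^ (2 * bexp) + r ^ (2 * bexp) := by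
    rw [hK]; unfold slabC; ring
  linarith

/-- The positive part of a standard Gaussian variable has mean `1 / √(2π)`. -/
lemma integral_pos_part : ∫ t, max t 0 ∂gaussianReal 0 1 = (√(2 * π))⁻¹ := by
  rw [integral_gaussianReal_eq_integral_smul one_ne_zero]
  have hind : (fun t => gaussianPDFReal 0 1 t • max t 0) =
      (Ioi (0 : ℝ)).indicator fun t => gaussianPDFReal 0 1 t * t := by
    funext t
    by_cases ht : 0 < t
    · simp [Set.indicator_of_mem (Set.mem_Ioi.mpr ht), max_eq_left ht.le]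
    · simp [Set.indicator_of_notMem (show t ∉ Ioi (0 : ℝ) by simpa using ht),
        max_eq_right (not_lt.mp ht)]
  rw [hind, integral_indicator measurableSet_Ioi]
  have h := integral_rpow_mul_exp_neg_mul_rpow (p := 2) (q := 1) (b := 1 / 2) two_pos
    (by norm_num) (by norm_num)
  calc ∫ t in Ioi (0 : ℝ), gaussianPDFReal 0 1 t * t
      = ∫ t in Ioi (0 : ℝ), (√(2 * π))⁻¹ * (t ^ (1 : ℝ) * exp (-(1 / 2) * t ^ (2 : ℝ))) := by
        refine setIntegral_congr_fun measurableSet_Ioi fun t _ => ?_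
        simp only [gaussianPDFReal, NNReal.coe_one, mul_one, sub_zero, Real.rpow_one,
          Real.rpow_two]
        ring_nf
    _ = (√(2 * π))⁻¹ := by
        rw [integral_const_mul, h, show ((1 : ℝ) + 1) / 2 = 1 by norm_num, Real.Gamma_one,
          show -((1 : ℝ) + 1) / 2 = -1 by norm_num, Real.rpow_neg_one]
        norm_num


end Vale.Agent.P226
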