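import Mathlib.Tactic

/-!
# Scalar certificate for one short vector next to four long ones

All squared lengths and inner products are scaled by `2π`; five cells live in dimension four, so
the short vector is minus the sum of the four. Below `62/100` for the largest weight the short
vector cannot fill the gap to `9/4`; above it the majorants of the cap bound apply.
-/

namespace Vale.Agent.P226

private lemma small_y (X Y y d : ℝ) (hX : 0 ≤ X) (hX2 : X ≤ 62 / 100) 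
    (hYX : Y ≤ X) (hdy : d ≤ y + Y) (hy2 : y ≤ 15 / 100) (hB : X * Y < 6841 / 100000) :
    X + y + d < 107159 / 100000 := by
  nlinarith [mul_nonneg (sub_nonneg.2 hX2) (sub_nonneg.2 hYX)]

private lemma le_of_mul {σ σ' d R : ℝ} (hσ : 0 ≤ σ') (hle : σ' ≤ σ)
    (h : σ * d < 8222 / 1000000) (h2 : 8222 / 1000000 ≤ σ' * R) : d < R := by
  have hR : 0 < R := by
    by_contra! hc
    linarith [mul_nonpos_of_nonneg_of_nonpos hσ hc]
  exact lt_of_mul_lt_mul_left (h.trans_le (h2.trans (mul_le_mul_of_nonneg_right hle hR.le)))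
    (hσ.trans hle)

private lemma below_corner (X y : ℝ) (hX : 0 ≤ X) (hX2 : X ≤ 62 / 100) (hy : 15 / 100 ≤ y)
    (h1 : y ≤ 1 - X) (h2 : y ≤ X) :
    8222 / 1000000 ≤ X * y * (107159 / 100000 - X - y) := by
  nlinarith [mul_nonneg (sub_nonneg.2 hy) (sub_nonneg.2 h1),
    mul_nonneg (sub_nonneg.2 hy) (sub_nonneg.2 h2), mul_nonneg hX (sub_nonneg.2 hX2)]

private lemma above_corner_high (X y : ℝ) (hX : 50 / 100 ≤ X) (hX2 : X ≤ 62 / 100) (hy : 1 - X ≤ y)
    (hA : y - (1 - X) ^ 2 < 27364 / 100000) :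
    8222 / 1000000 ≤ (y - (1 - X) ^ 2) * (107159 / 100000 - X - y) := by
  nlinarith [mul_nonneg (sub_nonneg.2 hy) (sub_nonneg.2 hA.le),
    mul_nonneg (sub_nonneg.2 hX) (sub_nonneg.2 hX2)]

private lemma above_corner_low (X y : ℝ) (hX : 7 / 100 ≤ X) (hX2 : X ≤ 50 / 100) (hy : X ≤ y)
    (hy2 : y ≤ 2 * X) (hy3 : 15 / 100 ≤ y)
    (hA : 2 * X * y - X ^ 2 < 27364 / 100000) :
    8222 / 1000000 ≤ (2 * X * y - X ^ 2) * (107159 / 100000 - X - y) := by
  nlinarith [mul_nonneg (sub_nonneg.2 hy) (sub_nonneg.2 hA.le),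
    mul_nonneg (sub_nonneg.2 hy) (sub_nonneg.2 hy2),
    mul_nonneg (sub_nonneg.2 hX) (sub_nonneg.2 hX2)]

private lemma big_one (X Y y e : ℝ) (hX : 62 / 100 ≤ X) (hX2 : X ≤ 75 / 100) (hY : 0 ≤ Y) (he : 0 ≤ e)
    (hey : e ≤ y) (hA : X * (y + e) < 27364 / 100000) (hB : X * Y < 6841 / 100000)
    (hC : X * (y * e + Y * (y + e)) < 8222 / 1000000) :
    2 * (X + y + e + Y) + 2 / 100000 * 2 + 2 * (955 / 1000) * (1 - (2 * X + y + e - 21226 / 100000) / (21 / 10) - (y + Y + 10630 / 100000) / (278 / 100) - (95 / 100 * (60318 / 1000000) + 5 / 100 * (e + Y) + 10630 / 100000) / (278 / 100)) < 9 / 4 := by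
  by_contra! hc
  set L := 2 * (X + y + e + Y) + 2 / 100000 * 2 + 2 * (955 / 1000) * (1 - (2 * X + y + e - 21226 / 100000) / (21 / 10) - (y + Y + 10630 / 100000) / (278 / 100) - (95 / 100 * (60318 / 1000000) + 5 / 100 * (e + Y) + 10630 / 100000) / (278 / 100)) - 9 / 4 with hL
  have h0 : 0 ≤ L := by linarith
  have hXp : 0 ≤ X := by linarith
  nlinarith [mul_nonneg (mul_nonneg hXp (sub_nonneg.2 hey)) he,
    mul_nonneg (mul_nonneg hXp (add_nonneg (he.trans hey) he)) h0,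
    mul_nonneg (sub_nonneg.2 hA.le) h0, mul_nonneg (sub_nonneg.2 hB.le) h0,
    mul_nonneg (sub_nonneg.2 hA.le) (sub_nonneg.2 hB.le), mul_nonneg (sub_nonneg.2 hA.le) he,
    mul_nonneg (sub_nonneg.2 hX) (sub_nonneg.2 hX2)]

private lemma big_two (X Y y e : ℝ) (hX : 75 / 100 ≤ X) (hX2 : X ≤ 1) (hY : 0 ≤ Y) (he : 0 ≤ e)
    (hey : e ≤ y) (hT : 2 * X + y + e ≤ 2) (hA : X * (y + e) < 27364 / 100000) (hB : X * Y < 6841 / 100000)
    (hC : X * (y * e + Y * (y + e)) < 8222 / 1000000) :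
    2 * (X + y + e + Y) + 2 / 100000 * 2 + 2 * (955 / 1000) * (1 - (2 * X + y + e - 2811 / 10000) / 2 - (y + Y + 10630 / 100000) / (278 / 100) - (8 / 10 * (60318 / 1000000) + 2 / 10 * (e + Y) + 10630 / 100000) / (278 / 100)) < 9 / 4 := by
  by_contra! hc
  set L := 2 * (X + y + e + Y) + 2 / 100000 * 2 + 2 * (955 / 1000) * (1 - (2 * X + y + e - 2811 / 10000) / 2 - (y + Y + 10630 / 100000) / (278 / 100) - (8 / 10 * (60318 / 1000000) + 2 / 10 * (e + Y) + 10630 / 100000) / (278 / 100)) - 9 / 4 with hL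
  have h0 : 0 ≤ L := by linarith
  have hXp : 0 ≤ X := by linarith
  nlinarith [mul_nonneg (mul_nonneg hXp (sub_nonneg.2 hey)) he,
    mul_nonneg (mul_nonneg hXp (add_nonneg (he.trans hey) he)) h0,
    mul_nonneg (sub_nonneg.2 hA.le) h0, mul_nonneg (sub_nonneg.2 hB.le) h0,
    mul_nonneg (sub_nonneg.2 hA.le) (sub_nonneg.2 hB.le), mul_nonneg (sub_nonneg.2 hA.le) he,
    mul_nonneg (sub_nonneg.2 hX) (sub_nonneg.2 hX2)]

private lemma sum_small (X Y p q e : ℝ) (hX : 0 ≤ X) (hX2 : X ≤ 62 / 100) (hY : 0 ≤ Y) (he : 0 ≤ e)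
    (hey : e ≤ p + q) (hYX : Y ≤ X) (hp : 0 ≤ p) (hq : 0 ≤ q) (hpX : p ≤ X) (hqX : q ≤ X)
    (hp1 : p ≤ 1 - X) (hq1 : q ≤ 1 - X) (hA : X * (p + q + e) + p * q < 27364 / 100000)
    (hB : X * Y < 6841 / 100000)
    (hC : (X * (p + q) + p * q) * e + (X * (p + q + e) + p * q) * Y < 8222 / 1000000) :
    X + (p + q) + (e + Y) < 107159 / 100000 := by
  set y := p + q with hy
  have hy0 : 0 ≤ y := add_nonneg hp hq
  rcases le_total y (15 / 100) with ys | ys
  · exact small_y X Y y (e + Y) hX hX2 hYX (by linarith) ys hB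
  have hm : 0 ≤ p * q := mul_nonneg hp hq
  have hXe : 0 ≤ X * e := mul_nonneg hX he
  have hσd : (X * y + p * q) * (e + Y) < 8222 / 1000000 := by
    linarith [mul_nonneg hXe hY]
  suffices h : e + Y < 107159 / 100000 - X - y by linarith
  by_cases hcorner : y ≤ 1 - X ∧ y ≤ X
  · exact le_of_mul (mul_nonneg hX hy0) (by linarith) hσd
      (below_corner X y hX hX2 ys hcorner.1 hcorner.2)
  rcases le_total X (50 / 100) with x0 | x0
  · have hyX : X ≤ y := by
      by_contra hc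
      exact hcorner ⟨by linarith, by linarith⟩
    have hpq : 2 * X * y - X ^ 2 ≤ X * y + p * q := by
      linarith [mul_nonneg (sub_nonneg.2 hpX) (sub_nonneg.2 hqX)]
    exact le_of_mul (by linarith [mul_le_mul_of_nonneg_left hyX hX, sq_nonneg X]) hpq hσd
      (above_corner_low X y (by linarith) x0 hyX (by linarith) ys (by linarith))
  · have hyX : 1 - X ≤ y := by
      by_contra hc
      exact hcorner ⟨by linarith, by linarith⟩
    have hpq : y - (1 - X) ^ 2 ≤ X * y + p * q := by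
      linarith [mul_nonneg (sub_nonneg.2 hp1) (sub_nonneg.2 hq1)]
    have h0 : 0 ≤ y - (1 - X) ^ 2 := by
      linarith [mul_nonneg hX (show 0 ≤ 1 - X by linarith)]
    exact le_of_mul h0 hpq hσd (above_corner_high X y x0 hX2 hyX (by linarith))

/-- With the three bounds failing, four long vectors and a short one cannot reach `9/4`. -/
theorem four_five_absurd {X Y p q r s Q n0 n1 n2 n3 p0 p1 p2 p3 : ℝ} (hX : 0 ≤ X) (hY : 0 ≤ Y)
    (hp : 0 ≤ p) (hq : 0 ≤ q) (hr : 0 ≤ r) (hs : 0 ≤ s) (hey : r + s ≤ p + q) (hYX : Y ≤ X)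
    (hpX : p ≤ X) (hqX : q ≤ X) (h0 : X + p ≤ n0) (h1 : X + q ≤ n1)
    (h01 : 2 * X + (p + q) + (r + s) ≤ n0 + n1) (h2 : p + q + Y ≤ n2) (h3 : r + s + Y ≤ n3)
    (h3' : 60318 / 1000000 ≤ n3) (hn0 : n0 ≤ 1) (hn1 : n1 ≤ 1)
    (hA : X * (p + q + r + s) + p * q < 27364 / 100000) (hB : X * Y < 6841 / 100000)
    (hC : (X * (p + q) + p * q) * (r + s) + (X * (p + q + r + s) + p * q) * Y < 8222 / 1000000)
    (hF : 9 / 8 ≤ X + Y + (p + q) + (r + s) + Q) (hQ : Q ≤ 5341 / 100000)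
    (hQ' : Q ≤ 2 / 100000 + 955 / 1000 * (1 - p0 - p1 - p2 - p3))
    (a2 : n2 ≤ -10630 / 100000 + 278 / 100 * p2) (a3 : n3 ≤ -10630 / 100000 + 278 / 100 * p3)
    (b0 : n0 ≤ 10613 / 100000 + 21 / 10 * p0) (b1 : n1 ≤ 10613 / 100000 + 21 / 10 * p1)
    (c0 : n0 ≤ 14055 / 100000 + 2 * p0) (c1 : n1 ≤ 14055 / 100000 + 2 * p1) : False := by
  set y := p + q with hy
  set e := r + s with he
  have hy0 : 0 ≤ y := add_nonneg hp hq
  have he0 : 0 ≤ e := add_nonneg hr hs
  have hm : 0 ≤ p * q := mul_nonneg hp hq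
  have hA' : X * (y + e) < 27364 / 100000 := by linarith
  rcases le_total X (62 / 100) with x1 | x1
  · -- the short vector alone cannot fill the gap
    have := sum_small X Y p q e hX x1 hY he0 hey hYX hp hq hpX hqX (by linarith) (by linarith)
      (by linarith) hB (by linarith)
    linarith
  · have hC' : X * (y * e + Y * (y + e)) < 8222 / 1000000 := by
      linarith [mul_nonneg hm he0, mul_nonneg hm hY]
    rcases le_total X (75 / 100) with x2 | x2
    · have := big_one X Y y e x1 x2 hY he0 hey hA' hB hC'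
      linarith
    · have := big_two X Y y e x2 (by linarith) hY he0 hey (by linarith) hA' hB hC'
      linarith

end Vale.Agent.P226
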