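import Vale.Agent.P226.ManyCases
import Vale.Agent.P226.CapLevels

/-!
# Tolerances from an energy budget

If the degrees of some members of a group are small, their energy is at most this small amount and
the rest energy. Linear majorants in the measures then bound the energy of all cells.
-/

namespace Vale.Agent.P226

open MeasureTheory ProbabilityTheory Real Set Finset
open scoped RealInnerProductSpace

section

variable {E : Type*} [NormedAddCommGroup E] [InnerProductSpace ℝ E] {k m : ℕ}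

/-- The squared length of the sum of a group is the excess of lengths over degrees. -/
lemma sum_sq_sub_inDeg (w : Fin k → E) (J : Fin m ↪ Fin k) :
    ∑ a, (‖w (J a)‖ ^ 2 - inDeg w J a) = ‖∑ b, w (J b)‖ ^ 2 := by
  rw [← real_inner_self_eq_norm_sq, sum_inner]
  refine Finset.sum_congr rfl fun a _ => ?_
  rw [inner_sum, inDeg, ← Finset.add_sum_erase _ _ (Finset.mem_univ a),
    real_inner_self_eq_norm_sq]
  simp only [wt, Finset.sum_neg_distrib, sub_neg_eq_add]

/-- The weights from some members to the rest are at most the rest energy. -/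
lemma rest_edges_le [NeZero m] [FiniteDimensional ℝ E] [MeasurableSpace E] [BorelSpace E] {w : Fin k → E}
    (hsum : ∑ i, w i = 0) (hobt : ∀ i j, i ≠ j → ⟪w i, w j⟫ ≤ 0) (J : Fin m ↪ Fin k)
    (O : Finset (Fin m)) :
    ∑ x ∈ O, ‖w (J x)‖ ^ 2 ≤ ∑ x ∈ O, inDeg w J x + restSq w J := by
  have h := Finset.sum_le_univ_sum_of_nonneg (s := O)
    (fun a => sub_nonneg.2 (inDeg_le_sq hsum hobt J a))
  rw [sum_sq_sub_inDeg, Finset.sum_sub_distrib] at h
  linarith [sq_common_le w hsum hobt J]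

end

/-- A monotone function of the slot sums to at most its last values. -/
lemma sum_slots_le {m : ℕ} {g : Fin m → ℝ} (hg : Monotone g) (σ : Equiv.Perm (Fin m))
    (O T : Finset (Fin m)) (hc : O.card = T.card) (hT : ∀ j ∈ T, ∀ i ∉ T, i ≤ j) :
    ∑ x ∈ O, g (σ.symm x) ≤ ∑ j ∈ T, g j := by
  rw [show ∑ x ∈ O, g (σ.symm x) = ∑ j ∈ O.map σ.symm.toEmbedding, g j by
    rw [Finset.sum_map]; rfl]
  have hc' : (O.map σ.symm.toEmbedding).card = T.card := by rw [Finset.card_map, hc]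
  set S := O.map σ.symm.toEmbedding
  rw [← Finset.sum_sdiff (Finset.inter_subset_left : S ∩ T ⊆ S),
    ← Finset.sum_sdiff (Finset.inter_subset_right : S ∩ T ⊆ T), Finset.sdiff_inter_self_left,
    Finset.sdiff_inter_self_right]
  refine add_le_add ?_ le_rfl
  have hd : (S \ T).card = (T \ S).card := Finset.card_sdiff_comm hc'
  rcases (T \ S).eq_empty_or_nonempty with he | he
  · rw [he, Finset.card_empty, Finset.card_eq_zero] at hd
    rw [hd, he]
  calc ∑ j ∈ S \ T, g j ≤ ∑ j ∈ S \ T, g ((T \ S).min' he) :=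
        Finset.sum_le_sum fun i hi => hg (hT _ (Finset.mem_sdiff.1 ((T \ S).min'_mem he)).1 i
          (Finset.mem_sdiff.1 hi).2)
    _ = ∑ j ∈ T \ S, g ((T \ S).min' he) := by simp [hd]
    _ ≤ ∑ j ∈ T \ S, g j := Finset.sum_le_sum fun j hj => hg (Finset.min'_le _ _ hj)

variable {k m : ℕ} [NeZero k] {w : Fin k → EuclideanSpace ℝ (Fin (k - 1))}

/-- If linear majorants leave too little energy when the degrees in `O` sum to at most `t`, then
they sum to more. All majorants are for squared lengths scaled by `2π`. -/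
theorem inDeg_gt_of_budget [NeZero m] (hw : Crit w) (J : Fin m ↪ Fin k) (O : Finset (Fin m))
    {α β β' γ A Θ t R : ℝ} (hβ : 0 ≤ β) (hβ' : 0 < β') (hγ : 0 < γ)
    (hK : ∀ a ∉ O, 2 * π * ‖w (J a)‖ ^ 2 ≤
      α + β * (stdGaussian (EuclideanSpace ℝ (Fin (k - 1)))).real (cell w (J a)))
    (hO : ∑ x ∈ O, 2 * π * ‖w (J x)‖ ^ 2 ≤
      A + β' * ∑ x ∈ O, (stdGaussian (EuclideanSpace ℝ (Fin (k - 1)))).real (cell w (J x)))
    (hrest : ∀ i ∈ (Finset.univ.map J)ᶜ, 2 * π * ‖w i‖ ^ 2 ≤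
      γ * (stdGaussian (EuclideanSpace ℝ (Fin (k - 1)))).real (cell w i))
    (hΘ : Θ ≤ ∑ x ∈ O, ‖w (J x)‖ ^ 2) (hR : restSq w J ≤ R)
    (hnum : ∀ S Q : ℝ, 2 * π * Θ ≤ S → S ≤ 2 * π * t + Q → 0 ≤ Q → Q ≤ 2 * π * R →
      (Oᶜ.card : ℝ) * α + β * (1 - (S - A) / β' - Q / γ) + S + Q ≤ 9 / 4) :
    t < ∑ x ∈ O, inDeg w J x := by
  classical
  by_contra! ht
  set p := fun i => (stdGaussian (EuclideanSpace ℝ (Fin (k - 1)))).real (cell w i) with hp
  set S := ∑ x ∈ O, 2 * π * ‖w (J x)‖ ^ 2 with hS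
  have hS' : S = 2 * π * ∑ x ∈ O, ‖w (J x)‖ ^ 2 := (Finset.mul_sum _ _ _).symm
  have h2 : 0 < 2 * π := by positivity
  have hQ0 : 0 ≤ restSq w J := Finset.sum_nonneg fun _ _ => sq_nonneg _
  have hn := hnum S (2 * π * restSq w J) (by rw [hS']; exact mul_le_mul_of_nonneg_left hΘ h2.le)
    (by
      rw [hS', ← mul_add]
      refine mul_le_mul_of_nonneg_left ?_ h2.le
      linarith [rest_edges_le hw.sum hw.obtuse J O])
    (by positivity) (mul_le_mul_of_nonneg_left hR h2.le)
  have hsum : ∑ a ∈ Oᶜ, p (J a) + ∑ x ∈ O, p (J x) + ∑ i ∈ (Finset.univ.map J)ᶜ, p i = 1 := by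
    rw [Finset.sum_compl_add_sum O fun a => p (J a), ← Finset.sum_map Finset.univ J p,
      Finset.sum_add_sum_compl]
    exact (cell_isPart w).sum_measure
  have hKs := Finset.sum_le_sum (s := Oᶜ) fun a ha => hK a (Finset.mem_compl.1 ha)
  rw [Finset.sum_add_distrib, Finset.sum_const, nsmul_eq_mul] at hKs
  have hOp : (S - A) / β' ≤ ∑ x ∈ O, p (J x) := by
    rw [div_le_iff₀ hβ']; linarith
  have hRp : 2 * π * restSq w J / γ ≤ ∑ i ∈ (Finset.univ.map J)ᶜ, p i := by
    rw [div_le_iff₀ hγ, restSq, Finset.mul_sum, Finset.sum_mul]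
    exact Finset.sum_le_sum fun i hi => (hrest i hi).trans_eq (mul_comm _ _)
  have hbig := mul_lt_mul_of_pos_left hw.big h2
  rw [← Finset.sum_add_sum_compl (Finset.univ.map J), Finset.sum_map, mul_add, Finset.mul_sum,
    ← Finset.sum_compl_add_sum O, ← hS, ← restSq,
    show 2 * π * (9 / (8 * π)) = 9 / 4 by field_simp; ring] at hbig
  have := mul_le_mul_of_nonneg_left (show ∑ a ∈ Oᶜ, p (J a) ≤
    1 - (S - A) / β' - 2 * π * restSq w J / γ by linarith) hβ
  rw [Finset.mul_sum] at this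
  simp only [hp] at this
  linarith

end Vale.Agent.P226
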