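import Vale.Agent.P226.CapGridIso

/-!
# Lines and chains for the tolerances

A few exact tangents are added to the fine grid of dimension-free lines.
-/

namespace Vale.Agent.P226

open MeasureTheory ProbabilityTheory Real Set
open scoped RealInnerProductSpace

variable {E : Type*} [NormedAddCommGroup E] [InnerProductSpace ℝ E] [FiniteDimensional ℝ E]
  [MeasurableSpace E] [BorelSpace E]

private lemma tolLine_0 {X : Set E} (hm : MeasurableSet X) : √(2 * π) * ‖mom X‖ ≤
    (((883 / 50000) : ℚ) : ℝ) + (((648277 / 125000) : ℚ) : ℝ) * (stdGaussian E).real X := by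
  have hlo := pi_gt_d6
  have hhi := pi_lt_d6
  refine iso_line hm (t := (2069 / 1000)) (e := (117613 / 1000000)) (L := (626657 / 250000)) (U := (2506629 / 1000000))
    (by norm_num) ?_ (le_sqrt_of_sq_le (by linarith)) (sqrt_le_iff.2 ⟨by norm_num, by linarith⟩) ?_ ?_ <;>
    norm_num [expTay, gaussPrim, Finset.sum_range_succ, Nat.factorial]

private lemma tolLine_1 {X : Set E} (hm : MeasurableSet X) : √(2 * π) * ‖mom X‖ ≤
    (((6567 / 200000) : ℚ) : ℝ) + (((2298579 / 500000) : ℚ) : ℝ) * (stdGaussian E).real X := by
  have hlo := pi_gt_d6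
  have hhi := pi_lt_d6
  refine iso_line hm (t := (917 / 500)) (e := (46511 / 250000)) (L := (626657 / 250000)) (U := (2506629 / 1000000))
    (by norm_num) ?_ (le_sqrt_of_sq_le (by linarith)) (sqrt_le_iff.2 ⟨by norm_num, by linarith⟩) ?_ ?_ <;>
    norm_num [expTay, gaussPrim, Finset.sum_range_succ, Nat.factorial]

private lemma tolLine_2 {X : Set E} (hm : MeasurableSet X) : √(2 * π) * ‖mom X‖ ≤
    (((3037 / 62500) : ℚ) : ℝ) + (((4201111 / 1000000) : ℚ) : ℝ) * (stdGaussian E).real X := by
  have hlo := pi_gt_d6
  have hhi := pi_lt_d6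
  refine iso_line hm (t := (419 / 250)) (e := (245493 / 1000000)) (L := (626657 / 250000)) (U := (2506629 / 1000000))
    (by norm_num) ?_ (le_sqrt_of_sq_le (by linarith)) (sqrt_le_iff.2 ⟨by norm_num, by linarith⟩) ?_ ?_ <;>
    norm_num [expTay, gaussPrim, Finset.sum_range_succ, Nat.factorial]

private lemma tolLine_3 {X : Set E} (hm : MeasurableSet X) : √(2 * π) * ‖mom X‖ ≤
    (((412583 / 1000000) : ℚ) : ℝ) + (((1541577 / 1000000) : ℚ) : ℝ) * (stdGaussian E).real X := by
  have hlo := pi_gt_d6
  have hhi := pi_lt_d6
  refine iso_line hm (t := (123 / 200)) (e := (413847 / 500000)) (L := (626657 / 250000)) (U := (2506629 / 1000000))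
    (by norm_num) ?_ (le_sqrt_of_sq_le (by linarith)) (sqrt_le_iff.2 ⟨by norm_num, by linarith⟩) ?_ ?_ <;>
    norm_num [expTay, gaussPrim, Finset.sum_range_succ, Nat.factorial]

private lemma tolLine_4 {X : Set E} (hm : MeasurableSet X) : √(2 * π) * ‖mom X‖ ≤
    (((422801 / 1000000) : ℚ) : ℝ) + (((751989 / 500000) : ℚ) : ℝ) * (stdGaussian E).real X := by
  have hlo := pi_gt_d6
  have hhi := pi_lt_d6
  refine iso_line hm (t := (3 / 5)) (e := (835271 / 1000000)) (L := (626657 / 250000)) (U := (2506629 / 1000000))
    (by norm_num) ?_ (le_sqrt_of_sq_le (by linarith)) (sqrt_le_iff.2 ⟨by norm_num, by linarith⟩) ?_ ?_ <;>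
    norm_num [expTay, gaussPrim, Finset.sum_range_succ, Nat.factorial]

private lemma tolLine_5 {X : Set E} (hm : MeasurableSet X) : √(2 * π) * ‖mom X‖ ≤
    (((436717 / 1000000) : ℚ) : ℝ) + (((290769 / 200000) : ℚ) : ℝ) * (stdGaussian E).real X := by
  have hlo := pi_gt_d6
  have hhi := pi_lt_d6
  refine iso_line hm (t := (29 / 50)) (e := (169037 / 200000)) (L := (626657 / 250000)) (U := (2506629 / 1000000))
    (by norm_num) ?_ (le_sqrt_of_sq_le (by linarith)) (sqrt_le_iff.2 ⟨by norm_num, by linarith⟩) ?_ ?_ <;>
    norm_num [expTay, gaussPrim, Finset.sum_range_succ, Nat.factorial]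

private lemma tolLine_6 {X : Set E} (hm : MeasurableSet X) : √(2 * π) * ‖mom X‖ ≤
    (((450973 / 1000000) : ℚ) : ℝ) + (((1403713 / 1000000) : ℚ) : ℝ) * (stdGaussian E).real X := by
  have hlo := pi_gt_d6
  have hhi := pi_lt_d6
  refine iso_line hm (t := (14 / 25)) (e := (213719 / 250000)) (L := (626657 / 250000)) (U := (2506629 / 1000000))
    (by norm_num) ?_ (le_sqrt_of_sq_le (by linarith)) (sqrt_le_iff.2 ⟨by norm_num, by linarith⟩) ?_ ?_ <;>
    norm_num [expTay, gaussPrim, Finset.sum_range_succ, Nat.factorial]

/-- The fine grid with exact tangents at the thresholds and in the middle. -/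
def lowTolLines : List (ℚ × ℚ) :=
  [((883 / 50000), (648277 / 125000)),
   ((6567 / 200000), (2298579 / 500000)),
   ((3037 / 62500), (4201111 / 1000000)),
   ((412583 / 1000000), (1541577 / 1000000)),
   ((422801 / 1000000), (751989 / 500000)),
   ((436717 / 1000000), (290769 / 200000)),
   ((450973 / 1000000), (1403713 / 1000000))] ++ capGridIso

theorem lowTolLines_valid {X : Set E} (hm : MeasurableSet X) :
    ∀ l ∈ lowTolLines, √(2 * π) * ‖mom X‖ ≤ (l.1 : ℝ) + (l.2 : ℝ) * (stdGaussian E).real X := by
  simp only [lowTolLines, List.forall_mem_append, List.forall_mem_cons, List.not_mem_nil, false_implies,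
    implies_true, and_true]
  exact ⟨⟨tolLine_0 hm, tolLine_1 hm, tolLine_2 hm, tolLine_3 hm, tolLine_4 hm, tolLine_5 hm, tolLine_6 hm⟩, capGridIso_valid hm⟩

/-- The chain above threshold 4. -/
def lowTolChainFour : List ((ℚ × ℚ) × ℚ) :=
  [(((3037 / 62500), (4201111 / 1000000)), (24247 / 500000)),
   (((1309 / 25000), (412341 / 100000)), (52059 / 1000000)),
   (((2879 / 50000), (201157 / 50000)), (56831 / 1000000)),
   (((6399 / 100000), (78207 / 20000)), (61733 / 1000000)),
   (((3509 / 50000), (23813 / 6250)), (67199 / 1000000)),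
   (((243 / 3125), (11554 / 3125)), (72811 / 1000000)),
   (((4253 / 50000), (179851 / 50000)), (78901 / 1000000)),
   (((2349 / 25000), (174211 / 50000)), (8537 / 100000)),
   (((2563 / 25000), (67679 / 20000)), (91761 / 1000000)),
   (((2793 / 25000), (328369 / 100000)), (3961 / 40000)),
   (((12289 / 100000), (317089 / 100000)), (106523 / 1000000)),
   (((13357 / 100000), (307063 / 100000)), (28657 / 250000)),
   (((293 / 2000), (295783 / 100000)), (30767 / 250000)),
   (((3971 / 25000), (71439 / 25000)), (26383 / 200000)),
   (((4343 / 25000), (68619 / 25000)), (141133 / 1000000)),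
   (((18787 / 100000), (5289 / 2000)), (75197 / 500000)),
   (((4059 / 20000), (254423 / 100000)), (6419 / 40000)),
   (((4421 / 20000), (30393 / 12500)), (85569 / 500000)),
   (((23821 / 100000), (233117 / 100000)), (45523 / 250000)),
   (((207 / 800), (221837 / 100000)), (193497 / 1000000)),
   (((5563 / 20000), (211811 / 100000)), (6419 / 31250)),
   (((7533 / 25000), (200531 / 100000)), (13607 / 62500)),
   (((6463 / 20000), (23813 / 12500)), (28801 / 125000)),
   (((17457 / 50000), (22403 / 12500)), (243567 / 1000000)),
   (((9339 / 25000), (84599 / 50000)), (16013 / 62500)),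
   (((1597 / 4000), (159171 / 100000)), (265953 / 1000000)),
   (((412583 / 1000000), (1541577 / 1000000)), (271763 / 1000000)),
   (((422801 / 1000000), (751989 / 500000)), (276119 / 1000000)),
   (((10743 / 25000), (36973 / 25000)), (279043 / 1000000)),
   (((436717 / 1000000), (290769 / 200000)), (284369 / 1000000)),
   (((450973 / 1000000), (1403713 / 1000000)), (5791 / 20000)),
   (((45823 / 100000), (27573 / 20000)), (37367 / 125000)),
   (((9839 / 20000), (25317 / 20000)), (78471 / 250000)),
   (((26171 / 50000), (116559 / 100000)), (164539 / 500000)),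
   (((28027 / 50000), (105279 / 100000)), (34457 / 100000)),
   (((59509 / 100000), (23813 / 25000)), (71893 / 200000)),
   (((63113 / 100000), (42613 / 50000)), (375443 / 1000000)),
   (((16837 / 25000), (36973 / 50000)), (195841 / 500000)),
   (((2851 / 4000), (799 / 1250)), (408067 / 1000000)),
   (((37939 / 50000), (329 / 625)), (424653 / 1000000)),
   (((10017 / 12500), (42613 / 100000)), (13791 / 31250)),
   (((42557 / 50000), (31333 / 100000)), (458209 / 1000000)),
   (((22427 / 25000), (21307 / 100000)), (475089 / 1000000)),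
   (((95067 / 100000), (10027 / 100000)), (122993 / 250000)),
   (((1), (0)), (1))]

/-- The chain above threshold 5. -/
def lowTolChainFive : List ((ℚ × ℚ) × ℚ) :=
  [(((6567 / 200000), (2298579 / 500000)), (17063 / 500000)),
   (((1723 / 50000), (227477 / 50000)), (1461 / 40000)),
   (((1929 / 50000), (221837 / 50000)), (10023 / 250000)),
   (((213 / 5000), (433647 / 100000)), (21843 / 500000)),
   (((2349 / 50000), (423621 / 100000)), (45927 / 1000000)),
   (((3037 / 62500), (4201111 / 1000000)), (24247 / 500000)),
   (((1309 / 25000), (412341 / 100000)), (52059 / 1000000)),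
   (((2879 / 50000), (201157 / 50000)), (56831 / 1000000)),
   (((6399 / 100000), (78207 / 20000)), (61733 / 1000000)),
   (((3509 / 50000), (23813 / 6250)), (67199 / 1000000)),
   (((243 / 3125), (11554 / 3125)), (72811 / 1000000)),
   (((4253 / 50000), (179851 / 50000)), (78901 / 1000000)),
   (((2349 / 25000), (174211 / 50000)), (8537 / 100000)),
   (((2563 / 25000), (67679 / 20000)), (91761 / 1000000)),
   (((2793 / 25000), (328369 / 100000)), (3961 / 40000)),
   (((12289 / 100000), (317089 / 100000)), (106523 / 1000000)),
   (((13357 / 100000), (307063 / 100000)), (28657 / 250000)),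
   (((293 / 2000), (295783 / 100000)), (30767 / 250000)),
   (((3971 / 25000), (71439 / 25000)), (26383 / 200000)),
   (((4343 / 25000), (68619 / 25000)), (141133 / 1000000)),
   (((18787 / 100000), (5289 / 2000)), (75197 / 500000)),
   (((4059 / 20000), (254423 / 100000)), (6419 / 40000)),
   (((4421 / 20000), (30393 / 12500)), (85569 / 500000)),
   (((23821 / 100000), (233117 / 100000)), (45523 / 250000)),
   (((207 / 800), (221837 / 100000)), (193497 / 1000000)),
   (((5563 / 20000), (211811 / 100000)), (6419 / 31250)),
   (((7533 / 25000), (200531 / 100000)), (13607 / 62500)),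
   (((6463 / 20000), (23813 / 12500)), (28801 / 125000)),
   (((17457 / 50000), (22403 / 12500)), (243567 / 1000000)),
   (((9339 / 25000), (84599 / 50000)), (16013 / 62500)),
   (((1597 / 4000), (159171 / 100000)), (265953 / 1000000)),
   (((412583 / 1000000), (1541577 / 1000000)), (271763 / 1000000)),
   (((422801 / 1000000), (751989 / 500000)), (276119 / 1000000)),
   (((10743 / 25000), (36973 / 25000)), (279043 / 1000000)),
   (((436717 / 1000000), (290769 / 200000)), (284369 / 1000000)),
   (((450973 / 1000000), (1403713 / 1000000)), (5791 / 20000)),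
   (((45823 / 100000), (27573 / 20000)), (37367 / 125000)),
   (((9839 / 20000), (25317 / 20000)), (78471 / 250000)),
   (((26171 / 50000), (116559 / 100000)), (164539 / 500000)),
   (((28027 / 50000), (105279 / 100000)), (34457 / 100000)),
   (((59509 / 100000), (23813 / 25000)), (71893 / 200000)),
   (((63113 / 100000), (42613 / 50000)), (375443 / 1000000)),
   (((16837 / 25000), (36973 / 50000)), (195841 / 500000)),
   (((2851 / 4000), (799 / 1250)), (408067 / 1000000)),
   (((37939 / 50000), (329 / 625)), (424653 / 1000000)),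
   (((10017 / 12500), (42613 / 100000)), (13791 / 31250)),
   (((42557 / 50000), (31333 / 100000)), (458209 / 1000000)),
   (((22427 / 25000), (21307 / 100000)), (475089 / 1000000)),
   (((95067 / 100000), (10027 / 100000)), (122993 / 250000)),
   (((1), (0)), (1))]

/-- The chain above threshold 6. -/
def lowTolChainSix : List ((ℚ × ℚ) × ℚ) :=
  [(((883 / 50000), (648277 / 125000)), (4987 / 250000)),
   (((893 / 50000), (517619 / 100000)), (20447 / 1000000)),
   (((1991 / 100000), (507593 / 100000)), (22439 / 1000000)),
   (((277 / 12500), (248783 / 50000)), (993 / 40000)),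
   (((78 / 3125), (486287 / 100000)), (13713 / 500000)),
   (((2771 / 100000), (23813 / 5000)), (30319 / 1000000)),
   (((3113 / 100000), (23249 / 5000)), (32389 / 1000000)),
   (((6567 / 200000), (2298579 / 500000)), (17063 / 500000)),
   (((1723 / 50000), (227477 / 50000)), (1461 / 40000)),
   (((1929 / 50000), (221837 / 50000)), (10023 / 250000)),
   (((213 / 5000), (433647 / 100000)), (21843 / 500000)),
   (((2349 / 50000), (423621 / 100000)), (45927 / 1000000)),
   (((3037 / 62500), (4201111 / 1000000)), (24247 / 500000)),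
   (((1309 / 25000), (412341 / 100000)), (52059 / 1000000)),
   (((2879 / 50000), (201157 / 50000)), (56831 / 1000000)),
   (((6399 / 100000), (78207 / 20000)), (61733 / 1000000)),
   (((3509 / 50000), (23813 / 6250)), (67199 / 1000000)),
   (((243 / 3125), (11554 / 3125)), (72811 / 1000000)),
   (((4253 / 50000), (179851 / 50000)), (78901 / 1000000)),
   (((2349 / 25000), (174211 / 50000)), (8537 / 100000)),
   (((2563 / 25000), (67679 / 20000)), (91761 / 1000000)),
   (((2793 / 25000), (328369 / 100000)), (3961 / 40000)),
   (((12289 / 100000), (317089 / 100000)), (106523 / 1000000)),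
   (((13357 / 100000), (307063 / 100000)), (28657 / 250000)),
   (((293 / 2000), (295783 / 100000)), (30767 / 250000)),
   (((3971 / 25000), (71439 / 25000)), (26383 / 200000)),
   (((4343 / 25000), (68619 / 25000)), (141133 / 1000000)),
   (((18787 / 100000), (5289 / 2000)), (75197 / 500000)),
   (((4059 / 20000), (254423 / 100000)), (6419 / 40000)),
   (((4421 / 20000), (30393 / 12500)), (85569 / 500000)),
   (((23821 / 100000), (233117 / 100000)), (45523 / 250000)),
   (((207 / 800), (221837 / 100000)), (193497 / 1000000)),
   (((5563 / 20000), (211811 / 100000)), (6419 / 31250)),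
   (((7533 / 25000), (200531 / 100000)), (13607 / 62500)),
   (((6463 / 20000), (23813 / 12500)), (28801 / 125000)),
   (((17457 / 50000), (22403 / 12500)), (243567 / 1000000)),
   (((9339 / 25000), (84599 / 50000)), (16013 / 62500)),
   (((1597 / 4000), (159171 / 100000)), (265953 / 1000000)),
   (((412583 / 1000000), (1541577 / 1000000)), (271763 / 1000000)),
   (((422801 / 1000000), (751989 / 500000)), (276119 / 1000000)),
   (((10743 / 25000), (36973 / 25000)), (279043 / 1000000)),
   (((436717 / 1000000), (290769 / 200000)), (284369 / 1000000)),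
   (((450973 / 1000000), (1403713 / 1000000)), (5791 / 20000)),
   (((45823 / 100000), (27573 / 20000)), (37367 / 125000)),
   (((9839 / 20000), (25317 / 20000)), (78471 / 250000)),
   (((26171 / 50000), (116559 / 100000)), (164539 / 500000)),
   (((28027 / 50000), (105279 / 100000)), (34457 / 100000)),
   (((59509 / 100000), (23813 / 25000)), (71893 / 200000)),
   (((63113 / 100000), (42613 / 50000)), (375443 / 1000000)),
   (((16837 / 25000), (36973 / 50000)), (195841 / 500000)),
   (((2851 / 4000), (799 / 1250)), (408067 / 1000000)),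
   (((37939 / 50000), (329 / 625)), (424653 / 1000000)),
   (((10017 / 12500), (42613 / 100000)), (13791 / 31250)),
   (((42557 / 50000), (31333 / 100000)), (458209 / 1000000)),
   (((22427 / 25000), (21307 / 100000)), (475089 / 1000000)),
   (((95067 / 100000), (10027 / 100000)), (122993 / 250000)),
   (((1), (0)), (1))]

end Vale.Agent.P226
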