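import Vale.Agent.P226.CapTable
import Vale.Agent.P226.TolCore
import Vale.Agent.P226.TolLines

/-!
# Five and six long vectors: the weight is spread

No pair and no triple of five or six long vectors carries almost all of the weight: the members
outside it would have small degrees, and the energy budget does not allow this.
-/

namespace Vale.Agent.P226

open MeasureTheory ProbabilityTheory Real Set Finset
open scoped RealInnerProductSpace

variable {k : ℕ} [NeZero k] {w : Fin k → EuclideanSpace ℝ (Fin (k - 1))}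

/-- A majorant above a squared length of `96/10000`. -/
lemma tol_four (hw : Crit w) (α β : ℚ)
    (h : chainOK α β (468937 / 10000000) lowTolChainFour = true) {i : Fin k}
    (hi : 96 / 10000 ≤ ‖w i‖ ^ 2) : 2 * π * ‖w i‖ ^ 2 ≤
      α + β * (stdGaussian (EuclideanSpace ℝ (Fin (k - 1)))).real (cell w i) := by
  refine level_le hw.self lowTolLines (fun X _ hX => lowTolLines_valid hX) (τ := 122799 / 500000)
    (x := 468937 / 10000000) (l := (3037 / 62500, 4201111 / 1000000)) (C := lowTolChainFour) ?_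
    (by decide +kernel) (θ := 96 / 10000) (by push_cast; linarith [pi_gt_d6]) hi
  rw [h, Bool.and_true]
  decide +kernel

/-- A majorant above a squared length of `55/10000`. -/
lemma tol_five (hw : Crit w) (α β : ℚ)
    (h : chainOK α β (332947 / 10000000) lowTolChainFive = true) {i : Fin k}
    (hi : 55 / 10000 ≤ ‖w i‖ ^ 2) : 2 * π * ‖w i‖ ^ 2 ≤
      α + β * (stdGaussian (EuclideanSpace ℝ (Fin (k - 1)))).real (cell w i) := by
  refine level_le hw.self lowTolLines (fun X _ hX => lowTolLines_valid hX) (τ := 23237 / 125000)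
    (x := 332947 / 10000000) (l := (6567 / 200000, 2298579 / 500000)) (C := lowTolChainFive) ?_
    (by decide +kernel) (θ := 55 / 10000) (by push_cast; linarith [pi_gt_d6]) hi
  rw [h, Bool.and_true]
  decide +kernel

/-- A majorant above a squared length of `22/10000`. -/
lemma tol_six (hw : Crit w) (α β : ℚ)
    (h : chainOK α β (192647 / 10000000) lowTolChainSix = true) {i : Fin k}
    (hi : 22 / 10000 ≤ ‖w i‖ ^ 2) : 2 * π * ‖w i‖ ^ 2 ≤
      α + β * (stdGaussian (EuclideanSpace ℝ (Fin (k - 1)))).real (cell w i) := by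
  refine level_le hw.self lowTolLines (fun X _ hX => lowTolLines_valid hX) (τ := 117571 / 1000000)
    (x := 192647 / 10000000) (l := (883 / 50000, 648277 / 125000)) (C := lowTolChainSix) ?_
    (by decide +kernel) (θ := 22 / 10000) (by push_cast; linarith [pi_gt_d6]) hi
  rw [h, Bool.and_true]
  decide +kernel

/-- The budget for members outside a chosen set, by slots. -/
lemma inDeg_gt_of_slots {m : ℕ} [NeZero m] (hw : Crit w) (J : Fin m ↪ Fin k)
    (σ : Equiv.Perm (Fin m)) (O T : Finset (Fin m)) (hc : O.card = T.card)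
    (hT : ∀ j ∈ T, ∀ i ∉ T, i ≤ j) {θ g : Fin m → ℝ} (hθ : Antitone θ) (hg : Monotone g)
    (hn : ∀ j, θ j ≤ ‖w (J (σ j))‖ ^ 2) {α β β' γ t R : ℝ} (hβ : 0 ≤ β) (hβ' : 0 < β')
    (hγ : 0 < γ)
    (hK : ∀ a, 2 * π * ‖w (J a)‖ ^ 2 ≤
      α + β * (stdGaussian (EuclideanSpace ℝ (Fin (k - 1)))).real (cell w (J a)))
    (hO : ∀ j, 2 * π * ‖w (J (σ j))‖ ^ 2 ≤
      g j + β' * (stdGaussian (EuclideanSpace ℝ (Fin (k - 1)))).real (cell w (J (σ j))))
    (hrest : ∀ i ∈ (Finset.univ.map J)ᶜ, 2 * π * ‖w i‖ ^ 2 ≤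
      γ * (stdGaussian (EuclideanSpace ℝ (Fin (k - 1)))).real (cell w i))
    (hR : restSq w J ≤ R)
    (hnum : ∀ S Q : ℝ, 2 * π * ∑ j ∈ T, θ j ≤ S → S ≤ 2 * π * t + Q → 0 ≤ Q → Q ≤ 2 * π * R →
      ((m : ℝ) - T.card) * α + β * (1 - (S - ∑ j ∈ T, g j) / β' - Q / γ) + S + Q ≤ 9 / 4) :
    t < ∑ x ∈ O, inDeg w J x := by
  refine inDeg_gt_of_budget hw J O hβ hβ' hγ (fun a _ => hK a) (A := ∑ j ∈ T, g j) ?_ hrest
    (Θ := ∑ j ∈ T, θ j) ?_ hR fun S Q h1 h2 h3 h4 => ?_
  · rw [Finset.mul_sum]
    have h := Finset.sum_le_sum (s := O) fun x _ => hO (σ.symm x)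
    simp only [Equiv.apply_symm_apply] at h
    rw [Finset.sum_add_distrib] at h
    linarith [sum_slots_le hg σ O T hc hT]
  · have h := sum_slots_le hθ.neg σ O T hc hT
    simp only [Finset.sum_neg_distrib] at h
    have h' := Finset.sum_le_sum (s := O) fun x _ => hn (σ.symm x)
    simp only [Equiv.apply_symm_apply] at h'
    linarith
  · rw [show ((Oᶜ).card : ℝ) = (m : ℝ) - T.card by
      rw [eq_sub_iff_add_eq, ← hc, ← Nat.cast_add, Finset.card_compl_add_card, Fintype.card_fin]]
    exact hnum S Q h1 h2 h3 h4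

/-- Five long vectors: no pair and no triple carries almost all of the weight. -/
theorem spread_five (hw : Crit w) (J : Fin 5 ↪ Fin k) (hJ : IsTop w J)
    (hL : Long (theta k) w 5) (hk : 5 < k)
    (hrest : ∀ i ∈ (Finset.univ.map J)ᶜ, ‖w i‖ ^ 2 < theta k 6)
    (hR : restSq w J ≤ 130 / 10000) : Spread w J (58 / 1000) (35 / 10000) := by
  have hpi := pi_gt_d6
  have hpi' := pi_lt_d6
  rw [theta_six (by omega)] at hrest
  obtain ⟨σ, -, hσ⟩ := exists_slots J hJ hL (by norm_num)
  have h4 := theta_low (k := k) (j := 4) (by omega) le_rfl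
  have h5 := theta_five (k := k) (by omega)
  have hn : ∀ j, (fun j : Fin 5 => if (j : ℕ) < 4 then (96 / 10000 : ℝ) else 55 / 10000) j ≤
      ‖w (J (σ j))‖ ^ 2 := fun j => by
    refine le_trans (le_of_eq ?_) (hσ j)
    fin_cases j <;> norm_num [h4, h5]
  have hall : ∀ a, 55 / 10000 ≤ ‖w (J a)‖ ^ 2 := fun a => by
    obtain ⟨j, rfl⟩ := σ.surjective a
    refine le_trans ?_ (hn j)
    fin_cases j <;> norm_num
  have hth : Antitone
      (fun j : Fin 5 => if (j : ℕ) < 4 then (96 / 10000 : ℝ) else 55 / 10000) :=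
    Fin.antitone_iff_succ_le.2 fun i => by fin_cases i <;> norm_num
  have hγ : ∀ i ∈ (Finset.univ.map J)ᶜ, 2 * π * ‖w i‖ ^ 2 ≤
      718 / 1000 * (stdGaussian (EuclideanSpace ℝ (Fin (k - 1)))).real (cell w i) := fun i hi => by
    have h := short_sq_le_five ((cell_isPart w).meas i) (by rw [← hw.self i]; exact (hrest i hi).le)
    rwa [← hw.self i] at h
  constructor
  · intro a b hab
    refine inDeg_gt_of_slots hw J σ _ (Finset.univ.filter fun j : Fin 5 => 2 ≤ (j : ℕ)) ?_
      (by decide) hth
      (g := (fun j : Fin 5 => if (j : ℕ) < 4 then (-72859 / 1000000 : ℝ) else -59999 / 1000000))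
      (Fin.monotone_iff_le_succ.2 fun i => by fin_cases i <;> norm_num) hn
      (α := 220951 / 500000) (β := 31 / 25) (β' := 71 / 25) (by norm_num) (by norm_num)
      (by norm_num) ?_ ?_ hγ hR ?_
    · rw [Finset.card_sdiff_of_subset (Finset.subset_univ _), Finset.card_pair hab]; rfl
    · intro x
      have h := tol_five hw (220951 / 500000) (31 / 25) (by decide +kernel) (hall x)
      push_cast at h
      exact h
    · intro j
      have hj := hn j
      have m4 := fun i (hi : 96 / 10000 ≤ ‖w i‖ ^ 2) =>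
        tol_four hw (-72859 / 1000000) (71 / 25) (by decide +kernel) (i := i) hi
      have m5 := fun i (hi : 55 / 10000 ≤ ‖w i‖ ^ 2) =>
        tol_five hw (-59999 / 1000000) (71 / 25) (by decide +kernel) (i := i) hi
      push_cast at m4 m5
      fin_cases j <;> first | exact m4 _ hj | exact m5 _ hj
    · intro S Q h1 h2 h3 h4'
      rw [show (Finset.univ.filter fun j : Fin 5 => 2 ≤ (j : ℕ)).card = 3 by decide] at ⊢
      rw [Finset.sum_filter] at h1 ⊢
      norm_num [Fin.sum_univ_five] at h1 h2 h4' ⊢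
      linarith
  · intro a b c hab hac hbc
    refine inDeg_gt_of_slots hw J σ _ (Finset.univ.filter fun j : Fin 5 => 3 ≤ (j : ℕ)) ?_
      (by decide) hth
      (g := (fun j : Fin 5 => if (j : ℕ) < 4 then (-5433 / 62500 : ℝ) else -17497 / 250000))
      (Fin.monotone_iff_le_succ.2 fun i => by fin_cases i <;> norm_num) hn
      (α := 137 / 15625) (β := 314 / 125) (β' := 157 / 50) (by norm_num) (by norm_num)
      (by norm_num) ?_ ?_ hγ hR ?_
    · rw [Finset.card_sdiff_of_subset (Finset.subset_univ _),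
        Finset.card_eq_three.2 ⟨a, b, c, hab, hac, hbc, rfl⟩]; rfl
    · intro x
      have h := tol_five hw (137 / 15625) (314 / 125) (by decide +kernel) (hall x)
      push_cast at h
      exact h
    · intro j
      have hj := hn j
      have m4 := fun i (hi : 96 / 10000 ≤ ‖w i‖ ^ 2) =>
        tol_four hw (-5433 / 62500) (157 / 50) (by decide +kernel) (i := i) hi
      have m5 := fun i (hi : 55 / 10000 ≤ ‖w i‖ ^ 2) =>
        tol_five hw (-17497 / 250000) (157 / 50) (by decide +kernel) (i := i) hi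
      push_cast at m4 m5
      fin_cases j <;> first | exact m4 _ hj | exact m5 _ hj
    · intro S Q h1 h2 h3 h4'
      rw [show (Finset.univ.filter fun j : Fin 5 => 3 ≤ (j : ℕ)).card = 2 by decide] at ⊢
      rw [Finset.sum_filter] at h1 ⊢
      norm_num [Fin.sum_univ_five] at h1 h2 h4' ⊢
      linarith

/-- Six long vectors: no pair and no triple carries almost all of the weight. -/
theorem spread_six (hw : Crit w) (J : Fin 6 ↪ Fin k) (hJ : IsTop w J)
    (hL : Long (theta k) w 6) (hk : 6 < k)
    (hrest : ∀ i ∈ (Finset.univ.map J)ᶜ, ‖w i‖ ^ 2 < theta k 7)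
    (hR : restSq w J ≤ 102 / 10000) : Spread w J (66 / 1000) (838 / 100000) := by
  have hpi := pi_gt_d6
  have hpi' := pi_lt_d6
  rw [theta_high (by omega) (by norm_num)] at hrest
  obtain ⟨σ, -, hσ⟩ := exists_slots J hJ hL (by norm_num)
  have h4 := theta_low (k := k) (j := 4) (by omega) le_rfl
  have h5 := theta_five (k := k) (by omega)
  have h6 := theta_six (k := k) (by omega)
  have hn : ∀ j,
      (fun j : Fin 6 => if (j : ℕ) < 4 then (96 / 10000 : ℝ)
        else if (j : ℕ) = 4 then 55 / 10000 else 22 / 10000) j ≤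
      ‖w (J (σ j))‖ ^ 2 := fun j => by
    refine le_trans (le_of_eq ?_) (hσ j)
    fin_cases j <;> norm_num [h4, h5, h6]
  have hall : ∀ a, 22 / 10000 ≤ ‖w (J a)‖ ^ 2 := fun a => by
    obtain ⟨j, rfl⟩ := σ.surjective a
    refine le_trans ?_ (hn j)
    fin_cases j <;> norm_num
  have hth : Antitone (fun j : Fin 6 => if (j : ℕ) < 4 then (96 / 10000 : ℝ)
      else if (j : ℕ) = 4 then 55 / 10000 else 22 / 10000) :=
    Fin.antitone_iff_succ_le.2 fun i => by fin_cases i <;> norm_num
  have hγ : ∀ i ∈ (Finset.univ.map J)ᶜ, 2 * π * ‖w i‖ ^ 2 ≤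
      6903 / 10000 * (stdGaussian (EuclideanSpace ℝ (Fin (k - 1)))).real (cell w i) :=
    fun i hi => by
    have h := short_sq_le_six ((cell_isPart w).meas i)
      (by rw [← hw.self i]; linarith [hrest i hi])
    rwa [← hw.self i] at h
  constructor
  · intro a b hab
    refine inDeg_gt_of_slots hw J σ _ (Finset.univ.filter fun j : Fin 6 => 2 ≤ (j : ℕ)) ?_
      (by decide) hth
      (g := (fun j : Fin 6 => if (j : ℕ) < 4 then (-72859 / 1000000 : ℝ)
        else if (j : ℕ) = 4 then -59999 / 1000000 else -5111 / 125000))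
      (Fin.monotone_iff_le_succ.2 fun i => by fin_cases i <;> norm_num) hn
      (α := 23217 / 62500) (β := 71 / 50) (β' := 71 / 25) (by norm_num) (by norm_num)
      (by norm_num) ?_ ?_ hγ hR ?_
    · rw [Finset.card_sdiff_of_subset (Finset.subset_univ _), Finset.card_pair hab]; rfl
    · intro x
      have h := tol_six hw (23217 / 62500) (71 / 50) (by decide +kernel) (hall x)
      push_cast at h
      exact h
    · intro j
      have hj := hn j
      have m4 := fun i (hi : 96 / 10000 ≤ ‖w i‖ ^ 2) =>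
        tol_four hw (-72859 / 1000000) (71 / 25) (by decide +kernel) (i := i) hi
      have m5 := fun i (hi : 55 / 10000 ≤ ‖w i‖ ^ 2) =>
        tol_five hw (-59999 / 1000000) (71 / 25) (by decide +kernel) (i := i) hi
      have m6 := fun i (hi : 22 / 10000 ≤ ‖w i‖ ^ 2) =>
        tol_six hw (-5111 / 125000) (71 / 25) (by decide +kernel) (i := i) hi
      push_cast at m4 m5 m6
      fin_cases j <;> first | exact m4 _ hj | exact m5 _ hj | exact m6 _ hj
    · intro S Q h1 h2 h3 h4'
      rw [show (Finset.univ.filter fun j : Fin 6 => 2 ≤ (j : ℕ)).card = 4 by decide] at ⊢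
      rw [Finset.sum_filter] at h1 ⊢
      norm_num [Fin.sum_univ_six] at h1 h2 h4' ⊢
      linarith
  · intro a b c hab hac hbc
    refine inDeg_gt_of_slots hw J σ _ (Finset.univ.filter fun j : Fin 6 => 3 ≤ (j : ℕ)) ?_
      (by decide) hth
      (g := (fun j : Fin 6 => if (j : ℕ) < 4 then (-5433 / 62500 : ℝ)
        else if (j : ℕ) = 4 then -17497 / 250000 else -11667 / 250000))
      (Fin.monotone_iff_le_succ.2 fun i => by fin_cases i <;> norm_num) hn
      (α := 137 / 15625) (β := 314 / 125) (β' := 157 / 50) (by norm_num) (by norm_num)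
      (by norm_num) ?_ ?_ hγ hR ?_
    · rw [Finset.card_sdiff_of_subset (Finset.subset_univ _),
        Finset.card_eq_three.2 ⟨a, b, c, hab, hac, hbc, rfl⟩]; rfl
    · intro x
      have h := tol_six hw (137 / 15625) (314 / 125) (by decide +kernel) (hall x)
      push_cast at h
      exact h
    · intro j
      have hj := hn j
      have m4 := fun i (hi : 96 / 10000 ≤ ‖w i‖ ^ 2) =>
        tol_four hw (-5433 / 62500) (157 / 50) (by decide +kernel) (i := i) hi
      have m5 := fun i (hi : 55 / 10000 ≤ ‖w i‖ ^ 2) =>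
        tol_five hw (-17497 / 250000) (157 / 50) (by decide +kernel) (i := i) hi
      have m6 := fun i (hi : 22 / 10000 ≤ ‖w i‖ ^ 2) =>
        tol_six hw (-11667 / 250000) (157 / 50) (by decide +kernel) (i := i) hi
      push_cast at m4 m5 m6
      fin_cases j <;> first | exact m4 _ hj | exact m5 _ hj | exact m6 _ hj
    · intro S Q h1 h2 h3 h4'
      rw [show (Finset.univ.filter fun j : Fin 6 => 3 ≤ (j : ℕ)).card = 3 by decide] at ⊢
      rw [Finset.sum_filter] at h1 ⊢
      norm_num [Fin.sum_univ_six] at h1 h2 h4' ⊢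
      linarith

end Vale.Agent.P226
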