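import Vale.Agent.P226.TolCore
import Vale.Agent.P226.CapTable
import Vale.Agent.P226.CapShort
import Vale.Agent.P226.CapGridIso

/-!
# Tolerances for seven and eight long vectors

If the degrees outside a pair or a triple were small, linear majorants from the half-line bound
would leave too little energy for the propeller bound. With four very long vectors, counting them
is enough. The lines and chains were found by an exact search and are checked here.
-/

namespace Vale.Agent.P226

open MeasureTheory ProbabilityTheory Real Set Finset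
open scoped RealInnerProductSpace

/-- Tangent lines at the levels in use. -/
def tolTangents : List (ℚ × ℚ) :=
  [((48627 / 1000000), (4200359 / 1000000)),
   ((32801 / 1000000), (4598161 / 1000000)),
   ((353 / 20000), (5186717 / 1000000)),
   ((259 / 15625), (5244119 / 1000000)),
   ((84121 / 200000), (1511999 / 1000000))]

/-- The tangents and the lines on the fine grid. -/
def tolLines : List (ℚ × ℚ) := tolTangents ++ capGridIso

/-- The lines are valid in every dimension. -/
lemma tolLines_valid {E : Type*} [NormedAddCommGroup E] [InnerProductSpace ℝ E]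
    [FiniteDimensional ℝ E] [MeasurableSpace E] [BorelSpace E] {X : Set E}
    (hm : MeasurableSet X) :
    ∀ l ∈ tolLines, √(2 * π) * ‖mom X‖ ≤ (l.1 : ℝ) + (l.2 : ℝ) * (stdGaussian E).real X := by
  have hlo := pi_gt_d6
  have hhi := pi_lt_d6
  have hL : (626657 / 250000 : ℝ) ≤ √(2 * π) := le_sqrt_of_sq_le (by linarith)
  have hU : √(2 * π) ≤ 2506629 / 1000000 := sqrt_le_iff.2 ⟨by norm_num, by linarith⟩
  simp only [tolLines, List.forall_mem_append, tolTangents, List.forall_mem_cons,
    List.not_mem_nil, false_implies, implies_true, and_true]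
  refine ⟨⟨?_, ?_, ?_, ?_, ?_⟩, capGridIso_valid hm⟩
  · refine iso_line hm (t := (16757 / 10000)) (e := (1228081 / 5000000)) (by norm_num) ?_ hL hU ?_ ?_ <;>
      norm_num [expTay, gaussPrim, Finset.sum_range_succ, Nat.factorial]
  · refine iso_line hm (t := (2293 / 1250)) (e := (929533 / 5000000)) (by norm_num) ?_ hL hU ?_ ?_ <;>
      norm_num [expTay, gaussPrim, Finset.sum_range_succ, Nat.factorial]
  · refine iso_line hm (t := (5173 / 2500)) (e := (587821 / 5000000)) (by norm_num) ?_ hL hU ?_ ?_ <;>
      norm_num [expTay, gaussPrim, Finset.sum_range_succ, Nat.factorial]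
  · refine iso_line hm (t := (20921 / 10000)) (e := (1120951 / 10000000)) (by norm_num) ?_ hL hU ?_ ?_ <;>
      norm_num [expTay, gaussPrim, Finset.sum_range_succ, Nat.factorial]
  · refine iso_line hm (t := (377 / 625)) (e := (4168319 / 5000000)) (by norm_num) ?_ hL hU ?_ ?_ <;>
      norm_num [expTay, gaussPrim, Finset.sum_range_succ, Nat.factorial]

/-- A chain. -/
def tolChainTop : List ((ℚ × ℚ) × ℚ) :=
  [(((48627 / 1000000), (4200359 / 1000000)), (758 / 15625)),
   (((1309 / 25000), (412341 / 100000)), (52059 / 1000000)),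
   (((2879 / 50000), (201157 / 50000)), (56831 / 1000000)),
   (((6399 / 100000), (78207 / 20000)), (61733 / 1000000)),
   (((3509 / 50000), (23813 / 6250)), (33599 / 500000)),
   (((243 / 3125), (11554 / 3125)), (7281 / 100000)),
   (((4253 / 50000), (179851 / 50000)), (789 / 10000)),
   (((2349 / 25000), (174211 / 50000)), (85369 / 1000000)),
   (((2563 / 25000), (67679 / 20000)), (91761 / 1000000)),
   (((2793 / 25000), (328369 / 100000)), (6189 / 62500)),
   (((12289 / 100000), (317089 / 100000)), (106523 / 1000000)),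
   (((13357 / 100000), (307063 / 100000)), (114627 / 1000000)),
   (((293 / 2000), (295783 / 100000)), (123067 / 1000000)),
   (((3971 / 25000), (71439 / 25000)), (65957 / 500000)),
   (((4343 / 25000), (68619 / 25000)), (141133 / 1000000)),
   (((18787 / 100000), (5289 / 2000)), (150393 / 1000000)),
   (((4059 / 20000), (254423 / 100000)), (6419 / 40000)),
   (((4421 / 20000), (30393 / 12500)), (171137 / 1000000)),
   (((23821 / 100000), (233117 / 100000)), (45523 / 250000)),
   (((207 / 800), (221837 / 100000)), (24187 / 125000)),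
   (((5563 / 20000), (211811 / 100000)), (205407 / 1000000)),
   (((7533 / 25000), (200531 / 100000)), (13607 / 62500)),
   (((6463 / 20000), (23813 / 12500)), (230407 / 1000000)),
   (((17457 / 50000), (22403 / 12500)), (121783 / 500000)),
   (((9339 / 25000), (84599 / 50000)), (16013 / 62500)),
   (((1597 / 4000), (159171 / 100000)), (53581 / 200000)),
   (((84121 / 200000), (1511999 / 1000000)), (8611 / 31250)),
   (((10743 / 25000), (36973 / 25000)), (71083 / 250000)),
   (((45823 / 100000), (27573 / 20000)), (37367 / 125000)),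
   (((9839 / 20000), (25317 / 20000)), (313883 / 1000000)),
   (((26171 / 50000), (116559 / 100000)), (164539 / 500000)),
   (((28027 / 50000), (105279 / 100000)), (344569 / 1000000)),
   (((59509 / 100000), (23813 / 25000)), (71893 / 200000)),
   (((63113 / 100000), (42613 / 50000)), (375443 / 1000000)),
   (((16837 / 25000), (36973 / 50000)), (391681 / 1000000)),
   (((2851 / 4000), (799 / 1250)), (408067 / 1000000)),
   (((37939 / 50000), (329 / 625)), (424653 / 1000000)),
   (((10017 / 12500), (42613 / 100000)), (13791 / 31250)),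
   (((42557 / 50000), (31333 / 100000)), (14319 / 31250)),
   (((22427 / 25000), (21307 / 100000)), (29693 / 62500)),
   (((95067 / 100000), (10027 / 100000)), (491971 / 1000000)),
   ((1, 0), 1)]

/-- A chain. -/
def tolChainFive : List ((ℚ × ℚ) × ℚ) :=
  [(((32801 / 1000000), (4598161 / 1000000)), (34121 / 1000000)),
   (((1723 / 50000), (227477 / 50000)), (9131 / 250000)),
   (((1929 / 50000), (221837 / 50000)), (40091 / 1000000)),
   (((213 / 5000), (433647 / 100000)), (21843 / 500000)),
   (((2349 / 50000), (423621 / 100000)), (2297 / 50000)),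
   (((48627 / 1000000), (4200359 / 1000000)), (758 / 15625)),
   (((1309 / 25000), (412341 / 100000)), (52059 / 1000000)),
   (((2879 / 50000), (201157 / 50000)), (56831 / 1000000)),
   (((6399 / 100000), (78207 / 20000)), (61733 / 1000000)),
   (((3509 / 50000), (23813 / 6250)), (33599 / 500000)),
   (((243 / 3125), (11554 / 3125)), (7281 / 100000)),
   (((4253 / 50000), (179851 / 50000)), (789 / 10000)),
   (((2349 / 25000), (174211 / 50000)), (85369 / 1000000)),
   (((2563 / 25000), (67679 / 20000)), (91761 / 1000000)),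
   (((2793 / 25000), (328369 / 100000)), (6189 / 62500)),
   (((12289 / 100000), (317089 / 100000)), (106523 / 1000000)),
   (((13357 / 100000), (307063 / 100000)), (114627 / 1000000)),
   (((293 / 2000), (295783 / 100000)), (123067 / 1000000)),
   (((3971 / 25000), (71439 / 25000)), (65957 / 500000)),
   (((4343 / 25000), (68619 / 25000)), (141133 / 1000000)),
   (((18787 / 100000), (5289 / 2000)), (150393 / 1000000)),
   (((4059 / 20000), (254423 / 100000)), (6419 / 40000)),
   (((4421 / 20000), (30393 / 12500)), (171137 / 1000000)),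
   (((23821 / 100000), (233117 / 100000)), (45523 / 250000)),
   (((207 / 800), (221837 / 100000)), (24187 / 125000)),
   (((5563 / 20000), (211811 / 100000)), (205407 / 1000000)),
   (((7533 / 25000), (200531 / 100000)), (13607 / 62500)),
   (((6463 / 20000), (23813 / 12500)), (230407 / 1000000)),
   (((17457 / 50000), (22403 / 12500)), (121783 / 500000)),
   (((9339 / 25000), (84599 / 50000)), (16013 / 62500)),
   (((1597 / 4000), (159171 / 100000)), (53581 / 200000)),
   (((84121 / 200000), (1511999 / 1000000)), (8611 / 31250)),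
   (((10743 / 25000), (36973 / 25000)), (71083 / 250000)),
   (((45823 / 100000), (27573 / 20000)), (37367 / 125000)),
   (((9839 / 20000), (25317 / 20000)), (313883 / 1000000)),
   (((26171 / 50000), (116559 / 100000)), (164539 / 500000)),
   (((28027 / 50000), (105279 / 100000)), (344569 / 1000000)),
   (((59509 / 100000), (23813 / 25000)), (71893 / 200000)),
   (((63113 / 100000), (42613 / 50000)), (375443 / 1000000)),
   (((16837 / 25000), (36973 / 50000)), (391681 / 1000000)),
   (((2851 / 4000), (799 / 1250)), (408067 / 1000000)),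
   (((37939 / 50000), (329 / 625)), (424653 / 1000000)),
   (((10017 / 12500), (42613 / 100000)), (13791 / 31250)),
   (((42557 / 50000), (31333 / 100000)), (14319 / 31250)),
   (((22427 / 25000), (21307 / 100000)), (29693 / 62500)),
   (((95067 / 100000), (10027 / 100000)), (491971 / 1000000)),
   ((1, 0), 1)]

/-- A chain. -/
def tolChainSix : List ((ℚ × ℚ) × ℚ) :=
  [(((353 / 20000), (5186717 / 1000000)), (4987 / 250000)),
   (((893 / 50000), (517619 / 100000)), (10223 / 500000)),
   (((1991 / 100000), (507593 / 100000)), (22439 / 1000000)),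
   (((277 / 12500), (248783 / 50000)), (3103 / 125000)),
   (((78 / 3125), (486287 / 100000)), (1097 / 40000)),
   (((2771 / 100000), (23813 / 5000)), (30319 / 1000000)),
   (((3113 / 100000), (23249 / 5000)), (32359 / 1000000)),
   (((32801 / 1000000), (4598161 / 1000000)), (34121 / 1000000)),
   (((1723 / 50000), (227477 / 50000)), (9131 / 250000)),
   (((1929 / 50000), (221837 / 50000)), (40091 / 1000000)),
   (((213 / 5000), (433647 / 100000)), (21843 / 500000)),
   (((2349 / 50000), (423621 / 100000)), (2297 / 50000)),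
   (((48627 / 1000000), (4200359 / 1000000)), (758 / 15625)),
   (((1309 / 25000), (412341 / 100000)), (52059 / 1000000)),
   (((2879 / 50000), (201157 / 50000)), (56831 / 1000000)),
   (((6399 / 100000), (78207 / 20000)), (61733 / 1000000)),
   (((3509 / 50000), (23813 / 6250)), (33599 / 500000)),
   (((243 / 3125), (11554 / 3125)), (7281 / 100000)),
   (((4253 / 50000), (179851 / 50000)), (789 / 10000)),
   (((2349 / 25000), (174211 / 50000)), (85369 / 1000000)),
   (((2563 / 25000), (67679 / 20000)), (91761 / 1000000)),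
   (((2793 / 25000), (328369 / 100000)), (6189 / 62500)),
   (((12289 / 100000), (317089 / 100000)), (106523 / 1000000)),
   (((13357 / 100000), (307063 / 100000)), (114627 / 1000000)),
   (((293 / 2000), (295783 / 100000)), (123067 / 1000000)),
   (((3971 / 25000), (71439 / 25000)), (65957 / 500000)),
   (((4343 / 25000), (68619 / 25000)), (141133 / 1000000)),
   (((18787 / 100000), (5289 / 2000)), (150393 / 1000000)),
   (((4059 / 20000), (254423 / 100000)), (6419 / 40000)),
   (((4421 / 20000), (30393 / 12500)), (171137 / 1000000)),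
   (((23821 / 100000), (233117 / 100000)), (45523 / 250000)),
   (((207 / 800), (221837 / 100000)), (24187 / 125000)),
   (((5563 / 20000), (211811 / 100000)), (205407 / 1000000)),
   (((7533 / 25000), (200531 / 100000)), (13607 / 62500)),
   (((6463 / 20000), (23813 / 12500)), (230407 / 1000000)),
   (((17457 / 50000), (22403 / 12500)), (121783 / 500000)),
   (((9339 / 25000), (84599 / 50000)), (16013 / 62500)),
   (((1597 / 4000), (159171 / 100000)), (53581 / 200000)),
   (((84121 / 200000), (1511999 / 1000000)), (8611 / 31250)),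
   (((10743 / 25000), (36973 / 25000)), (71083 / 250000)),
   (((45823 / 100000), (27573 / 20000)), (37367 / 125000)),
   (((9839 / 20000), (25317 / 20000)), (313883 / 1000000)),
   (((26171 / 50000), (116559 / 100000)), (164539 / 500000)),
   (((28027 / 50000), (105279 / 100000)), (344569 / 1000000)),
   (((59509 / 100000), (23813 / 25000)), (71893 / 200000)),
   (((63113 / 100000), (42613 / 50000)), (375443 / 1000000)),
   (((16837 / 25000), (36973 / 50000)), (391681 / 1000000)),
   (((2851 / 4000), (799 / 1250)), (408067 / 1000000)),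
   (((37939 / 50000), (329 / 625)), (424653 / 1000000)),
   (((10017 / 12500), (42613 / 100000)), (13791 / 31250)),
   (((42557 / 50000), (31333 / 100000)), (14319 / 31250)),
   (((22427 / 25000), (21307 / 100000)), (29693 / 62500)),
   (((95067 / 100000), (10027 / 100000)), (491971 / 1000000)),
   ((1, 0), 1)]

/-- A chain. -/
def tolChainLow : List ((ℚ × ℚ) × ℚ) :=
  [(((259 / 15625), (5244119 / 1000000)), (1871 / 100000)),
   (((353 / 20000), (5186717 / 1000000)), (4987 / 250000)),
   (((893 / 50000), (517619 / 100000)), (10223 / 500000)),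
   (((1991 / 100000), (507593 / 100000)), (22439 / 1000000)),
   (((277 / 12500), (248783 / 50000)), (3103 / 125000)),
   (((78 / 3125), (486287 / 100000)), (1097 / 40000)),
   (((2771 / 100000), (23813 / 5000)), (30319 / 1000000)),
   (((3113 / 100000), (23249 / 5000)), (32359 / 1000000)),
   (((32801 / 1000000), (4598161 / 1000000)), (34121 / 1000000)),
   (((1723 / 50000), (227477 / 50000)), (9131 / 250000)),
   (((1929 / 50000), (221837 / 50000)), (40091 / 1000000)),
   (((213 / 5000), (433647 / 100000)), (21843 / 500000)),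
   (((2349 / 50000), (423621 / 100000)), (2297 / 50000)),
   (((48627 / 1000000), (4200359 / 1000000)), (758 / 15625)),
   (((1309 / 25000), (412341 / 100000)), (52059 / 1000000)),
   (((2879 / 50000), (201157 / 50000)), (56831 / 1000000)),
   (((6399 / 100000), (78207 / 20000)), (61733 / 1000000)),
   (((3509 / 50000), (23813 / 6250)), (33599 / 500000)),
   (((243 / 3125), (11554 / 3125)), (7281 / 100000)),
   (((4253 / 50000), (179851 / 50000)), (789 / 10000)),
   (((2349 / 25000), (174211 / 50000)), (85369 / 1000000)),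
   (((2563 / 25000), (67679 / 20000)), (91761 / 1000000)),
   (((2793 / 25000), (328369 / 100000)), (6189 / 62500)),
   (((12289 / 100000), (317089 / 100000)), (106523 / 1000000)),
   (((13357 / 100000), (307063 / 100000)), (114627 / 1000000)),
   (((293 / 2000), (295783 / 100000)), (123067 / 1000000)),
   (((3971 / 25000), (71439 / 25000)), (65957 / 500000)),
   (((4343 / 25000), (68619 / 25000)), (141133 / 1000000)),
   (((18787 / 100000), (5289 / 2000)), (150393 / 1000000)),
   (((4059 / 20000), (254423 / 100000)), (6419 / 40000)),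
   (((4421 / 20000), (30393 / 12500)), (171137 / 1000000)),
   (((23821 / 100000), (233117 / 100000)), (45523 / 250000)),
   (((207 / 800), (221837 / 100000)), (24187 / 125000)),
   (((5563 / 20000), (211811 / 100000)), (205407 / 1000000)),
   (((7533 / 25000), (200531 / 100000)), (13607 / 62500)),
   (((6463 / 20000), (23813 / 12500)), (230407 / 1000000)),
   (((17457 / 50000), (22403 / 12500)), (121783 / 500000)),
   (((9339 / 25000), (84599 / 50000)), (16013 / 62500)),
   (((1597 / 4000), (159171 / 100000)), (53581 / 200000)),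
   (((84121 / 200000), (1511999 / 1000000)), (8611 / 31250)),
   (((10743 / 25000), (36973 / 25000)), (71083 / 250000)),
   (((45823 / 100000), (27573 / 20000)), (37367 / 125000)),
   (((9839 / 20000), (25317 / 20000)), (313883 / 1000000)),
   (((26171 / 50000), (116559 / 100000)), (164539 / 500000)),
   (((28027 / 50000), (105279 / 100000)), (344569 / 1000000)),
   (((59509 / 100000), (23813 / 25000)), (71893 / 200000)),
   (((63113 / 100000), (42613 / 50000)), (375443 / 1000000)),
   (((16837 / 25000), (36973 / 50000)), (391681 / 1000000)),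
   (((2851 / 4000), (799 / 1250)), (408067 / 1000000)),
   (((37939 / 50000), (329 / 625)), (424653 / 1000000)),
   (((10017 / 12500), (42613 / 100000)), (13791 / 31250)),
   (((42557 / 50000), (31333 / 100000)), (14319 / 31250)),
   (((22427 / 25000), (21307 / 100000)), (29693 / 62500)),
   (((95067 / 100000), (10027 / 100000)), (491971 / 1000000)),
   ((1, 0), 1)]

/-- The threshold of a slot. -/
def tolTheta (j : ℕ) : ℚ :=
  if j < 4 then 96 / 10000 else if j = 4 then 55 / 10000 else if j = 5 then 22 / 10000
    else 199 / 100000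

/-- The constant of the majorant of slope `284/100` of a slot. -/
def tolAlpha (j : ℕ) : ℚ :=
  if j < 4 then (-72857 / 1000000) else if j = 4 then (-59997 / 1000000) else if j = 5 then (-40887 / 1000000) else (-39073 / 1000000)

lemma tolTheta_le (j : ℕ) : (tolTheta j : ℝ) ≤ 96 / 10000 := by
  unfold tolTheta; split_ifs <;> norm_num

lemma le_tolAlpha (j : ℕ) : ((-72857 / 1000000) : ℝ) ≤ tolAlpha j := by
  unfold tolAlpha; split_ifs <;> norm_num

variable {k m : ℕ} [NeZero k] {w : Fin k → EuclideanSpace ℝ (Fin (k - 1))}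

/-- The majorants at the slots, and the two majorants for every long vector. -/
lemma tol_major (hw : Crit w) (i : Fin k) :
    let N := 2 * π * ‖w i‖ ^ 2
    let P := (stdGaussian (EuclideanSpace ℝ (Fin (k - 1)))).real (cell w i)
    (∀ j : ℕ, (tolTheta j : ℝ) ≤ ‖w i‖ ^ 2 → N ≤ tolAlpha j + 284 / 100 * P) ∧
    (199 / 100000 ≤ ‖w i‖ ^ 2 → N ≤ (3981 / 500000) + 2515 / 1000 * P ∧ N ≤ (303893 / 1000000) + 16 / 10 * P) := by
  intro N P
  have hpi := pi_gt_d6
  have hv := fun (X : Set (EuclideanSpace ℝ (Fin (k - 1)))) (_ : IsCone X) =>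
    tolLines_valid (X := X)
  have lo : ∀ α β : ℚ, (decide (0 < (((259 / 15625), (5244119 / 1000000)) : ℚ × ℚ).2 ∧ (((259 / 15625), (5244119 / 1000000)) : ℚ × ℚ).1 + (((259 / 15625), (5244119 / 1000000)) : ℚ × ℚ).2 * (227 / 12500) ≤ (11181 / 100000) ∧
      tolChainLow ≠ []) && chainOK α β (227 / 12500) tolChainLow) = true → 199 / 100000 ≤ ‖w i‖ ^ 2 →
        N ≤ α + β * P := fun α β h hi =>
    level_le hw.self tolLines hv (l := ((259 / 15625), (5244119 / 1000000))) h (by decide +kernel) (by push_cast; linarith) hi
  refine ⟨fun j hj => ?_, fun hi => ?_⟩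
  · unfold tolTheta at hj
    unfold tolAlpha
    split_ifs at hj ⊢
    · refine le_trans (level_le hw.self tolLines hv (α := (-72857 / 1000000)) (β := 284 / 100) (x := (46891 / 1000000)) (τ := (24559 / 100000))
      (l := ((48627 / 1000000), (4200359 / 1000000))) (C := tolChainTop)
        (θ := 96 / 10000) (by decide +kernel) (by decide +kernel) (by push_cast; linarith)
        (by push_cast at hj; exact hj)) (le_of_eq ?_)
      simp only [P]; push_cast; rfl
    · refine le_trans (level_le hw.self tolLines hv (α := (-59997 / 1000000)) (β := 284 / 100) (x := (33293 / 1000000)) (τ := (18589 / 100000))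
      (l := ((32801 / 1000000), (4598161 / 1000000))) (C := tolChainFive)
        (θ := 55 / 10000) (by decide +kernel) (by decide +kernel) (by push_cast; linarith)
        (by push_cast at hj; exact hj)) (le_of_eq ?_)
      simp only [P]; push_cast; rfl
    · refine le_trans (level_le hw.self tolLines hv (α := (-40887 / 1000000)) (β := 284 / 100) (x := (301 / 15625)) (τ := (11757 / 100000))
      (l := ((353 / 20000), (5186717 / 1000000))) (C := tolChainSix)
        (θ := 22 / 10000) (by decide +kernel) (by decide +kernel) (by push_cast; linarith)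
        (by push_cast at hj; exact hj)) (le_of_eq ?_)
      simp only [P]; push_cast; rfl
    · exact (lo (-39073 / 1000000) (284 / 100) (by decide +kernel) (by push_cast at hj; exact hj)).trans_eq
        (by push_cast; rfl)
  · exact ⟨(lo (3981 / 500000) (2515 / 1000) (by decide +kernel) hi).trans_eq (by push_cast; rfl),
      (lo (303893 / 1000000) (16 / 10) (by decide +kernel) hi).trans_eq (by push_cast; rfl)⟩

omit [NeZero k] in
/-- The thresholds of the slots are below those of the table. -/
lemma tolTheta_le_theta (hk : 6 ≤ k) (j : ℕ) : (tolTheta j : ℝ) ≤ theta k (max 4 (j + 1)) := by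
  unfold tolTheta theta
  split_ifs <;> first
    | omega
    | norm_num

/-- Outside few members of seven or eight the degrees are not small, by a linear certificate. -/
lemma tol_gt (hw : Crit w) (hm : 7 ≤ m) (hk : m < k) (J : Fin m ↪ Fin k) (hJ : IsTop w J)
    (hL : Long (theta k) w m) (hrest : ∀ i ∈ (Finset.univ.map J)ᶜ, ‖w i‖ ^ 2 < theta k (m + 1))
    (S : Finset (Fin m)) {αK β t R : ℝ} (hβ : 0 ≤ β)
    (hKα : ∀ i, 199 / 100000 ≤ ‖w i‖ ^ 2 → 2 * π * ‖w i‖ ^ 2 ≤
      αK + β * (stdGaussian (EuclideanSpace ℝ (Fin (k - 1)))).real (cell w i))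
    (hR : restSq w J ≤ R)
    (hnum : ∀ N Q : ℝ,
      2 * π * ((∑ j : Fin m, (tolTheta j : ℝ)) - S.card * (96 / 10000)) ≤ N →
      N ≤ 2 * π * t + Q → 0 ≤ Q → Q ≤ 2 * π * R →
      (S.card : ℝ) * αK + β * (1 - (N - ((∑ j : Fin m, (tolAlpha j : ℝ)) - S.card * ((-72857 / 1000000)))) /
        (284 / 100) - Q / (6903 / 10000)) + N + Q ≤ 9 / 4) :
    t < ∑ x ∈ Finset.univ \ S, inDeg w J x := by
  have : NeZero m := ⟨by omega⟩
  have hmaj := fun a => tol_major hw (J a)
  obtain ⟨σ, -, hσ⟩ := exists_slots J hJ hL (by omega)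
  have hθ : ∀ x, (tolTheta (σ.symm x : Fin m) : ℝ) ≤ ‖w (J x)‖ ^ 2 := fun x => by
    have h := hσ (σ.symm x)
    rw [Equiv.apply_symm_apply] at h
    exact (tolTheta_le_theta (by omega) _).trans h
  have hlow : ∀ x, 199 / 100000 ≤ ‖w (J x)‖ ^ 2 := fun x => by
    refine le_trans ?_ (hθ x)
    unfold tolTheta; split_ifs <;> norm_num
  have hcompl : (Finset.univ \ S)ᶜ = S := by simp [Finset.compl_eq_univ_sdiff]
  have split : ∀ f : Fin m → ℝ, ∑ x ∈ Finset.univ \ S, f (σ.symm x) =
      ∑ j, f j - ∑ x ∈ S, f (σ.symm x) := fun f => by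
    rw [← Equiv.sum_comp σ.symm f, Finset.sum_sdiff_eq_sub (Finset.subset_univ S)]
  refine inDeg_gt_of_budget hw J _ (α := αK) (β := β) (β' := 284 / 100) (γ := 6903 / 10000)
    (A := (∑ j : Fin m, (tolAlpha j : ℝ)) - S.card * ((-72857 / 1000000)))
    (Θ := (∑ j : Fin m, (tolTheta j : ℝ)) - S.card * (96 / 10000)) hβ (by norm_num) (by norm_num)
    (fun a _ => hKα _ (hlow a)) ?_ (fun i hi => ?_) ?_ hR ?_
  · refine (Finset.sum_le_sum fun x _ => (hmaj x).1 _ (hθ x)).trans ?_
    rw [Finset.sum_add_distrib, ← Finset.mul_sum, split fun j => (tolAlpha j : ℝ)]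
    have h := Finset.card_nsmul_le_sum S (fun x => (tolAlpha (σ.symm x : Fin m) : ℝ)) _
      fun x _ => le_tolAlpha _
    rw [nsmul_eq_mul] at h
    linarith
  · have h := short_sq_le_six ((cell_isPart w).meas i)
    rw [← hw.self i] at h
    refine h ((hrest i hi).le.trans ?_)
    unfold theta
    split_ifs <;> first
      | omega
      | norm_num
  · refine le_trans ?_ (Finset.sum_le_sum fun x _ => hθ x)
    rw [split fun j => (tolTheta j : ℝ)]
    have h := Finset.sum_le_card_nsmul S (fun x => (tolTheta (σ.symm x : Fin m) : ℝ)) _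
      fun x _ => tolTheta_le _
    rw [nsmul_eq_mul] at h
    linarith
  · intro N Q h1 h2 h3 h4
    rw [hcompl]
    exact hnum N Q h1 h2 h3 h4

variable {k : ℕ} [NeZero k] {w : Fin k → EuclideanSpace ℝ (Fin (k - 1))}

/-- The tolerances for seven long vectors. -/
theorem spread_seven (hw : Crit w) (J : Fin 7 ↪ Fin k) (hJ : IsTop w J)
    (hL : Long (theta k) w 7) (hk : 7 < k)
    (hrest : ∀ i ∈ (Finset.univ.map J)ᶜ, ‖w i‖ ^ 2 < theta k 8)
    (hR : restSq w J ≤ 81 / 10000) : Spread w J (69 / 1000) (124 / 10000) := by
  refine ⟨fun a b hab => ?_, fun a b c hab hac hbc => ?_⟩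
  · refine tol_gt hw le_rfl hk J hJ hL hrest {a, b} (αK := (303893 / 1000000)) (β := 16 / 10) (by norm_num)
      (fun i hi => ((tol_major hw i).2 hi).2) hR fun N Q h1 h2 h3 h4 => ?_
    rw [Finset.card_pair hab] at *
    simp [Fin.sum_univ_seven, tolTheta, tolAlpha] at h1 ⊢
    linarith [pi_lt_d6, pi_gt_d6]
  · have hc : ({a, b, c} : Finset (Fin 7)).card = 3 := by simp [hab, hac, hbc]
    refine tol_gt hw le_rfl hk J hJ hL hrest {a, b, c} (αK := (3981 / 500000)) (β := 2515 / 1000) (by norm_num)
      (fun i hi => ((tol_major hw i).2 hi).1) hR fun N Q h1 h2 h3 h4 => ?_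
    rw [hc] at *
    simp [Fin.sum_univ_seven, tolTheta, tolAlpha] at h1 ⊢
    linarith [pi_lt_d6, pi_gt_d6]

/-- The tolerances for seven long vectors, four of them very long. -/
theorem spread_seven_four (hw : Crit w) (J : Fin 7 ↪ Fin k)
    (h4 : 4 ≤ (Finset.univ.filter fun a => 6 / 100 ≤ ‖w (J a)‖ ^ 2).card)
    (hR : restSq w J ≤ 81 / 10000) : Spread w J (1 / 10) (5 / 100) := by
  set T := Finset.univ.filter fun a => 6 / 100 ≤ ‖w (J a)‖ ^ 2 with hT
  have key : ∀ S : Finset (Fin 7), ∀ d : ℕ, d + S.card ≤ 4 →
      (d : ℝ) * (6 / 100) ≤ ∑ x ∈ Finset.univ \ S, inDeg w J x + 81 / 10000 := fun S d hd => by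
    have h := rest_edges_le hw.sum hw.obtuse J (Finset.univ \ S)
    refine le_trans ?_ (h.trans (by linarith))
    refine le_trans ?_ (Finset.sum_le_sum_of_subset_of_nonneg (s := T \ S)
      (Finset.sdiff_subset_sdiff (Finset.subset_univ _) subset_rfl) fun x _ _ => sq_nonneg _)
    refine le_trans ?_ (Finset.card_nsmul_le_sum _ _ _ fun x hx =>
      (Finset.mem_filter.1 (Finset.mem_sdiff.1 hx).1).2)
    rw [nsmul_eq_mul]
    refine mul_le_mul_of_nonneg_right ?_ (by norm_num)
    have := Finset.le_card_sdiff S T
    exact_mod_cast (show d ≤ (T \ S).card by omega)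
  refine ⟨fun a b hab => ?_, fun a b c hab hac hbc => ?_⟩
  · have := key {a, b} 2 (by rw [Finset.card_pair hab])
    push_cast at this
    linarith
  · have := key {a, b, c} 1 (by simp [hab, hac, hbc])
    push_cast at this
    linarith

/-- The tolerances for eight long vectors. -/
theorem spread_eight (hw : Crit w) (J : Fin 8 ↪ Fin k) (hJ : IsTop w J)
    (hL : Long (theta k) w 8) (hk : 8 < k)
    (hrest : ∀ i ∈ (Finset.univ.map J)ᶜ, ‖w i‖ ^ 2 < theta k 9)
    (hR : restSq w J ≤ 62 / 10000) : Spread w J (75 / 1000) (16 / 1000) := by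
  refine ⟨fun a b hab => ?_, fun a b c hab hac hbc => ?_⟩
  · refine tol_gt hw (by norm_num) hk J hJ hL hrest {a, b} (αK := (303893 / 1000000)) (β := 16 / 10)
      (by norm_num) (fun i hi => ((tol_major hw i).2 hi).2) hR fun N Q h1 h2 h3 h4 => ?_
    rw [Finset.card_pair hab] at *
    simp [Fin.sum_univ_eight, tolTheta, tolAlpha] at h1 ⊢
    linarith [pi_lt_d6, pi_gt_d6]
  · have hc : ({a, b, c} : Finset (Fin 8)).card = 3 := by simp [hab, hac, hbc]
    refine tol_gt hw (by norm_num) hk J hJ hL hrest {a, b, c} (αK := (3981 / 500000)) (β := 2515 / 1000)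
      (by norm_num) (fun i hi => ((tol_major hw i).2 hi).1) hR fun N Q h1 h2 h3 h4 => ?_
    rw [hc] at *
    simp [Fin.sum_univ_eight, tolTheta, tolAlpha] at h1 ⊢
    linarith [pi_lt_d6, pi_gt_d6]

end Vale.Agent.P226
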