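import Vale.Agent.P226.Glue
import Vale.Agent.P226.Budget
import Vale.Agent.P226.BlockBounds
import Vale.Agent.P226.Tolerance
import Vale.Agent.P226.ToleranceSeven

/-!
# The gain bound for five or more long vectors
-/

namespace Vale.Agent.P226

open MeasureTheory ProbabilityTheory Real Set Finset
open scoped RealInnerProductSpace

/-- The gain bound for five or more long vectors. -/
theorem gain_rest_five_le {k m : ℕ} [NeZero k] [NeZero m] (hm : 5 ≤ m) (hmk : m < k)
    (w : Fin k → EuclideanSpace ℝ (Fin (k - 1))) (hw : Crit w) (J : Fin m ↪ Fin k)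
    (hJ : IsTop w J) (hL : Long (theta k) w m)
    (hr : ∀ i ∈ (Finset.univ.map J)ᶜ, ‖w i‖ ^ 2 < theta k (m + 1)) :
    ∀ i ∈ (Finset.univ.map J)ᶜ,
      gain (centred w J) (w i) ≤ (1 - (m : ℝ)⁻¹) / 2 * ‖w i‖ ^ 2 := by
  intro i hi
  rcases le_or_gt 9 m with h9 | h9
  · exact (nine_false hw J hJ hL h9 hmk hr).elim
  interval_cases m
  · have hR := rest_le_five hw J hJ hL hmk hr
    have hn := (hr i hi).le
    rw [theta_six (by omega)] at hn
    by_contra hfail
    refine five_absurd hw J (hR.trans_eq (by norm_num))
      (spread_five hw J hJ hL hmk hr hR) ?_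
    refine fails_of_not_gain hw hi hn (by norm_num) (fun h => hfail (h.trans_eq ?_)) le_rfl hmk
    norm_num
  · have hR := rest_le_six hw J hJ hL hmk hr
    have hn := (hr i hi).le
    rw [theta_high (by omega) (by norm_num)] at hn
    by_contra hfail
    refine six_absurd hw J hR (spread_six hw J hJ hL hmk hr hR) ?_
    refine fails_of_not_gain hw hi hn (by norm_num) (fun h => hfail (h.trans_eq ?_)) (by norm_num) hmk
    norm_num
  · exfalso
    have h16 : (Finset.univ.filter fun a => 16 / 1000 ≤ ‖w (J a)‖ ^ 2).card ≤ 4 := by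
      by_contra h
      exact seven_fifth hw J hJ hL hmk hr (by omega)
    have hn : ∀ j ∈ (Finset.univ.map J)ᶜ, ‖w j‖ ^ 2 ≤ 20 / 10000 := fun j hj => by
      have h := (hr j hj).le
      rw [theta_high (by omega) (by norm_num)] at h
      linarith
    rcases lt_or_ge (Finset.univ.filter fun a => 6 / 100 ≤ ‖w (J a)‖ ^ 2).card 4 with h4 | h4
    · refine seven_false_low hw J hJ hL hmk hr h4 fun j hj => ?_
      by_contra hfail
      exact seven_absurd hw J (rest_le_seven_low hw J hJ hL hmk hr h4) h16
        (spread_seven hw J hJ hL hmk hr (rest_le_seven hw J hJ hL hmk hr))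
        (fails_of_not_gain hw hj (hn j hj) (by norm_num) hfail (by norm_num) hmk)
    · refine seven_false hw J hJ hL hmk hr fun j hj => ?_
      by_contra hfail
      exact seven_four_absurd hw J (rest_le_seven hw J hJ hL hmk hr) h16
        (spread_seven_four hw J h4 (rest_le_seven hw J hJ hL hmk hr))
        (fails_of_not_gain hw hj (hn j hj) (by norm_num) hfail (by norm_num) hmk)
  · exfalso
    have h12 : (Finset.univ.filter fun a => 12 / 1000 ≤ ‖w (J a)‖ ^ 2).card ≤ 4 := by
      by_contra h
      exact eight_fifth hw J hJ hL hmk hr (by omega)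
    refine eight_false hw J hJ hL hmk hr fun j hj => ?_
    by_contra hfail
    have hn := (hr j hj).le
    rw [theta_high (by omega) (by norm_num)] at hn
    exact eight_absurd hw J (rest_le_eight hw J hJ hL hmk hr) h12
      (spread_eight hw J hJ hL hmk hr (rest_le_eight hw J hJ hL hmk hr))
      (fails_of_not_gain hw hj (hn.trans (by norm_num)) (by norm_num) hfail (by norm_num) hmk)

end Vale.Agent.P226
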