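import Vale.Agent.P226.GainFour
import Vale.Agent.P226.FiveScalar

/-!
# A short vector gains little over four long ones among five

Five cells live in dimension four, where the cap bound gives sharper lines and the short vector is
minus the sum of the four long ones. If the three dust bounds fail, the scalar certificate applies.
-/

namespace Vale.Agent.P226

open MeasureTheory ProbabilityTheory Real Set Finset Module
open scoped RealInnerProductSpace

/-- If a product of scaled weights is large, one short vector among five gains little. -/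
lemma gain_five_of_products {E : Type*} [NormedAddCommGroup E] [InnerProductSpace ℝ E]
    [FiniteDimensional ℝ E] [MeasurableSpace E] [BorelSpace E] {W : Fin 4 → E} {v : E}
    {X p q r s Y : ℝ} (hE : 4 ≤ finrank ℝ E) (hW : ∑ b, W b = 0) (hv : v ≠ 0)
    (hn : ‖v‖ ^ 2 ≤ 85 / 10000) (hpX : p ≤ X) (hqX : q ≤ X) (hYX : Y ≤ X) (p0 : 0 ≤ p)
    (q0 : 0 ≤ q) (r0 : 0 ≤ r) (s0 : 0 ≤ s) (Y0 : 0 ≤ Y) (hey : r + s ≤ p + q)
    (hQ : ∀ x : Fin 4 → ℝ, ∀ t : ℝ, quadFour X p q r s Y x ≤ ‖∑ b, x b • W b + t • v‖ ^ 2)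
    {c : ℝ} (hc : c = 2 * π)
    (h : 27364 / 100000 ≤ c * X * (c * p + c * q + c * r + c * s) + c * p * (c * q) ∨
      6841 / 100000 ≤ c * X * (c * Y) ∨
      8222 / 1000000 ≤ (c * X * (c * p + c * q) + c * p * (c * q)) * (c * r + c * s) +
        (c * X * (c * p + c * q + c * r + c * s) + c * p * (c * q)) * (c * Y)) :
    gain W v ≤ 3 / 8 * ‖v‖ ^ 2 := by
  subst hc
  have hlo := pi_gt_d6
  have hhi := pi_lt_d6
  have hU0 : 0 < 2 * π := by positivity
  have hXp : 0 < X := by
    rcases (p0.trans hpX).lt_or_eq with h' | h'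
    · exact h'
    · have hp' : p = 0 := le_antisymm (h' ▸ hpX) p0
      have hq' : q = 0 := le_antisymm (h' ▸ hqX) q0
      have hY' : Y = 0 := le_antisymm (h' ▸ hYX) Y0
      rw [← h', hp', hq', hY'] at h
      norm_num at h
  rcases h with h | h | h
  · refine gain_four_of_pair hW hv hXp p0 q0 r0 s0 hQ ?_
    have h1 := mul_le_mul_of_nonneg_left h hU0.le
    nlinarith
  · have hYp : 0 < Y := by
      rcases Y0.lt_or_eq with h' | h'
      · exact h'
      · rw [← h'] at h; norm_num at h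
    refine gain_four_of_pairs hE hW hv hXp hYp p0 q0 r0 s0 hQ ?_
    have h1 := mul_le_mul_of_nonneg_left h hU0.le
    nlinarith
  · have hpq : 0 < p + q := by
      rcases (add_nonneg p0 q0).lt_or_eq with h' | h'
      · exact h'
      · have hp' : p = 0 := by linarith
        have hq' : q = 0 := by linarith
        have hr' : r = 0 := by linarith
        have hs' : s = 0 := by linarith
        rw [hp', hq', hr', hs'] at h
        norm_num at h
    refine gain_four_of_tetra hW hv hXp p0 q0 r0 s0 Y0 hpq hQ ?_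
    have h1 := pow_le_pow_left₀ (sq_nonneg ‖v‖) hn 2
    linarith

/-- Weights that sum to the squared norm of the sum of four. -/
lemma sum_five_eq {E : Type*} [NormedAddCommGroup E] [InnerProductSpace ℝ E] (z : Fin 5 → E)
    (hsum : ∑ i, z i = 0) (J : Fin 4 ↪ Fin 5) {i : Fin 5} (hi : i ∈ (Finset.univ.map J)ᶜ) :
    (Finset.univ.map J)ᶜ = {i} ∧ ∑ b, z (J b) = -z i := by
  have h : (Finset.univ.map J)ᶜ = {i} := by
    refine (Finset.eq_of_subset_of_card_le (Finset.singleton_subset_iff.2 hi) ?_).symm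
    rw [Finset.card_compl, Finset.card_map, Finset.card_univ, Fintype.card_fin, Fintype.card_fin,
      Finset.card_singleton]
  refine ⟨h, eq_neg_of_add_eq_zero_left ?_⟩
  rw [← Finset.sum_add_sum_compl (Finset.univ.map J), Finset.sum_map, h,
    Finset.sum_singleton] at hsum
  exact hsum

/-- The majorants of the squares from the cap bound in dimension four. -/
lemma five_bounds {w : Fin 5 → EuclideanSpace ℝ (Fin (5 - 1))} (hw : Crit w) {θ : ℝ}
    (hθ : 96 / 10000 ≤ θ) {i : Fin 5} (hi : θ ≤ ‖w i‖ ^ 2) :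
    let N := 2 * π * ‖w i‖ ^ 2
    let P := (stdGaussian (EuclideanSpace ℝ (Fin (5 - 1)))).real (cell w i)
    N ≤ 1 ∧ 60318 / 1000000 ≤ N ∧ N ≤ -10630 / 100000 + 278 / 100 * P ∧
      N ≤ 10613 / 100000 + 21 / 10 * P ∧ N ≤ 14055 / 100000 + 2 * P := by
  intro N P
  have hpi := pi_gt_d6
  have t5 : ((24559 / 100000 : ℚ) : ℝ) ^ 2 ≤ 2 * π * (96 / 10000) := by push_cast; linarith
  have hv := fun (X : Set (EuclideanSpace ℝ (Fin (5 - 1)))) (hX : IsCone X) =>
    lines5_valid finrank_euclideanSpace_fin hX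
  have hi' := hθ.trans hi
  have h0 : (0 : ℝ) ≤ √(2 * π) * ‖w i‖ := by positivity
  have line : ∀ α β : ℚ, (decide (0 < (180249 / 50000 : ℚ) ∧
      (2953 / 100000 : ℚ) + 180249 / 50000 * (59933 / 1000000) ≤ 24559 / 100000 ∧ chain5_5 ≠ []) &&
        chainOK α β (59933 / 1000000) chain5_5) = true → N ≤ α + β * P := fun α β h =>
    level_le hw.self lines5 hv (l := (2953 / 100000, 180249 / 50000)) h (by decide +kernel) t5 hi'
  refine ⟨?_, ?_, ?_, ?_, ?_⟩
  · have h := (iso_majorants ((cell_isPart w).meas i)).1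
    rw [← hw.self i] at h
    have := pow_le_one₀ (n := 2) h0 h
    rwa [sq_scaled] at this
  · calc (60318 / 1000000 : ℝ) ≤ 2 * π * (96 / 10000) := by linarith
      _ ≤ N := mul_le_mul_of_nonneg_left hi' (by positivity)
  · exact (line (-10630 / 100000) (278 / 100) (by decide +kernel)).trans_eq (by push_cast; rfl)
  · exact (line (10613 / 100000) (21 / 10) (by decide +kernel)).trans_eq (by push_cast; rfl)
  · exact (line (14055 / 100000) 2 (by decide +kernel)).trans_eq (by push_cast; rfl)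

/-- A short moment in dimension four has measure nearly its scaled square over `955/1000`. -/
lemma five_dust {w : Fin 5 → EuclideanSpace ℝ (Fin (5 - 1))} (hw : Crit w) {i : Fin 5}
    (hi : ‖w i‖ ^ 2 ≤ 85 / 10000) :
    2 * π * ‖w i‖ ^ 2 ≤
      2 / 100000 + 955 / 1000 * (stdGaussian (EuclideanSpace ℝ (Fin (5 - 1)))).real (cell w i) := by
  have hv := lines5_valid (finrank_euclideanSpace_fin (𝕜 := ℝ) (n := 5 - 1))
    (isCone_cell w i) ((cell_isPart w).meas i)
  rw [← hw.self i] at hv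
  set y := √(2 * π) * ‖w i‖ with hy
  have hy2 : y ≤ 23111 / 100000 := by
    refine le_of_pow_le_pow_left₀ two_ne_zero (by norm_num) ?_
    rw [hy, sq_scaled]
    nlinarith [pi_lt_d6, sq_nonneg ‖w i‖]
  set p := (stdGaussian (EuclideanSpace ℝ (Fin (5 - 1)))).real (cell w i)
  have h := sq_le_of_chain (α := 2 / 100000) (β := 955 / 1000) (lo := 0) (y := y) (p := p)
    (by positivity) measureReal_le_one
    (C := [((357 / 100000, 106029 / 25000), 2527 / 100000),
      ((893 / 100000, 40291 / 10000), 4017 / 100000),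
      ((349 / 20000, 47713 / 12500), 5597 / 100000), ((23111 / 100000, 0), 1)])
    (by decide +kernel) (by exact_mod_cast measureReal_nonneg) (by simp) (by
      simp only [List.forall_mem_cons, List.not_mem_nil, false_implies, implies_true, and_true]
      refine ⟨hv (357 / 100000, 106029 / 25000) (by decide +kernel),
        hv (893 / 100000, 40291 / 10000) (by decide +kernel),
        hv (349 / 20000, 47713 / 12500) (by decide +kernel), ?_⟩
      push_cast
      linarith)
  rw [← sq_scaled]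
  push_cast at h
  exact h

/-- The gain bound for five cells with sorted labels. -/
lemma gain_five_sorted {w : Fin 5 → EuclideanSpace ℝ (Fin (5 - 1))} (hw : Crit w)
    (J : Fin 4 ↪ Fin 5) (hlong : ∀ a, 96 / 10000 ≤ ‖w (J a)‖ ^ 2)
    (hrest : ∀ i ∈ (Finset.univ.map J)ᶜ, ‖w i‖ ^ 2 < 85 / 10000)
    (hmax : ∀ a b, a ≠ b → -⟪w (J a), w (J b)⟫ ≤ -⟪w (J 0), w (J 1)⟫)
    (hcross : -⟪w (J 0), w (J 3)⟫ + -⟪w (J 1), w (J 3)⟫ ≤
      -⟪w (J 0), w (J 2)⟫ + -⟪w (J 1), w (J 2)⟫)
    {i : Fin 5} (hi : i ∈ (Finset.univ.map J)ᶜ) :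
    gain (centred w J) (w i) ≤ 3 / 8 * ‖w i‖ ^ 2 := by
  by_contra hgain
  have hc : ∀ a b : Fin 4, a ≠ b → 0 ≤ -⟪w (J a), w (J b)⟫ := fun a b h =>
    neg_nonneg.2 (hw.obtuse _ _ (J.injective.ne h))
  have X0 := hc 0 1 (by decide); have p0 := hc 0 2 (by decide); have q0 := hc 1 2 (by decide)
  have r0 := hc 0 3 (by decide); have s0 := hc 1 3 (by decide); have Y0 := hc 2 3 (by decide)
  have hp := hmax 0 2 (by decide); have hq := hmax 1 2 (by decide)
  have hY := hmax 2 3 (by decide)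
  have hprod := fun h => hgain (gain_five_of_products
    (by rw [finrank_euclideanSpace_fin]) (sum_centred w J) (hw.ne i) (hrest i hi).le
    hp hq hY p0 q0 r0 s0 Y0 hcross (quadFour_le w hw.sum hw.obtuse J hi) rfl h)
  simp only [not_or, not_le, imp_false] at hprod
  obtain ⟨hA, hB, hC⟩ := hprod
  have hN := fun a => five_bounds hw le_rfl (hlong a)
  have hd := five_dust hw (hrest i hi).le
  obtain ⟨hcompl, hsum⟩ := sum_five_eq w hw.sum J hi
  have hP := (cell_isPart w).sum_measure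
  rw [← Finset.sum_add_sum_compl (Finset.univ.map J), Finset.sum_map, hcompl, Finset.sum_singleton,
    Fin.sum_univ_four] at hP
  have hF := hw.big
  rw [← Finset.sum_add_sum_compl (Finset.univ.map J), Finset.sum_map, hcompl, Finset.sum_singleton,
    Fin.sum_univ_four, div_lt_iff₀ (by positivity)] at hF
  have hE := sq_sum_four fun b => w (J b)
  rw [hsum, norm_neg] at hE
  have hU0 : 0 < 2 * π := by positivity
  have hsc := fun {u : ℝ} (h : 0 ≤ u) => mul_nonneg hU0.le h
  have hle := fun {u u' : ℝ} (h : u ≤ u') => mul_le_mul_of_nonneg_left h hU0.le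
  have d := fun a => hsc (deg_four_le w hw.sum hw.obtuse J a)
  have d0 := d 0; have d1 := d 1; have d2 := d 2; have d3 := d 3
  simp only [Fin.sum_univ_four, real_inner_self_eq_norm_sq, real_inner_comm (w (J 0)) (w (J 1)),
    real_inner_comm (w (J 0)) (w (J 2)), real_inner_comm (w (J 0)) (w (J 3)),
    real_inner_comm (w (J 1)) (w (J 2)), real_inner_comm (w (J 1)) (w (J 3)),
    real_inner_comm (w (J 2)) (w (J 3))] at d0 d1 d2 d3
  have hcr := hle hcross
  have hr1 := hle (hrest i hi).le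
  have hE' := congrArg (2 * π * ·) hE
  have Y1 := hsc Y0; have r1 := hsc r0; have s1 := hsc s0
  have p1 := hsc p0; have q1 := hsc q0
  have hpi := pi_lt_d6
  refine four_five_absurd (hsc X0) Y1 p1 q1 r1 s1 ?_ (hle hY) (hle hp) (hle hq) ?_ ?_ ?_ ?_ ?_
    (hN 3).2.1 (hN 0).1 (hN 1).1 hA hB hC (Q := 2 * π * ‖w i‖ ^ 2) ?_ ?_ ?_
    (hN 2).2.2.1 (hN 3).2.2.1 (hN 0).2.2.2.1 (hN 1).2.2.2.1 (hN 0).2.2.2.2 (hN 1).2.2.2.2
  all_goals linarith

/-- Among five, a vector below `85/10000` gains at most three eighths of its squared length over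
the four longest. -/
theorem gain_rest_four_five {w : Fin 5 → EuclideanSpace ℝ (Fin (5 - 1))} (hw : Crit w)
    (J : Fin 4 ↪ Fin 5) (hJ : IsTop w J) (hL : Long (theta 5) w 4)
    (hrest : ∀ i ∈ (Finset.univ.map J)ᶜ, ‖w i‖ ^ 2 < 85 / 10000) :
    ∀ i ∈ (Finset.univ.map J)ᶜ,
      gain (centred w J) (w i) ≤ (1 - ((4 : ℕ) : ℝ)⁻¹) / 2 * ‖w i‖ ^ 2 := by
  intro i hi
  rw [show (1 - ((4 : ℕ) : ℝ)⁻¹) / 2 = 3 / 8 by norm_num]
  refine gain_four_wlog w J _ fun J' hmap hmem hmax hcross =>
    gain_five_sorted hw J' (fun a => ?_) (by rwa [hmap]) hmax hcross (by rwa [hmap])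
  obtain ⟨a', ha'⟩ := hmem a
  have h4 := hJ.le_of_lt_card (θ := theta 5 4) (hL 4 le_rfl le_rfl) a'
  rwa [theta_low (by norm_num) le_rfl, ← ha'] at h4

/-- Each short vector gains at most three eighths of its squared length over the four longest. -/
theorem gain_rest_four {k : ℕ} [NeZero k] {w : Fin k → EuclideanSpace ℝ (Fin (k - 1))}
    (hw : Crit w) (hk : 4 < k) (J : Fin 4 ↪ Fin k) (hJ : IsTop w J) (hL : Long (theta k) w 4)
    (hrest : ∀ i ∈ (Finset.univ.map J)ᶜ, ‖w i‖ ^ 2 < theta k 5) :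
    ∀ i ∈ (Finset.univ.map J)ᶜ,
      gain (centred w J) (w i) ≤ (1 - ((4 : ℕ) : ℝ)⁻¹) / 2 * ‖w i‖ ^ 2 := by
  rcases eq_or_lt_of_le (Nat.succ_le_of_lt hk) with rfl | h6
  · rw [theta_five_five] at hrest
    exact gain_rest_four_five hw J hJ hL hrest
  · exact gain_rest_four_six hw h6 J hJ hL hrest

end Vale.Agent.P226
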