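import Mathlib.Tactic

/-!
# Scalar certificates for a short vector next to three long ones

All squared lengths are scaled by `2π`, so that a critical family has total above `9/4`. The
quantity bounded below is four times the squared area of the centred triangle of the three long
vectors minus what the dust lemma needs, at the worst position of the other vectors.
-/

namespace Vale.Agent.P226

/-- What the dust lemma leaves at the worst position: `τ` bounds the short vector and `Q` the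
energy outside the triangle. -/
noncomputable def triSlack (n0 n1 n2 Q τ : ℝ) : ℝ :=
  (n0 + n1 + n2) ^ 2 - 2 * (n0 ^ 2 + n1 ^ 2 + n2 ^ 2)
    - Q * (10 * (n0 + n1 + n2) - 24 * n0) / 9 - 5 * Q ^ 2 / 9
    - 4 * τ * (20518 / 10000 + (2 * (n0 + n1 + n2) - 3 * n0 + Q) / 9)

lemma chord_le_of_mem {s a b : ℝ} (ha : a ≤ s) (hb : s ≤ b) : s ^ 2 + a * b ≤ (a + b) * s := by
  nlinarith [mul_nonneg (sub_nonneg.2 ha) (sub_nonneg.2 hb)]

private lemma triSlack_eq (n0 n1 n2 Q τ : ℝ) :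
    triSlack n0 n1 n2 Q τ = 2 * n0 * (n1 + n2) - n0 ^ 2 - (n2 - n1) ^ 2
      - Q * (10 * (n0 + (n1 + n2)) - 24 * n0) / 9 - 5 * Q ^ 2 / 9
      - 4 * τ * (20518 / 10000 + (2 * (n0 + (n1 + n2)) - 3 * n0 + Q) / 9) := by
  unfold triSlack; ring

private lemma five_low (n0 T d Q P : ℝ) (hlo : 0 ≤ n0) (hhi : n0 ≤ 2025 / 10000) (hd : 0 ≤ d)
    (hTd : T + d ≤ 2) (hQ0 : 0 ≤ Q) (hF : 9 / 4 ≤ n0 + T + Q) (hord : 2 * n0 + d ≤ T)
    (hQ : Q ≤ 12867 / 10000 * (1 - (n0 / (45 / 100) - 17545 / 100000) / (27323 / 10000) - P))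
    (c1 : (T - 684 / 1000) / (1508 / 1000) ≤ P) (c2 : (T - 170 / 1000) / (2262 / 1000) ≤ P)
    (c3 : ((T - d) / 2 - 85 / 1000) / (2262 / 1000) + ((T + d) / 2 - 342 / 1000) / (1508 / 1000)
      ≤ P) :
    0 ≤ 2 * n0 * T - n0 ^ 2 - d ^ 2 - Q * (10 * (n0 + T) - 24 * n0) / 9 - 5 * Q ^ 2 / 9
      - 4 * (60325 / 1000000) * (20518 / 10000 + (2 * (n0 + T) - 3 * n0 + Q) / 9) := by
  nlinarith

private lemma five_mid (n0 T d Q P : ℝ) (hlo : 2025 / 10000 ≤ n0) (hhi : n0 ≤ 3025 / 10000)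
    (hd : 0 ≤ d) (hTd : T + d ≤ 2) (hQ0 : 0 ≤ Q) (hF : 9 / 4 ≤ n0 + T + Q) (hord : 2 * n0 + d ≤ T)
    (hQ : Q ≤ 12867 / 10000 *
      (1 - ((n0 + 2475 / 10000) / (100 / 100) - 17545 / 100000) / (27323 / 10000) - P))
    (c1 : (T - 684 / 1000) / (1508 / 1000) ≤ P) (c2 : (T - 170 / 1000) / (2262 / 1000) ≤ P)
    (c3 : ((T - d) / 2 - 85 / 1000) / (2262 / 1000) + ((T + d) / 2 - 342 / 1000) / (1508 / 1000)
      ≤ P) :
    0 ≤ 2 * n0 * T - n0 ^ 2 - d ^ 2 - Q * (10 * (n0 + T) - 24 * n0) / 9 - 5 * Q ^ 2 / 9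
      - 4 * (60325 / 1000000) * (20518 / 10000 + (2 * (n0 + T) - 3 * n0 + Q) / 9) := by
  nlinarith

private lemma five_up (n0 T d Q P : ℝ) (hlo : 3025 / 10000 ≤ n0) (hhi : n0 ≤ 4225 / 10000)
    (hd : 0 ≤ d) (hTd : T + d ≤ 2) (hQ0 : 0 ≤ Q) (hF : 9 / 4 ≤ n0 + T + Q) (hord : 2 * n0 + d ≤ T)
    (hQ : Q ≤ 12867 / 10000 *
      (1 - ((n0 + 3575 / 10000) / (120 / 100) - 17545 / 100000) / (27323 / 10000) - P))
    (c1 : (T - 684 / 1000) / (1508 / 1000) ≤ P) (c2 : (T - 170 / 1000) / (2262 / 1000) ≤ P)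
    (c3 : ((T - d) / 2 - 85 / 1000) / (2262 / 1000) + ((T + d) / 2 - 342 / 1000) / (1508 / 1000)
      ≤ P) :
    0 ≤ 2 * n0 * T - n0 ^ 2 - d ^ 2 - Q * (10 * (n0 + T) - 24 * n0) / 9 - 5 * Q ^ 2 / 9
      - 4 * (60325 / 1000000) * (20518 / 10000 + (2 * (n0 + T) - 3 * n0 + Q) / 9) := by
  nlinarith

private lemma five_high (n0 T d Q P : ℝ) (hlo : 4225 / 10000 ≤ n0) (hhi : n0 ≤ 1)
    (hd : 0 ≤ d) (hTd : T + d ≤ 2) (hQ0 : 0 ≤ Q) (hF : 9 / 4 ≤ n0 + T + Q) (hord : 2 * n0 + d ≤ T)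
    (hQ : Q ≤ 12867 / 10000 *
      (1 - ((n0 + 65 / 100) / (165 / 100) - 17545 / 100000) / (27323 / 10000) - P))
    (c1 : (T - 684 / 1000) / (1508 / 1000) ≤ P) (c2 : (T - 170 / 1000) / (2262 / 1000) ≤ P)
    (c3 : ((T - d) / 2 - 85 / 1000) / (2262 / 1000) + ((T + d) / 2 - 342 / 1000) / (1508 / 1000)
      ≤ P) :
    0 ≤ 2 * n0 * T - n0 ^ 2 - d ^ 2 - Q * (10 * (n0 + T) - 24 * n0) / 9 - 5 * Q ^ 2 / 9
      - 4 * (60325 / 1000000) * (20518 / 10000 + (2 * (n0 + T) - 3 * n0 + Q) / 9) := by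
  nlinarith

private lemma four_low (n0 T d Q P p0 : ℝ) (hlo : 0 ≤ n0) (hhi : n0 ≤ 36 / 100) (hd : 0 ≤ d)
    (hTd : T + d ≤ 2) (hQ0 : 0 ≤ Q) (hQ1 : Q ≤ 13007 / 100000) (hF : 9 / 4 ≤ n0 + T + Q)
    (hord : 2 * n0 + d ≤ T) (hP : 7556 / 10000 * Q + p0 + P ≤ 1)
    (l0 : n0 / (60 / 100) ≤ 9 / 100 + 28 / 10 * p0) (l1 : n0 / (60 / 100) ≤ 25 / 100 + 2 * p0)
    (c1 : (T - 6434 / 10000) / (15 / 10) ≤ P) (c2 : (T - 818 / 10000) / (225 / 100) ≤ P)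
    (c3 : ((T - d) / 2 - 409 / 10000) / (225 / 100) + ((T + d) / 2 - 3217 / 10000) / (15 / 10)
      ≤ P) :
    0 ≤ 2 * n0 * T - n0 ^ 2 - d ^ 2 - Q * (10 * (n0 + T) - 24 * n0) / 9 - 5 * Q ^ 2 / 9
      - 4 * Q * (20518 / 10000 + (2 * (n0 + T) - 3 * n0 + Q) / 9) := by
  nlinarith

private lemma four_mid (n0 T d Q P p0 : ℝ) (hlo : 36 / 100 ≤ n0) (hhi : n0 ≤ 5625 / 10000)
    (hd : 0 ≤ d) (hTd : T + d ≤ 2) (hQ0 : 0 ≤ Q) (hQ1 : Q ≤ 13007 / 100000)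
    (hF : 9 / 4 ≤ n0 + T + Q) (hord : 2 * n0 + d ≤ T) (hP : 7556 / 10000 * Q + p0 + P ≤ 1)
    (l0 : (n0 + 45 / 100) / (135 / 100) ≤ 9 / 100 + 28 / 10 * p0)
    (l1 : (n0 + 45 / 100) / (135 / 100) ≤ 25 / 100 + 2 * p0)
    (c1 : (T - 6434 / 10000) / (15 / 10) ≤ P) (c2 : (T - 818 / 10000) / (225 / 100) ≤ P)
    (c3 : ((T - d) / 2 - 409 / 10000) / (225 / 100) + ((T + d) / 2 - 3217 / 10000) / (15 / 10)
      ≤ P) :
    0 ≤ 2 * n0 * T - n0 ^ 2 - d ^ 2 - Q * (10 * (n0 + T) - 24 * n0) / 9 - 5 * Q ^ 2 / 9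
      - 4 * Q * (20518 / 10000 + (2 * (n0 + T) - 3 * n0 + Q) / 9) := by
  nlinarith

private lemma four_high (n0 T d Q P p0 : ℝ) (hlo : 5625 / 10000 ≤ n0) (hhi : n0 ≤ 1)
    (hd : 0 ≤ d) (hTd : T + d ≤ 2) (hQ0 : 0 ≤ Q) (hQ1 : Q ≤ 13007 / 100000)
    (hF : 9 / 4 ≤ n0 + T + Q) (hord : 2 * n0 + d ≤ T) (hP : 7556 / 10000 * Q + p0 + P ≤ 1)
    (l0 : (n0 + 75 / 100) / (175 / 100) ≤ 9 / 100 + 28 / 10 * p0)
    (l1 : (n0 + 75 / 100) / (175 / 100) ≤ 25 / 100 + 2 * p0)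
    (c1 : (T - 6434 / 10000) / (15 / 10) ≤ P) (c2 : (T - 818 / 10000) / (225 / 100) ≤ P)
    (c3 : ((T - d) / 2 - 409 / 10000) / (225 / 100) + ((T + d) / 2 - 3217 / 10000) / (15 / 10)
      ≤ P) :
    0 ≤ 2 * n0 * T - n0 ^ 2 - d ^ 2 - Q * (10 * (n0 + T) - 24 * n0) / 9 - 5 * Q ^ 2 / 9
      - 4 * Q * (20518 / 10000 + (2 * (n0 + T) - 3 * n0 + Q) / 9) := by
  nlinarith

/-- At least five cells: one Gaussian line for the shortest of the three, two linear majorants of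
the square for the others, and the linear bound of the short cells. -/
theorem triSlack_five {s n1 n2 Q p0 p1 p2 : ℝ} (hs : 0 ≤ s) (h1 : s ^ 2 ≤ n1) (h2 : s ^ 2 ≤ n2)
    (hs1 : s ≤ 1) (hn1 : n1 ≤ 1) (hn2 : n2 ≤ 1) (hQ0 : 0 ≤ Q)
    (hF : 9 / 4 ≤ s ^ 2 + n1 + n2 + Q) (hQ : Q ≤ 12867 / 10000 * (1 - p0 - p1 - p2))
    (l0 : s ≤ 17545 / 100000 + 27323 / 10000 * p0)
    (a1 : n1 ≤ 342 / 1000 + 1508 / 1000 * p1) (b1 : n1 ≤ 85 / 1000 + 2262 / 1000 * p1)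
    (a2 : n2 ≤ 342 / 1000 + 1508 / 1000 * p2) (b2 : n2 ≤ 85 / 1000 + 2262 / 1000 * p2) :
    0 ≤ triSlack (s ^ 2) n1 n2 Q (60325 / 1000000) := by
  wlog h : n1 ≤ n2 generalizing n1 n2 p1 p2
  · have := this h2 h1 hn2 hn1 (by linarith) (by linarith) a2 b2 a1 b1 (le_of_not_ge h)
    unfold triSlack at this ⊢
    linarith
  rw [triSlack_eq]
  rcases le_total s (45 / 100) with c | c
  · have := chord_le_of_mem hs c
    have hn : s ^ 2 ≤ 2025 / 10000 := by nlinarith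
    exact five_low (s ^ 2) (n1 + n2) (n2 - n1) Q (p1 + p2) (sq_nonneg s) hn (by linarith)
      (by linarith) hQ0 (by linarith) (by linarith) (by linarith) (by linarith) (by linarith)
      (by linarith)
  rcases le_total s (55 / 100) with e | e
  · have := chord_le_of_mem c e
    exact five_mid (s ^ 2) (n1 + n2) (n2 - n1) Q (p1 + p2) (by nlinarith) (by nlinarith)
      (by linarith) (by linarith) hQ0 (by linarith) (by linarith) (by linarith) (by linarith)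
      (by linarith) (by linarith)
  rcases le_total s (65 / 100) with g | g
  · have := chord_le_of_mem e g
    exact five_up (s ^ 2) (n1 + n2) (n2 - n1) Q (p1 + p2) (by nlinarith) (by nlinarith)
      (by linarith) (by linarith) hQ0 (by linarith) (by linarith) (by linarith) (by linarith)
      (by linarith) (by linarith)
  · have := chord_le_of_mem g hs1
    exact five_high (s ^ 2) (n1 + n2) (n2 - n1) Q (p1 + p2) (by nlinarith) (by nlinarith)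
      (by linarith) (by linarith) hQ0 (by linarith) (by linarith) (by linarith) (by linarith)
      (by linarith) (by linarith)

/-- Four cells: the cap bound in space. -/
theorem triSlack_four {s n1 n2 Q p0 p1 p2 pv : ℝ} (hs : 0 ≤ s) (h1 : s ^ 2 ≤ n1) (h2 : s ^ 2 ≤ n2)
    (hs1 : s ≤ 1) (hn1 : n1 ≤ 1) (hn2 : n2 ≤ 1) (hQ0 : 0 ≤ Q) (hQ1 : Q ≤ 13007 / 100000)
    (hF : 9 / 4 ≤ s ^ 2 + n1 + n2 + Q) (hP : p0 + p1 + p2 + pv ≤ 1) (hv : 7556 / 10000 * Q ≤ pv)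
    (l0 : s ≤ 9 / 100 + 28 / 10 * p0) (l1 : s ≤ 25 / 100 + 2 * p0)
    (a1 : n1 ≤ 3217 / 10000 + 15 / 10 * p1) (b1 : n1 ≤ 409 / 10000 + 225 / 100 * p1)
    (a2 : n2 ≤ 3217 / 10000 + 15 / 10 * p2) (b2 : n2 ≤ 409 / 10000 + 225 / 100 * p2) :
    0 ≤ triSlack (s ^ 2) n1 n2 Q Q := by
  wlog h : n1 ≤ n2 generalizing n1 n2 p1 p2
  · have := this h2 h1 hn2 hn1 (by linarith) (by linarith) a2 b2 a1 b1 (le_of_not_ge h)
    unfold triSlack at this ⊢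
    linarith
  rw [triSlack_eq]
  rcases le_total s (60 / 100) with c | c
  · have := chord_le_of_mem hs c
    have hn : s ^ 2 ≤ 36 / 100 := by nlinarith
    exact four_low (s ^ 2) (n1 + n2) (n2 - n1) Q (p1 + p2) p0 (sq_nonneg s) hn (by linarith)
      (by linarith) hQ0 hQ1 (by linarith) (by linarith) (by linarith) (by linarith) (by linarith)
      (by linarith) (by linarith) (by linarith)
  rcases le_total s (75 / 100) with e | e
  · have := chord_le_of_mem c e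
    exact four_mid (s ^ 2) (n1 + n2) (n2 - n1) Q (p1 + p2) p0 (by nlinarith) (by nlinarith)
      (by linarith) (by linarith) hQ0 hQ1 (by linarith) (by linarith) (by linarith) (by linarith)
      (by linarith) (by linarith) (by linarith) (by linarith)
  · have := chord_le_of_mem e hs1
    exact four_high (s ^ 2) (n1 + n2) (n2 - n1) Q (p1 + p2) p0 (by nlinarith) (by nlinarith)
      (by linarith) (by linarith) hQ0 hQ1 (by linarith) (by linarith) (by linarith) (by linarith)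
      (by linarith) (by linarith) (by linarith) (by linarith)

end Vale.Agent.P226
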