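import Vale.Agent.P226.Core
import Vale.Agent.P226.DustLemma
import Vale.Agent.P226.CapLines
import Vale.Agent.P226.CapThree
import Vale.Agent.P226.ThreeScalar

/-!
# A short vector gains little over the three longest

In a critical family whose vectors outside the three longest have squared length below `207/10000`
(four cells) or `96/10000` (more cells), each of those gains at most a third of its squared length
over the centred triangle. The dust lemma needs a lower bound on the area of the triangle; the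
obtuse angles bound its worst position, and the moment bounds by measures the squared lengths.
-/

namespace Vale.Agent.P226

open MeasureTheory ProbabilityTheory Real Set Finset Module
open scoped RealInnerProductSpace

/-- The scaled tail integral from the series bounds. -/
lemma scaled_psiTail_le {t e L : ℝ} (ht : 0 ≤ t) (he : expTay 13 (t ^ 2 / 2) ≤ e)
    (hL : L ≤ √(2 * π)) : √(2 * π) * psiTail t ≤ e - t * (L / 2 - gaussPrim t) := by
  have e1 : gaussianPDFReal 0 1 t = (√(2 * π))⁻¹ * exp (-t ^ 2 / 2) := by simp [gaussianPDFReal]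
  have e2 : ∫ r in (0)..t, gaussianPDFReal 0 1 r =
      (√(2 * π))⁻¹ * ∫ r in (0)..t, exp (-r ^ 2 / 2) := by
    rw [← intervalIntegral.integral_const_mul]
    simp [gaussianPDFReal]
  have e3 : √(2 * π) * psiTail t =
      exp (-t ^ 2 / 2) - t * (√(2 * π) / 2 - ∫ r in (0)..t, exp (-r ^ 2 / 2)) := by
    rw [psiTail_eq ht, e1, e2]
    field_simp
  have := exp_neg_le_tay (show 0 ≤ t ^ 2 / 2 by positivity)
  rw [← neg_div] at this
  have := mul_le_mul_of_nonneg_left (integral_gauss_le ht) ht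
  have := mul_le_mul_of_nonneg_left hL ht
  rw [e3]
  linarith

/-- From `1` on, the level times the tail integral decreases. -/
lemma mul_psiTail_le {t₀ t : ℝ} (h1 : 1 ≤ t₀) (h : t₀ ≤ t) :
    t * psiTail t ≤ t₀ * psiTail t₀ := by
  set d := t - t₀ with hd
  have hd0 : 0 ≤ d := sub_nonneg.2 h
  have hid : Integrable (fun s : ℝ => s) (gaussianReal 0 1) :=
    (memLp_id_gaussianReal 1).integrable le_rfl
  have hpdf : ∀ u : ℝ, gaussianPDFReal 0 1 u = (√(2 * π))⁻¹ * exp (-u ^ 2 / 2) := fun u => by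
    simp [gaussianPDFReal]
  have key : psiTail t ≤ exp (-(t₀ * d)) * psiTail t₀ := by
    rw [psiTail, psiTail, ← integral_const_mul,
      integral_gaussianReal_eq_integral_smul one_ne_zero,
      integral_gaussianReal_eq_integral_smul one_ne_zero,
      ← integral_add_right_eq_self
        (fun s => gaussianPDFReal 0 1 s • max (s - t) 0) d]
    have hint : Integrable (fun u => gaussianPDFReal 0 1 u *
        (exp (-(t₀ * d)) * max (u - t₀) 0)) volume := by
      have h := ((hid.sub (integrable_const t₀)).pos_part).const_mul (exp (-(t₀ * d)))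
      rw [gaussianReal_of_var_ne_zero 0 one_ne_zero,
        integrable_withDensity_iff_integrable_smul' (measurable_gaussianPDF 0 1)
          (ae_of_all _ fun _ => gaussianPDF_lt_top)] at h
      simpa [toReal_gaussianPDF, smul_eq_mul] using h
    refine integral_mono_of_nonneg
      (ae_of_all _ fun u => smul_nonneg (gaussianPDFReal_nonneg 0 1 _) (le_max_right _ _))
      hint (ae_of_all _ fun u => ?_)
    simp only [smul_eq_mul, show u + d - t = u - t₀ by rw [hd]; ring]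
    rcases le_total u t₀ with hu | hu
    · simp [max_eq_right (sub_nonpos.2 hu)]
    · rw [hpdf, hpdf, ← mul_assoc, mul_assoc _ (exp _) (exp _), ← exp_add]
      refine mul_le_mul_of_nonneg_right ?_ (le_max_right _ _)
      refine mul_le_mul_of_nonneg_left (exp_le_exp.2 ?_) (by positivity)
      nlinarith [mul_le_mul_of_nonneg_right hu hd0]
  have hexp : t ≤ t₀ * exp (t₀ * d) := by
    refine le_trans ?_ (mul_le_mul_of_nonneg_left (add_one_le_exp _) (zero_le_one.trans h1))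
    nlinarith [mul_le_mul_of_nonneg_right (show 1 ≤ t₀ * t₀ by nlinarith) hd0]
  have h0 : 0 ≤ psiTail t₀ := integral_nonneg fun s => le_max_right _ _
  calc t * psiTail t ≤ t * (exp (-(t₀ * d)) * psiTail t₀) :=
        mul_le_mul_of_nonneg_left key (by linarith)
    _ ≤ t₀ * exp (t₀ * d) * (exp (-(t₀ * d)) * psiTail t₀) :=
        mul_le_mul_of_nonneg_right hexp (mul_nonneg (exp_nonneg _) h0)
    _ = t₀ * psiTail t₀ := by
        rw [show t₀ * exp (t₀ * d) * (exp (-(t₀ * d)) * psiTail t₀) =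
          t₀ * (exp (t₀ * d) * exp (-(t₀ * d))) * psiTail t₀ by ring, ← exp_add]
        simp

section measure

variable {E : Type*} [NormedAddCommGroup E] [InnerProductSpace ℝ E] [FiniteDimensional ℝ E]
  [MeasurableSpace E] [BorelSpace E]

private lemma two_pi_sqrt : (250662 / 100000 : ℝ) ≤ √(2 * π) ∧ √(2 * π) ≤ 250663 / 100000 := by
  have := pi_gt_d6
  have := pi_lt_d6
  exact ⟨le_sqrt_of_sq_le (by linarith), sqrt_le_iff.2 ⟨by norm_num, by linarith⟩⟩

/-- A short moment has measure at least its scaled square over `12867/10000`. -/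
lemma dust_measure {X : Set E} (hm : MeasurableSet X)
    (hσ : √(2 * π) * ‖mom X‖ ≤ 2456 / 10000) :
    (√(2 * π) * ‖mom X‖) ^ 2 ≤ 12867 / 10000 * (stdGaussian E).real X := by
  obtain ⟨hL, hU⟩ := two_pi_sqrt
  set W := √(2 * π) with hW
  set σ := W * ‖mom X‖ with hσ'
  rcases eq_or_ne σ 0 with h0 | h0
  · rw [h0]; simp
  have hW0 : 0 < W := by positivity
  have hσ0 : 0 < σ := lt_of_le_of_ne (by positivity) (Ne.symm h0)
  by_contra! hc
  set t := 4 / 5 * (12867 / 10000) / (W * σ) with ht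
  have hte : t * (W * σ) = 4 / 5 * (12867 / 10000) := div_mul_cancel₀ _ (by positivity)
  have ht0 : 1672 / 1000 ≤ t := by
    rw [ht, le_div_iff₀ (by positivity)]
    nlinarith [mul_le_mul hU hσ hσ0.le (by norm_num : (0:ℝ) ≤ 250663 / 100000)]
  have htp : 0 < t := lt_of_lt_of_le (by norm_num) ht0
  have h := mul_le_mul_of_nonneg_left (norm_mom_le_tail hm t) hW0.le
  rw [← hσ'] at h
  have hψ : W * psiTail (1672 / 1000) ≤ 491 / 10000 := by
    refine (scaled_psiTail_le (e := 247144 / 1000000) (by norm_num) ?_ hL).trans ?_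
    · norm_num [expTay, Finset.sum_range_succ, Nat.factorial]
    · norm_num [gaussPrim, Finset.sum_range_succ, Nat.factorial]
  have hmono := mul_le_mul_of_nonneg_left
    (mul_psiTail_le (by norm_num : (1:ℝ) ≤ 1672 / 1000) ht0) hW0.le
  have h1 : W * t * (stdGaussian E).real X < 4 / 5 * σ := by
    have h' := mul_lt_mul_of_pos_left hc (show 0 < W * t by positivity)
    have h'' : W * t * σ ^ 2 = 4 / 5 * (12867 / 10000) * σ := by rw [← hte]; ring
    rw [h''] at h'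
    nlinarith
  have h2 : σ / 5 < W * psiTail t := by nlinarith
  have h3 := mul_lt_mul_of_pos_left h2 htp
  have h4 : 4 / 5 * (12867 / 10000) / 5 ≤ W * (t * (σ / 5)) := by rw [← hte]; exact le_of_eq (by ring)
  nlinarith

/-- A line for the shortest of three long moments and two majorants of the square. -/
lemma iso_majorants {X : Set E} (hm : MeasurableSet X) :
    let σ := √(2 * π) * ‖mom X‖
    let p := (stdGaussian E).real X
    σ ≤ 1 ∧ σ ≤ 17545 / 100000 + 27323 / 10000 * p ∧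
      σ ^ 2 ≤ 342 / 1000 + 1508 / 1000 * p ∧ σ ^ 2 ≤ 85 / 1000 + 2262 / 1000 * p := by
  intro σ p
  obtain ⟨hL, hU⟩ := two_pi_sqrt
  have hp1 : p ≤ 1 := measureReal_le_one
  have hp0 : 0 ≤ p := measureReal_nonneg
  have hσ : 0 ≤ σ := by positivity
  have line : ∀ (t e a b : ℝ), 0 ≤ t → expTay 13 (t ^ 2 / 2) ≤ e →
      e - t * (250662 / 100000 / 2 - gaussPrim t) ≤ a → 250663 / 100000 * t ≤ b →
      σ ≤ a + b * p := fun t e a b ht he ha hb => iso_line hm ht he hL hU ha hb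
  have l0 : σ ≤ 1 + 0 * p := by
    refine line 0 1 1 0 le_rfl ?_ ?_ ?_ <;> norm_num [expTay, gaussPrim, Finset.sum_range_succ]
  have l3 : σ ≤ 66868 / 100000 + 75199 / 100000 * p := by
    refine line (3 / 10) (956000 / 1000000) _ _ (by norm_num) ?_ ?_ ?_ <;>
      norm_num [expTay, gaussPrim, Finset.sum_range_succ, Nat.factorial]
  have l4 : σ ≤ 57763 / 100000 + 100266 / 100000 * p := by
    refine line (4 / 10) (923118 / 1000000) _ _ (by norm_num) ?_ ?_ ?_ <;>
      norm_num [expTay, gaussPrim, Finset.sum_range_succ, Nat.factorial]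
  have l55 : σ ≤ 45823 / 100000 + 137865 / 100000 * p := by
    refine line (55 / 100) (859633 / 1000000) _ _ (by norm_num) ?_ ?_ ?_ <;>
      norm_num [expTay, gaussPrim, Finset.sum_range_succ, Nat.factorial]
  have l9 : σ ≤ 25175 / 100000 + 225597 / 100000 * p := by
    refine line (9 / 10) (666977 / 1000000) _ _ (by norm_num) ?_ ?_ ?_ <;>
      norm_num [expTay, gaussPrim, Finset.sum_range_succ, Nat.factorial]
  have l109 : σ ≤ 17545 / 100000 + 27323 / 10000 * p := by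
    refine line (109 / 100) (552088 / 1000000) _ _ (by norm_num) ?_ ?_ ?_ <;>
      norm_num [expTay, gaussPrim, Finset.sum_range_succ, Nat.factorial]
  refine ⟨by linarith, l109, ?_, ?_⟩
  · have h := sq_le_of_chain (α := 342 / 1000) (β := 1508 / 1000) (lo := 0) hσ hp1
      (C := [((57763 / 100000, 100266 / 100000), 227 / 625),
        ((66868 / 100000, 75199 / 100000), 2203 / 5000), ((1, 0), 1)])
      (by decide +kernel) (by exact_mod_cast hp0) (by simp) (by
        simp only [List.forall_mem_cons, List.not_mem_nil, false_implies, implies_true, and_true]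
        push_cast
        exact ⟨l4, l3, l0⟩)
    push_cast at h
    exact h
  · have h := sq_le_of_chain (α := 85 / 1000) (β := 2262 / 1000) (lo := 0) hσ hp1
      (C := [((25175 / 100000, 225597 / 100000), 1177 / 5000),
        ((45823 / 100000, 137865 / 100000), 397 / 1250),
        ((57763 / 100000, 100266 / 100000), 4213 / 10000), ((1, 0), 1)])
      (by decide +kernel) (by exact_mod_cast hp0) (by simp) (by
        simp only [List.forall_mem_cons, List.not_mem_nil, false_implies, implies_true, and_true]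
        push_cast
        exact ⟨l9, l55, l4, l0⟩)
    push_cast at h
    exact h

end measure

/-- The majorants from the cap bound in space. -/
lemma cap_majorants {σ p : ℝ} (hσ : 0 ≤ σ) (h0 : 0 ≤ p) (h1 : p ≤ 1)
    (h : σ ≤ 4 * p * (1 - p)) :
    σ ≤ 1 ∧ σ ≤ 9 / 100 + 28 / 10 * p ∧ σ ≤ 25 / 100 + 2 * p ∧
      σ ^ 2 ≤ 3217 / 10000 + 15 / 10 * p ∧ σ ^ 2 ≤ 409 / 10000 + 225 / 100 * p := by
  have hs := pow_le_pow_left₀ hσ h 2
  refine ⟨by nlinarith [sq_nonneg (2 * p - 1)], by nlinarith [sq_nonneg (p - 15 / 100)],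
    by nlinarith [sq_nonneg (p - 1 / 4)], ?_, ?_⟩
  · exact hs.trans (by
      nlinarith [mul_nonneg (sq_nonneg (p - 403 / 1000)) h0,
        mul_nonneg (sq_nonneg (p - 403 / 1000)) (sub_nonneg.2 h1), sq_nonneg (p - 403 / 1000),
        mul_nonneg (mul_nonneg (sq_nonneg (p - 403 / 1000)) h0) (sub_nonneg.2 h1)])
  · exact hs.trans (by
      nlinarith [mul_nonneg (sq_nonneg (p - 344 / 1000)) h0,
        mul_nonneg (sq_nonneg (p - 344 / 1000)) (sub_nonneg.2 h1), sq_nonneg (p - 344 / 1000),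
        mul_nonneg (mul_nonneg (sq_nonneg (p - 344 / 1000)) h0) (sub_nonneg.2 h1)])

/-- A short cap in space has measure at least `7556/10000` of its scaled square. -/
lemma cap_dust {σ p : ℝ} (hσ : 0 ≤ σ) (hσ1 : σ ≤ 36065 / 100000) (h0 : 0 ≤ p)
    (h : σ ≤ 4 * p * (1 - p)) : 7556 / 10000 * σ ^ 2 ≤ p := by
  by_contra! hc
  set q := 7556 / 10000 * σ ^ 2 with hq
  have hq1 : q ≤ 1 / 10 := by nlinarith
  have h3 : 4 * p * (1 - p) < 4 * q * (1 - q) := by nlinarith
  have h4 : 4 * q * (1 - q) ≤ σ := by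
    have : σ ^ 2 ≤ 36065 / 100000 * σ := by nlinarith
    nlinarith
  linarith

/-- The slack at the worst position bounds the area at every position. -/
lemma area_of_triSlack {n0 n1 n2 r0 r1 r2 Q τ : ℝ} (hr0 : 0 ≤ r0) (hr1 : 0 ≤ r1) (hr2 : 0 ≤ r2)
    (hE : r0 + r1 + r2 ≤ Q) (hτ : 0 ≤ τ) (h0 : 0 ≤ n0) (h1 : n0 ≤ n1) (h2 : n0 ≤ n2)
    (h : 0 ≤ triSlack n0 n1 n2 Q τ) :
    let u0 := n0 - 2 * r0 / 3 + (r0 + r1 + r2) / 9
    let u1 := n1 - 2 * r1 / 3 + (r0 + r1 + r2) / 9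
    let u2 := n2 - 2 * r2 / 3 + (r0 + r1 + r2) / 9
    ∀ x, x = u0 ∨ x = u1 ∨ x = u2 →
      4 * τ * (20518 / 10000 + (2 * (u0 + u1 + u2) - 3 * x) / 9) ≤
        (u0 + u1 + u2) ^ 2 - 2 * (u0 ^ 2 + u1 ^ 2 + u2 ^ 2) := by
  intro u0 u1 u2 x hx
  set S := r0 + r1 + r2 with hS
  have e1 : r0 * n0 + r1 * n0 + r2 * n0 ≤ r0 * n0 + r1 * n1 + r2 * n2 := by nlinarith
  have e2 : r0 ^ 2 + r1 ^ 2 + r2 ^ 2 ≤ S ^ 2 := by nlinarith
  have e3 : 0 ≤ (Q - S) * ((10 * (n0 + n1 + n2) - 24 * n0) / 9 + 5 * (Q + S) / 9) := by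
    refine mul_nonneg (by linarith) ?_
    linarith
  have hxb : 2 * (u0 + u1 + u2) - 3 * x ≤ 2 * (n0 + n1 + n2) - 3 * n0 + Q := by
    rcases hx with rfl | rfl | rfl <;> simp only [u0, u1, u2] <;> linarith
  have e4 := mul_le_mul_of_nonneg_left (div_le_div_of_nonneg_right hxb (by norm_num : (0:ℝ) ≤ 9))
    (show 0 ≤ 4 * τ by linarith)
  have e5 : (u0 + u1 + u2) ^ 2 - 2 * (u0 ^ 2 + u1 ^ 2 + u2 ^ 2) =
      (n0 + n1 + n2) ^ 2 - 2 * (n0 ^ 2 + n1 ^ 2 + n2 ^ 2)
        - S * (10 * (n0 + n1 + n2) - 24 * n0) / 9 - 5 * S ^ 2 / 9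
        + 8 / 9 * (S ^ 2 - (r0 ^ 2 + r1 ^ 2 + r2 ^ 2))
        + 8 / 3 * (r0 * n0 + r1 * n1 + r2 * n2 - (r0 * n0 + r1 * n0 + r2 * n0)) := by
    simp only [u0, u1, u2, hS]; ring
  simp only [triSlack] at h
  linarith

/-- The area bound at every position, from the slack at the shortest of the three. -/
lemma area_all {n r u : Fin 3 → ℝ} {Q τ : ℝ} (hn : ∀ b, 0 ≤ n b) (hr : ∀ b, 0 ≤ r b)
    (hE : r 0 + r 1 + r 2 ≤ Q) (hτ : 0 ≤ τ)
    (hu : ∀ b, u b = n b - 2 * r b / 3 + (r 0 + r 1 + r 2) / 9)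
    (hs : ∀ a, (∀ b, n a ≤ n b) → 0 ≤ triSlack (n a) (n (a + 1)) (n (a + 2)) Q τ) (x : Fin 3) :
    4 * τ * (20518 / 10000 + (2 * ∑ b, u b - 3 * u x) / 9) ≤
      (∑ b, u b) ^ 2 - 2 * ∑ b, u b ^ 2 := by
  obtain ⟨a, -, ha⟩ := Finset.exists_min_image (Finset.univ : Finset (Fin 3)) n
    Finset.univ_nonempty
  have ha' : ∀ b, n a ≤ n b := fun b => ha b (Finset.mem_univ b)
  have e : r a + r (a + 1) + r (a + 2) = r 0 + r 1 + r 2 := by
    fin_cases a <;> simp <;> ring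
  have h := area_of_triSlack (hr a) (hr (a + 1)) (hr (a + 2)) (e.trans_le hE) hτ (hn a) (ha' _)
    (ha' _) (hs a ha')
  simp only [e, ← hu] at h
  have hx : x = a ∨ x = a + 1 ∨ x = a + 2 :=
    (by decide : ∀ a x : Fin 3, x = a ∨ x = a + 1 ∨ x = a + 2) a x
  have h' := h (u x) (hx.imp (congrArg u) (Or.imp (congrArg u) (congrArg u)))
  simp only [Fin.sum_univ_three]
  fin_cases a <;> simp at h' <;> linarith

variable {E : Type*} [NormedAddCommGroup E] [InnerProductSpace ℝ E] [FiniteDimensional ℝ E]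
  [MeasurableSpace E] [BorelSpace E] {k : ℕ}

omit [FiniteDimensional ℝ E] [MeasurableSpace E] [BorelSpace E] in
/-- Twice the sum less three times one of three centred squares is the opposite side squared. -/
lemma opposite_side_nonneg (W : Fin 3 → E) (hW : ∑ a, W a = 0) (x : Fin 3) :
    0 ≤ 2 * ∑ b, ‖W b‖ ^ 2 - 3 * ‖W x‖ ^ 2 := by
  have e : ∀ p q r : E, p + q + r = 0 → ‖p - q‖ ^ 2 = 2 * (‖p‖ ^ 2 + ‖q‖ ^ 2) - ‖r‖ ^ 2 :=
    fun p q r h => by
      rw [eq_neg_of_add_eq_zero_right h, norm_neg, norm_sub_sq_real, norm_add_sq_real]; ring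
  simp only [Fin.sum_univ_three] at hW ⊢
  have h0 := e (W 1) (W 2) (W 0) (by rw [← hW]; abel)
  have h1 := e (W 0) (W 2) (W 1) (by rw [← hW]; abel)
  have h2 := e (W 0) (W 1) (W 2) hW
  have := sq_nonneg ‖W 1 - W 2‖
  have := sq_nonneg ‖W 0 - W 2‖
  have := sq_nonneg ‖W 0 - W 1‖
  fin_cases x <;> simp <;> linarith

/-- The dust lemma under a lower bound on the area of the triangle. -/
lemma gain_le_third (W : Fin 3 → E) (hW : ∑ a, W a = 0) (v : E) (hv : v ≠ 0)
    (hb : ∀ a, ⟪W a, v⟫ ≤ ‖v‖ ^ 2 / 3)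
    (harea : ∀ a, 4 * ‖v‖ ^ 2 * (81 / (8 * π ^ 3) +
        (2 * ∑ c, ‖W c‖ ^ 2 - 3 * ‖W a‖ ^ 2) / 9) ≤
      (∑ c, ‖W c‖ ^ 2) ^ 2 - 2 * ∑ c, (‖W c‖ ^ 2) ^ 2) :
    gain W v ≤ 1 / 3 * ‖v‖ ^ 2 := by
  have hn : 0 < ‖v‖ ^ 2 := by positivity
  simp only [Fin.sum_univ_three] at harea hW
  have h0 : W 0 = -(W 1 + W 2) := eq_neg_of_add_eq_zero_left (by rw [← add_assoc]; exact hW)
  have eg : ‖W 0‖ ^ 2 = ‖W 1‖ ^ 2 + 2 * ⟪W 1, W 2⟫ + ‖W 2‖ ^ 2 := by
    rw [h0, norm_neg, norm_add_sq_real]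
  have eb : ⟪W 0, v⟫ = -(⟪W 1, v⟫ + ⟪W 2, v⟫) := by
    rw [h0, inner_neg_left, inner_add_left]
  set a : Fin 2 ↪ Fin 3 := Fin.succEmb 2
  have hdet : (Matrix.gram ℝ (Fin.cons v (W ∘ a) : Fin 3 → E)).det =
      ‖v‖ ^ 2 * (‖W 1‖ ^ 2 * ‖W 2‖ ^ 2 - ⟪W 1, W 2⟫ ^ 2) -
        (‖W 2‖ ^ 2 * ⟪W 1, v⟫ ^ 2 - 2 * ⟪W 1, W 2⟫ * ⟪W 1, v⟫ * ⟪W 2, v⟫ +
          ‖W 1‖ ^ 2 * ⟪W 2, v⟫ ^ 2) := by
    have a1 : (Fin.cons v (W ∘ a) : Fin 3 → E) 1 = W 1 := rfl
    have a2 : (Fin.cons v (W ∘ a) : Fin 3 → E) 2 = W 2 := rfl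
    rw [Matrix.det_fin_three]
    simp only [Matrix.gram_apply, Fin.cons_zero, a1, a2, real_inner_self_eq_norm_sq,
      real_inner_comm v (W 1), real_inner_comm v (W 2), real_inner_comm (W 2) (W 1)]
    ring
  set u0 := ‖W 0‖ ^ 2
  set u1 := ‖W 1‖ ^ 2
  set u2 := ‖W 2‖ ^ 2
  set n := ‖v‖ ^ 2 with hn'
  set B0 := n / 3 - ⟪W 0, v⟫
  set B1 := n / 3 - ⟪W 1, v⟫
  set B2 := n / 3 - ⟪W 2, v⟫
  have hB0 : 0 ≤ B0 := sub_nonneg.2 (hb 0)
  have hB1 : 0 ≤ B1 := sub_nonneg.2 (hb 1)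
  have hB2 : 0 ≤ B2 := sub_nonneg.2 (hb 2)
  have hB : B0 + B1 + B2 = n := by simp only [B0, B1, B2, eb]; ring
  have hdet' : (81 / (8 * π ^ 3)) * n ^ 2 ≤
      (Matrix.gram ℝ (Fin.cons v (W ∘ a) : Fin 3 → E)).det := by
    rw [hdet]
    have p0 := mul_le_mul_of_nonneg_left (harea 0) hB0
    have p1 := mul_le_mul_of_nonneg_left (harea 1) hB1
    have p2 := mul_le_mul_of_nonneg_left (harea 2) hB2
    have q : 0 ≤ u0 * (B1 * B2) + u1 * (B0 * B2) + u2 * (B0 * B1) := by positivity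
    rw [show ‖W 0‖ ^ 2 = u0 from rfl] at p0
    rw [show ‖W 1‖ ^ 2 = u1 from rfl] at p1
    rw [show ‖W 2‖ ^ 2 = u2 from rfl] at p2
    have eg' : u0 = u1 + 2 * ⟪W 1, W 2⟫ + u2 := eg
    generalize ⟪W 1, W 2⟫ = g at eg' ⊢
    simp only [eg'] at p0 p1 p2 q
    have hB0' : B0 = n / 3 + ⟪W 1, v⟫ + ⟪W 2, v⟫ := by simp only [B0, eb]; ring
    simp only [hB0'] at p0 p1 p2 q hB
    simp only [B1, B2] at p0 p1 p2 q
    linarith
  have hpos : 0 < (Matrix.gram ℝ (Fin.cons v (W ∘ a) : Fin 3 → E)).det :=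
    lt_of_lt_of_le (by positivity) hdet'
  have h := gain_le_dust W (by rw [Fin.sum_univ_three]; exact hW) a v hpos.ne'
  refine h.trans ((div_le_iff₀ (sqrt_pos.2 hpos)).2 ?_)
  have hK : 27 * dustK 2 * n ≤ √(Matrix.gram ℝ (Fin.cons v (W ∘ a) : Fin 3 → E)).det := by
    refine le_sqrt_of_sq_le (le_trans (le_of_eq ?_) hdet')
    rw [dustK_two, mul_pow, mul_pow, div_pow, ← pow_mul, inv_pow,
      show (√(2 * π)) ^ (3 * 2) = (√(2 * π) ^ 2) ^ 3 by ring, sq_sqrt (by positivity)]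
    field_simp
    ring
  have := mul_le_mul_of_nonneg_left hK (show 0 ≤ n / 3 by positivity)
  rw [show ‖v‖ ^ (2 + 2) = n ^ 2 by rw [hn']; ring]
  push_cast
  linarith

/-- The area bound from the scaled slack. -/
lemma gain_le_of_triSlack (z : Fin k → E) (hsum : ∑ i, z i = 0)
    (hobt : ∀ i j, i ≠ j → ⟪z i, z j⟫ ≤ 0) (J : Fin 3 ↪ Fin k) {i : Fin k}
    (hi : i ∈ (Finset.univ.map J)ᶜ) (hne : z i ≠ 0) {τ : ℝ} (hτ : 2 * π * ‖z i‖ ^ 2 ≤ τ)
    (hs : ∀ a, (∀ b, ‖z (J a)‖ ^ 2 ≤ ‖z (J b)‖ ^ 2) →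
      0 ≤ triSlack (2 * π * ‖z (J a)‖ ^ 2) (2 * π * ‖z (J (a + 1))‖ ^ 2)
        (2 * π * ‖z (J (a + 2))‖ ^ 2) (2 * π * restSq z J) τ) :
    gain (centred z J) (z i) ≤ 1 / 3 * ‖z i‖ ^ 2 := by
  have hb : ∀ a, ⟪centred z J a, z i⟫ ≤ ‖z i‖ ^ 2 / 3 := fun a => by
    refine (inner_centred_le z hsum hobt J hi a).trans (le_of_eq ?_)
    push_cast; ring
  refine gain_le_third _ (sum_centred z J) _ hne hb ?_
  set e := ∑ b, z (J b) with he
  have hr : ∀ a, 0 ≤ ⟪z (J a), e⟫ := fun a => by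
    have h := hsum
    rw [← Finset.sum_add_sum_compl (Finset.univ.map J), Finset.sum_map] at h
    rw [he, eq_neg_of_add_eq_zero_left h, inner_neg_right, neg_nonneg, inner_sum]
    exact Finset.sum_nonpos fun j hj => hobt _ _ fun hh =>
      (Finset.mem_compl.1 hj) (hh ▸ Finset.mem_map_of_mem J (Finset.mem_univ a))
  have hee : ⟪z (J 0), e⟫ + ⟪z (J 1), e⟫ + ⟪z (J 2), e⟫ = ‖e‖ ^ 2 := by
    rw [← inner_add_left, ← inner_add_left, ← real_inner_self_eq_norm_sq]
    simp [he, Fin.sum_univ_three]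
  have hu : ∀ a, ‖centred z J a‖ ^ 2 =
      ‖z (J a)‖ ^ 2 - 2 * ⟪z (J a), e⟫ / 3 +
        (⟪z (J 0), e⟫ + ⟪z (J 1), e⟫ + ⟪z (J 2), e⟫) / 9 := fun a => by
    rw [hee, centred, ← he, norm_sub_sq_real, real_inner_smul_right, norm_smul, mul_pow,
      Real.norm_eq_abs, sq_abs]
    push_cast; ring
  have hQ := sq_common_le z hsum hobt J
  rw [← he] at hQ
  set c := 2 * π with hc'
  have hc : 0 < c := by positivity
  set r := fun a => c * ⟪z (J a), e⟫ with hr'
  have hr0 : ∀ a, 0 ≤ r a := fun a => mul_nonneg hc.le (hr a)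
  have hE : r 0 + r 1 + r 2 ≤ c * restSq z J := by
    simp only [hr', ← mul_add, hee]
    exact mul_le_mul_of_nonneg_left hQ hc.le
  have hK : 81 / (8 * π ^ 3) ≤ 20518 / 10000 / c := by
    have := pi_gt_d6
    rw [hc', div_le_div_iff₀ (by positivity) (by positivity)]
    nlinarith [mul_pos pi_pos pi_pos]
  have hτ0 : 0 ≤ τ := le_trans (by positivity) hτ
  have hall := area_all (n := fun b => c * ‖z (J b)‖ ^ 2) (r := r)
    (u := fun b => c * ‖centred z J b‖ ^ 2) (fun b => by positivity) hr0 hE hτ0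
    (fun b => by simp only [hu, hr']; ring)
    (fun a ha => hs a fun b => le_of_mul_le_mul_left (ha b) hc)
  have key : ∀ x : Fin 3, 4 * (c * ‖z i‖ ^ 2) * (20518 / 10000 +
      c * (2 * ∑ b, ‖centred z J b‖ ^ 2 - 3 * ‖centred z J x‖ ^ 2) / 9) ≤
      c ^ 2 * ((∑ b, ‖centred z J b‖ ^ 2) ^ 2 - 2 * ∑ b, (‖centred z J b‖ ^ 2) ^ 2) := by
    intro x
    have hL := opposite_side_nonneg _ (sum_centred z J) x
    refine le_trans (mul_le_mul_of_nonneg_right (mul_le_mul_of_nonneg_left hτ (by norm_num))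
      (by positivity)) (le_trans (le_of_eq ?_) ((hall x).trans (le_of_eq ?_)))
    · simp only [← Finset.mul_sum]; ring
    · simp only [← Finset.mul_sum, mul_pow]; ring
  intro x
  refine le_of_mul_le_mul_left ?_ (show 0 < c ^ 2 by positivity)
  refine le_trans ?_ (key x)
  have := mul_le_mul_of_nonneg_left hK (show 0 ≤ 4 * c ^ 2 * ‖z i‖ ^ 2 by positivity)
  have e : 4 * c ^ 2 * ‖z i‖ ^ 2 * (20518 / 10000 / c) = 4 * (c * ‖z i‖ ^ 2) * (20518 / 10000) := by
    field_simp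
  linarith

/-- Each short vector gains at most a third of its squared length over the three longest. -/
theorem gain_rest_three [NeZero k] {w : Fin k → EuclideanSpace ℝ (Fin (k - 1))} (hw : Crit w)
    (J : Fin 3 ↪ Fin k) (hJ : IsTop w J)
    (hrest : ∀ i ∈ (Finset.univ.map J)ᶜ,
      ‖w i‖ ^ 2 < if k = 4 then 207 / 10000 else 96 / 10000) :
    ∀ i ∈ (Finset.univ.map J)ᶜ,
      gain (centred w J) (w i) ≤ (1 - ((3 : ℕ) : ℝ)⁻¹) / 2 * ‖w i‖ ^ 2 := by
  intro i hi
  rw [show (1 - ((3 : ℕ) : ℝ)⁻¹) / 2 = 1 / 3 by norm_num]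
  set σ := fun j => √(2 * π) * ‖w j‖ with hσdef
  set p := fun j => (stdGaussian (EuclideanSpace ℝ (Fin (k - 1)))).real (cell w j) with hp
  have hsq : ∀ j, σ j ^ 2 = 2 * π * ‖w j‖ ^ 2 := fun j => by
    simp only [hσdef, mul_pow, sq_sqrt (show 0 ≤ 2 * π by positivity)]
  have hσ0 : ∀ j, 0 ≤ σ j := fun j => by positivity
  have hpsum : ∑ j, p j = 1 := (cell_isPart w).sum_measure
  have hF : 9 / 4 ≤ ∑ a, σ (J a) ^ 2 + 2 * π * restSq w J := by
    have h := hw.big
    rw [← Finset.sum_add_sum_compl (Finset.univ.map J), Finset.sum_map, div_lt_iff₀ (by positivity)]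
      at h
    rw [restSq]
    simp only [hsq, ← Finset.mul_sum]
    linarith
  have hord : ∀ a, (∀ b, ‖w (J a)‖ ^ 2 ≤ ‖w (J b)‖ ^ 2) → ∀ b, σ (J a) ^ 2 ≤ σ (J b) ^ 2 :=
    fun a h b => by
      rw [hsq, hsq]; exact mul_le_mul_of_nonneg_left (h b) (by positivity)
  have hsum3 : ∀ (f : Fin k → ℝ) (a : Fin 3),
      ∑ b, f (J b) = f (J a) + f (J (a + 1)) + f (J (a + 2)) := fun f a => by
    fin_cases a <;> simp [Fin.sum_univ_three] <;> ring
  have hrest0 : 0 ≤ 2 * π * restSq w J :=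
    mul_nonneg (by positivity) (Finset.sum_nonneg fun _ _ => sq_nonneg _)
  have hpi := pi_lt_d6
  rcases eq_or_ne k 4 with rfl | hk
  · have hcard : ((Finset.univ.map J)ᶜ : Finset (Fin 4)) = {i} := by
      refine (Finset.eq_of_subset_of_card_le (Finset.singleton_subset_iff.2 hi) ?_).symm
      rw [Finset.card_compl, Finset.card_map, Finset.card_univ, Fintype.card_fin, Fintype.card_fin,
        Finset.card_singleton]
    have hQ : 2 * π * restSq w J = σ i ^ 2 := by rw [restSq, hcard, Finset.sum_singleton, hsq]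
    have hcap : ∀ j, σ j ≤ 4 * p j * (1 - p j) := fun j => by
      have h := norm_mom_le_cap_three (E := EuclideanSpace ℝ (Fin (4 - 1)))
        finrank_euclideanSpace_fin (isCone_cell w j) ((cell_isPart w).meas j)
      rw [← hw.self j] at h
      have h' := mul_le_mul_of_nonneg_left h (show 0 ≤ √(2 * π) by positivity)
      rwa [← mul_assoc, mul_inv_cancel₀ (by positivity), one_mul] at h'
    have hm := fun j => cap_majorants (hσ0 j) measureReal_nonneg measureReal_le_one (hcap j)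
    have hi2 : σ i ^ 2 ≤ (36065 / 100000) ^ 2 := by
      have := hrest i hi
      rw [if_pos rfl] at this
      rw [hsq]; nlinarith [pi_pos]
    have hv : 7556 / 10000 * σ i ^ 2 ≤ p i :=
      cap_dust (hσ0 i) (le_of_pow_le_pow_left₀ two_ne_zero (by norm_num) hi2) measureReal_nonneg (hcap i)
    have hP : ∑ b, p (J b) + p i = 1 := by
      rw [← hpsum, ← Finset.sum_add_sum_compl (Finset.univ.map J), Finset.sum_map, hcard,
        Finset.sum_singleton]
    refine gain_le_of_triSlack w hw.sum hw.obtuse J hi (hw.ne i) (τ := σ i ^ 2) (hsq i).ge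
      fun a ha => ?_
    rw [hQ, ← hsq, ← hsq, ← hsq]
    exact triSlack_four (hσ0 _) (hord a ha _) (hord a ha _) (hm _).1
      (pow_le_one₀ (hσ0 _) (hm _).1) (pow_le_one₀ (hσ0 _) (hm _).1) (sq_nonneg _) (hi2.trans (by norm_num))
      (by rw [hQ, hsum3 (fun j => σ j ^ 2) a] at hF; exact hF)
      (by rw [hsum3 p a] at hP; exact hP.le) hv (hm _).2.1 (hm _).2.2.1 (hm _).2.2.2.1
      (hm _).2.2.2.2 (hm _).2.2.2.1 (hm _).2.2.2.2
  · have hm := fun j => by
      have h := iso_majorants ((cell_isPart w).meas j)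
      rw [← hw.self j] at h
      exact h
    have hd : ∀ j ∈ (Finset.univ.map J)ᶜ, σ j ^ 2 ≤ 60325 / 1000000 ∧
        σ j ^ 2 ≤ 12867 / 10000 * p j := fun j hj => by
      have hn := hrest j hj
      rw [if_neg hk] at hn
      have h2 : σ j ^ 2 ≤ (2456 / 10000) ^ 2 := by rw [hsq]; nlinarith [pi_pos]
      refine ⟨h2.trans (by norm_num), ?_⟩
      have h := dust_measure ((cell_isPart w).meas j)
      rw [← hw.self j] at h
      exact h (le_of_pow_le_pow_left₀ two_ne_zero (by norm_num) h2)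
    have hQ : 2 * π * restSq w J ≤ 12867 / 10000 * (1 - ∑ b, p (J b)) := by
      have e : 1 - ∑ b, p (J b) = ∑ j ∈ (Finset.univ.map J)ᶜ, p j := by
        rw [← hpsum, ← Finset.sum_add_sum_compl (Finset.univ.map J), Finset.sum_map]; ring
      rw [e, restSq, Finset.mul_sum, Finset.mul_sum]
      exact Finset.sum_le_sum fun j hj => (hsq j).ge.trans (hd j hj).2
    refine gain_le_of_triSlack w hw.sum hw.obtuse J hi (hw.ne i)
      ((hsq i).ge.trans (hd i hi).1) fun a ha => ?_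
    rw [← hsq, ← hsq, ← hsq]
    exact triSlack_five (hσ0 _) (hord a ha _) (hord a ha _) (hm _).1
      (pow_le_one₀ (hσ0 _) (hm _).1) (pow_le_one₀ (hσ0 _) (hm _).1) hrest0
      (by rw [hsum3 (fun j => σ j ^ 2) a] at hF; exact hF)
      (by rw [hsum3 p a] at hQ; linarith) (hm _).2.1 (hm _).2.2.1 (hm _).2.2.2
      (hm _).2.2.1 (hm _).2.2.2

end Vale.Agent.P226
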