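import Vale.Agent.P226.Main
import Vale.Agent.P226.GainThree
import Vale.Agent.P226.GainFive

/-!
# The gain bound from its cases
-/

namespace Vale.Agent.P226

open MeasureTheory ProbabilityTheory Real Set Finset
open scoped RealInnerProductSpace

/-- The gain bound follows from its cases with at least four long vectors. -/
theorem gainBound_of_four_le
    (h : ∀ {k m : ℕ} [NeZero k] [NeZero m], 4 ≤ m → m < k →
      ∀ w : Fin k → EuclideanSpace ℝ (Fin (k - 1)), Crit w → ∀ J : Fin m ↪ Fin k, IsTop w J →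
      Long (theta k) w m → (∀ i ∈ (Finset.univ.map J)ᶜ, ‖w i‖ ^ 2 < theta k (m + 1)) →
      ∀ i ∈ (Finset.univ.map J)ᶜ,
        gain (centred w J) (w i) ≤ (1 - (m : ℝ)⁻¹) / 2 * ‖w i‖ ^ 2) : GainBound := by
  intro k m _ _ hm hmk w hw J hJ hL hr
  rcases eq_or_lt_of_le hm with rfl | h4
  · refine gain_rest_three hw J hJ fun i hi => (hr i hi).trans_eq ?_
    split_ifs with hk
    · rw [hk, theta_four]
    · exact theta_low hk le_rfl
  · exact h h4 hmk w hw J hJ hL hr

/-- The gain bound follows from its cases with at least five long vectors. -/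
theorem gainBound_of_five_le
    (h : ∀ {k m : ℕ} [NeZero k] [NeZero m], 5 ≤ m → m < k →
      ∀ w : Fin k → EuclideanSpace ℝ (Fin (k - 1)), Crit w → ∀ J : Fin m ↪ Fin k, IsTop w J →
      Long (theta k) w m → (∀ i ∈ (Finset.univ.map J)ᶜ, ‖w i‖ ^ 2 < theta k (m + 1)) →
      ∀ i ∈ (Finset.univ.map J)ᶜ,
        gain (centred w J) (w i) ≤ (1 - (m : ℝ)⁻¹) / 2 * ‖w i‖ ^ 2) : GainBound := by
  refine gainBound_of_four_le fun {k m} _ _ hm hmk w hw J hJ hL hr => ?_
  rcases eq_or_lt_of_le hm with rfl | h5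
  · exact gain_rest_four hw hmk J hJ hL hr
  · exact h h5 hmk w hw J hJ hL hr

end Vale.Agent.P226
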