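import Vale.Agent.P226.Core

/-!
# Induction on the number of cells

The bound for at most three cells, and the passage from an arbitrary partition to a critical
family.
-/

namespace Vale.Agent.P226

open MeasureTheory ProbabilityTheory Real Set Finset
open scoped RealInnerProductSpace

variable {E : Type*} [NormedAddCommGroup E] [InnerProductSpace ℝ E] [FiniteDimensional ℝ E]
  [MeasurableSpace E] [BorelSpace E] {k : ℕ}

/-- The bound for three cells. -/
lemma bound_three : Bound 3 := by
  intro d A hA
  set z := fun i => mom (A i) with hz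
  have hz0 : ∑ i, z i = 0 := hA.sum_mom
  have h1 := val_le_dual hA
  have h2 := meanMax_le z hz0
  have h3 : val A = vsize z ^ 2 := (vsize_sq z).symm
  rw [dual, ← meanMax, ← vsize_sq z] at h1
  have h4 : vsize z ≤ √(9 / (8 * π)) := by
    by_contra! hlt
    have h5 : √(9 / (8 * π)) * vsize z < vsize z ^ 2 := by
      rw [sq]; exact mul_lt_mul_of_pos_right hlt ((Real.sqrt_nonneg _).trans_lt hlt)
    linarith
  rw [h3]
  calc vsize z ^ 2 ≤ √(9 / (8 * π)) ^ 2 := pow_le_pow_left₀ (Real.sqrt_nonneg _) h4 2
    _ = _ := Real.sq_sqrt (by positivity)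

/-- Fewer cells: pad with empty cells. -/
lemma bound_mono {m n : ℕ} (h : m ≤ n) (hn : Bound n) : Bound m := by
  intro d A hA
  classical
  set B : Fin n → Set (EuclideanSpace ℝ (Fin d)) :=
    fun i => if hi : (i : ℕ) < m then A ⟨i, hi⟩ else ∅ with hB
  have hB' : IsPart B := by
    refine ⟨fun i => ?_, fun i j hij => ?_, ?_⟩
    · simp only [hB]; split_ifs
      · exact hA.meas _
      · exact MeasurableSet.empty
    · simp only [hB]; split_ifs with hi hj
      · exact hA.disj fun he => hij (Fin.ext (by simpa using congrArg Fin.val he))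
      all_goals simp
    · rw [Set.eq_univ_iff_forall]
      intro x
      obtain ⟨a, ha⟩ := Set.mem_iUnion.1 (hA.cover.symm ▸ Set.mem_univ x)
      exact Set.mem_iUnion.2 ⟨Fin.castLE h a, by simpa [hB, a.isLt] using ha⟩
  refine le_of_eq_of_le ?_ (hn d B hB')
  rw [val, val, ← Finset.sum_subset (Finset.subset_univ (Finset.univ.map (Fin.castLEEmb h))),
    Finset.sum_map]
  · exact Finset.sum_congr rfl fun a _ => by simp [hB, a.isLt]
  · intro i _ hi
    have : ¬ (i : ℕ) < m := fun hlt => hi (Finset.mem_map.2 ⟨⟨i, hlt⟩, Finset.mem_univ _, rfl⟩)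
    simp [hB, this, mom]

/-- A cell with vanishing moment can be merged into another. -/
lemma val_le_of_mom_eq_zero {n : ℕ} (hn : Bound n) {d : ℕ}
    {A : Fin (n + 1) → Set (EuclideanSpace ℝ (Fin d))} (hA : IsPart A) (hpos : 0 < n)
    (i₀ : Fin (n + 1)) (h0 : mom (A i₀) = 0) : val A ≤ 9 / (8 * π) := by
  set l₀ : Fin n := ⟨0, hpos⟩
  set B : Fin n → Set (EuclideanSpace ℝ (Fin d)) :=
    fun l => A (i₀.succAbove l) ∪ (if l = l₀ then A i₀ else ∅) with hB
  have hd : ∀ l, Disjoint (A (i₀.succAbove l)) (A i₀) := fun l =>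
    hA.disj (Fin.succAbove_ne i₀ l)
  have hB' : IsPart B := by
    refine ⟨fun l => ?_, fun l l' hl => ?_, ?_⟩
    · simp only [hB]; split_ifs
      · exact (hA.meas _).union (hA.meas _)
      · exact (hA.meas _).union MeasurableSet.empty
    · have := hA.disj (Fin.succAbove_right_injective.ne hl : i₀.succAbove l ≠ i₀.succAbove l')
      simp only [hB]
      split_ifs with h h'
      · exact absurd (h.trans h'.symm) hl
      · simp [this, (hd l').symm]
      · simp [this, hd]
      · simp [this]
    · rw [Set.eq_univ_iff_forall]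
      intro x
      obtain ⟨a, ha⟩ := Set.mem_iUnion.1 (hA.cover.symm ▸ Set.mem_univ x)
      rcases eq_or_ne a i₀ with rfl | hne
      · exact Set.mem_iUnion.2 ⟨l₀, Or.inr (by simpa using ha)⟩
      · obtain ⟨l, rfl⟩ := Fin.exists_succAbove_eq hne
        exact Set.mem_iUnion.2 ⟨l, Or.inl ha⟩
  refine le_of_eq_of_le ?_ (hn d B hB')
  rw [val, val, Fin.sum_univ_succAbove _ i₀, h0, norm_zero]
  simp only [ne_eq, OfNat.ofNat_ne_zero, not_false_eq_true, zero_pow, zero_add]
  refine Finset.sum_congr rfl fun l _ => ?_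
  simp only [hB]
  split_ifs with h
  · rw [show mom (A (i₀.succAbove l) ∪ A i₀) = mom (A (i₀.succAbove l)) + mom (A i₀) from
      setIntegral_union (hd l) (hA.meas _) IsGaussian.integrable_id.integrableOn
        IsGaussian.integrable_id.integrableOn, h0, add_zero]
  · rw [Set.union_empty]

/-- The dual value only depends on the Gram norms of the family. -/
lemma dual_eq_of_norms [NeZero k] {E' : Type*} [NormedAddCommGroup E'] [InnerProductSpace ℝ E']
    [FiniteDimensional ℝ E'] [MeasurableSpace E'] [BorelSpace E'] (u : Fin k → E) (u' : Fin k → E')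
    (h : ∀ c : Fin k → ℝ, ‖∑ i, c i • u i‖ = ‖∑ i, c i • u' i‖) :
    dual u = dual u' := by
  have hlaw : (stdGaussian E).map (ContinuousLinearMap.pi fun i => innerSL ℝ (u i)) =
      (stdGaussian E').map (ContinuousLinearMap.pi fun i => innerSL ℝ (u' i)) := by
    apply Measure.ext_of_charFunDual
    ext L
    rw [charFunDual_map, charFunDual_map, charFunDual_stdGaussian, charFunDual_stdGaussian]
    have hL : ∀ y : Fin k → ℝ, L y = ∑ i, y i * L (Pi.single i 1) := by
      intro y
      conv_lhs => rw [pi_eq_sum_univ y]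
      rw [map_sum]
      refine Finset.sum_congr rfl fun i _ => ?_
      rw [map_smul, smul_eq_mul]
      congr 2
      funext j
      simp [Pi.single_apply, eq_comm]
    have e1 : L.comp (ContinuousLinearMap.pi fun i => innerSL ℝ (u i)) =
        innerSL ℝ (∑ i, L (Pi.single i 1) • u i) := by
      ext x
      simp [hL (fun i => ⟪u i, x⟫), mul_comm]
    have e2 : L.comp (ContinuousLinearMap.pi fun i => innerSL ℝ (u' i)) =
        innerSL ℝ (∑ i, L (Pi.single i 1) • u' i) := by
      ext x
      simp [hL (fun i => ⟪u' i, x⟫), mul_comm]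
    rw [e1, e2, innerSL_apply_norm, innerSL_apply_norm, h]
  set Φ : (Fin k → ℝ) → ℝ := fun y => Finset.univ.sup' univ_nonempty fun j => y j
  have hΦ : Continuous Φ :=
    Continuous.finset_sup'_apply univ_nonempty fun j _ => continuous_apply j
  have h1 : ∫ x, supInner u x ∂stdGaussian E = ∫ x, supInner u' x ∂stdGaussian E' := by
    calc ∫ x, supInner u x ∂stdGaussian E
        = ∫ y, Φ y ∂(stdGaussian E).map (ContinuousLinearMap.pi fun i => innerSL ℝ (u i)) :=
          (integral_map (by fun_prop) hΦ.aestronglyMeasurable).symm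
      _ = _ := by
          rw [hlaw, integral_map (by fun_prop) hΦ.aestronglyMeasurable]
          rfl
  have h2 : ∀ i, ‖u i‖ = ‖u' i‖ := fun i => by
    simpa [Pi.single_apply, ite_smul] using h (Pi.single i 1)
  rw [dual, dual, h1]
  simp only [h2]

/-- The conjecture follows once critical families are impossible. -/
theorem bound_of_core
    (hcore : ∀ (k : ℕ) [NeZero k], 4 ≤ k → (∀ m, 0 < m → m < k → Bound m) →
      ∀ w : Fin k → EuclideanSpace ℝ (Fin (k - 1)), Crit w → False) :
    ∀ k, 0 < k → Bound k := by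
  intro k
  induction k using Nat.strong_induction_on with
  | _ k ih =>
    intro hk0 d A hA
    rcases le_or_gt k 3 with hk3 | hk3
    · exact bound_mono hk3 bound_three d A hA
    have : NeZero k := ⟨hk0.ne'⟩
    obtain ⟨n, rfl⟩ : ∃ n, k = n + 1 := ⟨k - 1, by omega⟩
    have hn : Bound n := ih n (by omega) (by omega)
    by_contra! hlt
    obtain ⟨w, h0, hmax⟩ := exists_extremal (E := EuclideanSpace ℝ (Fin d)) (k := n + 1)
    have hw : 9 / (8 * π) < ∑ i, ‖w i‖ ^ 2 := hlt.trans_le (hmax A hA)
    have hwA : ∀ {d' : ℕ} (u : Fin (n + 1) → EuclideanSpace ℝ (Fin d')),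
        (∀ i, u i = mom (cell u i)) → 9 / (8 * π) < ∑ i, ‖u i‖ ^ 2 → ∀ i, u i ≠ 0 := by
      intro d' u hu hbig i hi
      have h := val_le_of_mom_eq_zero hn (cell_isPart u) (by omega) i ((hu i).symm.trans hi)
      simp only [val, ← hu] at h
      linarith
    have hsum : ∑ i, w i = 0 := by simp only [h0]; exact (cell_isPart w).sum_mom
    -- into dimension `n`
    set V : Submodule ℝ (EuclideanSpace ℝ (Fin d)) := Submodule.span ℝ (Set.range w) with hV
    have hfin : Module.finrank ℝ V ≤ n := by
      have hle : V ≤ Submodule.span ℝ (Set.range fun l : Fin n => w l.succ) := by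
        rw [hV, Submodule.span_le]
        rintro _ ⟨i, rfl⟩
        refine Fin.cases ?_ (fun l => Submodule.subset_span ⟨l, rfl⟩) i
        rw [Fin.sum_univ_succ] at hsum
        rw [eq_neg_of_add_eq_zero_left hsum]
        exact neg_mem (Submodule.sum_mem _ fun l _ => Submodule.subset_span ⟨l, rfl⟩)
      exact (Submodule.finrank_mono hle).trans
        ((finrank_range_le_card _).trans (Fintype.card_fin n).le)
    let b := stdOrthonormalBasis ℝ V
    let f : Fin (Module.finrank ℝ V) → EuclideanSpace ℝ (Fin (n + 1 - 1)) :=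
      fun j => EuclideanSpace.basisFun (Fin (n + 1 - 1)) ℝ (Fin.castLE (by omega) j)
    have hf : Orthonormal ℝ f :=
      (EuclideanSpace.basisFun _ ℝ).orthonormal.comp _ (Fin.castLE_injective _)
    let T : V →ₗᵢ[ℝ] EuclideanSpace ℝ (Fin (n + 1 - 1)) :=
      (b.toBasis.constr ℝ f).isometryOfOrthonormal (v := b.toBasis) b.orthonormal (by
        simpa [Function.comp_def, Module.Basis.constr_basis] using hf)
    let u : Fin (n + 1) → EuclideanSpace ℝ (Fin (n + 1 - 1)) :=
      fun i => T ⟨w i, Submodule.subset_span ⟨i, rfl⟩⟩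
    have hgram : ∀ c : Fin (n + 1) → ℝ, ‖∑ i, c i • w i‖ = ‖∑ i, c i • u i‖ := by
      intro c
      simp only [u, ← map_smul, ← map_sum]
      rw [T.norm_map, Submodule.coe_norm]
      simp
    have hdu : 9 / (8 * π) < dual u := by
      rw [← dual_eq_of_norms w u hgram, dual_eq, val]
      simpa [← h0] using hw
    obtain ⟨v, hv0, hvmax⟩ :=
      exists_extremal (E := EuclideanSpace ℝ (Fin (n + 1 - 1))) (k := n + 1)
    have hv : 9 / (8 * π) < ∑ i, ‖v i‖ ^ 2 := by
      refine hdu.trans_le (le_trans ?_ (hvmax _ (cell_isPart u)))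
      rw [dual_eq]
      exact sub_le_self _ (Finset.sum_nonneg fun i _ => sq_nonneg _)
    exact hcore (n + 1) (by omega) (fun m hm hmk => ih m hmk hm) v
      { self := hv0
        sum := by simp only [hv0]; exact (cell_isPart v).sum_mom
        obtuse := fun i j hij => inner_nonpos_of_extremal v hv0 hvmax hij
        ne := hwA v hv0 hv
        big := hv }

end Vale.Agent.P226
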