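import Vale.Agent.P226.Assembly
import Vale.Agent.P226.CapTable

/-!
# The propeller bound from the gain bound alone
-/

namespace Vale.Agent.P226

open MeasureTheory ProbabilityTheory Real Set Finset
open scoped RealInnerProductSpace

/-- The gain bound that remains after the cap certificates. -/
def GainBound : Prop :=
  ∀ {k m : ℕ} [NeZero k] [NeZero m], 3 ≤ m → m < k →
    ∀ w : Fin k → EuclideanSpace ℝ (Fin (k - 1)), Crit w → ∀ J : Fin m ↪ Fin k, IsTop w J →
    Long (theta k) w m → (∀ i ∈ (Finset.univ.map J)ᶜ, ‖w i‖ ^ 2 < theta k (m + 1)) →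
    ∀ i ∈ (Finset.univ.map J)ᶜ,
      gain (centred w J) (w i) ≤ (1 - (m : ℝ)⁻¹) / 2 * ‖w i‖ ^ 2

/-- Every measurable partition of every Euclidean space obeys the propeller bound once the gain
bound holds. -/
theorem propeller_of_gain (h : GainBound) (d k : ℕ)
    (A : Fin k → Set (EuclideanSpace ℝ (Fin d))) (hm : ∀ i, MeasurableSet (A i))
    (hd : Pairwise fun i j => Disjoint (A i) (A j)) (hc : ⋃ i, A i = Set.univ) :
    ∑ i, ‖∫ x in A i, x ∂stdGaussian (EuclideanSpace ℝ (Fin d))‖ ^ 2 ≤ 9 / (8 * π) :=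
  propeller_of_bound (bound_of_caps_and_gain theta (fun hk w hw => not_long hk w hw)
    (fun hm hmk w hw J hJ hL hr => h hm hmk w hw J hJ hL hr)) d k A hm hd hc

end Vale.Agent.P226
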