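import Vale.Agent.P226.ThreeCell

/-!
# The expected maximum of three centred forms is a multiple of the perimeter
-/

namespace Vale.Agent.P226

open MeasureTheory ProbabilityTheory Real Set Finset
open scoped RealInnerProductSpace

variable {E : Type*} [NormedAddCommGroup E] [InnerProductSpace ℝ E] [FiniteDimensional ℝ E]
  [MeasurableSpace E] [BorelSpace E]

lemma integral_abs_inner (u : E) :
    ∫ x, |⟪u, x⟫| ∂stdGaussian E = 2 * ‖u‖ / √(2 * π) := by
  rcases eq_or_ne u 0 with rfl | hu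
  · simp
  have hn : ‖u‖ ≠ 0 := norm_ne_zero_iff.2 hu
  set e := ‖u‖⁻¹ • u with he
  have he1 : ‖e‖ = 1 := by rw [he, norm_smul, norm_inv, norm_norm, inv_mul_cancel₀ hn]
  have hpos : ∀ s : E, ‖s‖ = 1 → ∫ x, max ⟪s, x⟫ 0 ∂stdGaussian E = (√(2 * π))⁻¹ := fun s hs => by
    have hm : Measurable fun x : E => ⟪s, x⟫ := (innerSL ℝ s).continuous.measurable
    rw [← integral_pos_part, ← map_inner_unit s hs, integral_map hm.aemeasurable
      (by fun_prop : Measurable fun t : ℝ => max t 0).aestronglyMeasurable]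
  have habs : ∀ x : E, |⟪u, x⟫| = ‖u‖ * (max ⟪e, x⟫ 0 + max ⟪-e, x⟫ 0) := fun x => by
    have h1 : ⟪u, x⟫ = ‖u‖ * ⟪e, x⟫ := by
      rw [he, real_inner_smul_left, ← mul_assoc, mul_inv_cancel₀ hn, one_mul]
    rw [h1, abs_mul, abs_norm, inner_neg_left]
    congr 1
    rcases le_total 0 ⟪e, x⟫ with h | h
    · rw [abs_of_nonneg h, max_eq_left h, max_eq_right (by linarith), add_zero]
    · rw [abs_of_nonpos h, max_eq_right h, max_eq_left (by linarith), zero_add]
  rw [integral_congr_ae (ae_of_all _ habs), integral_const_mul,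
    integral_add (integrable_inner e).pos_part (integrable_inner (-e)).pos_part,
    hpos e he1, hpos (-e) (by rw [norm_neg, he1])]
  ring

omit [FiniteDimensional ℝ E] [MeasurableSpace E] [BorelSpace E] in
set_option linter.unusedSimpArgs false in
lemma sup3_add_sup3_neg (W : Fin 3 → E) (x : E) :
    supInner W x + supInner W (-x) =
      (|⟪W 0 - W 1, x⟫| + |⟪W 1 - W 2, x⟫| + |⟪W 2 - W 0, x⟫|) / 2 := by
  have h : ∀ y : E, supInner W y = max ⟪W 0, y⟫ (max ⟪W 1, y⟫ ⟪W 2, y⟫) := fun y => by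
    refine le_antisymm (Finset.sup'_le _ _ fun i _ => ?_) ?_
    · fin_cases i
      · exact le_max_left _ _
      · exact le_max_of_le_right (le_max_left _ _)
      · exact le_max_of_le_right (le_max_right _ _)
    · exact max_le (Finset.le_sup' (fun i => ⟪W i, y⟫) (Finset.mem_univ 0))
        (max_le (Finset.le_sup' (fun i => ⟪W i, y⟫) (Finset.mem_univ 1))
          (Finset.le_sup' (fun i => ⟪W i, y⟫) (Finset.mem_univ 2)))
  rw [h, h, inner_sub_left, inner_sub_left, inner_sub_left, inner_neg_right, inner_neg_right,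
    inner_neg_right]
  generalize ⟪W 0, x⟫ = a, ⟪W 1, x⟫ = b, ⟪W 2, x⟫ = c
  rcases le_total a b with h1 | h1 <;> rcases le_total b c with h2 | h2 <;>
    rcases le_total a c with h3 | h3 <;>
    simp [h1, h2, h3, abs_of_nonneg, abs_of_nonpos, max_eq_left, max_eq_right] <;>
    linarith

/-- The mean width formula for a triangle. -/
lemma meanMax_eq (W : Fin 3 → E) :
    meanMax W = (‖W 0 - W 1‖ + ‖W 1 - W 2‖ + ‖W 2 - W 0‖) / (2 * √(2 * π)) := by
  have hs := integrable_supInner W
  have hneg : Measurable fun x : E => -x := measurable_neg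
  have hsym : (stdGaussian E).map (fun x => -x) = stdGaussian E :=
    stdGaussian_map (LinearIsometryEquiv.neg ℝ)
  have hs' : Integrable (fun x => supInner W (-x)) (stdGaussian E) := by
    have h : Integrable (supInner W) ((stdGaussian E).map fun x => -x) := by rw [hsym]; exact hs
    exact (integrable_map_measure h.1 hneg.aemeasurable).mp h
  have he : ∫ x, supInner W (-x) ∂stdGaussian E = meanMax W := by
    rw [← integral_map hneg.aemeasurable (continuous_supInner W).aestronglyMeasurable, hsym,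
      meanMax]
  have h2 : 2 * meanMax W = ∫ x, (supInner W x + supInner W (-x)) ∂stdGaussian E := by
    rw [integral_add hs hs', he, meanMax, two_mul]
  simp only [sup3_add_sup3_neg] at h2
  have ha : ∀ u : E, Integrable (fun x => |⟪u, x⟫|) (stdGaussian E) := fun u =>
    (integrable_inner u).abs
  rw [integral_div, integral_add (f := fun x => |⟪W 0 - W 1, x⟫| + |⟪W 1 - W 2, x⟫|)
    ((ha _).add (ha _)) (ha _), integral_add (ha _) (ha _), integral_abs_inner, integral_abs_inner,
    integral_abs_inner] at h2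
  rw [mul_comm 2 (√(2 * π)), ← div_div]
  have e : ∀ a b c s : ℝ, (2 * a / s + 2 * b / s + 2 * c / s) / 2 = (a + b + c) / s := by
    intro a b c s; ring
  rw [e] at h2
  linarith

/-- Three centred forms: the propeller value is best. -/
lemma meanMax_le (W : Fin 3 → E) (h0 : ∑ a, W a = 0) :
    meanMax W ≤ √(9 / (8 * π)) * vsize W := by
  have hsum : ‖W 0 - W 1‖ ^ 2 + ‖W 1 - W 2‖ ^ 2 + ‖W 2 - W 0‖ ^ 2 = 3 * ∑ a, ‖W a‖ ^ 2 := by
    have h := congrArg (fun v : E => ‖v‖ ^ 2) h0
    simp only [Fin.sum_univ_three, norm_zero, ← real_inner_self_eq_norm_sq, inner_sub_left,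
      inner_sub_right, inner_add_left, inner_add_right] at h ⊢
    rw [real_inner_comm (W 1) (W 0), real_inner_comm (W 2) (W 1), real_inner_comm (W 2) (W 0)] at *
    linarith [inner_zero_left (𝕜 := ℝ) (0 : E)]
  have hP : ‖W 0 - W 1‖ + ‖W 1 - W 2‖ + ‖W 2 - W 0‖ ≤ 3 * vsize W := by
    have h3 : 3 * vsize W = √(3 * (3 * ∑ a, ‖W a‖ ^ 2)) := by
      rw [vsize, ← mul_assoc, show (3 : ℝ) * 3 = 3 ^ 2 by norm_num,
        Real.sqrt_mul (by norm_num), Real.sqrt_sq (by norm_num)]
    rw [h3, ← hsum]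
    refine Real.le_sqrt_of_sq_le ?_
    nlinarith [sq_nonneg (‖W 0 - W 1‖ - ‖W 1 - W 2‖), sq_nonneg (‖W 1 - W 2‖ - ‖W 2 - W 0‖),
      sq_nonneg (‖W 2 - W 0‖ - ‖W 0 - W 1‖)]
  have hc : √(9 / (8 * π)) = 3 / (2 * √(2 * π)) := by
    rw [Real.sqrt_div' _ (by positivity), show (8 : ℝ) * π = 2 ^ 2 * (2 * π) by ring,
      Real.sqrt_mul (by norm_num), Real.sqrt_sq (by norm_num), show (9 : ℝ) = 3 ^ 2 by norm_num,
      Real.sqrt_sq (by norm_num)]
  rw [meanMax_eq, hc, div_mul_eq_mul_div]
  exact div_le_div_of_nonneg_right hP (by positivity)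

end Vale.Agent.P226
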