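import Vale.Agent.P226.DustLemma

/-!
# A short vector gains little over two pairs

For two pairs among `m` centred vectors, at a fixed sum of one pair the two half differences lie
in a rectangle of area at most `m² s² / 4`, which gives a better bound than the triangle when the
vectors are nearly two opposite pairs.
-/

namespace Vale.Agent.P226

open MeasureTheory ProbabilityTheory Real Set Finset Module
open scoped RealInnerProductSpace NNReal ENNReal

variable {E : Type*} [NormedAddCommGroup E] [InnerProductSpace ℝ E] [FiniteDimensional ℝ E]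
  [MeasurableSpace E] [BorelSpace E]

/-- The law of independent forms against a lower bound of the exponent. -/
lemma measure_forms_le {n : ℕ} (g : Fin n → E) (hdet : (Matrix.gram ℝ g).det ≠ 0)
    (q : (Fin n → ℝ) → ℝ) (hqm : Measurable q)
    (hq : ∀ x : E, q (fun i => ⟪g i, x⟫) ≤ ‖x‖ ^ 2) {S : Set (Fin n → ℝ)} (hS : MeasurableSet S) :
    stdGaussian E ((fun x => fun i => ⟪g i, x⟫) ⁻¹' S) ≤
      ENNReal.ofReal ((√(2 * π))⁻¹ ^ n / √(Matrix.gram ℝ g).det) *
        ∫⁻ y in S, ENNReal.ofReal (exp (-q y / 2)) := by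
  classical
  have hli : LinearIndependent ℝ g := Matrix.det_gram_ne_zero_iff_linearIndependent.1 hdet
  set V : Submodule ℝ E := Submodule.span ℝ (Set.range g)
  have hfin : finrank ℝ V = n := by rw [finrank_span_eq_card hli, Fintype.card_fin]
  set b := (stdOrthonormalBasis ℝ V).reindex (finCongr hfin)
  set e : Fin n → E := fun i => (b i : E)
  have he : Orthonormal ℝ e := b.orthonormal.comp_linearIsometry V.subtypeₗᵢ
  have hexp : ∀ i, g i = ∑ j, ⟪g i, e j⟫ • e j := fun i => by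
    have h := congrArg (Subtype.val) (b.sum_repr' ⟨g i, Submodule.subset_span ⟨i, rfl⟩⟩)
    simp only [Submodule.coe_sum, Submodule.coe_smul, Submodule.coe_inner] at h
    conv_lhs => rw [← h]
    exact Finset.sum_congr rfl fun j _ => by rw [real_inner_comm]
  set M : Matrix (Fin n) (Fin n) ℝ := Matrix.of fun i j => ⟪g i, e j⟫ with hM
  have hG : Matrix.gram ℝ g = M * M.transpose := by
    ext i j
    rw [Matrix.gram_apply, Matrix.mul_apply]
    conv_lhs => rw [hexp j, inner_sum]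
    refine Finset.sum_congr rfl fun l _ => ?_
    simp only [hM, Matrix.of_apply, Matrix.transpose_apply, real_inner_smul_right]
    ring
  have hdM : (Matrix.gram ℝ g).det = M.det ^ 2 := by
    rw [hG, Matrix.det_mul, Matrix.det_transpose, sq]
  have hM0 : M.det ≠ 0 := fun h => hdet (by rw [hdM, h]; ring)
  rw [hdM, sqrt_sq_eq_abs]
  set P : E → EuclideanSpace ℝ (Fin n) := fun x => WithLp.toLp 2 fun j => ⟪e j, x⟫ with hP
  have hPm : Measurable P := by fun_prop
  set L : (Fin n → ℝ) →ₗ[ℝ] (Fin n → ℝ) := Matrix.toLin' M with hL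
  have hLm : Measurable L := L.continuous_of_finiteDimensional.measurable
  have hLP : ∀ x, L (WithLp.ofLp (P x)) = fun i => ⟪g i, x⟫ := fun x => by
    funext i
    rw [hL, Matrix.toLin'_apply]
    conv_rhs => rw [hexp i, sum_inner]
    simp [Matrix.mulVec, dotProduct, hM, hP, real_inner_smul_left]
  have hS' : MeasurableSet
      ((fun z : EuclideanSpace ℝ (Fin n) => L (WithLp.ofLp z)) ⁻¹' S) :=
    hS.preimage (hLm.comp (by fun_prop))
  calc stdGaussian E ((fun x => fun i => ⟪g i, x⟫) ⁻¹' S)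
      = stdGaussian (EuclideanSpace ℝ (Fin n)) ((fun z => L (WithLp.ofLp z)) ⁻¹' S) := by
        rw [← map_orthonormal he, Measure.map_apply hPm hS']
        congr 1
        ext x
        simp [hLP]
    _ = ∫⁻ z in (fun z : EuclideanSpace ℝ (Fin n) => L (WithLp.ofLp z)) ⁻¹' S,
          ENNReal.ofReal (gaussDensity z) := by
        rw [stdGaussian_eq_withDensity, withDensity_apply _ hS']
    _ ≤ ∫⁻ z in (fun z : EuclideanSpace ℝ (Fin n) => L (WithLp.ofLp z)) ⁻¹' S,
          ENNReal.ofReal ((√(2 * π))⁻¹ ^ n * exp (-q (L (WithLp.ofLp z)) / 2)) := by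
        refine lintegral_mono fun z => ENNReal.ofReal_le_ofReal ?_
        rw [gaussDensity, finrank_euclideanSpace_fin]
        refine mul_le_mul_of_nonneg_left (exp_le_exp.2 ?_) (by positivity)
        have hz : (fun i => ⟪g i, ∑ j, z j • e j⟫) = L (WithLp.ofLp z) := by
          funext i
          rw [hL, Matrix.toLin'_apply, inner_sum]
          simp [Matrix.mulVec, dotProduct, hM, real_inner_smul_right, mul_comm]
        have hn : ‖∑ j, z j • e j‖ ^ 2 = ‖z‖ ^ 2 := by
          rw [← real_inner_self_eq_norm_sq, he.inner_sum, EuclideanSpace.norm_sq_eq]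
          simp [sq]
        have := hq (∑ j, z j • e j)
        rw [hz, hn] at this
        linarith
    _ = ENNReal.ofReal ((√(2 * π))⁻¹ ^ n) *
          ∫⁻ z in (fun z : EuclideanSpace ℝ (Fin n) => L (WithLp.ofLp z)) ⁻¹' S,
            ENNReal.ofReal (exp (-q (L (WithLp.ofLp z)) / 2)) := by
        rw [← lintegral_const_mul' _ _ ENNReal.ofReal_ne_top]
        exact lintegral_congr fun z => ENNReal.ofReal_mul (by positivity)
    _ = ENNReal.ofReal ((√(2 * π))⁻¹ ^ n) *
          ∫⁻ y in S, ENNReal.ofReal (exp (-q y / 2))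
            ∂(Measure.map L (volume : Measure (Fin n → ℝ))) := by
        rw [setLIntegral_map hS (by fun_prop) hLm,
          ← (PiLp.volume_preserving_ofLp (Fin n)).setLIntegral_comp_preimage
            (hS.preimage hLm) (by fun_prop)]
        rfl
    _ = _ := by
        rw [hL, Real.map_matrix_volume_pi_eq_smul_volume_pi hM0, Measure.restrict_smul,
          lintegral_smul_measure, smul_eq_mul, abs_inv, ← mul_assoc,
          ← ENNReal.ofReal_mul (by positivity), ← div_eq_mul_inv]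

/-- Rectangles at a fixed sum of a pair. -/
lemma volume_rectangle_le (r s z : ℝ) (y₁ : ℝ) :
    volume {u : ℝ × ℝ | |u.1| ≤ s - y₁ / 2 ∧ |u.2 - z| ≤ r + y₁ / 2} ≤
      ENNReal.ofReal ((s + r) ^ 2) := by
  have hset : {u : ℝ × ℝ | |u.1| ≤ s - y₁ / 2 ∧ |u.2 - z| ≤ r + y₁ / 2} =
      Icc (-(s - y₁ / 2)) (s - y₁ / 2) ×ˢ Icc (z - (r + y₁ / 2)) (z + (r + y₁ / 2)) := by
    ext u
    simp only [Set.mem_prod, Set.mem_ofPred_eq, Set.mem_Icc, abs_le, neg_le_sub_iff_le_add,
      sub_le_iff_le_add]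
    constructor <;> rintro ⟨h1, h2, h3⟩ <;> exact ⟨h1, by linarith, by linarith⟩
  rw [hset, Measure.volume_eq_prod, Measure.prod_prod, Real.volume_Icc, Real.volume_Icc]
  rcases le_or_gt 0 (s - y₁ / 2) with h1 | h1
  swap
  · rw [ENNReal.ofReal_of_nonpos (by linarith : s - y₁ / 2 - -(s - y₁ / 2) ≤ 0), zero_mul]
    exact zero_le
  rcases le_or_gt 0 (r + y₁ / 2) with h2 | h2
  swap
  · rw [ENNReal.ofReal_of_nonpos (by linarith : z + (r + y₁ / 2) - (z - (r + y₁ / 2)) ≤ 0), mul_zero]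
    exact zero_le
  rw [← ENNReal.ofReal_mul (by linarith)]
  refine ENNReal.ofReal_le_ofReal ?_
  nlinarith [sq_nonneg ((s - y₁ / 2) - (r + y₁ / 2))]

/-- A short vector gains little over a pair and a further form confined beside it. -/
theorem gain_le_pair_forms {m : ℕ} [NeZero m] (W : Fin m → E) (hW : ∑ a, W a = 0)
    (a b : Fin m) (V : E) (q₀ : ℝ)
    (hV : ∀ x : E, ∀ s : ℝ, (∀ c, ⟪W c, x⟫ ≤ s) →
      |⟪V, x⟫ - q₀ * s| ≤ ((m : ℝ) - 2) / 2 * s + ⟪W a + W b, x⟫ / 2) (v : E)
    (hdet : (Matrix.gram ℝ ![v, W a + W b, (2 : ℝ)⁻¹ • (W a - W b), V]).det ≠ 0) :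
    gain W v ≤ (m : ℝ) ^ 2 / 2 * dustK 2 * ‖v‖ ^ 3 *
      √(Matrix.gram ℝ ![v, W a + W b]).det /
        √(Matrix.gram ℝ ![v, W a + W b, (2 : ℝ)⁻¹ • (W a - W b),
          V]).det := by
  set P := W a + W b with hP
  set g : Fin 4 → E := ![v, P, (2 : ℝ)⁻¹ • (W a - W b), V]
    with hg
  have hli : LinearIndependent ℝ g := Matrix.det_gram_ne_zero_iff_linearIndependent.1 hdet
  have hv0 : 0 < ‖v‖ := norm_pos_iff.2 (by simpa [hg] using hli.ne_zero (0 : Fin 4))
  set c := ⟪v, P⟫ / ‖v‖ ^ 2 with hc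
  set P' := P - c • v with hP'
  have hPv : ⟪v, P'⟫ = 0 := by
    rw [hP', inner_sub_right, real_inner_smul_right, real_inner_self_eq_norm_sq, hc,
      div_mul_cancel₀ _ (pow_ne_zero 2 hv0.ne'), sub_self]
  have hP0 : 0 < ‖P'‖ := by
    refine norm_pos_iff.2 fun h => ?_
    have h01 : LinearIndependent ℝ ![v, P] := by
      have := hli.comp ![(0 : Fin 4), 1] (by decide)
      have e : ![v, P] = g ∘ ![(0 : Fin 4), 1] := by
        funext i
        fin_cases i <;> simp [hg]
      rw [e]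
      exact this
    have := (LinearIndependent.pair_iff.1 h01 (-c) 1 (by rw [hP'] at h; simpa [sub_eq_neg_add] using h)).2
    exact one_ne_zero this
  have hG2 : (Matrix.gram ℝ ![v, P]).det = ‖v‖ ^ 2 * ‖P'‖ ^ 2 := by
    rw [Matrix.det_fin_two]
    simp only [Matrix.gram_apply, Matrix.cons_val_zero, Matrix.cons_val_one]
    rw [hP', ← real_inner_self_eq_norm_sq (P - c • v), inner_sub_left, inner_sub_right,
      inner_sub_right, real_inner_smul_left, real_inner_smul_left, real_inner_smul_right,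
      real_inner_smul_right, real_inner_comm v P, real_inner_self_eq_norm_sq v, hc]
    field_simp
    ring
  set q : (Fin 4 → ℝ) → ℝ := fun y => y 0 ^ 2 / ‖v‖ ^ 2 + (y 1 - c * y 0) ^ 2 / ‖P'‖ ^ 2 with hq
  have hqx : ∀ x : E, q (fun i => ⟪g i, x⟫) ≤ ‖x‖ ^ 2 := by
    intro x
    have h1 : ⟪g 1, x⟫ - c * ⟪g 0, x⟫ = ⟪P', x⟫ := by
      simp [hg, hP', inner_sub_left, real_inner_smul_left]
    have h0 : ⟪g 0, x⟫ = ⟪v, x⟫ := by simp [hg]
    simp only [hq, h1]
    rw [h0]
    set a := ⟪v, x⟫ / ‖v‖ ^ 2 with ha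
    set b := ⟪P', x⟫ / ‖P'‖ ^ 2 with hb
    have h2 := sq_nonneg ‖x - (a • v + b • P')‖
    rw [norm_sub_sq_real, norm_add_sq_real, inner_add_right, real_inner_smul_right,
      real_inner_smul_right, real_inner_smul_left, real_inner_smul_right, hPv, mul_zero, mul_zero,
      mul_zero, norm_smul, norm_smul, mul_pow, mul_pow, Real.norm_eq_abs, Real.norm_eq_abs,
      sq_abs, sq_abs, real_inner_comm v x, real_inner_comm P' x] at h2
    have e1 : a * ⟪v, x⟫ = ⟪v, x⟫ ^ 2 / ‖v‖ ^ 2 := by rw [ha]; ring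
    have e2 : b * ⟪P', x⟫ = ⟪P', x⟫ ^ 2 / ‖P'‖ ^ 2 := by rw [hb]; ring
    have e3 : a ^ 2 * ‖v‖ ^ 2 = ⟪v, x⟫ ^ 2 / ‖v‖ ^ 2 := by rw [ha]; field_simp
    have e4 : b ^ 2 * ‖P'‖ ^ 2 = ⟪P', x⟫ ^ 2 / ‖P'‖ ^ 2 := by rw [hb]; field_simp
    linarith
  set f : E → ℝ := fun x => max (⟪v, x⟫ - supInner W x) 0 with hf
  have hfm : Continuous f :=
    ((continuous_const.inner continuous_id).sub (continuous_supInner W)).max continuous_const
  set B : ℝ → Set (Fin 4 → ℝ) := fun t => {y | 0 ≤ y 0 - t ∧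
    |y 2| ≤ (y 0 - t) - y 1 / 2 ∧ |y 3 - q₀ * (y 0 - t)| ≤ ((m : ℝ) - 2) / 2 * (y 0 - t) + y 1 / 2} with hB
  have hBm : ∀ t, MeasurableSet (B t) := fun t => by
    have : B t = {y | 0 ≤ y 0 - t} ∩ ({y | |y 2| ≤ (y 0 - t) - y 1 / 2} ∩
        {y | |y 3 - q₀ * (y 0 - t)| ≤ ((m : ℝ) - 2) / 2 * (y 0 - t) + y 1 / 2}) := by ext y; simp [hB]
    rw [this]
    exact (measurableSet_le (by fun_prop) (by fun_prop)).inter
      ((measurableSet_le (by fun_prop) (by fun_prop)).inter
        (measurableSet_le (by fun_prop) (by fun_prop)))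
  have hlevel : ∀ t ∈ Ioi (0 : ℝ), stdGaussian E {x | t < f x} ≤
      ENNReal.ofReal ((√(2 * π))⁻¹ ^ 4 / √(Matrix.gram ℝ g).det) *
        ∫⁻ y in B t, ENNReal.ofReal (exp (-q y / 2)) := by
    intro t ht
    have ht : (0 : ℝ) < t := ht
    refine (measure_mono ?_).trans (measure_forms_le g hdet q (by fun_prop) hqx (hBm t))
    intro x hx
    simp only [Set.mem_ofPred_eq, hf] at hx
    have hx' : supInner W x + t < ⟪v, x⟫ := by
      rcases lt_max_iff.1 hx with h | h <;> linarith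
    have hle : ∀ a, ⟪W a, x⟫ ≤ ⟪v, x⟫ - t := fun a => by linarith [le_supInner W a x]
    have hV' := abs_le.1 (hV x (⟪v, x⟫ - t) hle)
    have hm : (0 : ℝ) < m := Nat.cast_pos.2 (Nat.pos_of_ne_zero (NeZero.ne m))
    have hs0 : 0 ≤ ⟪v, x⟫ - t := by
      refine (mul_nonneg_iff_of_pos_left hm).1 ?_
      have h := Finset.sum_le_card_nsmul Finset.univ (fun c => ⟪W c, x⟫) _ fun c _ => hle c
      rwa [← sum_inner, hW, inner_zero_left, Finset.card_univ, Fintype.card_fin, nsmul_eq_mul] at h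
    simp only [hB, Set.mem_preimage, Set.mem_ofPred_eq, hg, hP, Matrix.cons_val_zero,
      Matrix.cons_val_one, Matrix.cons_val_two, Matrix.cons_val_three, Matrix.tail_cons,
      Matrix.head_cons, inner_add_left, inner_sub_left, real_inner_smul_left, abs_le]
    refine ⟨?_, ⟨?_, ?_⟩, ⟨?_, ?_⟩⟩ <;>
      linarith [hle a, hle b, (inner_add_left (W a) (W b) x : ⟪W a + W b, x⟫ = _)]
  have hinner : ∀ t, ∫⁻ y in B t, ENNReal.ofReal (exp (-q y / 2)) ≤
      ∫⁻ s in Ioi t, ENNReal.ofReal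
        (√(2 * π) * ‖P'‖ * exp (-s ^ 2 / (2 * ‖v‖ ^ 2)) * ((m : ℝ) ^ 2 / 4 * (s - t) ^ 2)) := by
    intro t
    have e1 := volume_preserving_piFinSuccAbove (fun _ : Fin 4 => ℝ) 0
    have e2 := volume_preserving_piFinSuccAbove (fun _ : Fin 3 => ℝ) 0
    have e3 := volume_preserving_finTwoArrow ℝ
    set Φ : (Fin 4 → ℝ) → ℝ × ℝ × (ℝ × ℝ) := fun y => (y 0, y 1, (y 2, y 3)) with hΦ
    have hmp : MeasurePreserving Φ volume volume := by
      have h := ((MeasurePreserving.id (volume : Measure ℝ)).prod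
        (((MeasurePreserving.id (volume : Measure ℝ)).prod e3).comp e2)).comp e1
      exact h
    set C : Set (ℝ × ℝ × (ℝ × ℝ)) := {p | 0 ≤ p.1 - t ∧
      |p.2.2.1| ≤ (p.1 - t) - p.2.1 / 2 ∧ |p.2.2.2 - q₀ * (p.1 - t)| ≤ ((m : ℝ) - 2) / 2 * (p.1 - t) + p.2.1 / 2} with hC
    have hCm : MeasurableSet C := by
      have : C = {p | 0 ≤ p.1 - t} ∩ ({p | |p.2.2.1| ≤ (p.1 - t) - p.2.1 / 2} ∩
          {p | |p.2.2.2 - q₀ * (p.1 - t)| ≤ ((m : ℝ) - 2) / 2 * (p.1 - t) + p.2.1 / 2}) := by ext p; simp [hC]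
      rw [this]
      exact (measurableSet_le (by fun_prop) (by fun_prop)).inter
        ((measurableSet_le (by fun_prop) (by fun_prop)).inter
          (measurableSet_le (by fun_prop) (by fun_prop)))
    set h : ℝ × ℝ → ℝ≥0∞ := fun p => ENNReal.ofReal
      (exp (-(p.1 ^ 2 / ‖v‖ ^ 2 + (p.2 - c * p.1) ^ 2 / ‖P'‖ ^ 2) / 2)) with hh
    have hhm : Measurable fun p : ℝ × ℝ × (ℝ × ℝ) => h (p.1, p.2.1) := by
      simp only [hh]; fun_prop
    calc ∫⁻ y in B t, ENNReal.ofReal (exp (-q y / 2))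
        = ∫⁻ p in C, h (p.1, p.2.1) := by
          rw [← hmp.setLIntegral_comp_preimage hCm hhm]
          rfl
      _ = ∫⁻ a, ∫⁻ b, ∫⁻ u : ℝ × ℝ, C.indicator (fun p => h (p.1, p.2.1)) (a, b, u) := by
          rw [← lintegral_indicator hCm, Measure.volume_eq_prod,
            lintegral_prod _ (hhm.indicator hCm).aemeasurable]
          refine lintegral_congr fun a => ?_
          have hm : Measurable fun y : ℝ × ℝ × ℝ => C.indicator (fun p => h (p.1, p.2.1)) (a, y) :=
            (hhm.indicator hCm).comp measurable_prodMk_left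
          rw [Measure.volume_eq_prod, lintegral_prod _ hm.aemeasurable]
      _ ≤ ∫⁻ a, (Ioi t).indicator (fun a => ∫⁻ b, h (a, b) * ENNReal.ofReal ((m : ℝ) ^ 2 / 4 * (a - t) ^ 2)) a := by
          refine lintegral_mono_ae ?_
          have hne : ∀ᵐ s : ℝ, s ≠ t := by simp [ae_iff]
          filter_upwards [hne] with a ha
          rcases lt_or_gt_of_ne ha with h' | h'
          · refine le_of_eq_of_le ?_ zero_le
            refine ((lintegral_congr fun b => (lintegral_congr fun u => ?_).trans lintegral_zero).trans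
              lintegral_zero).symm ▸ rfl
            exact Set.indicator_of_notMem (fun hu => by linarith [hu.1]) _
          rw [Set.indicator_of_mem (show a ∈ Ioi t from h')]
          refine lintegral_mono fun b => ?_
          calc ∫⁻ u : ℝ × ℝ, C.indicator (fun p => h (p.1, p.2.1)) (a, b, u)
              ≤ ∫⁻ u : ℝ × ℝ, ({u : ℝ × ℝ | |u.1| ≤ (a - t) - b / 2 ∧
                  |u.2 - q₀ * (a - t)| ≤ ((m : ℝ) - 2) / 2 * (a - t) + b / 2}).indicator (fun _ => h (a, b)) u := by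
                refine le_of_eq (lintegral_congr fun u => ?_)
                simp [Set.indicator_apply, hC, h'.le]
            _ ≤ _ := by
                refine (lintegral_indicator_const_le _ _).trans ?_
                refine mul_le_mul' le_rfl ?_
                refine (volume_rectangle_le _ _ _ b).trans (le_of_eq ?_)
                congr 1
                ring
      _ = _ := by
          rw [lintegral_indicator measurableSet_Ioi]
          refine setLIntegral_congr_fun measurableSet_Ioi fun a _ => ?_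
          rw [lintegral_mul_const' _ _ ENNReal.ofReal_ne_top]
          have hb : ∫⁻ b, h (a, b) = ENNReal.ofReal
              (√(2 * π) * ‖P'‖ * exp (-a ^ 2 / (2 * ‖v‖ ^ 2))) := by
            have hsplit : ∀ b, h (a, b) = ENNReal.ofReal (exp (-a ^ 2 / (2 * ‖v‖ ^ 2))) *
                ENNReal.ofReal (exp (-(2 * ‖P'‖ ^ 2)⁻¹ * (b - c * a) ^ 2)) := fun b => by
              rw [← ENNReal.ofReal_mul (exp_nonneg _), ← exp_add]
              simp only [hh]
              congr 2
              ring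
            simp only [hsplit]
            rw [lintegral_const_mul' _ _ ENNReal.ofReal_ne_top,
              lintegral_sub_right_eq_self (fun b => ENNReal.ofReal
                (exp (-(2 * ‖P'‖ ^ 2)⁻¹ * b ^ 2))) (c * a),
              ← ofReal_integral_eq_lintegral_ofReal (integrable_exp_neg_mul_sq (by positivity))
                (ae_of_all _ fun _ => exp_nonneg _), integral_gaussian,
              ← ENNReal.ofReal_mul (exp_nonneg _)]
            congr 1
            rw [div_inv_eq_mul, show π * (2 * ‖P'‖ ^ 2) = 2 * π * ‖P'‖ ^ 2 by ring,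
              sqrt_mul (by positivity), sqrt_sq hP0.le]
            ring
          rw [hb, ← ENNReal.ofReal_mul (by positivity)]
  rw [gain, integral_eq_lintegral_of_nonneg_ae (f := f) (ae_of_all _ fun x => le_max_right _ _)
    hfm.aestronglyMeasurable]
  refine ENNReal.toReal_le_of_le_ofReal (div_nonneg (mul_nonneg (mul_nonneg (by
    rw [dustK_two]; positivity) (by positivity)) (sqrt_nonneg _)) (sqrt_nonneg _)) ?_
  rw [lintegral_eq_lintegral_meas_lt _ (f := f) (ae_of_all _ fun x => le_max_right _ _)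
    hfm.aemeasurable]
  refine (setLIntegral_mono' measurableSet_Ioi fun t ht =>
    (hlevel t ht).trans (mul_le_mul' le_rfl (hinner t))).trans ?_
  rw [lintegral_const_mul' _ _ ENNReal.ofReal_ne_top]
  -- swap and integrate
  have hswap : ∫⁻ t in Ioi (0 : ℝ), ∫⁻ s in Ioi t, ENNReal.ofReal
        (√(2 * π) * ‖P'‖ * exp (-s ^ 2 / (2 * ‖v‖ ^ 2)) * ((m : ℝ) ^ 2 / 4 * (s - t) ^ 2)) ≤
      ENNReal.ofReal (√(2 * π) * ‖P'‖ * ((m : ℝ) ^ 2 / 12) * (2 * ‖v‖ ^ 4)) := by
    have hin : ∀ t : ℝ, ∫⁻ s in Ioi t, ENNReal.ofReal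
          (√(2 * π) * ‖P'‖ * exp (-s ^ 2 / (2 * ‖v‖ ^ 2)) * ((m : ℝ) ^ 2 / 4 * (s - t) ^ 2)) =
        ∫⁻ s, (Ioi t).indicator (fun s => ENNReal.ofReal
          (√(2 * π) * ‖P'‖ * exp (-s ^ 2 / (2 * ‖v‖ ^ 2)) * ((m : ℝ) ^ 2 / 4 * (s - t) ^ 2))) s :=
      fun t => (lintegral_indicator measurableSet_Ioi _).symm
    simp only [hin]
    rw [lintegral_lintegral_swap]
    swap
    · refine Measurable.aemeasurable ?_
      have hT : MeasurableSet {p : ℝ × ℝ | p.1 < p.2} :=
        measurableSet_lt measurable_fst measurable_snd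
      refine Eq.mpr (congrArg Measurable (funext fun p => ?_))
        (Measurable.indicator (by fun_prop : Measurable fun p : ℝ × ℝ => ENNReal.ofReal
          (√(2 * π) * ‖P'‖ * exp (-p.2 ^ 2 / (2 * ‖v‖ ^ 2)) * ((m : ℝ) ^ 2 / 4 * (p.2 - p.1) ^ 2))) hT)
      by_cases h2 : p.1 < p.2 <;> simp [Function.uncurry, h2]
    refine (lintegral_mono (g := (Ioi (0 : ℝ)).indicator fun s => ENNReal.ofReal
      (√(2 * π) * ‖P'‖ * exp (-s ^ 2 / (2 * ‖v‖ ^ 2)) * ((m : ℝ) ^ 2 / 4 * (s ^ 3 / 3)))) fun s => ?_).trans ?_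
    · by_cases hs : 0 < s
      · rw [Set.indicator_of_mem (show s ∈ Ioi (0 : ℝ) from hs)]
        calc _ = ∫⁻ t in Ioo (0 : ℝ) s, ENNReal.ofReal
              (√(2 * π) * ‖P'‖ * exp (-s ^ 2 / (2 * ‖v‖ ^ 2)) * ((m : ℝ) ^ 2 / 4 * (s - t) ^ 2)) := by
              rw [← lintegral_indicator measurableSet_Ioi, ← lintegral_indicator measurableSet_Ioo]
              refine lintegral_congr fun t => ?_
              by_cases h1 : 0 < t <;> by_cases h2 : t < s <;>
                simp [Set.indicator_apply, h1, h2]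
          _ ≤ _ := by
              rw [← ofReal_integral_eq_lintegral_ofReal
                ((Continuous.integrableOn_Icc (by fun_prop)).mono_set Set.Ioo_subset_Icc_self)
                (ae_of_all _ fun t => by positivity)]
              refine ENNReal.ofReal_le_ofReal (le_of_eq ?_)
              rw [← integral_Ioc_eq_integral_Ioo, ← intervalIntegral.integral_of_le hs.le,
                intervalIntegral.integral_const_mul, intervalIntegral.integral_const_mul]
              congr 2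
              rw [intervalIntegral.integral_eq_sub_of_hasDerivAt
                (f := fun t => -(s - t) ^ 3 / 3) (fun t _ => ?_)
                ((by fun_prop : Continuous _).intervalIntegrable _ _)]
              · simp; ring
              · refine ((((hasDerivAt_id t).const_sub s).pow 3).neg.div_const 3).congr_deriv ?_
                simp
      · rw [Set.indicator_of_notMem (show s ∉ Ioi (0 : ℝ) from hs)]
        refine le_of_eq ((setLIntegral_congr_fun measurableSet_Ioi fun t ht => ?_).trans lintegral_zero)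
        rw [Set.indicator_of_notMem (show s ∉ Ioi t from fun h => hs ((show (0 : ℝ) < t from ht).trans h))]
    rw [lintegral_indicator measurableSet_Ioi]
    have hv4 : ∫ s in Ioi (0 : ℝ), s ^ 3 * exp (-s ^ 2 / (2 * ‖v‖ ^ 2)) = 2 * ‖v‖ ^ 4 := by
      have h2 : ∫ y in Ioi (0 : ℝ), y ^ 3 * exp (-y ^ 2 / 2) = 2 := by
        rw [integral_eq_lintegral_of_nonneg_ae
          ((ae_restrict_mem measurableSet_Ioi).mono fun y hy =>
            mul_nonneg (pow_nonneg (le_of_lt hy) _) (exp_nonneg _)) (by fun_prop),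
          lintegral_cube_exp, ENNReal.toReal_ofReal zero_le_two]
      have hsc := integral_comp_mul_left_Ioi (fun y : ℝ => y ^ 3 * exp (-y ^ 2 / 2)) 0
        (inv_pos.2 hv0)
      rw [mul_zero, inv_inv, smul_eq_mul, h2] at hsc
      calc ∫ s in Ioi (0 : ℝ), s ^ 3 * exp (-s ^ 2 / (2 * ‖v‖ ^ 2))
          = ∫ s in Ioi (0 : ℝ), ‖v‖ ^ 3 * ((‖v‖⁻¹ * s) ^ 3 * exp (-(‖v‖⁻¹ * s) ^ 2 / 2)) := by
            refine setIntegral_congr_fun measurableSet_Ioi fun s _ => ?_
            rw [show -(‖v‖⁻¹ * s) ^ 2 / 2 = -s ^ 2 / (2 * ‖v‖ ^ 2) by ring, mul_pow, inv_pow]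
            field_simp
        _ = _ := by rw [integral_const_mul, hsc]; ring
    have hi : IntegrableOn (fun s : ℝ => s ^ 3 * exp (-s ^ 2 / (2 * ‖v‖ ^ 2))) (Ioi 0) := by
      by_contra h
      rw [integral_undef h] at hv4
      linarith [pow_pos hv0 4]
    refine le_of_eq ?_
    have he : (fun s : ℝ => √(2 * π) * ‖P'‖ * exp (-s ^ 2 / (2 * ‖v‖ ^ 2)) * ((m : ℝ) ^ 2 / 4 * (s ^ 3 / 3))) =
        fun s : ℝ => √(2 * π) * ‖P'‖ * ((m : ℝ) ^ 2 / 12) * (s ^ 3 * exp (-s ^ 2 / (2 * ‖v‖ ^ 2))) := by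
      funext s; ring
    simp only [funext_iff] at he
    simp only [he]
    rw [← ofReal_integral_eq_lintegral_ofReal (hi.const_mul _)
      ((ae_restrict_mem measurableSet_Ioi).mono fun s hs => mul_nonneg (by positivity)
        (mul_nonneg (pow_nonneg (le_of_lt hs) _) (exp_nonneg _))), integral_const_mul, hv4]
  refine (mul_le_mul' le_rfl hswap).trans_eq ?_
  rw [← ENNReal.ofReal_mul (div_nonneg (by positivity) (sqrt_nonneg _)), hG2, dustK_two,
    sqrt_mul (sq_nonneg _), sqrt_sq hv0.le, sqrt_sq hP0.le]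
  congr 1
  have hp : √(2 * π) ≠ 0 := (sqrt_pos.2 (by positivity)).ne'
  field_simp
  ring

/-- A short vector gains little over two pairs among any number of centred vectors. -/
theorem gain_le_pair_many {m : ℕ} [NeZero m] (W : Fin m → E) (hW : ∑ a, W a = 0)
    (σ : Fin 4 ↪ Fin m) (v : E)
    (hdet : (Matrix.gram ℝ ![v, W (σ 0) + W (σ 1), (2 : ℝ)⁻¹ • (W (σ 0) - W (σ 1)),
      (2 : ℝ)⁻¹ • (W (σ 2) - W (σ 3))]).det ≠ 0) :
    gain W v ≤ (m : ℝ) ^ 2 / 2 * dustK 2 * ‖v‖ ^ 3 *
      √(Matrix.gram ℝ ![v, W (σ 0) + W (σ 1)]).det /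
        √(Matrix.gram ℝ ![v, W (σ 0) + W (σ 1), (2 : ℝ)⁻¹ • (W (σ 0) - W (σ 1)),
          (2 : ℝ)⁻¹ • (W (σ 2) - W (σ 3))]).det := by
  refine gain_le_pair_forms W hW (σ 0) (σ 1) _ 0 (fun x s hle => ?_) v hdet
  have h := Finset.sum_add_sum_compl (Finset.univ.map σ) fun a => ⟪W a, x⟫
  rw [← sum_inner Finset.univ W, hW, inner_zero_left, Finset.sum_map, Fin.sum_univ_four] at h
  have h2 := Finset.sum_le_card_nsmul (Finset.univ.map σ)ᶜ (fun a => ⟪W a, x⟫) _ fun a _ => hle a
  have hcard : 4 ≤ m := by simpa using Fintype.card_le_of_embedding σ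
  rw [Finset.card_compl, Finset.card_map, Finset.card_univ, Fintype.card_fin,
    Fintype.card_fin, nsmul_eq_mul, Nat.cast_sub hcard] at h2
  push_cast at h2
  simp only [inner_sub_left, inner_add_left, real_inner_smul_left, abs_le]
  constructor <;> linarith [hle (σ 2), hle (σ 3)]

/-- A short vector gains little over two pairs of centred vectors. -/
theorem gain_le_pair (W : Fin 4 → E) (hW : ∑ a, W a = 0) (σ : Equiv.Perm (Fin 4)) (v : E)
    (hdet : (Matrix.gram ℝ ![v, W (σ 0) + W (σ 1), (2 : ℝ)⁻¹ • (W (σ 0) - W (σ 1)),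
      (2 : ℝ)⁻¹ • (W (σ 2) - W (σ 3))]).det ≠ 0) :
    gain W v ≤ 8 * dustK 2 * ‖v‖ ^ 3 *
      √(Matrix.gram ℝ ![v, W (σ 0) + W (σ 1)]).det /
        √(Matrix.gram ℝ ![v, W (σ 0) + W (σ 1), (2 : ℝ)⁻¹ • (W (σ 0) - W (σ 1)),
          (2 : ℝ)⁻¹ • (W (σ 2) - W (σ 3))]).det :=
  (gain_le_pair_many W hW σ.toEmbedding v hdet).trans_eq
    (by norm_num [Equiv.coe_toEmbedding])

end Vale.Agent.P226
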