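import Vale.Agent.P226.Extremal

/-!
# Distinguished cells against the rest

For `m` cells with centred moments `W`, the rest of a partition is controlled by the gain
`E (⟪v, X⟫ - max W)⁺`. With a quadratic bound on the gain this bounds the energy outside those
cells, so a propeller bound follows from a selection of `m` cells for obtuse configurations.
-/

namespace Vale.Agent.P226

open MeasureTheory ProbabilityTheory Real Set Finset
open scoped RealInnerProductSpace

variable {E : Type*} [NormedAddCommGroup E] [InnerProductSpace ℝ E] [FiniteDimensional ℝ E]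
  [MeasurableSpace E] [BorelSpace E] {k m : ℕ} [NeZero m]

/-- The gain of one more vector over finitely many. -/
noncomputable def gain (W : Fin m → E) (v : E) : ℝ :=
  ∫ x, max (⟪v, x⟫ - supInner W x) 0 ∂stdGaussian E

/-- The expected largest of the forms. -/
noncomputable def meanMax (W : Fin m → E) : ℝ := ∫ x, supInner W x ∂stdGaussian E

/-- The size of finitely many vectors. -/
noncomputable def vsize (W : Fin m → E) : ℝ := √(∑ a, ‖W a‖ ^ 2)

/-- The moments of chosen cells, centred. -/
noncomputable def centred (z : Fin k → E) (J : Fin m ↪ Fin k) (a : Fin m) : E :=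
  z (J a) - (m : ℝ)⁻¹ • ∑ b, z (J b)

/-- The energy outside the chosen cells. -/
noncomputable def restSq (z : Fin k → E) (J : Fin m ↪ Fin k) : ℝ :=
  ∑ i ∈ (Finset.univ.map J)ᶜ, ‖z i‖ ^ 2

omit [FiniteDimensional ℝ E] [MeasurableSpace E] [BorelSpace E] in
lemma sum_centred (z : Fin k → E) (J : Fin m ↪ Fin k) : ∑ a, centred z J a = 0 := by
  simp only [centred, Finset.sum_sub_distrib, Finset.sum_const, Finset.card_univ, Fintype.card_fin]
  rw [← Nat.cast_smul_eq_nsmul ℝ, smul_smul, mul_inv_cancel₀ (Nat.cast_ne_zero.2 (NeZero.ne m)),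
    one_smul, sub_self]

omit [FiniteDimensional ℝ E] [MeasurableSpace E] [BorelSpace E] in
/-- The energy splits into the centred part, the common part and the rest. -/
lemma sum_sq_eq (z : Fin k → E) (J : Fin m ↪ Fin k) :
    ∑ i, ‖z i‖ ^ 2 =
      ∑ a, ‖centred z J a‖ ^ 2 + ‖∑ b, z (J b)‖ ^ 2 / m + restSq z J := by
  rw [restSq, ← Finset.sum_add_sum_compl (Finset.univ.map J), Finset.sum_map]
  congr 1
  set e := ∑ b, z (J b) with he
  have h : ∀ a, ‖z (J a)‖ ^ 2 =
      ‖centred z J a‖ ^ 2 + 2 * ⟪centred z J a, (m : ℝ)⁻¹ • e⟫ + ‖(m : ℝ)⁻¹ • e‖ ^ 2 := fun a => by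
    rw [← norm_add_sq_real, centred, ← he, sub_add_cancel]
  rw [Finset.sum_congr rfl fun a _ => h a, Finset.sum_add_distrib, Finset.sum_add_distrib,
    ← Finset.mul_sum, ← sum_inner, sum_centred, inner_zero_left, mul_zero, add_zero,
    Finset.sum_const, Finset.card_univ, Fintype.card_fin, nsmul_eq_mul, norm_smul, mul_pow,
    Real.norm_eq_abs, sq_abs]
  have : (m : ℝ) ≠ 0 := Nat.cast_ne_zero.2 (NeZero.ne m)
  field_simp

/-- Centred cells and scaled moments of the other cells against one Gaussian maximum. -/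
lemma cells_le {A : Fin k → Set E} (hA : IsPart A) (J : Fin m ↪ Fin k) (t : ℝ) :
    ∑ a, ‖centred (fun i => mom (A i)) J a‖ ^ 2 + t * restSq (fun i => mom (A i)) J ≤
      meanMax (centred (fun i => mom (A i)) J) +
        ∑ i ∈ (Finset.univ.map J)ᶜ, gain (centred (fun i => mom (A i)) J) (t • mom (A i)) := by
  have : NeZero k := ⟨fun h => (h ▸ J 0 : Fin 0).elim0⟩
  set z := fun i => mom (A i) with hz
  set W := centred z J with hW
  set T := (Finset.univ.map J) with hT
  have hs := integrable_supInner W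
  have hg : ∀ v : E, Integrable (fun x => max (⟪v, x⟫ - supInner W x) 0) (stdGaussian E) :=
    fun v => ((integrable_inner v).sub hs).pos_part
  have h1 : ∑ a, ‖W a‖ ^ 2 = ∑ a, ∫ x in A (J a), ⟪W a, x⟫ ∂stdGaussian E := by
    have h : ∀ a, ∫ x in A (J a), ⟪W a, x⟫ ∂stdGaussian E =
        ‖W a‖ ^ 2 + ⟪W a, (m : ℝ)⁻¹ • ∑ b, z (J b)⟫ := fun a => by
      rw [inner_mom, ← real_inner_self_eq_norm_sq, ← inner_add_right]
      congr 1
      simp only [hW, centred, sub_add_cancel]
      rfl
    rw [Finset.sum_congr rfl fun a _ => h a, Finset.sum_add_distrib, ← sum_inner, hW, sum_centred,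
      inner_zero_left, add_zero]
  have h2 : t * restSq z J = ∑ i ∈ Tᶜ, ∫ x in A i, ⟪t • z i, x⟫ ∂stdGaussian E := by
    rw [restSq, Finset.mul_sum]
    refine Finset.sum_congr rfl fun i _ => ?_
    rw [inner_mom, real_inner_smul_left, real_inner_self_eq_norm_sq]
  have h3 : ∑ a, ∫ x in A (J a), ⟪W a, x⟫ ∂stdGaussian E ≤
      ∑ i ∈ T, ∫ x in A i, supInner W x ∂stdGaussian E := by
    rw [hT, Finset.sum_map]
    exact Finset.sum_le_sum fun a _ => setIntegral_mono_on (integrable_inner _).integrableOn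
      hs.integrableOn (hA.meas _) fun x _ => le_supInner W a x
  have h4 : ∑ i ∈ Tᶜ, ∫ x in A i, ⟪t • z i, x⟫ ∂stdGaussian E ≤
      ∑ i ∈ Tᶜ, (∫ x in A i, supInner W x ∂stdGaussian E + gain W (t • z i)) := by
    refine Finset.sum_le_sum fun i _ => ?_
    refine le_trans (setIntegral_mono_on (integrable_inner _).integrableOn
      (hs.integrableOn.add (hg (t • z i)).integrableOn) (hA.meas i) fun x _ => ?_) ?_
    · have := le_max_left (⟪t • z i, x⟫ - supInner W x) 0
      simp only [Pi.add_apply]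
      linarith
    · simp only [Pi.add_apply]
      rw [integral_add hs.integrableOn (hg (t • z i)).integrableOn, gain]
      exact add_le_add le_rfl
        (setIntegral_le_integral (hg _) (ae_of_all _ fun x => le_max_right _ _))
  have h5 : ∑ i ∈ T, ∫ x in A i, supInner W x ∂stdGaussian E +
      ∑ i ∈ Tᶜ, ∫ x in A i, supInner W x ∂stdGaussian E = meanMax W := by
    rw [Finset.sum_add_sum_compl, hA.integral_eq hs, meanMax]
  rw [Finset.sum_add_distrib] at h4
  rw [h1, h2]
  linarith

/-- A quadratic bound on the gain bounds the energy outside the cells. -/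
lemma rest_le {A : Fin k → Set E} (hA : IsPart A) (J : Fin m ↪ Fin k) {a : ℝ} (ha : 0 < a)
    (hgain : ∀ v : E, vsize (centred (fun i => mom (A i)) J) *
      gain (centred (fun i => mom (A i)) J) v ≤ a * ‖v‖ ^ 2)
    (hx : 0 < vsize (centred (fun i => mom (A i)) J)) :
    vsize (centred (fun i => mom (A i)) J) * restSq (fun i => mom (A i)) J ≤
      4 * a * (meanMax (centred (fun i => mom (A i)) J) -
        vsize (centred (fun i => mom (A i)) J) ^ 2) := by
  set z := fun i => mom (A i) with hz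
  set W := centred z J with hW
  set x := vsize W with hxdef
  have hS : ∑ a, ‖W a‖ ^ 2 = x ^ 2 :=
    (Real.sq_sqrt (Finset.sum_nonneg fun _ _ => sq_nonneg _)).symm
  have h := cells_le hA J (x / (2 * a))
  rw [← hz, ← hW, hS] at h
  have hg : ∑ i ∈ (Finset.univ.map J)ᶜ, gain W ((x / (2 * a)) • mom (A i)) ≤
      x / (4 * a) * restSq z J := by
    rw [restSq, Finset.mul_sum]
    refine Finset.sum_le_sum fun i _ => le_of_mul_le_mul_left ((hgain _).trans_eq ?_) hx
    rw [norm_smul, mul_pow, Real.norm_eq_abs, sq_abs]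
    simp only [hz]
    field_simp
    ring
  have h' : x / (4 * a) * restSq z J ≤ meanMax W - x ^ 2 := by
    have e : x / (2 * a) * restSq z J = 2 * (x / (4 * a) * restSq z J) := by ring
    linarith
  rw [div_mul_eq_mul_div, div_le_iff₀ (by positivity)] at h'
  linarith

/-- At an extremal family the moments are pairwise obtuse. -/
lemma inner_nonpos_of_extremal [NeZero k] (w : Fin k → E) (h0 : ∀ i, w i = mom (cell w i))
    (hmax : ∀ A : Fin k → Set E, IsPart A → val A ≤ ∑ i, ‖w i‖ ^ 2) {i j : Fin k} (hij : i ≠ j) :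
    ⟪w i, w j⟫ ≤ 0 := by
  classical
  have h := merge_le w h0 hmax {i, j}
  rw [Finset.sum_pair hij, Finset.sum_pair hij, norm_add_sq_real] at h
  linarith

omit [FiniteDimensional ℝ E] [MeasurableSpace E] [BorelSpace E] in
/-- For obtuse moments the common part of the cells is at most the energy of the rest. -/
lemma sq_common_le (z : Fin k → E) (hsum : ∑ i, z i = 0)
    (hobt : ∀ i j, i ≠ j → ⟪z i, z j⟫ ≤ 0) (J : Fin m ↪ Fin k) :
    ‖∑ b, z (J b)‖ ^ 2 ≤ restSq z J := by
  rw [← Finset.sum_add_sum_compl (Finset.univ.map J), Finset.sum_map] at hsum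
  rw [eq_neg_of_add_eq_zero_left hsum, norm_neg, restSq, ← real_inner_self_eq_norm_sq, sum_inner]
  refine Finset.sum_le_sum fun i hi => ?_
  rw [inner_sum, ← Finset.add_sum_erase _ _ hi, real_inner_self_eq_norm_sq]
  exact add_le_of_nonpos_right
    (Finset.sum_nonpos fun j hj => hobt i j (Finset.ne_of_mem_erase hj).symm)

/-- The propeller bound from a gain bound for centred vectors and a selection of
moments in every obtuse self-consistent configuration. -/
theorem propeller_of_selection (α : ℝ) (Adm : (Fin m → E) → Prop)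
    (hAdm : ∀ W, Adm W → 0 < vsize W)
    (hgain : ∀ W : Fin m → E, ∑ a, W a = 0 → Adm W →
      ∃ a : ℝ, 0 < a ∧ (∀ v : E, vsize W * gain W v ≤ a * ‖v‖ ^ 2) ∧
        a * (meanMax W - vsize W ^ 2) ≤ α * vsize W * (√(9 / (8 * π)) - vsize W))
    (hsel : ∀ (n : ℕ) [NeZero n] (w : Fin n → E), (∀ i, w i = mom (cell w i)) →
      ∑ i, w i = 0 → (∀ i j, i ≠ j → ⟪w i, w j⟫ ≤ 0) → 9 / (8 * π) < ∑ i, ‖w i‖ ^ 2 →
      ∃ J : Fin m ↪ Fin n, Adm (centred w J) ∧
        4 * α * (√(9 / (8 * π)) - vsize (centred w J)) < restSq w J)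
    {A : Fin k → Set E} (hA : IsPart A) : val A ≤ 9 / (8 * π) := by
  by_contra hlt
  rw [not_le] at hlt
  rcases Nat.eq_zero_or_pos k with hk | hk
  · subst hk
    rw [val, Finset.univ_eq_empty, Finset.sum_empty] at hlt
    linarith [show (0 : ℝ) ≤ 9 / (8 * π) by positivity]
  have : NeZero k := ⟨hk.ne'⟩
  obtain ⟨w, h0, hmax⟩ := exists_extremal (E := E) (k := k)
  have hsum : ∑ i, w i = 0 := by
    simp only [h0]
    exact (cell_isPart w).sum_mom
  obtain ⟨J, hJ, hJQ⟩ := hsel k w h0 hsum (fun i j hij => inner_nonpos_of_extremal w h0 hmax hij)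
    (hlt.trans_le (hmax A hA))
  have hwz : (fun i => mom (cell w i)) = w := funext fun i => (h0 i).symm
  obtain ⟨a, ha, hg, hga⟩ := hgain _ (sum_centred w J) hJ
  have h := rest_le (cell_isPart w) J ha (by rw [hwz]; exact hg) (by rw [hwz]; exact hAdm _ hJ)
  rw [hwz] at h
  have hx := hAdm _ hJ
  have h2 := mul_lt_mul_of_pos_left hJQ hx
  linarith

/-- The propeller bound from a selection of moments for which the exact gain inequality
fails, keeping the whole profile of the gain. -/
theorem propeller_of_profile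
    (hsel : ∀ (n : ℕ) [NeZero n] (w : Fin n → E), (∀ i, w i = mom (cell w i)) →
      ∑ i, w i = 0 → (∀ i j, i ≠ j → ⟪w i, w j⟫ ≤ 0) → 9 / (8 * π) < ∑ i, ‖w i‖ ^ 2 →
      ∃ (J : Fin m ↪ Fin n) (t : ℝ),
        meanMax (centred w J) + ∑ i ∈ (Finset.univ.map J)ᶜ, gain (centred w J) (t • w i) <
          ∑ a, ‖centred w J a‖ ^ 2 + t * restSq w J)
    {A : Fin k → Set E} (hA : IsPart A) : val A ≤ 9 / (8 * π) := by
  by_contra hlt
  rw [not_le] at hlt
  rcases Nat.eq_zero_or_pos k with hk | hk
  · subst hk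
    rw [val, Finset.univ_eq_empty, Finset.sum_empty] at hlt
    linarith [show (0 : ℝ) ≤ 9 / (8 * π) by positivity]
  have : NeZero k := ⟨hk.ne'⟩
  obtain ⟨w, h0, hmax⟩ := exists_extremal (E := E) (k := k)
  have hsum : ∑ i, w i = 0 := by
    simp only [h0]
    exact (cell_isPart w).sum_mom
  obtain ⟨J, t, h⟩ := hsel k w h0 hsum (fun i j hij => inner_nonpos_of_extremal w h0 hmax hij)
    (hlt.trans_le (hmax A hA))
  have hwz : (fun i => mom (cell w i)) = w := funext fun i => (h0 i).symm
  have h' := cells_le (cell_isPart w) J t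
  rw [hwz] at h'
  simp only [← h0] at h'
  linarith

end Vale.Agent.P226
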