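import Vale.Agent.P226.ThreeCell

/-!
# The longest moments as the distinguished cells

The `m` longest moments exist; for obtuse moments a lower bound on their centred size gives the
inequality on the remaining energy that the reduction to a gain bound needs.
-/

namespace Vale.Agent.P226

open MeasureTheory ProbabilityTheory Real Set Finset
open scoped RealInnerProductSpace

variable {E : Type*} [NormedAddCommGroup E] [InnerProductSpace ℝ E]

/-- `J` picks vectors that are at least as long as all the others. -/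
def IsTop {k m : ℕ} (z : Fin k → E) (J : Fin m ↪ Fin k) : Prop :=
  ∀ i ∈ (Finset.univ.map J)ᶜ, ∀ a, ‖z i‖ ^ 2 ≤ ‖z (J a)‖ ^ 2

/-- Some `m` vectors are the longest. -/
lemma exists_isTop {k m : ℕ} (z : Fin k → E) (hmk : m ≤ k) :
    ∃ J : Fin m ↪ Fin k, IsTop z J := by
  have : Nonempty (Fin m ↪ Fin k) := ⟨Fin.castLEEmb hmk⟩
  obtain ⟨J, hJ⟩ := Finite.exists_max fun J : Fin m ↪ Fin k => ∑ a, ‖z (J a)‖ ^ 2
  refine ⟨J, fun i hi a => ?_⟩
  by_contra! hlt
  have hi' : ∀ b, J b ≠ i := by simpa using hi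
  refine absurd (hJ (J.trans (Equiv.swap (J a) i).toEmbedding)) (not_le.2 ?_)
  refine Finset.sum_lt_sum (fun b _ => ?_) ⟨a, Finset.mem_univ a, ?_⟩
  · rcases eq_or_ne b a with rfl | hba
    · simpa using hlt.le
    · simp [Equiv.swap_apply_of_ne_of_ne (J.injective.ne hba) (hi' b)]
  · simpa using hlt

variable {k m : ℕ} [NeZero m]

/-- The longest `m` vectors carry at least the average energy. -/
lemma IsTop.energy_ge {z : Fin k → E} {J : Fin m ↪ Fin k} (hJ : IsTop z J) :
    (m : ℝ) * ∑ i, ‖z i‖ ^ 2 ≤ (k : ℝ) * ∑ a, ‖z (J a)‖ ^ 2 := by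
  have hc : ((Finset.univ.map J)ᶜ.card : ℝ) + m = k := by
    have h := Finset.card_add_card_compl (Finset.univ.map J)
    rw [Finset.card_map, Finset.card_univ, Fintype.card_fin, Fintype.card_fin] at h
    exact_mod_cast (add_comm _ _).trans h
  have h : (m : ℝ) * ∑ i ∈ (Finset.univ.map J)ᶜ, ‖z i‖ ^ 2 ≤
      ((Finset.univ.map J)ᶜ.card : ℝ) * ∑ a, ‖z (J a)‖ ^ 2 := by
    rw [Finset.mul_sum, ← nsmul_eq_mul, ← Finset.sum_const]
    refine Finset.sum_le_sum fun i hi => ?_
    calc (m : ℝ) * ‖z i‖ ^ 2 = ∑ _a : Fin m, ‖z i‖ ^ 2 := by simp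
      _ ≤ _ := Finset.sum_le_sum fun a _ => hJ i hi a
  rw [← Finset.sum_add_sum_compl (Finset.univ.map J), Finset.sum_map, mul_add,
    ← hc, add_mul]
  linarith

lemma vsize_sq (W : Fin m → E) : vsize W ^ 2 = ∑ a, ‖W a‖ ^ 2 :=
  Real.sq_sqrt (Finset.sum_nonneg fun _ _ => sq_nonneg _)

/-- The centred size is the energy of the cells less their common part. -/
lemma vsize_centred_sq (z : Fin k → E) (J : Fin m ↪ Fin k) :
    vsize (centred z J) ^ 2 = ∑ a, ‖z (J a)‖ ^ 2 - ‖∑ b, z (J b)‖ ^ 2 / m := by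
  have h := sum_sq_eq z J
  rw [restSq, ← Finset.sum_add_sum_compl (Finset.univ.map J), Finset.sum_map] at h
  rw [vsize_sq]
  linarith

/-- If the centred size is large and the common part is at most `ρ` times the rest, then the
rest exceeds `4 α (c - x)`. -/
lemma lt_restSq (z : Fin k → E) (J : Fin m ↪ Fin k) {α ρ c : ℝ} (hα : 0 < α) (hρ : 0 ≤ ρ)
    (hcommon : ‖∑ b, z (J b)‖ ^ 2 ≤ ρ * restSq z J) (hF : c ^ 2 < ∑ i, ‖z i‖ ^ 2)
    (hx : 4 * α * (1 + ρ / m) ≤ c + vsize (centred z J)) :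
    4 * α * (c - vsize (centred z J)) < restSq z J := by
  set x := vsize (centred z J) with hxdef
  set Q := restSq z J with hQdef
  have hQ : 0 ≤ Q := Finset.sum_nonneg fun _ _ => sq_nonneg _
  have hm : (0 : ℝ) < m := Nat.cast_pos.2 (Nat.pos_of_ne_zero (NeZero.ne m))
  have hF' : c ^ 2 < x ^ 2 + (1 + ρ / m) * Q := by
    have h := sum_sq_eq z J
    rw [← vsize_sq (centred z J)] at h
    have : ‖∑ b, z (J b)‖ ^ 2 / m ≤ ρ / m * Q :=
      (div_le_div_of_nonneg_right hcommon hm.le).trans_eq (by ring)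
    linarith
  have hpos : 0 < 1 + ρ / m := by positivity
  rcases lt_trichotomy x c with h | h | h
  · refine lt_of_mul_lt_mul_left ?_ hpos.le
    have := mul_le_mul_of_nonneg_left hx (sub_nonneg.2 h.le)
    nlinarith
  · rw [h] at hF' ⊢
    have : 0 < Q := pos_of_mul_pos_right (by linarith : 0 < (1 + ρ / m) * Q) hpos.le
    simpa using this
  · nlinarith

variable [FiniteDimensional ℝ E] [MeasurableSpace E] [BorelSpace E]

/-- The propeller bound from the bound for at most `m` cells, a gain bound for `m` centred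
vectors, and the inequality on the rest for the longest `m` moments. -/
theorem propeller_of_top (α : ℝ) (Adm : (Fin m → E) → Prop)
    (hAdm : ∀ W, Adm W → 0 < vsize W)
    (hgain : ∀ W : Fin m → E, ∑ a, W a = 0 → Adm W →
      ∃ a : ℝ, 0 < a ∧ (∀ v : E, vsize W * gain W v ≤ a * ‖v‖ ^ 2) ∧
        a * (meanMax W - vsize W ^ 2) ≤ α * vsize W * (√(9 / (8 * π)) - vsize W))
    (hfew : ∀ n ≤ m, ∀ A : Fin n → Set E, IsPart A → val A ≤ 9 / (8 * π))
    (htop : ∀ (n : ℕ) [NeZero n] (w : Fin n → E), (∀ i, w i = mom (cell w i)) →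
      ∑ i, w i = 0 → (∀ i j, i ≠ j → ⟪w i, w j⟫ ≤ 0) → 9 / (8 * π) < ∑ i, ‖w i‖ ^ 2 →
      ∀ J : Fin m ↪ Fin n, IsTop w J → Adm (centred w J) ∧
        4 * α * (√(9 / (8 * π)) - vsize (centred w J)) < restSq w J)
    {A : Fin k → Set E} (hA : IsPart A) : val A ≤ 9 / (8 * π) := by
  refine propeller_of_selection α Adm hAdm hgain (fun n _ w h0 hsum hobt hF => ?_) hA
  rcases le_total n m with hn | hn
  · have h := hfew n hn (cell w) (cell_isPart w)
    simp only [val, ← h0] at h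
    linarith
  · obtain ⟨J, hJ⟩ := exists_isTop w hn
    exact ⟨J, htop n w h0 hsum hobt hF J hJ⟩

end Vale.Agent.P226
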