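import Vale.Agent.P226.PlanarGain

/-!
# A small vector gains little over a triangle

For a triangle in a plane and a vector whose planar part has barycentric coordinates `α` in it and
whose normal part has length `q`, the gain is at most `φ₀ q³ / (6π D α₀ α₁ α₂)`, `D` being twice
the area of the triangle.
-/

namespace Vale.Agent.P226

open MeasureTheory ProbabilityTheory Real Set Finset
open scoped RealInnerProductSpace NNReal ENNReal

/-- The three affine forms of a triangle in its own coordinates. -/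
noncomputable def triMax (a₀ a₁ a₂ : ℝ) (u : ℝ × ℝ) : ℝ :=
  max (max u.1 u.2) (-(a₀ * u.1 + a₁ * u.2) / a₂)

lemma volume_triMax_lt (a₀ a₁ a₂ : ℝ) (h₀ : 0 < a₀) (h₁ : 0 < a₁) (h₂ : 0 < a₂)
    (hs : a₀ + a₁ + a₂ = 1) {τ : ℝ} (hτ : 0 < τ) :
    volume {u : ℝ × ℝ | triMax a₀ a₁ a₂ u < τ} = ENNReal.ofReal (τ ^ 2 / (2 * a₀ * a₁)) := by
  set lo := -(τ * (a₁ + a₂)) / a₀ with hlo
  have hset : {u : ℝ × ℝ | triMax a₀ a₁ a₂ u < τ} =
      regionBetween (fun x => -(a₂ * τ + a₀ * x) / a₁) (fun _ => τ) (Ioo lo τ) := by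
    ext u
    simp only [triMax, regionBetween, Set.mem_ofPred_eq, max_lt_iff, Set.mem_Ioo, hlo,
      div_lt_iff₀ h₀, div_lt_iff₀ h₁, div_lt_iff₀ h₂]
    constructor
    · rintro ⟨⟨h, h'⟩, h''⟩
      exact ⟨⟨by nlinarith, h⟩, by linarith, h'⟩
    · rintro ⟨⟨h, h'⟩, h'', h3⟩
      exact ⟨⟨h', h3⟩, by linarith⟩
  have hle : lo ≤ τ := by
    rw [hlo, div_le_iff₀ h₀]; nlinarith
  rw [hset, Measure.volume_eq_prod, volume_regionBetween_eq_integral
    ((by fun_prop : Continuous fun x => -(a₂ * τ + a₀ * x) / a₁).integrableOn_Icc.mono_set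
      Set.Ioo_subset_Icc_self)
    ((continuous_const.integrableOn_Icc).mono_set Set.Ioo_subset_Icc_self) measurableSet_Ioo]
  · congr 1
    rw [← integral_Ioc_eq_integral_Ioo, ← intervalIntegral.integral_of_le hle]
    simp only [Pi.sub_apply]
    rw [intervalIntegral.integral_eq_sub_of_hasDerivAt
      (f := fun x => (τ + a₂ * τ / a₁) * x + a₀ / a₁ * (x ^ 2 / 2)) (fun x _ => ?_)
      ((by fun_prop : Continuous _).intervalIntegrable _ _)]
    · have : τ * (a₁ + a₂) = τ * (1 - a₀) := by rw [← hs]; ring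
      rw [hlo, this]
      have h3 : a₂ = 1 - a₀ - a₁ := by linarith
      rw [h3]
      field_simp
      ring
    · refine (((hasDerivAt_id x).const_mul _).add
        (((((hasDerivAt_id x).pow 2)).div_const 2).const_mul _)).congr_deriv ?_
      simp only [id]
      field_simp
      ring
  · intro x hx
    rw [div_le_iff₀ h₁]
    have := hx.1
    rw [hlo, div_lt_iff₀ h₀] at this
    nlinarith

lemma lintegral_triMax (a₀ a₁ a₂ : ℝ) (h₀ : 0 < a₀) (h₁ : 0 < a₁) (h₂ : 0 < a₂)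
    (hs : a₀ + a₁ + a₂ = 1) (s : ℝ) :
    ∫⁻ u : ℝ × ℝ, ENNReal.ofReal (max (s - triMax a₀ a₁ a₂ u) 0) =
      ENNReal.ofReal (max s 0 ^ 3 / (6 * a₀ * a₁)) := by
  have hc : Continuous (triMax a₀ a₁ a₂) := by unfold triMax; fun_prop
  rw [lintegral_eq_lintegral_meas_lt volume (f := fun u => max (s - triMax a₀ a₁ a₂ u) 0)
    (ae_of_all _ fun u => le_max_right _ _) (by fun_prop)]
  rcases le_or_gt s 0 with hs0 | hs0
  · rw [max_eq_right hs0, zero_pow (by norm_num), zero_div, ENNReal.ofReal_zero]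
    refine (setLIntegral_congr_fun measurableSet_Ioi fun t ht => ?_).trans lintegral_zero
    have : {u : ℝ × ℝ | t < max (s - triMax a₀ a₁ a₂ u) 0} = ∅ := by
      refine Set.eq_empty_of_forall_notMem fun u hu => ?_
      have ht : (0 : ℝ) < t := ht
      simp only [Set.mem_ofPred_eq] at hu
      rcases lt_max_iff.1 hu with h | h
      · have h1 : 0 ≤ triMax a₀ a₁ a₂ u := by
          by_contra! hneg
          simp only [triMax, max_lt_iff, div_lt_iff₀ h₂] at hneg
          nlinarith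
        linarith
      · linarith
    rw [this, measure_empty]
  rw [max_eq_left hs0.le]
  have hcong : ∀ t ∈ Ioi (0 : ℝ), volume {u : ℝ × ℝ | t < max (s - triMax a₀ a₁ a₂ u) 0} =
      (Ioo 0 s).indicator (fun t => ENNReal.ofReal ((s - t) ^ 2 / (2 * a₀ * a₁))) t := by
    intro t ht
    have ht : (0 : ℝ) < t := ht
    have hset : {u : ℝ × ℝ | t < max (s - triMax a₀ a₁ a₂ u) 0} =
        {u | triMax a₀ a₁ a₂ u < s - t} := by
      ext u
      simp only [Set.mem_ofPred_eq, lt_max_iff]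
      constructor
      · rintro (h | h) <;> linarith
      · exact fun h => Or.inl (by linarith)
    rw [hset]
    by_cases hts : t < s
    · rw [Set.indicator_of_mem (show t ∈ Ioo 0 s from ⟨ht, hts⟩),
        volume_triMax_lt a₀ a₁ a₂ h₀ h₁ h₂ hs (by linarith)]
    · rw [Set.indicator_of_notMem (fun h : t ∈ Ioo 0 s => hts h.2)]
      refine measure_mono_null (fun u hu => ?_) measure_empty
      simp only [Set.mem_ofPred_eq, triMax, max_lt_iff, div_lt_iff₀ h₂] at hu
      nlinarith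
  rw [setLIntegral_congr_fun measurableSet_Ioi hcong, lintegral_indicator measurableSet_Ioo,
    Measure.restrict_restrict measurableSet_Ioo, Set.inter_eq_left.2 Set.Ioo_subset_Ioi_self,
    ← ofReal_integral_eq_lintegral_ofReal]
  · congr 1
    rw [← integral_Ioc_eq_integral_Ioo, ← intervalIntegral.integral_of_le hs0.le,
      intervalIntegral.integral_eq_sub_of_hasDerivAt
        (f := fun t => -(s - t) ^ 3 / (6 * a₀ * a₁)) (fun t _ => ?_)
        ((by fun_prop : Continuous _).intervalIntegrable _ _)]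
    · simp
      ring
    · refine ((((hasDerivAt_id t).const_sub s).pow 3).neg.div_const _).congr_deriv ?_
      simp only [id]
      field_simp
      ring
  · exact (Continuous.integrableOn_Icc (by fun_prop)).mono_set Set.Ioo_subset_Icc_self
  · exact ae_of_all _ fun t => by positivity

variable {E : Type*} [NormedAddCommGroup E] [InnerProductSpace ℝ E] [FiniteDimensional ℝ E]
  [MeasurableSpace E] [BorelSpace E]

private lemma lintegral_max_cube :
    ∫⁻ y, ENNReal.ofReal (max y 0 ^ 3) ∂gaussianReal 0 1 =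
      ENNReal.ofReal (2 * (√(2 * π))⁻¹) := by
  rw [gaussianReal_of_var_ne_zero 0 one_ne_zero,
    lintegral_withDensity_eq_lintegral_mul _ (measurable_gaussianPDF 0 1) (by fun_prop)]
  have h : ∀ y : ℝ, (gaussianPDF 0 1 * fun y => ENNReal.ofReal (max y 0 ^ 3)) y =
      (Ioi (0 : ℝ)).indicator (fun y => ENNReal.ofReal (√(2 * π))⁻¹ *
        ENNReal.ofReal (y ^ 3 * exp (-y ^ 2 / 2))) y := by
    intro y
    simp only [Pi.mul_apply, gaussianPDF, gaussianPDFReal, NNReal.coe_one, mul_one, sub_zero]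
    by_cases hy : 0 < y
    · rw [Set.indicator_of_mem (show y ∈ Ioi (0 : ℝ) from hy), max_eq_left hy.le,
        ← ENNReal.ofReal_mul (by positivity), ← ENNReal.ofReal_mul (by positivity)]
      congr 1
      ring
    · rw [Set.indicator_of_notMem (show y ∉ Ioi (0 : ℝ) from hy), max_eq_right (not_lt.1 hy)]
      simp
  rw [lintegral_congr h, lintegral_indicator measurableSet_Ioi,
    lintegral_const_mul' _ _ ENNReal.ofReal_ne_top, lintegral_cube_exp,
    ← ENNReal.ofReal_mul (by positivity), mul_comm]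

/-- The gain of `p + q e₃` over a triangle, `p` having barycentric coordinates `α` in it. -/
theorem gain_le_cube (e₁ e₂ e₃ : E) (h₁ : ‖e₁‖ = 1) (h₂ : ‖e₂‖ = 1) (h₃ : ‖e₃‖ = 1)
    (h12 : ⟪e₁, e₂⟫ = 0) (h13 : ⟪e₁, e₃⟫ = 0) (h23 : ⟪e₂, e₃⟫ = 0)
    (W : Fin 3 → E) (A B α : Fin 3 → ℝ) (hW : ∀ a, W a = A a • e₁ + B a • e₂)
    (hα : ∀ a, 0 < α a) (hsum : ∑ a, α a = 1)
    (hD : (A 0 - A 2) * (B 1 - B 2) - (A 1 - A 2) * (B 0 - B 2) ≠ 0)
    {q : ℝ} (hq : 0 ≤ q) :
    gain W (∑ a, α a • W a + q • e₃) ≤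
      (√(2 * π))⁻¹ * q ^ 3 / (6 * π *
        |(A 0 - A 2) * (B 1 - B 2) - (A 1 - A 2) * (B 0 - B 2)| * (α 0 * α 1 * α 2)) := by
  set p₁ := ∑ a, α a * A a with hp₁
  set p₂ := ∑ a, α a * B a with hp₂
  set D := (A 0 - A 2) * (B 1 - B 2) - (A 1 - A 2) * (B 0 - B 2) with hDdef
  have hs : α 0 + α 1 + α 2 = 1 := by rw [← hsum, Fin.sum_univ_three]
  set L : (ℝ × ℝ) →ₗ[ℝ] ℝ × ℝ := Matrix.toLin (Module.Basis.finTwoProd ℝ)
    (Module.Basis.finTwoProd ℝ) !![A 0 - p₁, B 0 - p₂; A 1 - p₁, B 1 - p₂] with hL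
  have hdet : LinearMap.det L = α 2 * D := by
    rw [hL, LinearMap.det_toLin, Matrix.det_fin_two_of, hp₁, hp₂, hDdef, Fin.sum_univ_three,
      Fin.sum_univ_three]
    have h0 : α 0 = 1 - α 1 - α 2 := by linarith
    rw [h0]; ring
  have hLy : ∀ y : ℝ × ℝ, L y =
      ((A 0 - p₁) * y.1 + (B 0 - p₂) * y.2, (A 1 - p₁) * y.1 + (B 1 - p₂) * y.2) := fun y => by
    rw [hL, Matrix.toLin_finTwoProd_apply]
  set S := ((innerSL ℝ e₁).prod (innerSL ℝ e₂)).prod (innerSL ℝ e₃) with hS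
  set G : (ℝ × ℝ) × ℝ → ℝ :=
    fun z => max (q * z.2 - triMax (α 0) (α 1) (α 2) (L z.1)) 0 with hG
  have hTc : Continuous (triMax (α 0) (α 1) (α 2)) := by unfold triMax; fun_prop
  have hLc : Continuous L := L.continuous_of_finiteDimensional
  have hGc : Continuous G := by rw [hG]; fun_prop
  have hpoint : ∀ x : E,
      max (⟪∑ a, α a • W a + q • e₃, x⟫ - supInner W x) 0 = G (S x) := by
    intro x
    have hx : ∀ a, ⟪W a, x⟫ = A a * ⟪e₁, x⟫ + B a * ⟪e₂, x⟫ := fun a => by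
      rw [hW, inner_add_left, real_inner_smul_left, real_inner_smul_left]
    have hsup : supInner W x = max (max ⟪W 0, x⟫ ⟪W 1, x⟫) ⟪W 2, x⟫ := by
      refine le_antisymm (Finset.sup'_le _ _ fun i _ => ?_) ?_
      · fin_cases i
        · exact le_max_of_le_left (le_max_left _ _)
        · exact le_max_of_le_left (le_max_right _ _)
        · exact le_max_right _ _
      · exact max_le (max_le (Finset.le_sup' (fun i => ⟪W i, x⟫) (Finset.mem_univ 0))
          (Finset.le_sup' (fun i => ⟪W i, x⟫) (Finset.mem_univ 1)))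
          (Finset.le_sup' (fun i => ⟪W i, x⟫) (Finset.mem_univ 2))
    simp only [hG, hS, ContinuousLinearMap.prod_apply, innerSL_apply_apply, hLy, triMax,
      inner_add_left, real_inner_smul_left, hsup, hx, hp₁, hp₂, Fin.sum_univ_three]
    have h3 : -(α 0 * ((A 0 - (α 0 * A 0 + α 1 * A 1 + α 2 * A 2)) * ⟪e₁, x⟫ +
          (B 0 - (α 0 * B 0 + α 1 * B 1 + α 2 * B 2)) * ⟪e₂, x⟫) +
        α 1 * ((A 1 - (α 0 * A 0 + α 1 * A 1 + α 2 * A 2)) * ⟪e₁, x⟫ +
          (B 1 - (α 0 * B 0 + α 1 * B 1 + α 2 * B 2)) * ⟪e₂, x⟫)) / α 2 =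
        A 2 * ⟪e₁, x⟫ + B 2 * ⟪e₂, x⟫ - ((α 0 * A 0 + α 1 * A 1 + α 2 * A 2) * ⟪e₁, x⟫ +
          (α 0 * B 0 + α 1 * B 1 + α 2 * B 2) * ⟪e₂, x⟫) := by
      rw [div_eq_iff (hα 2).ne']
      have h0 : α 0 = 1 - α 1 - α 2 := by linarith
      rw [h0]; ring
    rw [h3]
    set P := (α 0 * A 0 + α 1 * A 1 + α 2 * A 2) * ⟪e₁, x⟫ +
      (α 0 * B 0 + α 1 * B 1 + α 2 * B 2) * ⟪e₂, x⟫ with hP
    rw [show (A 0 - (α 0 * A 0 + α 1 * A 1 + α 2 * A 2)) * ⟪e₁, x⟫ +
        (B 0 - (α 0 * B 0 + α 1 * B 1 + α 2 * B 2)) * ⟪e₂, x⟫ =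
        A 0 * ⟪e₁, x⟫ + B 0 * ⟪e₂, x⟫ - P by rw [hP]; ring,
      show (A 1 - (α 0 * A 0 + α 1 * A 1 + α 2 * A 2)) * ⟪e₁, x⟫ +
        (B 1 - (α 0 * B 0 + α 1 * B 1 + α 2 * B 2)) * ⟪e₂, x⟫ =
        A 1 * ⟪e₁, x⟫ + B 1 * ⟪e₂, x⟫ - P by rw [hP]; ring, max_sub_sub_right, max_sub_sub_right]
    congr 1
    rw [hP]; ring
  have hnn : 0 ≤ (√(2 * π))⁻¹ * q ^ 3 / (6 * π * |D| * (α 0 * α 1 * α 2)) :=
    div_nonneg (by positivity) (mul_nonneg (by positivity)
      (mul_nonneg (mul_nonneg (hα 0).le (hα 1).le) (hα 2).le))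
  rw [gain, integral_congr_ae (ae_of_all _ hpoint), ← integral_map S.continuous.aemeasurable
    hGc.aestronglyMeasurable, map_coords e₁ e₂ e₃ h₁ h₂ h₃ h12 h13 h23,
    integral_eq_lintegral_of_nonneg_ae (f := G) (ae_of_all _ fun z => le_max_right _ _)
      hGc.aestronglyMeasurable]
  refine ENNReal.toReal_le_of_le_ofReal hnn ?_
  have hg : (gaussianReal 0 1).prod (gaussianReal 0 1) ≤
      ENNReal.ofReal (2 * π)⁻¹ • (volume : Measure (ℝ × ℝ)) := by
    rw [gaussianReal_of_var_ne_zero 0 one_ne_zero,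
      prod_withDensity (measurable_gaussianPDF 0 1) (measurable_gaussianPDF 0 1),
      ← withDensity_const, ← Measure.volume_eq_prod]
    refine withDensity_mono (ae_of_all _ fun z => ?_)
    simp only [gaussianPDF, gaussianPDFReal, NNReal.coe_one, mul_one, sub_zero]
    rw [← ENNReal.ofReal_mul (by positivity)]
    refine ENNReal.ofReal_le_ofReal ?_
    calc (√(2 * π))⁻¹ * exp (-z.1 ^ 2 / 2) * ((√(2 * π))⁻¹ * exp (-z.2 ^ 2 / 2))
        ≤ (√(2 * π))⁻¹ * 1 * ((√(2 * π))⁻¹ * 1) := by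
          gcongr <;> exact exp_le_one_iff.2 (by nlinarith [sq_nonneg z.1, sq_nonneg z.2])
      _ = (2 * π)⁻¹ := by
          rw [mul_one, ← mul_inv, mul_self_sqrt (by positivity)]
  rw [lintegral_prod_symm _ hGc.measurable.ennreal_ofReal.aemeasurable]
  calc ∫⁻ y, ∫⁻ z, ENNReal.ofReal (G (z, y)) ∂(gaussianReal 0 1).prod (gaussianReal 0 1)
        ∂gaussianReal 0 1
      ≤ ∫⁻ y, ENNReal.ofReal ((2 * π)⁻¹ * (q ^ 3 / (6 * |D| * (α 0 * α 1 * α 2)))) *
          ENNReal.ofReal (max y 0 ^ 3) ∂gaussianReal 0 1 := by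
        refine lintegral_mono fun y => (lintegral_mono' hg le_rfl).trans_eq ?_
        rw [lintegral_smul_measure]
        simp only [hG, smul_eq_mul]
        have hmap := Measure.map_linearMap_addHaar_eq_smul_addHaar
          (volume : Measure (ℝ × ℝ)) (f := L) (by rw [hdet]; exact mul_ne_zero (hα 2).ne' hD)
        rw [← lintegral_map (f := fun u => ENNReal.ofReal
            (max (q * y - triMax (α 0) (α 1) (α 2) u) 0)) (by fun_prop) hLc.measurable, hmap,
          lintegral_smul_measure, lintegral_triMax _ _ _ (hα 0) (hα 1) (hα 2) hs, smul_eq_mul,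
          hdet, abs_inv, abs_mul, abs_of_pos (hα 2),
          ← ENNReal.ofReal_mul (inv_nonneg.2 (mul_nonneg (hα 2).le (abs_nonneg _))),
          ← ENNReal.ofReal_mul (by positivity), ← ENNReal.ofReal_mul
            (mul_nonneg (by positivity) (div_nonneg (pow_nonneg hq 3) (mul_nonneg (by positivity)
              (mul_nonneg (mul_nonneg (hα 0).le (hα 1).le) (hα 2).le))))]
        congr 1
        rw [show max (q * y) 0 = q * max y 0 by rw [mul_max_of_nonneg _ _ hq, mul_zero]]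
        have := (hα 0).ne'; have := (hα 1).ne'; have := (hα 2).ne'
        have : |D| ≠ 0 := abs_ne_zero.2 hD
        field_simp
    _ = _ := by
        rw [lintegral_const_mul' _ _ ENNReal.ofReal_ne_top, lintegral_max_cube,
          ← ENNReal.ofReal_mul' (by positivity)]
        congr 1
        ring

end Vale.Agent.P226
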